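import Crest.Agent.R187.SN.TD.WO7_Mg
import Crest.Agent.R187.SN.TD.FO6
import Crest.Agent.R187.SN.TD.C_0
import Crest.Agent.R187.SN.TD.C_1
import Crest.Agent.R187.SN.TD.C_2
import Crest.Agent.R187.SN.TD.C_3
import Crest.Agent.R187.SN.TD.C_4

/-!
# Row 187, PLAN S, generated certificate data (mod 127): rank bounds, glue, part 0

Written by a C++ program (helper824).  The tables are only data: every property is checked by
the kernel.
-/

set_option autoImplicit false
set_option maxRecDepth 100000
set_option Elab.async false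

namespace Crest.Agent.R187.SN.Top

theorem L_8726282754 : HH 127 (nat_lit 8726282754, nat_lit 1) := top_sound R_8726282754
  ⟨V6_8726282496_ok, trivial⟩
  ⟨W_8726282432_ok, trivial⟩ C_8726282754
theorem L_9800024451 : HH 127 (nat_lit 9800024451, nat_lit 1) := top_sound R_9800024451
  ⟨V6_8726274432_ok, trivial⟩
  ⟨W_8726282432_ok, trivial⟩ C_9800024451
theorem L_9816797508 : HH 127 (nat_lit 9816797508, nat_lit 1) := top_sound R_9816797508
  ⟨V6_9816789312_ok, trivial⟩
  ⟨W_9800016128_ok, trivial⟩ C_9816797508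
theorem L_9817051461 : HH 127 (nat_lit 9817051461, nat_lit 1) := top_sound R_9817051461
  ⟨V6_9816789312_ok, trivial⟩
  ⟨W_9816527168_ok, trivial⟩ C_9817051461
theorem L_10873758084 : HH 127 (nat_lit 10873758084, nat_lit 1) := top_sound R_10873758084
  ⟨V6_8726274432_ok, trivial⟩
  ⟨W_10873233728_ok, trivial⟩ C_10873758084
theorem L_10873766148 : HH 127 (nat_lit 10873766148, nat_lit 1) := top_sound R_10873766148
  ⟨V6_8726282496_ok, trivial⟩
  ⟨W_10873753856_ok, trivial⟩ C_10873766148
theorem L_10873766211 : HH 127 (nat_lit 10873766211, nat_lit 1) := top_sound R_10873766211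
  ⟨V6_8726282496_ok, trivial⟩
  ⟨W_10873753856_ok, trivial⟩ C_10873766211
theorem L_10873766274 : HH 127 (nat_lit 10873766274, nat_lit 1) := top_sound R_10873766274
  ⟨V6_8726274432_ok, trivial⟩
  ⟨W_10873761920_ok, trivial⟩ C_10873766274
theorem L_10873766337 : HH 127 (nat_lit 10873766337, nat_lit 1) := top_sound R_10873766337
  ⟨V6_8726282496_ok, trivial⟩
  ⟨W_10873765952_ok, trivial⟩ C_10873766337
theorem L_10873766400 : HH 127 (nat_lit 10873766400, nat_lit 1) := top_sound R_10873766400
  ⟨V6_8726282496_ok, trivial⟩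
  ⟨W_10873765952_ok, trivial⟩ C_10873766400
theorem L_10890273093 : HH 127 (nat_lit 10890273093, nat_lit 1) := top_sound R_10890273093
  ⟨V6_10890010944_ok, trivial⟩
  ⟨W_9816527168_ok, trivial⟩ C_10890273093
theorem L_10890535236 : HH 127 (nat_lit 10890535236, nat_lit 1) := top_sound R_10890535236
  ⟨V6_9816789312_ok, trivial⟩
  ⟨W_10873233728_ok, trivial⟩ C_10890535236
theorem L_10890535299 : HH 127 (nat_lit 10890535299, nat_lit 1) := top_sound R_10890535299
  ⟨V6_9800016192_ok, trivial⟩
  ⟨W_10890010880_ok, trivial⟩ C_10890535299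
theorem L_10890539331 : HH 127 (nat_lit 10890539331, nat_lit 1) := top_sound R_10890539331
  ⟨V6_9816789312_ok, trivial⟩
  ⟨W_9800016128_ok, trivial⟩ C_10890539331
theorem L_10890539394 : HH 127 (nat_lit 10890539394, nat_lit 1) := top_sound R_10890539394
  ⟨V6_9799753986_ok, trivial⟩
  ⟨W_10873761920_ok, trivial⟩ C_10890539394
theorem L_10890543363 : HH 127 (nat_lit 10890543363, nat_lit 1) := top_sound R_10890543363
  ⟨V6_9816785091_ok, trivial⟩
  ⟨W_9800016128_ok, trivial⟩ C_10890543363
theorem L_10890543426 : HH 127 (nat_lit 10890543426, nat_lit 1) := top_sound R_10890543426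
  ⟨V6_9816789312_ok, trivial⟩
  ⟨W_10873761920_ok, trivial⟩ C_10890543426
theorem L_10890543489 : HH 127 (nat_lit 10890543489, nat_lit 1) := top_sound R_10890543489
  ⟨V6_10890539073_ok, trivial⟩
  ⟨W_10873765952_ok, trivial⟩ C_10890543489
theorem L_10890797379 : HH 127 (nat_lit 10890797379, nat_lit 1) := top_sound R_10890797379
  ⟨V6_9817055424_ok, trivial⟩
  ⟨W_10890010880_ok, trivial⟩ C_10890797379
theorem L_10890801474 : HH 127 (nat_lit 10890801474, nat_lit 1) := top_sound R_10890801474
  ⟨V6_9817051266_ok, trivial⟩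
  ⟨W_10890535040_ok, trivial⟩ C_10890801474
theorem L_10906788228 : HH 127 (nat_lit 10906788228, nat_lit 1) := top_sound R_10906788228
  ⟨V6_10839679236_ok, trivial⟩
  ⟨W_10890010880_ok, trivial⟩ C_10906788228
theorem L_10907050371 : HH 127 (nat_lit 10907050371, nat_lit 1) := top_sound R_10907050371
  ⟨V6_10856456451_ok, trivial⟩
  ⟨W_10906788032_ok, trivial⟩ C_10907050371
theorem L_10907312388 : HH 127 (nat_lit 10907312388, nat_lit 1) := top_sound R_10907312388
  ⟨V6_10873225476_ok, trivial⟩
  ⟨W_10907042048_ok, trivial⟩ C_10907312388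
theorem L_10907312451 : HH 127 (nat_lit 10907312451, nat_lit 1) := top_sound R_10907312451
  ⟨V6_10890006849_ok, trivial⟩
  ⟨W_10906788032_ok, trivial⟩ C_10907312451
theorem L_10907312514 : HH 127 (nat_lit 10907312514, nat_lit 2) := top_sound R_10907312514
  ⟨V6_10873233792_ok, trivial⟩
  ⟨W_10907050112_ok, W_10890272960_ok, trivial⟩ C_10907312514
theorem L_10907316483 : HH 127 (nat_lit 10907316483, nat_lit 1) := top_sound R_10907316483
  ⟨V6_10907304192_ok, trivial⟩
  ⟨W_10873757888_ok, trivial⟩ C_10907316483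
theorem L_10907316546 : HH 127 (nat_lit 10907316546, nat_lit 1) := top_sound R_10907316546
  ⟨V6_10907046018_ok, trivial⟩
  ⟨W_10873761920_ok, trivial⟩ C_10907316546
theorem L_10907316609 : HH 127 (nat_lit 10907316609, nat_lit 1) := top_sound R_10907316609
  ⟨V6_10890539073_ok, trivial⟩
  ⟨W_10890272960_ok, trivial⟩ C_10907316609
theorem L_10907320578 : HH 127 (nat_lit 10907320578, nat_lit 2) := top_sound R_10907320578
  ⟨V6_10907304066_ok, trivial⟩
  ⟨W_10873761920_ok, W_10873753856_ok, trivial⟩ C_10907320578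
theorem L_10907320641 : HH 127 (nat_lit 10907320641, nat_lit 2) := top_sound R_10907320641
  ⟨V6_10907308161_ok, trivial⟩
  ⟨W_10873765952_ok, W_10873761920_ok, trivial⟩ C_10907320641
theorem L_10907320704 : HH 127 (nat_lit 10907320704, nat_lit 2) := top_sound R_10907320704
  ⟨V6_10907320320_ok, trivial⟩
  ⟨W_10873765952_ok, W_10873761920_ok, trivial⟩ C_10907320704
theorem L_10907574531 : HH 127 (nat_lit 10907574531, nat_lit 1) := top_sound R_10907574531
  ⟨V6_10907566272_ok, trivial⟩
  ⟨W_10890010880_ok, trivial⟩ C_10907574531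
theorem L_10907574594 : HH 127 (nat_lit 10907574594, nat_lit 1) := top_sound R_10907574594
  ⟨V6_10907046018_ok, trivial⟩
  ⟨W_10906788032_ok, trivial⟩ C_10907574594
theorem L_10907574657 : HH 127 (nat_lit 10907574657, nat_lit 2) := top_sound R_10907574657
  ⟨V6_10890010944_ok, trivial⟩
  ⟨W_10907312192_ok, trivial⟩ C_10907574657
theorem L_10907578563 : HH 127 (nat_lit 10907578563, nat_lit 1) := top_sound R_10907578563
  ⟨V6_10907037891_ok, trivial⟩
  ⟨W_10890531008_ok, trivial⟩ C_10907578563
theorem L_10907578626 : HH 127 (nat_lit 10907578626, nat_lit 1) := top_sound R_10907578626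
  ⟨V6_10907304066_ok, trivial⟩
  ⟨W_10907042048_ok, trivial⟩ C_10907578626
theorem L_10907578689 : HH 127 (nat_lit 10907578689, nat_lit 1) := top_sound R_10907578689
  ⟨V6_10890539073_ok, trivial⟩
  ⟨W_10907050112_ok, trivial⟩ C_10907578689
theorem L_10907578752 : HH 127 (nat_lit 10907578752, nat_lit 1) := top_sound R_10907578752
  ⟨V6_10907578368_ok, trivial⟩
  ⟨W_10890272960_ok, trivial⟩ C_10907578752
theorem L_10907582658 : HH 127 (nat_lit 10907582658, nat_lit 1) := top_sound R_10907582658
  ⟨V6_10907562177_ok, trivial⟩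
  ⟨W_10907566208_ok, trivial⟩ C_10907582658
theorem L_10907582721 : HH 127 (nat_lit 10907582721, nat_lit 1) := top_sound R_10907582721
  ⟨V6_10890526977_ok, trivial⟩
  ⟨W_10907566208_ok, trivial⟩ C_10907582721
theorem L_10907582784 : HH 127 (nat_lit 10907582784, nat_lit 1) := top_sound R_10907582784
  ⟨V6_10907320320_ok, trivial⟩
  ⟨W_10907574272_ok, trivial⟩ C_10907582784
theorem L_10907828484 : HH 127 (nat_lit 10907828484, nat_lit 1) := top_sound R_10907828484
  ⟨V6_10907042049_ok, trivial⟩
  ⟨W_10907042048_ok, trivial⟩ C_10907828484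
theorem L_10907836674 : HH 127 (nat_lit 10907836674, nat_lit 2) := top_sound R_10907836674
  ⟨V6_10907304066_ok, trivial⟩
  ⟨W_10907042048_ok, W_10906788032_ok, trivial⟩ C_10907836674
theorem L_10907836800 : HH 127 (nat_lit 10907836800, nat_lit 2) := top_sound R_10907836800
  ⟨V6_10907312256_ok, trivial⟩
  ⟨W_10907574272_ok, W_10906788032_ok, trivial⟩ C_10907836800
theorem L_10907840769 : HH 127 (nat_lit 10907840769, nat_lit 2) := top_sound R_10907840769
  ⟨V6_10907042049_ok, trivial⟩
  ⟨W_10907828288_ok, W_10907050112_ok, trivial⟩ C_10907840769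
theorem L_10907840832 : HH 127 (nat_lit 10907840832, nat_lit 1) := top_sound R_10907840832
  ⟨V6_10907832384_ok, trivial⟩
  ⟨W_10907832320_ok, trivial⟩ C_10907840832
theorem L_10907844738 : HH 127 (nat_lit 10907844738, nat_lit 1) := top_sound R_10907844738
  ⟨V6_10907820162_ok, trivial⟩
  ⟨W_10907566208_ok, trivial⟩ C_10907844738
theorem L_10907844801 : HH 127 (nat_lit 10907844801, nat_lit 1) := top_sound R_10907844801
  ⟨V6_10907562177_ok, trivial⟩
  ⟨W_10907828288_ok, trivial⟩ C_10907844801
theorem L_10907844864 : HH 127 (nat_lit 10907844864, nat_lit 2) := top_sound R_10907844864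
  ⟨V6_10907320320_ok, trivial⟩
  ⟨W_10907832320_ok, W_10907828288_ok, trivial⟩ C_10907844864
theorem L_10907848896 : HH 127 (nat_lit 10907848896, nat_lit 1) := top_sound R_10907848896
  ⟨V6_10907828352_ok, trivial⟩
  ⟨W_10907832320_ok, trivial⟩ C_10907848896
theorem L_10907852928 : HH 127 (nat_lit 10907852928, nat_lit 1) := top_sound R_10907852928
  ⟨V6_10907828352_ok, trivial⟩
  ⟨W_10907832320_ok, trivial⟩ C_10907852928
theorem L_11946975621 : HH 127 (nat_lit 11946975621, nat_lit 1) := top_sound R_11946975621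
  ⟨V6_8692195716_ok, trivial⟩
  ⟨W_10873233728_ok, trivial⟩ C_11946975621
theorem L_11947499844 : HH 127 (nat_lit 11947499844, nat_lit 1) := top_sound R_11947499844
  ⟨V6_9800016192_ok, trivial⟩
  ⟨W_11947233536_ok, trivial⟩ C_11947499844
theorem L_11947499907 : HH 127 (nat_lit 11947499907, nat_lit 1) := top_sound R_11947499907
  ⟨V6_8726274432_ok, trivial⟩
  ⟨W_10873233728_ok, trivial⟩ C_11947499907
theorem L_11947503876 : HH 127 (nat_lit 11947503876, nat_lit 1) := top_sound R_11947503876
  ⟨V6_9799753986_ok, trivial⟩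
  ⟨W_11947491584_ok, trivial⟩ C_11947503876
theorem L_11947503939 : HH 127 (nat_lit 11947503939, nat_lit 1) := top_sound R_11947503939
  ⟨V6_9800016192_ok, trivial⟩
  ⟨W_11947233536_ok, trivial⟩ C_11947503939
theorem L_11947504002 : HH 127 (nat_lit 11947504002, nat_lit 1) := top_sound R_11947504002
  ⟨V6_8726274432_ok, trivial⟩
  ⟨W_10873761920_ok, trivial⟩ C_11947504002
theorem L_11947507971 : HH 127 (nat_lit 11947507971, nat_lit 1) := top_sound R_11947507971
  ⟨V6_8726282496_ok, trivial⟩
  ⟨W_11947495616_ok, trivial⟩ C_11947507971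
theorem L_11947508034 : HH 127 (nat_lit 11947508034, nat_lit 2) := top_sound R_11947508034
  ⟨V6_9800024256_ok, V6_8726282496_ok, trivial⟩
  ⟨W_11947495616_ok, W_8726282432_ok, trivial⟩ C_11947508034
theorem L_11947508097 : HH 127 (nat_lit 11947508097, nat_lit 2) := top_sound R_11947508097
  ⟨V6_8726282496_ok, V6_8726274432_ok, trivial⟩
  ⟨W_11947503680_ok, W_10873765952_ok, trivial⟩ C_11947508097
theorem L_11947508160 : HH 127 (nat_lit 11947508160, nat_lit 1) := top_sound R_11947508160
  ⟨V6_8726282496_ok, trivial⟩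
  ⟨W_11947507712_ok, trivial⟩ C_11947508160
theorem L_11963752836 : HH 127 (nat_lit 11963752836, nat_lit 1) := top_sound R_11963752836
  ⟨V6_10839679236_ok, trivial⟩
  ⟨W_11913421184_ok, trivial⟩ C_11963752836
theorem L_11964014916 : HH 127 (nat_lit 11964014916, nat_lit 1) := top_sound R_11964014916
  ⟨V6_9799753986_ok, trivial⟩
  ⟨W_9816527168_ok, trivial⟩ C_11964014916
theorem L_11964014979 : HH 127 (nat_lit 11964014979, nat_lit 1) := top_sound R_11964014979
  ⟨V6_9799753986_ok, trivial⟩
  ⟨W_10890010880_ok, trivial⟩ C_11964014979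
theorem L_11964019011 : HH 127 (nat_lit 11964019011, nat_lit 1) := top_sound R_11964019011
  ⟨V6_9799753986_ok, trivial⟩
  ⟨W_9816527168_ok, trivial⟩ C_11964019011
theorem L_11964272964 : HH 127 (nat_lit 11964272964, nat_lit 1) := top_sound R_11964272964
  ⟨V6_9816789312_ok, trivial⟩
  ⟨W_11947233536_ok, trivial⟩ C_11964272964
theorem L_11964276996 : HH 127 (nat_lit 11964276996, nat_lit 1) := top_sound R_11964276996
  ⟨V6_10873225476_ok, trivial⟩
  ⟨W_11963748608_ok, trivial⟩ C_11964276996
theorem L_11964277059 : HH 127 (nat_lit 11964277059, nat_lit 3) := top_sound R_11964277059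
  ⟨V6_9816789312_ok, V6_9800016192_ok, trivial⟩
  ⟨W_11963748608_ok, W_11947233536_ok, W_10873233728_ok, trivial⟩ C_11964277059
theorem L_11964277122 : HH 127 (nat_lit 11964277122, nat_lit 2) := top_sound R_11964277122
  ⟨V6_10873233792_ok, trivial⟩
  ⟨W_10890272960_ok, W_9800016128_ok, trivial⟩ C_11964277122
theorem L_11964281091 : HH 127 (nat_lit 11964281091, nat_lit 2) := top_sound R_11964281091
  ⟨V6_9816793344_ok, V6_9816785091_ok, trivial⟩
  ⟨W_11964268736_ok, W_11947491584_ok, trivial⟩ C_11964281091
theorem L_11964281154 : HH 127 (nat_lit 11964281154, nat_lit 3) := top_sound R_11964281154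
  ⟨V6_9816789312_ok, V6_9800016192_ok, trivial⟩
  ⟨W_11947233536_ok, W_10873761920_ok, W_9816527168_ok, trivial⟩ C_11964281154
theorem L_11964281217 : HH 127 (nat_lit 11964281217, nat_lit 2) := top_sound R_11964281217
  ⟨V6_10890539073_ok, V6_10873499841_ok, trivial⟩
  ⟨W_11964018752_ok, W_9800016128_ok, trivial⟩ C_11964281217
theorem L_11964281280 : HH 127 (nat_lit 11964281280, nat_lit 1) := top_sound R_11964281280
  ⟨V6_10873761984_ok, trivial⟩
  ⟨W_11964018752_ok, trivial⟩ C_11964281280
theorem L_11964285123 : HH 127 (nat_lit 11964285123, nat_lit 1) := top_sound R_11964285123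
  ⟨V6_9816785091_ok, trivial⟩
  ⟨W_10873757888_ok, trivial⟩ C_11964285123
theorem L_11964285186 : HH 127 (nat_lit 11964285186, nat_lit 2) := top_sound R_11964285186
  ⟨V6_10890526977_ok, trivial⟩
  ⟨W_10873761920_ok, W_9800016128_ok, trivial⟩ C_11964285186
theorem L_11964285249 : HH 127 (nat_lit 11964285249, nat_lit 3) := top_sound R_11964285249
  ⟨V6_9816789312_ok, V6_9800024256_ok, trivial⟩
  ⟨W_11964276800_ok, W_10873765952_ok, trivial⟩ C_11964285249
theorem L_11964285312 : HH 127 (nat_lit 11964285312, nat_lit 2) := top_sound R_11964285312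
  ⟨V6_9800024256_ok, V6_9800016192_ok, trivial⟩
  ⟨W_11964280832_ok, W_11947507712_ok, trivial⟩ C_11964285312
theorem L_11964535107 : HH 127 (nat_lit 11964535107, nat_lit 1) := top_sound R_11964535107
  ⟨V6_9817051329_ok, trivial⟩
  ⟨W_11963748608_ok, trivial⟩ C_11964535107
theorem L_11964539139 : HH 127 (nat_lit 11964539139, nat_lit 1) := top_sound R_11964539139
  ⟨V6_9816785091_ok, trivial⟩
  ⟨W_11963748608_ok, trivial⟩ C_11964539139
theorem L_11964539202 : HH 127 (nat_lit 11964539202, nat_lit 2) := top_sound R_11964539202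
  ⟨V6_9817055424_ok, V6_9817051266_ok, trivial⟩
  ⟨W_11963748608_ok, W_10890010880_ok, trivial⟩ C_11964539202
theorem L_11964539265 : HH 127 (nat_lit 11964539265, nat_lit 1) := top_sound R_11964539265
  ⟨V6_9817055424_ok, trivial⟩
  ⟨W_10890010880_ok, trivial⟩ C_11964539265
theorem L_11964543171 : HH 127 (nat_lit 11964543171, nat_lit 1) := top_sound R_11964543171
  ⟨V6_9816785091_ok, trivial⟩
  ⟨W_11964526784_ok, trivial⟩ C_11964543171
theorem L_11964543234 : HH 127 (nat_lit 11964543234, nat_lit 1) := top_sound R_11964543234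
  ⟨V6_9817051266_ok, trivial⟩
  ⟨W_10890535040_ok, trivial⟩ C_11964543234
theorem L_11964543297 : HH 127 (nat_lit 11964543297, nat_lit 2) := top_sound R_11964543297
  ⟨V6_9816789312_ok, trivial⟩
  ⟨W_11964276800_ok, trivial⟩ C_11964543297
theorem L_11964543360 : HH 127 (nat_lit 11964543360, nat_lit 1) := top_sound R_11964543360
  ⟨V6_9817055424_ok, trivial⟩
  ⟨W_11964280832_ok, trivial⟩ C_11964543360
theorem L_11964547266 : HH 127 (nat_lit 11964547266, nat_lit 1) := top_sound R_11964547266
  ⟨V6_9817051266_ok, trivial⟩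
  ⟨W_10890535040_ok, trivial⟩ C_11964547266
theorem L_11964547329 : HH 127 (nat_lit 11964547329, nat_lit 1) := top_sound R_11964547329
  ⟨V6_9817051329_ok, trivial⟩
  ⟨W_11964534848_ok, trivial⟩ C_11964547329
theorem L_11964547392 : HH 127 (nat_lit 11964547392, nat_lit 1) := top_sound R_11964547392
  ⟨V6_9817055424_ok, trivial⟩
  ⟨W_11964280832_ok, trivial⟩ C_11964547392
theorem L_11980529988 : HH 127 (nat_lit 11980529988, nat_lit 1) := top_sound R_11980529988
  ⟨V6_10839679236_ok, trivial⟩
  ⟨W_11963748608_ok, trivial⟩ C_11980529988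
theorem L_11980530051 : HH 127 (nat_lit 11980530051, nat_lit 1) := top_sound R_11980530051
  ⟨V6_10856456451_ok, trivial⟩
  ⟨W_10906788032_ok, trivial⟩ C_11980530051
theorem L_11980792068 : HH 127 (nat_lit 11980792068, nat_lit 1) := top_sound R_11980792068
  ⟨V6_10873225476_ok, trivial⟩
  ⟨W_11963748608_ok, trivial⟩ C_11980792068
theorem L_11980792131 : HH 127 (nat_lit 11980792131, nat_lit 2) := top_sound R_11980792131
  ⟨V6_11930460480_ok, V6_10856456451_ok, trivial⟩
  ⟨W_11980525760_ok, W_10906788032_ok, trivial⟩ C_11980792131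
theorem L_11980792194 : HH 127 (nat_lit 11980792194, nat_lit 2) := top_sound R_11980792194
  ⟨V6_11947237506_ok, trivial⟩
  ⟨W_10906788032_ok, W_10873233728_ok, trivial⟩ C_11980792194
theorem L_11980796163 : HH 127 (nat_lit 11980796163, nat_lit 1) := top_sound R_11980796163
  ⟨V6_10873499841_ok, trivial⟩
  ⟨W_10907042048_ok, trivial⟩ C_11980796163
theorem L_11980796226 : HH 127 (nat_lit 11980796226, nat_lit 1) := top_sound R_11980796226
  ⟨V6_10907046018_ok, trivial⟩
  ⟨W_11947233536_ok, trivial⟩ C_11980796226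
theorem L_11980796289 : HH 127 (nat_lit 11980796289, nat_lit 1) := top_sound R_11980796289
  ⟨V6_10873499841_ok, trivial⟩
  ⟨W_11980791872_ok, trivial⟩ C_11980796289
theorem L_11981050116 : HH 127 (nat_lit 11981050116, nat_lit 1) := top_sound R_11981050116
  ⟨V6_10873225476_ok, trivial⟩
  ⟨W_11963748608_ok, trivial⟩ C_11981050116
theorem L_11981050179 : HH 127 (nat_lit 11981050179, nat_lit 1) := top_sound R_11981050179
  ⟨V6_10890006849_ok, trivial⟩
  ⟨W_11980525760_ok, trivial⟩ C_11981050179
theorem L_11981054211 : HH 127 (nat_lit 11981054211, nat_lit 4) := top_sound R_11981054211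
  ⟨V6_10907304192_ok, trivial⟩
  ⟨W_11947491584_ok, W_11947237568_ok, W_11946975488_ok, W_10906788032_ok, trivial⟩ C_11981054211
theorem L_11981054274 : HH 127 (nat_lit 11981054274, nat_lit 5) := top_sound R_11981054274
  ⟨V6_10907312256_ok, trivial⟩
  ⟨W_11980525760_ok, W_11963748608_ok, W_11947233536_ok, W_11946975488_ok, W_10873233728_ok, trivial⟩ C_11981054274

theorem H_0 : AllH 127 tb0 :=
  ⟨L_8726282754, L_9800024451, L_9816797508, L_9817051461, L_10873758084, L_10873766148, L_10873766211, L_10873766274, L_10873766337, L_10873766400, L_10890273093, L_10890535236, L_10890535299, L_10890539331, L_10890539394, L_10890543363, L_10890543426, L_10890543489, L_10890797379, L_10890801474, L_10906788228, L_10907050371, L_10907312388, L_10907312451, L_10907312514, L_10907316483, L_10907316546, L_10907316609, L_10907320578, L_10907320641, L_10907320704, L_10907574531, L_10907574594, L_10907574657, L_10907578563, L_10907578626, L_10907578689, L_10907578752, L_10907582658, L_10907582721, L_10907582784, L_10907828484, L_10907836674,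 L_10907836800, L_10907840769, L_10907840832, L_10907844738, L_10907844801, L_10907844864, L_10907848896, L_10907852928, L_11946975621, L_11947499844, L_11947499907, L_11947503876, L_11947503939, L_11947504002, L_11947507971, L_11947508034, L_11947508097, L_11947508160, L_11963752836, L_11964014916, L_11964014979, L_11964019011, L_11964272964, L_11964276996, L_11964277059, L_11964277122, L_11964281091, L_11964281154, L_11964281217, L_11964281280, L_11964285123, L_11964285186, L_11964285249, L_11964285312, L_11964535107, L_11964539139, L_11964539202, L_11964539265, L_11964543171, L_11964543234, L_11964543297, L_11964543360, L_11964547266, L_11964547329, L_11964547392, L_11980529988, L_11980530051, L_11980792068, L_11980792131, L_11980792194, L_11980796163, L_11980796226, L_11980796289, L_11981050116, L_11981050179, L_11981054211, L_11981054274, trivial⟩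

theorem L_11981054337 : HH 127 (nat_lit 11981054337, nat_lit 4) := top_sound R_11981054337
  ⟨V6_10873233792_ok, V6_10873233729_ok, trivial⟩
  ⟨W_11980791872_ok, W_10907312192_ok, W_10906788032_ok, trivial⟩ C_11981054337
theorem L_11981058243 : HH 127 (nat_lit 11981058243, nat_lit 2) := top_sound R_11981058243
  ⟨V6_10907037891_ok, V6_10873499841_ok, trivial⟩
  ⟨W_11981041856_ok, W_11964268736_ok, trivial⟩ C_11981058243
theorem L_11981058306 : HH 127 (nat_lit 11981058306, nat_lit 5) := top_sound R_11981058306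
  ⟨V6_10907304066_ok, V6_10907046018_ok, trivial⟩
  ⟨W_11980783808_ok, W_11947491584_ok, W_10907042048_ok, W_10873761920_ok, trivial⟩ C_11981058306
theorem L_11981058369 : HH 127 (nat_lit 11981058369, nat_lit 5) := top_sound R_11981058369
  ⟨V6_10907316288_ok, V6_10890539073_ok, V6_10873499841_ok, trivial⟩
  ⟨W_11980791872_ok, W_11964018752_ok, W_11947503680_ok, W_11947233536_ok, trivial⟩ C_11981058369
theorem L_11981058432 : HH 127 (nat_lit 11981058432, nat_lit 4) := top_sound R_11981058432
  ⟨V6_11981058048_ok, trivial⟩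
  ⟨W_11947237568_ok, W_10890272960_ok, W_10873761920_ok, W_10873757888_ok, trivial⟩ C_11981058432
theorem L_11981062338 : HH 127 (nat_lit 11981062338, nat_lit 3) := top_sound R_11981062338
  ⟨V6_10907304066_ok, trivial⟩
  ⟨W_11981041856_ok, W_11964268736_ok, W_10873761920_ok, trivial⟩ C_11981062338
theorem L_11981062401 : HH 127 (nat_lit 11981062401, nat_lit 5) := top_sound R_11981062401
  ⟨V6_10907304192_ok, trivial⟩
  ⟨W_11964268736_ok, W_11947503680_ok, W_11947491584_ok, W_10873765952_ok, W_10873761920_ok, trivial⟩ C_11981062401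
theorem L_11981062464 : HH 127 (nat_lit 11981062464, nat_lit 5) := top_sound R_11981062464
  ⟨V6_10907320320_ok, V6_10907316288_ok, trivial⟩
  ⟨W_11964280832_ok, W_11947507712_ok, W_11947503680_ok, W_10873765952_ok, W_10873761920_ok, trivial⟩ C_11981062464
theorem L_11981312259 : HH 127 (nat_lit 11981312259, nat_lit 2) := top_sound R_11981312259
  ⟨V6_10907566272_ok, trivial⟩
  ⟨W_11963748608_ok, W_10907042048_ok, trivial⟩ C_11981312259
theorem L_11981312322 : HH 127 (nat_lit 11981312322, nat_lit 1) := top_sound R_11981312322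
  ⟨V6_10907046018_ok, trivial⟩
  ⟨W_11963748608_ok, trivial⟩ C_11981312322
theorem L_11981316291 : HH 127 (nat_lit 11981316291, nat_lit 2) := top_sound R_11981316291
  ⟨V6_10907562177_ok, V6_10907037891_ok, trivial⟩
  ⟨W_11980525760_ok, W_10906788032_ok, trivial⟩ C_11981316291
theorem L_11981316354 : HH 127 (nat_lit 11981316354, nat_lit 5) := top_sound R_11981316354
  ⟨V6_10907304066_ok, V6_10907046018_ok, trivial⟩
  ⟨W_11980783808_ok, W_10907566208_ok, W_10907042048_ok, W_10906788032_ok, trivial⟩ C_11981316354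
theorem L_11981316417 : HH 127 (nat_lit 11981316417, nat_lit 5) := top_sound R_11981316417
  ⟨V6_10907308161_ok, V6_10890010944_ok, trivial⟩
  ⟨W_11980791872_ok, W_11964534848_ok, W_11963748608_ok, W_10906788032_ok, trivial⟩ C_11981316417
theorem L_11981316480 : HH 127 (nat_lit 11981316480, nat_lit 3) := top_sound R_11981316480
  ⟨V6_10890010944_ok, trivial⟩
  ⟨W_10907574272_ok, W_10907312192_ok, trivial⟩ C_11981316480
theorem L_11981320386 : HH 127 (nat_lit 11981320386, nat_lit 4) := top_sound R_11981320386
  ⟨V6_10907304066_ok, trivial⟩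
  ⟨W_11981303936_ok, W_11981041856_ok, W_11964526784_ok, W_11964014720_ok, trivial⟩ C_11981320386
theorem L_11981320449 : HH 127 (nat_lit 11981320449, nat_lit 5) := top_sound R_11981320449
  ⟨V6_10907042049_ok, V6_10890539073_ok, V6_10890526977_ok, trivial⟩
  ⟨W_11980791872_ok, W_11964534848_ok, W_11964018752_ok, W_10907566208_ok, trivial⟩ C_11981320449
theorem L_11981320512 : HH 127 (nat_lit 11981320512, nat_lit 5) := top_sound R_11981320512
  ⟨V6_11981058048_ok, trivial⟩
  ⟨W_11964010688_ok, W_10907050112_ok, W_10890531008_ok, W_10890272960_ok, trivial⟩ C_11981320512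
theorem L_11981324418 : HH 127 (nat_lit 11981324418, nat_lit 1) := top_sound R_11981324418
  ⟨V6_10907304066_ok, trivial⟩
  ⟨W_11981303936_ok, trivial⟩ C_11981324418
theorem L_11981324481 : HH 127 (nat_lit 11981324481, nat_lit 4) := top_sound R_11981324481
  ⟨V6_10907566272_ok, trivial⟩
  ⟨W_11981041856_ok, W_11964534848_ok, W_11964526784_ok, W_11964268736_ok, trivial⟩ C_11981324481
theorem L_11981324544 : HH 127 (nat_lit 11981324544, nat_lit 5) := top_sound R_11981324544
  ⟨V6_10907320320_ok, V6_10907304192_ok, trivial⟩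
  ⟨W_11964534848_ok, W_11964280832_ok, W_10907574272_ok, W_10907566208_ok, W_10907316224_ok, trivial⟩ C_11981324544
theorem L_11981328513 : HH 127 (nat_lit 11981328513, nat_lit 1) := top_sound R_11981328513
  ⟨V6_10907566209_ok, trivial⟩
  ⟨W_11964534848_ok, trivial⟩ C_11981328513
theorem L_11981328576 : HH 127 (nat_lit 11981328576, nat_lit 1) := top_sound R_11981328576
  ⟨V6_10907566272_ok, trivial⟩
  ⟨W_11964526784_ok, trivial⟩ C_11981328576
theorem L_11981570307 : HH 127 (nat_lit 11981570307, nat_lit 1) := top_sound R_11981570307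
  ⟨V6_10907042049_ok, trivial⟩
  ⟨W_11980783808_ok, trivial⟩ C_11981570307
theorem L_11981574339 : HH 127 (nat_lit 11981574339, nat_lit 1) := top_sound R_11981574339
  ⟨V6_10907037891_ok, trivial⟩
  ⟨W_11981041856_ok, trivial⟩ C_11981574339
theorem L_11981574402 : HH 127 (nat_lit 11981574402, nat_lit 2) := top_sound R_11981574402
  ⟨V6_10907304066_ok, trivial⟩
  ⟨W_11980783808_ok, trivial⟩ C_11981574402
theorem L_11981574465 : HH 127 (nat_lit 11981574465, nat_lit 1) := top_sound R_11981574465
  ⟨V6_10907308161_ok, trivial⟩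
  ⟨W_11980525760_ok, trivial⟩ C_11981574465
theorem L_11981578434 : HH 127 (nat_lit 11981578434, nat_lit 3) := top_sound R_11981578434
  ⟨V6_10907304066_ok, trivial⟩
  ⟨W_11981303936_ok, W_11981041856_ok, W_10906788032_ok, trivial⟩ C_11981578434
theorem L_11981578497 : HH 127 (nat_lit 11981578497, nat_lit 5) := top_sound R_11981578497
  ⟨V6_10907828352_ok, V6_10907042049_ok, trivial⟩
  ⟨W_11980791872_ok, W_11980783808_ok, W_10906788032_ok, trivial⟩ C_11981578497
theorem L_11981578560 : HH 127 (nat_lit 11981578560, nat_lit 4) := top_sound R_11981578560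
  ⟨V6_11981574144_ok, trivial⟩
  ⟨W_11980787840_ok, W_11980525760_ok, W_10906788032_ok, trivial⟩ C_11981578560
theorem L_11981582466 : HH 127 (nat_lit 11981582466, nat_lit 2) := top_sound R_11981582466
  ⟨V6_10907820162_ok, trivial⟩
  ⟨W_11981561984_ok, W_11981303936_ok, trivial⟩ C_11981582466
theorem L_11981582529 : HH 127 (nat_lit 11981582529, nat_lit 4) := top_sound R_11981582529
  ⟨V6_10907828352_ok, trivial⟩
  ⟨W_11981566016_ok, W_11981041856_ok, W_11980791872_ok, trivial⟩ C_11981582529
theorem L_11981582592 : HH 127 (nat_lit 11981582592, nat_lit 6) := top_sound R_11981582592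
  ⟨V6_10907304192_ok, trivial⟩
  ⟨W_11981570048_ok, W_11980795904_ok, W_11980791872_ok, W_10907832320_ok, trivial⟩ C_11981582592
theorem L_11981586561 : HH 127 (nat_lit 11981586561, nat_lit 3) := top_sound R_11981586561
  ⟨V6_10907566209_ok, trivial⟩
  ⟨W_11981566016_ok, W_11981561984_ok, W_10907828288_ok, trivial⟩ C_11981586561
theorem L_11981586624 : HH 127 (nat_lit 11981586624, nat_lit 5) := top_sound R_11981586624
  ⟨V6_10907828352_ok, V6_10907320320_ok, trivial⟩
  ⟨W_11981570048_ok, W_11981566016_ok, W_11981041856_ok, W_10907832320_ok, trivial⟩ C_11981586624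
theorem L_11981590593 : HH 127 (nat_lit 11981590593, nat_lit 1) := top_sound R_11981590593
  ⟨V6_10907832384_ok, trivial⟩
  ⟨W_11981566016_ok, trivial⟩ C_11981590593
theorem L_11981590656 : HH 127 (nat_lit 11981590656, nat_lit 2) := top_sound R_11981590656
  ⟨V6_10907828352_ok, trivial⟩
  ⟨W_11981570048_ok, trivial⟩ C_11981590656
theorem L_11981594688 : HH 127 (nat_lit 11981594688, nat_lit 1) := top_sound R_11981594688
  ⟨V6_10907832384_ok, trivial⟩
  ⟨W_11981570048_ok, trivial⟩ C_11981594688
theorem L_11997307203 : HH 127 (nat_lit 11997307203, nat_lit 1) := top_sound R_11997307203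
  ⟨V6_11913421122_ok, trivial⟩
  ⟨W_11980525760_ok, trivial⟩ C_11997307203
theorem L_11997307266 : HH 127 (nat_lit 11997307266, nat_lit 1) := top_sound R_11997307266
  ⟨V6_11913421122_ok, trivial⟩
  ⟨W_11913421184_ok, trivial⟩ C_11997307266
theorem L_11997565188 : HH 127 (nat_lit 11997565188, nat_lit 1) := top_sound R_11997565188
  ⟨V6_11930194179_ok, trivial⟩
  ⟨W_11947233536_ok, trivial⟩ C_11997565188
theorem L_11997565251 : HH 127 (nat_lit 11997565251, nat_lit 1) := top_sound R_11997565251
  ⟨V6_11930194179_ok, trivial⟩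
  ⟨W_11997040832_ok, trivial⟩ C_11997565251
theorem L_11997569283 : HH 127 (nat_lit 11997569283, nat_lit 2) := top_sound R_11997569283
  ⟨V6_11930198274_ok, V6_11930194179_ok, trivial⟩
  ⟨W_11980783808_ok, trivial⟩ C_11997569283
theorem L_11997569346 : HH 127 (nat_lit 11997569346, nat_lit 2) := top_sound R_11997569346
  ⟨V6_11947237506_ok, trivial⟩
  ⟨W_11997302912_ok, W_11963748608_ok, trivial⟩ C_11997569346
theorem L_11997569409 : HH 127 (nat_lit 11997569409, nat_lit 1) := top_sound R_11997569409
  ⟨V6_11997306945_ok, trivial⟩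
  ⟨W_11946975488_ok, trivial⟩ C_11997569409
theorem L_11997573315 : HH 127 (nat_lit 11997573315, nat_lit 1) := top_sound R_11997573315
  ⟨V6_11930456259_ok, trivial⟩
  ⟨W_11997556928_ok, trivial⟩ C_11997573315
theorem L_11997573378 : HH 127 (nat_lit 11997573378, nat_lit 2) := top_sound R_11997573378
  ⟨V6_11947237506_ok, trivial⟩
  ⟨W_11980787840_ok, trivial⟩ C_11997573378
theorem L_11997573441 : HH 127 (nat_lit 11997573441, nat_lit 2) := top_sound R_11997573441
  ⟨V6_11997569088_ok, trivial⟩
  ⟨W_11964018752_ok, W_11947233536_ok, trivial⟩ C_11997573441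
theorem L_11997573504 : HH 127 (nat_lit 11997573504, nat_lit 1) := top_sound R_11997573504
  ⟨V6_11997573120_ok, trivial⟩
  ⟨W_11947237568_ok, trivial⟩ C_11997573504
theorem L_11997827331 : HH 127 (nat_lit 11997827331, nat_lit 2) := top_sound R_11997827331
  ⟨V6_11947495680_ok, trivial⟩
  ⟨W_11997298880_ok, W_11997040832_ok, trivial⟩ C_11997827331
theorem L_11997827394 : HH 127 (nat_lit 11997827394, nat_lit 3) := top_sound R_11997827394
  ⟨V6_11947495554_ok, trivial⟩
  ⟨W_11997302912_ok, W_11997040832_ok, W_11963748608_ok, trivial⟩ C_11997827394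
theorem L_11997831363 : HH 127 (nat_lit 11997831363, nat_lit 3) := top_sound R_11997831363
  ⟨V6_11997819072_ok, trivial⟩
  ⟨W_11981041856_ok, W_11963752640_ok, W_11947237568_ok, trivial⟩ C_11997831363
theorem L_11997831426 : HH 127 (nat_lit 11997831426, nat_lit 4) := top_sound R_11997831426
  ⟨V6_11947495554_ok, V6_11947491585_ok, trivial⟩
  ⟨W_11997560960_ok, W_11997302912_ok, W_11997298880_ok, W_11946975488_ok, trivial⟩ C_11997831426
theorem L_11997831489 : HH 127 (nat_lit 11997831489, nat_lit 5) := top_sound R_11997831489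
  ⟨V6_11997306945_ok, trivial⟩
  ⟨W_11997564992_ok, W_11963748608_ok, W_11947233536_ok, trivial⟩ C_11997831489
theorem L_11997831552 : HH 127 (nat_lit 11997831552, nat_lit 2) := top_sound R_11997831552
  ⟨V6_11997569088_ok, trivial⟩
  ⟨W_11997569024_ok, W_11946975488_ok, trivial⟩ C_11997831552
theorem L_11997835458 : HH 127 (nat_lit 11997835458, nat_lit 3) := top_sound R_11997835458
  ⟨V6_11997819072_ok, trivial⟩
  ⟨W_11964014720_ok, W_11947499648_ok, trivial⟩ C_11997835458
theorem L_11997835521 : HH 127 (nat_lit 11997835521, nat_lit 6) := top_sound R_11997835521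
  ⟨V6_11964268800_ok, trivial⟩
  ⟨W_11997823040_ok, W_11997564992_ok, W_11964018752_ok, W_11947503680_ok, trivial⟩ C_11997835521
theorem L_11997835584 : HH 127 (nat_lit 11997835584, nat_lit 6) := top_sound R_11997835584
  ⟨V6_11981058048_ok, trivial⟩
  ⟨W_11997564992_ok, W_11964010688_ok, W_11947237568_ok, trivial⟩ C_11997835584
theorem L_11997839490 : HH 127 (nat_lit 11997839490, nat_lit 1) := top_sound R_11997839490
  ⟨V6_11947495554_ok, trivial⟩
  ⟨W_11997819008_ok, trivial⟩ C_11997839490
theorem L_11997839553 : HH 127 (nat_lit 11997839553, nat_lit 4) := top_sound R_11997839553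
  ⟨V6_11997819072_ok, trivial⟩
  ⟨W_11981041856_ok, W_11947503680_ok, W_11947499648_ok, trivial⟩ C_11997839553
theorem L_11997839616 : HH 127 (nat_lit 11997839616, nat_lit 3) := top_sound R_11997839616
  ⟨V6_11964268800_ok, trivial⟩
  ⟨W_11997823040_ok, W_11964280832_ok, trivial⟩ C_11997839616
theorem L_11998085379 : HH 127 (nat_lit 11998085379, nat_lit 1) := top_sound R_11998085379
  ⟨V6_11997036801_ok, trivial⟩
  ⟨W_11997298880_ok, trivial⟩ C_11998085379
theorem L_11998089411 : HH 127 (nat_lit 11998089411, nat_lit 2) := top_sound R_11998089411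
  ⟨V6_11997819072_ok, trivial⟩
  ⟨W_11981041856_ok, W_11964526784_ok, trivial⟩ C_11998089411
theorem L_11998089474 : HH 127 (nat_lit 11998089474, nat_lit 3) := top_sound R_11998089474
  ⟨V6_11997040833_ok, V6_11997036801_ok, V6_11963486466_ok, trivial⟩
  ⟨W_11981045888_ok, trivial⟩ C_11998089474
theorem L_11998089537 : HH 127 (nat_lit 11998089537, nat_lit 3) := top_sound R_11998089537
  ⟨V6_11963748672_ok, trivial⟩
  ⟨W_11997564992_ok, W_11997040832_ok, trivial⟩ C_11998089537
theorem L_11998093506 : HH 127 (nat_lit 11998093506, nat_lit 4) := top_sound R_11998093506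
  ⟨V6_11997819072_ok, trivial⟩
  ⟨W_11997302912_ok, W_11964526784_ok, W_11964014720_ok, W_11963752640_ok, trivial⟩ C_11998093506
theorem L_11998093569 : HH 127 (nat_lit 11998093569, nat_lit 6) := top_sound R_11998093569
  ⟨V6_11998085184_ok, trivial⟩
  ⟨W_11997564992_ok, W_11980521728_ok, W_11964534848_ok, W_11963748608_ok, trivial⟩ C_11998093569
theorem L_11998093632 : HH 127 (nat_lit 11998093632, nat_lit 5) := top_sound R_11998093632
  ⟨V6_11997569088_ok, trivial⟩
  ⟨W_11997564992_ok, W_11964534848_ok, W_11963748608_ok, trivial⟩ C_11998093632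
theorem L_11998097538 : HH 127 (nat_lit 11998097538, nat_lit 2) := top_sound R_11998097538
  ⟨V6_11998077057_ok, trivial⟩
  ⟨W_11981303936_ok, W_11964014720_ok, trivial⟩ C_11998097538
theorem L_11998097601 : HH 127 (nat_lit 11998097601, nat_lit 6) := top_sound R_11998097601
  ⟨V6_11997819072_ok, trivial⟩
  ⟨W_11997564992_ok, W_11964534848_ok, W_11964018752_ok, W_11964014720_ok, trivial⟩ C_11998097601
theorem L_11998097664 : HH 127 (nat_lit 11998097664, nat_lit 7) := top_sound R_11998097664
  ⟨V6_11997573120_ok, V6_11981058048_ok, trivial⟩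
  ⟨W_11997564992_ok, W_11980783808_ok, W_11964010688_ok, trivial⟩ C_11998097664
theorem L_11998101633 : HH 127 (nat_lit 11998101633, nat_lit 3) := top_sound R_11998101633
  ⟨V6_11998081089_ok, trivial⟩
  ⟨W_11998081088_ok, W_11964534848_ok, trivial⟩ C_11998101633
theorem L_11998101696 : HH 127 (nat_lit 11998101696, nat_lit 5) := top_sound R_11998101696
  ⟨V6_11997819072_ok, trivial⟩
  ⟨W_11998081088_ok, W_11964534848_ok, W_11964526784_ok, W_11964280832_ok, trivial⟩ C_11998101696
theorem L_11998105728 : HH 127 (nat_lit 11998105728, nat_lit 2) := top_sound R_11998105728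
  ⟨V6_11998085184_ok, trivial⟩
  ⟨W_11998085120_ok, W_11964534848_ok, trivial⟩ C_11998105728
theorem L_11998347459 : HH 127 (nat_lit 11998347459, nat_lit 1) := top_sound R_11998347459
  ⟨V6_11997819072_ok, trivial⟩
  ⟨W_11981041856_ok, trivial⟩ C_11998347459
theorem L_11998347522 : HH 127 (nat_lit 11998347522, nat_lit 1) := top_sound R_11998347522
  ⟨V6_11997036801_ok, trivial⟩
  ⟨W_11981045888_ok, trivial⟩ C_11998347522
theorem L_11998351554 : HH 127 (nat_lit 11998351554, nat_lit 3) := top_sound R_11998351554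
  ⟨V6_11997819072_ok, trivial⟩
  ⟨W_11997302912_ok, W_11997040832_ok, W_11981041856_ok, trivial⟩ C_11998351554
theorem L_11998351617 : HH 127 (nat_lit 11998351617, nat_lit 4) := top_sound R_11998351617
  ⟨V6_11998085184_ok, trivial⟩
  ⟨W_11997564992_ok, W_11997040832_ok, trivial⟩ C_11998351617
theorem L_11998351680 : HH 127 (nat_lit 11998351680, nat_lit 3) := top_sound R_11998351680
  ⟨V6_11981574144_ok, trivial⟩
  ⟨W_11997564992_ok, trivial⟩ C_11998351680
theorem L_11998355586 : HH 127 (nat_lit 11998355586, nat_lit 1) := top_sound R_11998355586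
  ⟨V6_11998077057_ok, trivial⟩
  ⟨W_11997560960_ok, trivial⟩ C_11998355586
theorem L_11998355649 : HH 127 (nat_lit 11998355649, nat_lit 6) := top_sound R_11998355649
  ⟨V6_11998081089_ok, V6_11997306945_ok, trivial⟩
  ⟨W_11998081088_ok, W_11997556928_ok, W_11997298880_ok, W_11981566016_ok, W_11981041856_ok, trivial⟩ C_11998355649
theorem L_11998355712 : HH 127 (nat_lit 11998355712, nat_lit 5) := top_sound R_11998355712
  ⟨V6_11998347264_ok, V6_11981574144_ok, trivial⟩
  ⟨W_11997564992_ok, W_11980783808_ok, trivial⟩ C_11998355712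
theorem L_11998359681 : HH 127 (nat_lit 11998359681, nat_lit 4) := top_sound R_11998359681
  ⟨V6_11998339137_ok, V6_11998077057_ok, trivial⟩
  ⟨W_11997564992_ok, W_11997560960_ok, trivial⟩ C_11998359681
theorem L_11998359744 : HH 127 (nat_lit 11998359744, nat_lit 7) := top_sound R_11998359744
  ⟨V6_11998347264_ok, V6_11997573120_ok, trivial⟩
  ⟨W_11997556928_ok, W_11981570048_ok, W_11981566016_ok, W_11981041856_ok, W_11980783808_ok, trivial⟩ C_11998359744
theorem L_11998363713 : HH 127 (nat_lit 11998363713, nat_lit 2) := top_sound R_11998363713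
  ⟨V6_11998339137_ok, trivial⟩
  ⟨W_11998081088_ok, trivial⟩ C_11998363713
theorem L_11998363776 : HH 127 (nat_lit 11998363776, nat_lit 4) := top_sound R_11998363776
  ⟨V6_11998343232_ok, trivial⟩
  ⟨W_11998343168_ok, W_11981570048_ok, W_11981561984_ok, trivial⟩ C_11998363776
theorem L_11998367808 : HH 127 (nat_lit 11998367808, nat_lit 2) := top_sound R_11998367808
  ⟨V6_11998343232_ok, trivial⟩
  ⟨W_11981570048_ok, trivial⟩ C_11998367808
theorem L_11998605507 : HH 127 (nat_lit 11998605507, nat_lit 1) := top_sound R_11998605507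
  ⟨V6_11997819072_ok, trivial⟩
  ⟨W_11997556928_ok, trivial⟩ C_11998605507
theorem L_11998609665 : HH 127 (nat_lit 11998609665, nat_lit 1) := top_sound R_11998609665
  ⟨V6_11997036801_ok, trivial⟩
  ⟨W_11997823040_ok, trivial⟩ C_11998609665
theorem L_11998613634 : HH 127 (nat_lit 11998613634, nat_lit 1) := top_sound R_11998613634
  ⟨V6_11998077057_ok, trivial⟩
  ⟨W_11997302912_ok, trivial⟩ C_11998613634
theorem L_11998613697 : HH 127 (nat_lit 11998613697, nat_lit 2) := top_sound R_11998613697
  ⟨V6_11998081089_ok, trivial⟩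
  ⟨W_11997556928_ok, W_11997040832_ok, trivial⟩ C_11998613697
theorem L_11998613760 : HH 127 (nat_lit 11998613760, nat_lit 2) := top_sound R_11998613760
  ⟨V6_11998347264_ok, trivial⟩
  ⟨W_11997302912_ok, W_11997040832_ok, trivial⟩ C_11998613760
theorem L_11998617729 : HH 127 (nat_lit 11998617729, nat_lit 1) := top_sound R_11998617729
  ⟨V6_11997306945_ok, trivial⟩
  ⟨W_11998081088_ok, trivial⟩ C_11998617729
theorem L_11998617792 : HH 127 (nat_lit 11998617792, nat_lit 3) := top_sound R_11998617792
  ⟨V6_11997819072_ok, trivial⟩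
  ⟨W_11997564992_ok, trivial⟩ C_11998617792
theorem L_11998621761 : HH 127 (nat_lit 11998621761, nat_lit 2) := top_sound R_11998621761
  ⟨V6_11998339137_ok, trivial⟩
  ⟨W_11998081088_ok, trivial⟩ C_11998621761
theorem L_11998621824 : HH 127 (nat_lit 11998621824, nat_lit 2) := top_sound R_11998621824
  ⟨V6_11998605312_ok, trivial⟩
  ⟨W_11998081088_ok, trivial⟩ C_11998621824
theorem L_11998625856 : HH 127 (nat_lit 11998625856, nat_lit 1) := top_sound R_11998625856
  ⟨V6_11998605312_ok, trivial⟩
  ⟨W_11998597184_ok, trivial⟩ C_11998625856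
theorem L_11998629888 : HH 127 (nat_lit 11998629888, nat_lit 1) := top_sound R_11998629888
  ⟨V6_11998605312_ok, trivial⟩
  ⟨W_11998343168_ok, trivial⟩ C_11998629888
theorem L_12987163014 : HH 127 (nat_lit 12987163014, nat_lit 1) := top_sound R_12987163014
  ⟨V6_6544712070_ok, trivial⟩
  ⟨W_11913421184_ok, trivial⟩ C_12987163014
theorem L_13020717444 : HH 127 (nat_lit 13020717444, nat_lit 1) := top_sound R_13020717444
  ⟨V6_10839679236_ok, trivial⟩
  ⟨W_11913421184_ok, trivial⟩ C_13020717444
theorem L_13020979524 : HH 127 (nat_lit 13020979524, nat_lit 1) := top_sound R_13020979524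
  ⟨V6_9799753986_ok, trivial⟩
  ⟨W_13003940096_ok, trivial⟩ C_13020979524

theorem H_1 : AllH 127 tb1 :=
  ⟨L_11981054337, L_11981058243, L_11981058306, L_11981058369, L_11981058432, L_11981062338, L_11981062401, L_11981062464, L_11981312259, L_11981312322, L_11981316291, L_11981316354, L_11981316417, L_11981316480, L_11981320386, L_11981320449, L_11981320512, L_11981324418, L_11981324481, L_11981324544, L_11981328513, L_11981328576, L_11981570307, L_11981574339, L_11981574402, L_11981574465, L_11981578434, L_11981578497, L_11981578560, L_11981582466, L_11981582529, L_11981582592, L_11981586561, L_11981586624, L_11981590593, L_11981590656, L_11981594688, L_11997307203, L_11997307266, L_11997565188, L_11997565251, L_11997569283, L_11997569346, L_11997569409, L_11997573315, L_11997573378, L_11997573441, L_11997573504, L_11997827331, L_11997827394, L_11997831363, L_11997831426, L_11997831489, L_11997831552, L_11997835458, L_11997835521, L_11997835584, L_11997839490, L_11997839553, L_11997839616, L_11998085379, L_11998089411,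 L_11998089474, L_11998089537, L_11998093506, L_11998093569, L_11998093632, L_11998097538, L_11998097601, L_11998097664, L_11998101633, L_11998101696, L_11998105728, L_11998347459, L_11998347522, L_11998351554, L_11998351617, L_11998351680, L_11998355586, L_11998355649, L_11998355712, L_11998359681, L_11998359744, L_11998363713, L_11998363776, L_11998367808, L_11998605507, L_11998609665, L_11998613634, L_11998613697, L_11998613760, L_11998617729, L_11998617792, L_11998621761, L_11998621824, L_11998625856, L_11998629888, L_12987163014, L_13020717444, L_13020979524, trivial⟩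

theorem L_13020979587 : HH 127 (nat_lit 13020979587, nat_lit 1) := top_sound R_13020979587
  ⟨V6_10856456451_ok, trivial⟩
  ⟨W_10873233728_ok, trivial⟩ C_13020979587
theorem L_13021241604 : HH 127 (nat_lit 13021241604, nat_lit 2) := top_sound R_13021241604
  ⟨V6_10873757952_ok, trivial⟩
  ⟨W_13020971264_ok, W_13020713216_ok, trivial⟩ C_13021241604
theorem L_13021241667 : HH 127 (nat_lit 13021241667, nat_lit 2) := top_sound R_13021241667
  ⟨V6_9800016192_ok, V6_9799753986_ok, trivial⟩
  ⟨W_13020717248_ok, trivial⟩ C_13021241667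
theorem L_13021241730 : HH 127 (nat_lit 13021241730, nat_lit 3) := top_sound R_13021241730
  ⟨V6_10873233792_ok, trivial⟩
  ⟨W_13020979328_ok, W_9800016128_ok, trivial⟩ C_13021241730
theorem L_13021245699 : HH 127 (nat_lit 13021245699, nat_lit 2) := top_sound R_13021245699
  ⟨V6_10873761984_ok, trivial⟩
  ⟨W_13020971264_ok, W_11947233536_ok, trivial⟩ C_13021245699
theorem L_13021245762 : HH 127 (nat_lit 13021245762, nat_lit 2) := top_sound R_13021245762
  ⟨V6_9800016192_ok, V6_9799753986_ok, trivial⟩
  ⟨W_13021237376_ok, trivial⟩ C_13021245762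
theorem L_13021245825 : HH 127 (nat_lit 13021245825, nat_lit 2) := top_sound R_13021245825
  ⟨V6_9800016192_ok, V6_8726274432_ok, trivial⟩
  ⟨W_13021241408_ok, trivial⟩ C_13021245825
theorem L_13021249731 : HH 127 (nat_lit 13021249731, nat_lit 1) := top_sound R_13021249731
  ⟨V6_9800024256_ok, trivial⟩
  ⟨W_13021233344_ok, trivial⟩ C_13021249731
theorem L_13021249794 : HH 127 (nat_lit 13021249794, nat_lit 4) := top_sound R_13021249794
  ⟨V6_11947495554_ok, V6_8726282496_ok, trivial⟩
  ⟨W_13021237376_ok, W_8726282432_ok, trivial⟩ C_13021249794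
theorem L_13021249857 : HH 127 (nat_lit 13021249857, nat_lit 3) := top_sound R_13021249857
  ⟨V6_10873753857_ok, trivial⟩
  ⟨W_13021237376_ok, trivial⟩ C_13021249857
theorem L_13021249920 : HH 127 (nat_lit 13021249920, nat_lit 4) := top_sound R_13021249920
  ⟨V6_13021249536_ok, trivial⟩
  ⟨W_13021241408_ok, W_8726282432_ok, trivial⟩ C_13021249920
theorem L_13037494596 : HH 127 (nat_lit 13037494596, nat_lit 1) := top_sound R_13037494596
  ⟨V6_10839679236_ok, trivial⟩
  ⟨W_11963748608_ok, trivial⟩ C_13037494596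
theorem L_13037494659 : HH 127 (nat_lit 13037494659, nat_lit 2) := top_sound R_13037494659
  ⟨V6_10856456451_ok, V6_9765937539_ok, trivial⟩
  ⟨W_13020717248_ok, trivial⟩ C_13037494659
theorem L_13037752644 : HH 127 (nat_lit 13037752644, nat_lit 1) := top_sound R_13037752644
  ⟨V6_13037228352_ok, trivial⟩
  ⟨W_9816527168_ok, trivial⟩ C_13037752644
theorem L_13037756676 : HH 127 (nat_lit 13037756676, nat_lit 1) := top_sound R_13037756676
  ⟨V6_10873225476_ok, trivial⟩
  ⟨W_11963748608_ok, trivial⟩ C_13037756676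
theorem L_13037756739 : HH 127 (nat_lit 13037756739, nat_lit 3) := top_sound R_13037756739
  ⟨V6_10890010944_ok, trivial⟩
  ⟨W_13020713216_ok, W_11947233536_ok, W_9816527168_ok, trivial⟩ C_13037756739
theorem L_13037756802 : HH 127 (nat_lit 13037756802, nat_lit 2) := top_sound R_13037756802
  ⟨V6_11947237506_ok, trivial⟩
  ⟨W_13003940096_ok, W_10873233728_ok, trivial⟩ C_13037756802
theorem L_13037760771 : HH 127 (nat_lit 13037760771, nat_lit 1) := top_sound R_13037760771
  ⟨V6_9799753986_ok, trivial⟩
  ⟨W_13037748416_ok, trivial⟩ C_13037760771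
theorem L_13037760834 : HH 127 (nat_lit 13037760834, nat_lit 2) := top_sound R_13037760834
  ⟨V6_10873499841_ok, V6_9799753986_ok, trivial⟩
  ⟨W_13020979328_ok, trivial⟩ C_13037760834
theorem L_13037760897 : HH 127 (nat_lit 13037760897, nat_lit 1) := top_sound R_13037760897
  ⟨V6_10873499841_ok, trivial⟩
  ⟨W_13037756480_ok, trivial⟩ C_13037760897
theorem L_13038014724 : HH 127 (nat_lit 13038014724, nat_lit 1) := top_sound R_13038014724
  ⟨V6_10873225476_ok, trivial⟩
  ⟨W_11963748608_ok, trivial⟩ C_13038014724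
theorem L_13038014787 : HH 127 (nat_lit 13038014787, nat_lit 2) := top_sound R_13038014787
  ⟨V6_9816789312_ok, trivial⟩
  ⟨W_13020713216_ok, W_11947233536_ok, trivial⟩ C_13038014787
theorem L_13038018819 : HH 127 (nat_lit 13038018819, nat_lit 5) := top_sound R_13038018819
  ⟨V6_10873757952_ok, trivial⟩
  ⟨W_13037748416_ok, W_13021233344_ok, W_11963748608_ok, trivial⟩ C_13038018819
theorem L_13038018882 : HH 127 (nat_lit 13038018882, nat_lit 7) := top_sound R_13038018882
  ⟨V6_10873757952_ok, V6_9799753986_ok, trivial⟩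
  ⟨W_13037494400_ok, W_13021237376_ok, W_11963748608_ok, W_9816527168_ok, trivial⟩ C_13038018882
theorem L_13038018945 : HH 127 (nat_lit 13038018945, nat_lit 5) := top_sound R_13038018945
  ⟨V6_10873233792_ok, V6_9816793344_ok, V6_9800016192_ok, trivial⟩
  ⟨W_13037494400_ok, W_13021241408_ok, trivial⟩ C_13038018945
theorem L_13038022851 : HH 127 (nat_lit 13038022851, nat_lit 2) := top_sound R_13038022851
  ⟨V6_10873499841_ok, V6_9816785091_ok, trivial⟩
  ⟨W_13021233344_ok, trivial⟩ C_13038022851
theorem L_13038022914 : HH 127 (nat_lit 13038022914, nat_lit 6) := top_sound R_13038022914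
  ⟨V6_10873757952_ok, trivial⟩
  ⟨W_13037748416_ok, W_13021233344_ok, W_11964268736_ok, W_10873761920_ok, trivial⟩ C_13038022914
theorem L_13038022977 : HH 127 (nat_lit 13038022977, nat_lit 7) := top_sound R_13038022977
  ⟨V6_13020983361_ok, V6_10890539073_ok, V6_10873753857_ok, trivial⟩
  ⟨W_13021241408_ok, W_13021237376_ok, W_11947503680_ok, W_9816527168_ok, trivial⟩ C_13038022977
theorem L_13038023040 : HH 127 (nat_lit 13038023040, nat_lit 4) := top_sound R_13038023040
  ⟨V6_13037760576_ok, trivial⟩
  ⟨W_13021245440_ok, W_10873761920_ok, W_9800016128_ok, trivial⟩ C_13038023040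
theorem L_13038026946 : HH 127 (nat_lit 13038026946, nat_lit 3) := top_sound R_13038026946
  ⟨V6_11947491522_ok, V6_9800024256_ok, trivial⟩
  ⟨W_13038006464_ok, W_13021237376_ok, trivial⟩ C_13038026946
theorem L_13038027009 : HH 127 (nat_lit 13038027009, nat_lit 6) := top_sound R_13038027009
  ⟨V6_11947491585_ok, V6_10890526977_ok, V6_9816793344_ok, trivial⟩
  ⟨W_13021241408_ok, W_11947503680_ok, W_10873765952_ok, W_10873761920_ok, trivial⟩ C_13038027009
theorem L_13038027072 : HH 127 (nat_lit 13038027072, nat_lit 6) := top_sound R_13038027072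
  ⟨V6_13021249536_ok, V6_9800024256_ok, trivial⟩
  ⟨W_13021241408_ok, W_13021237376_ok, trivial⟩ C_13038027072
theorem L_13038276867 : HH 127 (nat_lit 13038276867, nat_lit 1) := top_sound R_13038276867
  ⟨V6_9816785091_ok, trivial⟩
  ⟨W_11963748608_ok, trivial⟩ C_13038276867
theorem L_13038276930 : HH 127 (nat_lit 13038276930, nat_lit 3) := top_sound R_13038276930
  ⟨V6_9817051266_ok, V6_9816789312_ok, trivial⟩
  ⟨W_13037490368_ok, W_11963748608_ok, trivial⟩ C_13038276930
theorem L_13038280899 : HH 127 (nat_lit 13038280899, nat_lit 3) := top_sound R_13038280899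
  ⟨V6_9817055424_ok, V6_9817051329_ok, V6_9816785091_ok, trivial⟩
  ⟨W_13037748416_ok, W_10890272960_ok, trivial⟩ C_13038280899
theorem L_13038280962 : HH 127 (nat_lit 13038280962, nat_lit 3) := top_sound R_13038280962
  ⟨V6_9817051329_ok, V6_9817051266_ok, V6_9816793344_ok, trivial⟩
  ⟨W_13038010496_ok, trivial⟩ C_13038280962
theorem L_13038281025 : HH 127 (nat_lit 13038281025, nat_lit 5) := top_sound R_13038281025
  ⟨V6_10890010944_ok, V6_9817051329_ok, V6_9816793344_ok, trivial⟩
  ⟨W_13037494400_ok, W_11964534848_ok, W_9816527168_ok, trivial⟩ C_13038281025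
theorem L_13038281088 : HH 127 (nat_lit 13038281088, nat_lit 2) := top_sound R_13038281088
  ⟨V6_13038280704_ok, trivial⟩
  ⟨W_13038018560_ok, trivial⟩ C_13038281088
theorem L_13038284994 : HH 127 (nat_lit 13038284994, nat_lit 3) := top_sound R_13038284994
  ⟨V6_13038268608_ok, trivial⟩
  ⟨W_13038010496_ok, trivial⟩ C_13038284994
theorem L_13038285057 : HH 127 (nat_lit 13038285057, nat_lit 4) := top_sound R_13038285057
  ⟨V6_10890526977_ok, V6_9817055424_ok, V6_9817051329_ok, V6_9816793344_ok, trivial⟩
  ⟨W_13037748416_ok, W_11964534848_ok, W_11964018752_ok, trivial⟩ C_13038285057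
theorem L_13038285120 : HH 127 (nat_lit 13038285120, nat_lit 5) := top_sound R_13038285120
  ⟨V6_13038280704_ok, V6_9817055424_ok, V6_9816793344_ok, trivial⟩
  ⟨W_11964280832_ok, W_11964018752_ok, W_10890531008_ok, W_10890272960_ok, W_9816527168_ok, trivial⟩ C_13038285120
theorem L_13038289026 : HH 127 (nat_lit 13038289026, nat_lit 1) := top_sound R_13038289026
  ⟨V6_9817051266_ok, trivial⟩
  ⟨W_13038268544_ok, trivial⟩ C_13038289026
theorem L_13038289089 : HH 127 (nat_lit 13038289089, nat_lit 3) := top_sound R_13038289089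
  ⟨V6_10890539073_ok, V6_9817055424_ok, V6_9817051329_ok, trivial⟩
  ⟨W_13038010496_ok, trivial⟩ C_13038289089
theorem L_13038289152 : HH 127 (nat_lit 13038289152, nat_lit 2) := top_sound R_13038289152
  ⟨V6_9817055424_ok, V6_9816793344_ok, trivial⟩
  ⟨W_13038276608_ok, W_13038272576_ok, trivial⟩ C_13038289152
theorem L_13038293184 : HH 127 (nat_lit 13038293184, nat_lit 1) := top_sound R_13038293184
  ⟨V6_9817055424_ok, trivial⟩
  ⟨W_13038276608_ok, trivial⟩ C_13038293184
theorem L_13054271748 : HH 127 (nat_lit 13054271748, nat_lit 2) := top_sound R_13054271748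
  ⟨V6_12987154692_ok, V6_10839679236_ok, trivial⟩
  ⟨W_11980521728_ok, W_11963748608_ok, trivial⟩ C_13054271748
theorem L_13054271811 : HH 127 (nat_lit 13054271811, nat_lit 2) := top_sound R_13054271811
  ⟨V6_11913421122_ok, V6_10856456451_ok, trivial⟩
  ⟨W_11980525760_ok, W_10906788032_ok, trivial⟩ C_13054271811
theorem L_13054271874 : HH 127 (nat_lit 13054271874, nat_lit 4) := top_sound R_13054271874
  ⟨V6_11913421122_ok, V6_10873233792_ok, trivial⟩
  ⟨W_13037494400_ok, W_10906788032_ok, trivial⟩ C_13054271874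
theorem L_13054529796 : HH 127 (nat_lit 13054529796, nat_lit 1) := top_sound R_13054529796
  ⟨V6_10873225476_ok, trivial⟩
  ⟨W_13054001408_ok, trivial⟩ C_13054529796
theorem L_13054529859 : HH 127 (nat_lit 13054529859, nat_lit 1) := top_sound R_13054529859
  ⟨V6_10890006849_ok, trivial⟩
  ⟨W_11980525760_ok, trivial⟩ C_13054529859
theorem L_13054533891 : HH 127 (nat_lit 13054533891, nat_lit 5) := top_sound R_13054533891
  ⟨V6_10907042049_ok, V6_10907041986_ok, trivial⟩
  ⟨W_13020717248_ok, W_13020713216_ok, W_13003940096_ok, W_10906788032_ok, trivial⟩ C_13054533891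
theorem L_13054533954 : HH 127 (nat_lit 13054533954, nat_lit 6) := top_sound R_13054533954
  ⟨V6_11947237506_ok, V6_11930460480_ok, V6_10907046018_ok, V6_10873233729_ok, trivial⟩
  ⟨W_13054267520_ok, W_13037494400_ok, W_10906788032_ok, trivial⟩ C_13054533954
theorem L_13054534017 : HH 127 (nat_lit 13054534017, nat_lit 5) := top_sound R_13054534017
  ⟨V6_10873233792_ok, V6_10873233729_ok, trivial⟩
  ⟨W_13054271552_ok, W_10907050112_ok, trivial⟩ C_13054534017
theorem L_13054537923 : HH 127 (nat_lit 13054537923, nat_lit 2) := top_sound R_13054537923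
  ⟨V6_10907037891_ok, V6_10873499841_ok, trivial⟩
  ⟨W_11980783808_ok, trivial⟩ C_13054537923
theorem L_13054537986 : HH 127 (nat_lit 13054537986, nat_lit 3) := top_sound R_13054537986
  ⟨V6_10907046018_ok, V6_10907042049_ok, trivial⟩
  ⟨W_13020979328_ok, W_10907050112_ok, trivial⟩ C_13054537986
theorem L_13054538049 : HH 127 (nat_lit 13054538049, nat_lit 3) := top_sound R_13054538049
  ⟨V6_13020983361_ok, trivial⟩
  ⟨W_11980791872_ok, W_10907050112_ok, W_10890272960_ok, trivial⟩ C_13054538049
theorem L_13054538112 : HH 127 (nat_lit 13054538112, nat_lit 2) := top_sound R_13054538112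
  ⟨V6_13054537728_ok, trivial⟩
  ⟨W_10907050112_ok, W_10890272960_ok, trivial⟩ C_13054538112
theorem L_13054787844 : HH 127 (nat_lit 13054787844, nat_lit 2) := top_sound R_13054787844
  ⟨V6_10907304192_ok, trivial⟩
  ⟨W_13054001408_ok, W_13020971264_ok, trivial⟩ C_13054787844
theorem L_13054791939 : HH 127 (nat_lit 13054791939, nat_lit 5) := top_sound R_13054791939
  ⟨V6_10907304192_ok, trivial⟩
  ⟨W_13054263488_ok, W_13021233344_ok, W_13020713216_ok, trivial⟩ C_13054791939
theorem L_13054792002 : HH 127 (nat_lit 13054792002, nat_lit 3) := top_sound R_13054792002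
  ⟨V6_10907046018_ok, V6_10890006849_ok, V6_10873753794_ok, trivial⟩
  ⟨W_13054267520_ok, trivial⟩ C_13054792002
theorem L_13054795971 : HH 127 (nat_lit 13054795971, nat_lit 4) := top_sound R_13054795971
  ⟨V6_10907041986_ok, V6_10907037891_ok, V6_10873753794_ok, trivial⟩
  ⟨W_13038006464_ok, W_13020717248_ok, W_11981041856_ok, trivial⟩ C_13054795971
theorem L_13054796034 : HH 127 (nat_lit 13054796034, nat_lit 14) := top_sound R_13054796034
  ⟨V6_10907304192_ok, V6_10907304066_ok, V6_10873757952_ok, trivial⟩
  ⟨W_13054267520_ok, W_13054263488_ok, W_13037494400_ok, W_13021237376_ok, W_13021233344_ok, W_10906788032_ok, trivial⟩ C_13054796034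
theorem L_13054796097 : HH 127 (nat_lit 13054796097, nat_lit 13) := top_sound R_13054796097
  ⟨V6_10907312256_ok, V6_10907308161_ok, trivial⟩
  ⟨W_13054271552_ok, W_13037494400_ok, W_13021237376_ok, W_13020979328_ok, W_13020713216_ok, W_10873233728_ok, trivial⟩ C_13054796097
theorem L_13054796160 : HH 127 (nat_lit 13054796160, nat_lit 11) := top_sound R_13054796160
  ⟨V6_10907312256_ok, V6_10873757952_ok, trivial⟩
  ⟨W_13054533632_ok, W_13054271552_ok, W_13037494400_ok, W_10873233728_ok, trivial⟩ C_13054796160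
theorem L_13054800066 : HH 127 (nat_lit 13054800066, nat_lit 9) := top_sound R_13054800066
  ⟨V6_10907304066_ok, V6_10907041986_ok, V6_10873761984_ok, V6_10873753794_ok, trivial⟩
  ⟨W_13054783616_ok, W_13054525568_ok, W_13020979328_ok, trivial⟩ C_13054800066
theorem L_13054800129 : HH 127 (nat_lit 13054800129, nat_lit 14) := top_sound R_13054800129
  ⟨V6_11947491585_ok, V6_10907304192_ok, V6_10907042049_ok, V6_10890539073_ok, V6_10890526977_ok, V6_10873499841_ok, trivial⟩
  ⟨W_13037756480_ok, W_13021241408_ok, W_13021237376_ok, W_13020979328_ok, W_11964018752_ok, W_11947503680_ok, W_10907042048_ok, W_10873761920_ok, trivial⟩ C_13054800129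
theorem L_13054800192 : HH 127 (nat_lit 13054800192, nat_lit 12) := top_sound R_13054800192
  ⟨V6_13054537728_ok, V6_11981058048_ok, V6_10907316288_ok, trivial⟩
  ⟨W_13021245440_ok, W_13021237376_ok, W_11964018752_ok, W_11947503680_ok, W_11947237568_ok, W_11947233536_ok, W_10907316224_ok, W_10890272960_ok, W_10873761920_ok, trivial⟩ C_13054800192
theorem L_13054804098 : HH 127 (nat_lit 13054804098, nat_lit 5) := top_sound R_13054804098
  ⟨V6_13054779522_ok, V6_10907304066_ok, trivial⟩
  ⟨W_13021237376_ok, W_10907308160_ok, W_10873761920_ok, trivial⟩ C_13054804098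
theorem L_13054804161 : HH 127 (nat_lit 13054804161, nat_lit 9) := top_sound R_13054804161
  ⟨V6_10907312256_ok, trivial⟩
  ⟨W_13021241408_ok, W_13021237376_ok, W_13021233344_ok, W_10873765952_ok, trivial⟩ C_13054804161
theorem L_13054804224 : HH 127 (nat_lit 13054804224, nat_lit 14) := top_sound R_13054804224
  ⟨V6_13021249536_ok, V6_10907320320_ok, V6_10907304192_ok, trivial⟩
  ⟨W_13021245440_ok, W_13021241408_ok, W_13021237376_ok, W_13021233344_ok, W_11964280832_ok, W_11947503680_ok, W_10907316224_ok, W_10873761920_ok, trivial⟩ C_13054804224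
theorem L_13055049987 : HH 127 (nat_lit 13055049987, nat_lit 2) := top_sound R_13055049987
  ⟨V6_10907566272_ok, trivial⟩
  ⟨W_13054001408_ok, W_13037486336_ok, trivial⟩ C_13055049987
theorem L_13055054019 : HH 127 (nat_lit 13055054019, nat_lit 3) := top_sound R_13055054019
  ⟨V6_10907566272_ok, trivial⟩
  ⟨W_13054263488_ok, trivial⟩ C_13055054019
theorem L_13055054082 : HH 127 (nat_lit 13055054082, nat_lit 7) := top_sound R_13055054082
  ⟨V6_10907566209_ok, V6_10907304066_ok, trivial⟩
  ⟨W_13054267520_ok, W_13054263488_ok, W_13054001408_ok, trivial⟩ C_13055054082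
theorem L_13055054145 : HH 127 (nat_lit 13055054145, nat_lit 4) := top_sound R_13055054145
  ⟨V6_10907308161_ok, trivial⟩
  ⟨W_13054267520_ok, W_11964534848_ok, trivial⟩ C_13055054145
theorem L_13055058114 : HH 127 (nat_lit 13055058114, nat_lit 10) := top_sound R_13055058114
  ⟨V6_10907566272_ok, V6_10907304066_ok, V6_10907041986_ok, trivial⟩
  ⟨W_13054267520_ok, W_13038268544_ok, W_13038006464_ok, W_13037494400_ok, W_11964526784_ok, W_10906788032_ok, trivial⟩ C_13055058114
theorem L_13055058177 : HH 127 (nat_lit 13055058177, nat_lit 15) := top_sound R_13055058177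
  ⟨V6_10907566272_ok, V6_10907566209_ok, V6_10907304192_ok, V6_10890526977_ok, trivial⟩
  ⟨W_13054271552_ok, W_13054267520_ok, W_13038272576_ok, W_13037756480_ok, W_13037494400_ok, W_11964534848_ok, W_10906788032_ok, trivial⟩ C_13055058177
theorem L_13055058240 : HH 127 (nat_lit 13055058240, nat_lit 13) := top_sound R_13055058240
  ⟨V6_13055053824_ok, V6_13038280704_ok, trivial⟩
  ⟨W_13054271552_ok, W_13037494400_ok, W_11980525760_ok, W_11963748608_ok, W_10907574272_ok, W_10890531008_ok, W_10890272960_ok, W_10890010880_ok, trivial⟩ C_13055058240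
theorem L_13055062146 : HH 127 (nat_lit 13055062146, nat_lit 4) := top_sound R_13055062146
  ⟨V6_10907304066_ok, trivial⟩
  ⟨W_13054783616_ok, W_13038268544_ok, trivial⟩ C_13055062146
theorem L_13055062209 : HH 127 (nat_lit 13055062209, nat_lit 13) := top_sound R_13055062209
  ⟨V6_10907566272_ok, V6_10907566209_ok, V6_10907316288_ok, V6_10907308161_ok, trivial⟩
  ⟨W_13055045696_ok, W_13054521536_ok, W_13038272576_ok, W_13038268544_ok, W_13038006464_ok, W_13037756480_ok, W_11964534848_ok, W_11964526784_ok, W_11964018752_ok, trivial⟩ C_13055062209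
theorem L_13055062272 : HH 127 (nat_lit 13055062272, nat_lit 15) := top_sound R_13055062272
  ⟨V6_11981058048_ok, V6_10907316288_ok, V6_10907304192_ok, trivial⟩
  ⟨W_13054533632_ok, W_13037756480_ok, W_11980795904_ok, W_11980783808_ok, W_11964280832_ok, W_11964018752_ok, W_10907574272_ok, W_10907042048_ok, trivial⟩ C_13055062272
theorem L_13055066241 : HH 127 (nat_lit 13055066241, nat_lit 7) := top_sound R_13055066241
  ⟨V6_10907566209_ok, V6_10907308161_ok, trivial⟩
  ⟨W_13055045696_ok, W_13054787648_ok, trivial⟩ C_13055066241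
theorem L_13055066304 : HH 127 (nat_lit 13055066304, nat_lit 12) := top_sound R_13055066304
  ⟨V6_11981058048_ok, V6_10907566272_ok, V6_10907320320_ok, trivial⟩
  ⟨W_13055045696_ok, W_13038272576_ok, W_13038268544_ok, W_13038018560_ok, W_11964534848_ok, W_11964526784_ok, W_10907574272_ok, trivial⟩ C_13055066304
theorem L_13055070273 : HH 127 (nat_lit 13055070273, nat_lit 1) := top_sound R_13055070273
  ⟨V6_10890801216_ok, trivial⟩
  ⟨W_13055045696_ok, trivial⟩ C_13055070273
theorem L_13055070336 : HH 127 (nat_lit 13055070336, nat_lit 2) := top_sound R_13055070336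
  ⟨V6_13038280704_ok, trivial⟩
  ⟨W_13055041664_ok, W_10907566208_ok, trivial⟩ C_13055070336
theorem L_13055312067 : HH 127 (nat_lit 13055312067, nat_lit 1) := top_sound R_13055312067
  ⟨V6_10907037891_ok, trivial⟩
  ⟨W_13054263488_ok, trivial⟩ C_13055312067
theorem L_13055312130 : HH 127 (nat_lit 13055312130, nat_lit 5) := top_sound R_13055312130
  ⟨V6_10907304066_ok, V6_10907041986_ok, trivial⟩
  ⟨W_13054525568_ok, W_13054001408_ok, trivial⟩ C_13055312130
theorem L_13055316162 : HH 127 (nat_lit 13055316162, nat_lit 4) := top_sound R_13055316162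
  ⟨V6_10907304066_ok, trivial⟩
  ⟨W_13054783616_ok, W_13054521536_ok, trivial⟩ C_13055316162
theorem L_13055316225 : HH 127 (nat_lit 13055316225, nat_lit 7) := top_sound R_13055316225
  ⟨V6_10907304192_ok, V6_10907042049_ok, trivial⟩
  ⟨W_13054267520_ok, W_13054263488_ok, W_13054001408_ok, W_10907828288_ok, trivial⟩ C_13055316225
theorem L_13055316288 : HH 127 (nat_lit 13055316288, nat_lit 2) := top_sound R_13055316288
  ⟨V6_11981574144_ok, trivial⟩
  ⟨W_13054267520_ok, trivial⟩ C_13055316288
theorem L_13055320194 : HH 127 (nat_lit 13055320194, nat_lit 6) := top_sound R_13055320194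
  ⟨V6_10907820162_ok, V6_10907304066_ok, trivial⟩
  ⟨W_13055041664_ok, W_13054783616_ok, W_11981561984_ok, trivial⟩ C_13055320194
theorem L_13055320257 : HH 127 (nat_lit 13055320257, nat_lit 10) := top_sound R_13055320257
  ⟨V6_10907312256_ok, trivial⟩
  ⟨W_13055045696_ok, W_13054271552_ok, W_13054263488_ok, W_11981566016_ok, trivial⟩ C_13055320257
theorem L_13055320320 : HH 127 (nat_lit 13055320320, nat_lit 16) := top_sound R_13055320320
  ⟨V6_13055311872_ok, V6_10907304192_ok, trivial⟩
  ⟨W_13054271552_ok, W_13054267520_ok, W_13054263488_ok, W_11981570048_ok, W_10907832320_ok, W_10907828288_ok, W_10907574272_ok, W_10907566208_ok, W_10906788032_ok, trivial⟩ C_13055320320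
theorem L_13055324289 : HH 127 (nat_lit 13055324289, nat_lit 8) := top_sound R_13055324289
  ⟨V6_11981561985_ok, V6_10907828352_ok, V6_10907566209_ok, trivial⟩
  ⟨W_13055303744_ok, W_13055045696_ok, W_13055041664_ok, W_11981566016_ok, W_11981561984_ok, trivial⟩ C_13055324289
theorem L_13055324352 : HH 127 (nat_lit 13055324352, nat_lit 13) := top_sound R_13055324352
  ⟨V6_13055311872_ok, trivial⟩
  ⟨W_13055045696_ok, W_13054521536_ok, W_11981041856_ok, W_11980795904_ok, W_11980787840_ok, W_11980783808_ok, W_10907566208_ok, W_10907316224_ok, W_10907304128_ok, trivial⟩ C_13055324352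
theorem L_13055328321 : HH 127 (nat_lit 13055328321, nat_lit 3) := top_sound R_13055328321
  ⟨V6_10907316288_ok, trivial⟩
  ⟨W_13055303744_ok, W_11981566016_ok, trivial⟩ C_13055328321
theorem L_13055328384 : HH 127 (nat_lit 13055328384, nat_lit 12) := top_sound R_13055328384
  ⟨V6_11981574144_ok, V6_10907828352_ok, V6_10907320320_ok, trivial⟩
  ⟨W_13055307776_ok, W_13055303744_ok, W_13055045696_ok, W_13055041664_ok, W_11981561984_ok, W_10907574272_ok, W_10907316224_ok, trivial⟩ C_13055328384
theorem L_13055332416 : HH 127 (nat_lit 13055332416, nat_lit 4) := top_sound R_13055332416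
  ⟨V6_11981574144_ok, trivial⟩
  ⟨W_13055303744_ok, W_13055045696_ok, trivial⟩ C_13055332416
theorem L_13055336448 : HH 127 (nat_lit 13055336448, nat_lit 2) := top_sound R_13055336448
  ⟨V6_11981574144_ok, trivial⟩
  ⟨W_13055307776_ok, trivial⟩ C_13055336448
theorem L_13071044868 : HH 127 (nat_lit 13071044868, nat_lit 1) := top_sound R_13071044868
  ⟨V6_12987154692_ok, trivial⟩
  ⟨W_13054001408_ok, trivial⟩ C_13071044868
theorem L_13071044931 : HH 127 (nat_lit 13071044931, nat_lit 1) := top_sound R_13071044931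
  ⟨V6_11930194179_ok, trivial⟩
  ⟨W_11997040832_ok, trivial⟩ C_13071044931

theorem H_2 : AllH 127 tb2 :=
  ⟨L_13020979587, L_13021241604, L_13021241667, L_13021241730, L_13021245699, L_13021245762, L_13021245825, L_13021249731, L_13021249794, L_13021249857, L_13021249920, L_13037494596, L_13037494659, L_13037752644, L_13037756676, L_13037756739, L_13037756802, L_13037760771, L_13037760834, L_13037760897, L_13038014724, L_13038014787, L_13038018819, L_13038018882, L_13038018945, L_13038022851, L_13038022914, L_13038022977, L_13038023040, L_13038026946, L_13038027009, L_13038027072, L_13038276867, L_13038276930, L_13038280899, L_13038280962, L_13038281025, L_13038281088, L_13038284994, L_13038285057, L_13038285120, L_13038289026, L_13038289089, L_13038289152, L_13038293184, L_13054271748, L_13054271811, L_13054271874, L_13054529796, L_13054529859, L_13054533891, L_13054533954, L_13054534017, L_13054537923, L_13054537986, L_13054538049, L_13054538112, L_13054787844, L_13054791939, L_13054792002, L_13054795971, L_13054796034,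 L_13054796097, L_13054796160, L_13054800066, L_13054800129, L_13054800192, L_13054804098, L_13054804161, L_13054804224, L_13055049987, L_13055054019, L_13055054082, L_13055054145, L_13055058114, L_13055058177, L_13055058240, L_13055062146, L_13055062209, L_13055062272, L_13055066241, L_13055066304, L_13055070273, L_13055070336, L_13055312067, L_13055312130, L_13055316162, L_13055316225, L_13055316288, L_13055320194, L_13055320257, L_13055320320, L_13055324289, L_13055324352, L_13055328321, L_13055328384, L_13055332416, L_13055336448, L_13071044868, L_13071044931, trivial⟩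

theorem L_13071048963 : HH 127 (nat_lit 13071048963, nat_lit 3) := top_sound R_13071048963
  ⟨V6_12987162882_ok, trivial⟩
  ⟨W_13054263488_ok, trivial⟩ C_13071048963
theorem L_13071049026 : HH 127 (nat_lit 13071049026, nat_lit 3) := top_sound R_13071049026
  ⟨V6_12987162882_ok, trivial⟩
  ⟨W_13054267520_ok, trivial⟩ C_13071049026
theorem L_13071049089 : HH 127 (nat_lit 13071049089, nat_lit 3) := top_sound R_13071049089
  ⟨V6_11997306945_ok, trivial⟩
  ⟨W_13037494400_ok, trivial⟩ C_13071049089
theorem L_13071307011 : HH 127 (nat_lit 13071307011, nat_lit 4) := top_sound R_13071307011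
  ⟨V6_13004198082_ok, V6_11997040833_ok, V6_11997036801_ok, trivial⟩
  ⟨W_13054001408_ok, W_13020971264_ok, W_13020713216_ok, W_11997040832_ok, trivial⟩ C_13071307011
theorem L_13071307074 : HH 127 (nat_lit 13071307074, nat_lit 3) := top_sound R_13071307074
  ⟨V6_13004198082_ok, V6_11963486466_ok, trivial⟩
  ⟨W_13054267520_ok, trivial⟩ C_13071307074
theorem L_13071311043 : HH 127 (nat_lit 13071311043, nat_lit 3) := top_sound R_13071311043
  ⟨V6_13003940034_ok, trivial⟩
  ⟨W_11997556928_ok, W_11980783808_ok, trivial⟩ C_13071311043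
theorem L_13071311106 : HH 127 (nat_lit 13071311106, nat_lit 9) := top_sound R_13071311106
  ⟨V6_13004198082_ok, V6_13003940034_ok, V6_11947237506_ok, V6_11930198274_ok, trivial⟩
  ⟨W_13071040640_ok, W_13054525568_ok, W_11980787840_ok, trivial⟩ C_13071311106
theorem L_13071311169 : HH 127 (nat_lit 13071311169, nat_lit 9) := top_sound R_13071311169
  ⟨V6_11997569088_ok, trivial⟩
  ⟨W_13054271552_ok, W_13037494400_ok, W_13020713216_ok, W_13003940096_ok, W_11963748608_ok, trivial⟩ C_13071311169
theorem L_13071311232 : HH 127 (nat_lit 13071311232, nat_lit 5) := top_sound R_13071311232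
  ⟨V6_11997569088_ok, trivial⟩
  ⟨W_13071048704_ok, W_13037494400_ok, trivial⟩ C_13071311232
theorem L_13071315138 : HH 127 (nat_lit 13071315138, nat_lit 4) := top_sound R_13071315138
  ⟨V6_13004198082_ok, V6_11947237506_ok, trivial⟩
  ⟨W_13071298688_ok, W_11997560960_ok, W_11997556928_ok, trivial⟩ C_13071315138
theorem L_13071315201 : HH 127 (nat_lit 13071315201, nat_lit 6) := top_sound R_13071315201
  ⟨V6_11997569088_ok, trivial⟩
  ⟨W_13020971264_ok, W_11997564992_ok, W_11964018752_ok, W_11947233536_ok, trivial⟩ C_13071315201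
theorem L_13071315264 : HH 127 (nat_lit 13071315264, nat_lit 6) := top_sound R_13071315264
  ⟨V6_11997573120_ok, V6_11930460480_ok, trivial⟩
  ⟨W_11997564992_ok, W_11980787840_ok, W_11964018752_ok, trivial⟩ C_13071315264
theorem L_13071565059 : HH 127 (nat_lit 13071565059, nat_lit 3) := top_sound R_13071565059
  ⟨V6_11947491585_ok, trivial⟩
  ⟨W_13054263488_ok, trivial⟩ C_13071565059
theorem L_13071569091 : HH 127 (nat_lit 13071569091, nat_lit 4) := top_sound R_13071569091
  ⟨V6_11997819072_ok, trivial⟩
  ⟨W_13071036608_ok, W_13021233344_ok, W_13020975296_ok, trivial⟩ C_13071569091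
theorem L_13071569154 : HH 127 (nat_lit 13071569154, nat_lit 10) := top_sound R_13071569154
  ⟨V6_11997036801_ok, V6_11947495680_ok, V6_11947495554_ok, trivial⟩
  ⟨W_13071040640_ok, W_13070782592_ok, W_13054267520_ok, W_13054001408_ok, W_11997040832_ok, trivial⟩ C_13071569154
theorem L_13071569217 : HH 127 (nat_lit 13071569217, nat_lit 7) := top_sound R_13071569217
  ⟨V6_11997040833_ok, V6_11947495680_ok, trivial⟩
  ⟨W_13070782592_ok, W_13054267520_ok, W_11997564992_ok, trivial⟩ C_13071569217
theorem L_13071573186 : HH 127 (nat_lit 13071573186, nat_lit 13) := top_sound R_13071573186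
  ⟨V6_11947499712_ok, V6_11947495554_ok, V6_11947491522_ok, trivial⟩
  ⟨W_13071298688_ok, W_13071040640_ok, W_13071036608_ok, W_13037494400_ok, W_11997819008_ok, W_11997556928_ok, W_11997302912_ok, trivial⟩ C_13071573186
theorem L_13071573249 : HH 127 (nat_lit 13071573249, nat_lit 20) := top_sound R_13071573249
  ⟨V6_11997569088_ok, V6_11997306945_ok, V6_11947491585_ok, trivial⟩
  ⟨W_13071040640_ok, W_13054271552_ok, W_13054267520_ok, W_13054263488_ok, W_13037494400_ok, W_13021237376_ok, trivial⟩ C_13071573249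
theorem L_13071573312 : HH 127 (nat_lit 13071573312, nat_lit 17) := top_sound R_13071573312
  ⟨V6_13071310848_ok, V6_11997569088_ok, trivial⟩
  ⟨W_13071048704_ok, W_13054271552_ok, W_13054267520_ok, W_13037494400_ok, W_13021237376_ok, W_11963748608_ok, trivial⟩ C_13071573312
theorem L_13071577218 : HH 127 (nat_lit 13071577218, nat_lit 6) := top_sound R_13071577218
  ⟨V6_13054779522_ok, V6_11947495554_ok, trivial⟩
  ⟨W_13021237376_ok, W_13020979328_ok, W_11997819008_ok, trivial⟩ C_13071577218
theorem L_13071577281 : HH 127 (nat_lit 13071577281, nat_lit 16) := top_sound R_13071577281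
  ⟨V6_13021241409_ok, V6_13020983361_ok, V6_11997569088_ok, trivial⟩
  ⟨W_13071560768_ok, W_13021237376_ok, W_13021233344_ok, W_11997564992_ok, W_11997556928_ok, W_11981041856_ok, W_11947503680_ok, trivial⟩ C_13071577281
theorem L_13071577344 : HH 127 (nat_lit 13071577344, nat_lit 20) := top_sound R_13071577344
  ⟨V6_13021233408_ok, V6_11997573120_ok, V6_11981058048_ok, trivial⟩
  ⟨W_13071564800_ok, W_13021245440_ok, W_13021237376_ok, W_11997569024_ok, W_11997564992_ok, W_11980795904_ok, W_11964280832_ok, W_11964018752_ok, W_11947503680_ok, trivial⟩ C_13071577344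
theorem L_13071581313 : HH 127 (nat_lit 13071581313, nat_lit 8) := top_sound R_13071581313
  ⟨V6_13021245504_ok, V6_13021241409_ok, trivial⟩
  ⟨W_13071560768_ok, W_13071556736_ok, W_11997823040_ok, W_11997819008_ok, trivial⟩ C_13071581313
theorem L_13071581376 : HH 127 (nat_lit 13071581376, nat_lit 14) := top_sound R_13071581376
  ⟨V6_13071568896_ok, trivial⟩
  ⟨W_13071560768_ok, W_13021245440_ok, W_13021237376_ok, W_13021233344_ok, W_11981041856_ok, W_11947503680_ok, trivial⟩ C_13071581376
theorem L_13071827139 : HH 127 (nat_lit 13071827139, nat_lit 3) := top_sound R_13071827139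
  ⟨V6_13070516418_ok, V6_13037482179_ok, trivial⟩
  ⟨W_11997556928_ok, W_11980783808_ok, trivial⟩ C_13071827139
theorem L_13071827202 : HH 127 (nat_lit 13071827202, nat_lit 4) := top_sound R_13071827202
  ⟨V6_11964268800_ok, trivial⟩
  ⟨W_13071040640_ok, W_13054001408_ok, trivial⟩ C_13071827202
theorem L_13071831234 : HH 127 (nat_lit 13071831234, nat_lit 10) := top_sound R_13071831234
  ⟨V6_13070774466_ok, V6_11997819072_ok, V6_11997040833_ok, trivial⟩
  ⟨W_13071040640_ok, W_13038268544_ok, W_13038010496_ok, W_11997040832_ok, W_11964526784_ok, trivial⟩ C_13071831234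
theorem L_13071831297 : HH 127 (nat_lit 13071831297, nat_lit 14) := top_sound R_13071831297
  ⟨V6_11998085184_ok, V6_11997040833_ok, V6_11997036801_ok, trivial⟩
  ⟨W_13071040640_ok, W_13054001408_ok, W_13038272576_ok, W_13038010496_ok, W_13037486336_ok, W_11997564992_ok, W_11964534848_ok, trivial⟩ C_13071831297
theorem L_13071831360 : HH 127 (nat_lit 13071831360, nat_lit 10) := top_sound R_13071831360
  ⟨V6_13055053824_ok, V6_13037228352_ok, trivial⟩
  ⟨W_13070782592_ok, W_11997564992_ok, W_11997302912_ok, W_11997040832_ok, W_11964534848_ok, W_11964010688_ok, W_11963748608_ok, trivial⟩ C_13071831360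
theorem L_13071835266 : HH 127 (nat_lit 13071835266, nat_lit 7) := top_sound R_13071835266
  ⟨V6_13071294594_ok, V6_13054779522_ok, V6_11998077057_ok, trivial⟩
  ⟨W_13071040640_ok, W_11980529792_ok, W_11964014720_ok, trivial⟩ C_13071835266
theorem L_13071835329 : HH 127 (nat_lit 13071835329, nat_lit 20) := top_sound R_13071835329
  ⟨V6_11998081089_ok, V6_11997569088_ok, V6_11997306945_ok, trivial⟩
  ⟨W_13071560768_ok, W_13071040640_ok, W_13071036608_ok, W_13055045696_ok, W_13054263488_ok, W_13038268544_ok, W_13037494400_ok, W_11964526784_ok, trivial⟩ C_13071835329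
theorem L_13071835392 : HH 127 (nat_lit 13071835392, nat_lit 23) := top_sound R_13071835392
  ⟨V6_13071310848_ok, V6_11997569088_ok, trivial⟩
  ⟨W_13071048704_ok, W_13071040640_ok, W_13054267520_ok, W_13054263488_ok, W_13038272576_ok, W_13037494400_ok, W_11997564992_ok, W_11997298880_ok, W_11980521728_ok, W_11964268736_ok, W_11963748608_ok, trivial⟩ C_13071835392
theorem L_13071839361 : HH 127 (nat_lit 13071839361, nat_lit 14) := top_sound R_13071839361
  ⟨V6_11998085184_ok, V6_11998077057_ok, trivial⟩
  ⟨W_13071560768_ok, W_13071556736_ok, W_13055045696_ok, W_13038268544_ok, W_13038010496_ok, W_11964018752_ok, trivial⟩ C_13071839361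
theorem L_13071839424 : HH 127 (nat_lit 13071839424, nat_lit 23) := top_sound R_13071839424
  ⟨V6_13071310848_ok, V6_11997573120_ok, V6_11981058048_ok, trivial⟩
  ⟨W_13071822848_ok, W_13071560768_ok, W_13071298688_ok, W_13055045696_ok, W_13038268544_ok, W_11998081088_ok, W_11997564992_ok, W_11997556928_ok, W_11980783808_ok, W_11964526784_ok, trivial⟩ C_13071839424
theorem L_13071843393 : HH 127 (nat_lit 13071843393, nat_lit 7) := top_sound R_13071843393
  ⟨V6_11998085184_ok, trivial⟩
  ⟨W_13071560768_ok, W_13038272576_ok, W_11964534848_ok, trivial⟩ C_13071843393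
theorem L_13071843456 : HH 127 (nat_lit 13071843456, nat_lit 14) := top_sound R_13071843456
  ⟨V6_11998085184_ok, V6_11981058048_ok, trivial⟩
  ⟨W_13071822848_ok, W_13071818816_ok, W_13071556736_ok, W_13055045696_ok, W_13055041664_ok, W_13038272576_ok, W_13038268544_ok, trivial⟩ C_13071843456
theorem L_13071847488 : HH 127 (nat_lit 13071847488, nat_lit 4) := top_sound R_13071847488
  ⟨V6_11998085184_ok, trivial⟩
  ⟨W_13071822848_ok, W_13038272576_ok, trivial⟩ C_13071847488
theorem L_13072089282 : HH 127 (nat_lit 13072089282, nat_lit 6) := top_sound R_13072089282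
  ⟨V6_11997819072_ok, trivial⟩
  ⟨W_13071298688_ok, W_13071040640_ok, trivial⟩ C_13072089282
theorem L_13072089345 : HH 127 (nat_lit 13072089345, nat_lit 6) := top_sound R_13072089345
  ⟨V6_11998085184_ok, trivial⟩
  ⟨W_13071040640_ok, W_13054001408_ok, W_11997298880_ok, trivial⟩ C_13072089345
theorem L_13072093314 : HH 127 (nat_lit 13072093314, nat_lit 5) := top_sound R_13072093314
  ⟨V6_13054779522_ok, V6_11981561985_ok, trivial⟩
  ⟨W_13071040640_ok, W_13070782592_ok, trivial⟩ C_13072093314
theorem L_13072093377 : HH 127 (nat_lit 13072093377, nat_lit 14) := top_sound R_13072093377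
  ⟨V6_11998085184_ok, V6_11998081089_ok, trivial⟩
  ⟨W_13071560768_ok, W_13071040640_ok, W_13071036608_ok, W_13055045696_ok, W_11997556928_ok, W_11981566016_ok, trivial⟩ C_13072093377
theorem L_13072093440 : HH 127 (nat_lit 13072093440, nat_lit 16) := top_sound R_13072093440
  ⟨V6_13055311872_ok, V6_11998347264_ok, trivial⟩
  ⟨W_13071040640_ok, W_13070782592_ok, W_13054267520_ok, W_13054263488_ok, W_13054001408_ok, W_11997564992_ok, W_11997040832_ok, W_11980521728_ok, trivial⟩ C_13072093440
theorem L_13072097409 : HH 127 (nat_lit 13072097409, nat_lit 15) := top_sound R_13072097409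
  ⟨V6_11998339137_ok, V6_11998081089_ok, V6_11998077057_ok, V6_11997306945_ok, trivial⟩
  ⟨W_13071560768_ok, W_13071040640_ok, W_13055303744_ok, W_13054271552_ok, W_11981561984_ok, trivial⟩ C_13072097409
theorem L_13072097472 : HH 127 (nat_lit 13072097472, nat_lit 23) := top_sound R_13072097472
  ⟨V6_13071310848_ok, V6_11997569088_ok, trivial⟩
  ⟨W_13071822848_ok, W_13071560768_ok, W_13071040640_ok, W_13071036608_ok, W_13055307776_ok, W_13054263488_ok, W_11981570048_ok, W_11981566016_ok, trivial⟩ C_13072097472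
theorem L_13072101441 : HH 127 (nat_lit 13072101441, nat_lit 7) := top_sound R_13072101441
  ⟨V6_11998339137_ok, V6_11998081089_ok, trivial⟩
  ⟨W_13071560768_ok, W_13055303744_ok, trivial⟩ C_13072101441
theorem L_13072101504 : HH 127 (nat_lit 13072101504, nat_lit 20) := top_sound R_13072101504
  ⟨V6_13055311872_ok, V6_11997573120_ok, trivial⟩
  ⟨W_13071818816_ok, W_13071560768_ok, W_13071556736_ok, W_13071298688_ok, W_13055041664_ok, W_11998081088_ok, W_11997819008_ok, W_11997564992_ok, W_11981561984_ok, trivial⟩ C_13072101504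
theorem L_13072105536 : HH 127 (nat_lit 13072105536, nat_lit 12) := top_sound R_13072105536
  ⟨V6_11998343232_ok, V6_11981574144_ok, trivial⟩
  ⟨W_13072076864_ok, W_13071822848_ok, W_13071560768_ok, W_13055303744_ok, trivial⟩ C_13072105536
theorem L_13072109568 : HH 127 (nat_lit 13072109568, nat_lit 3) := top_sound R_13072109568
  ⟨V6_11998347264_ok, trivial⟩
  ⟨W_13055307776_ok, trivial⟩ C_13072109568
theorem L_13072347330 : HH 127 (nat_lit 13072347330, nat_lit 1) := top_sound R_13072347330
  ⟨V6_13070774466_ok, trivial⟩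
  ⟨W_11997819008_ok, trivial⟩ C_13072347330
theorem L_13072351362 : HH 127 (nat_lit 13072351362, nat_lit 1) := top_sound R_13072351362
  ⟨V6_13071294594_ok, trivial⟩
  ⟨W_11997819008_ok, trivial⟩ C_13072351362
theorem L_13072351425 : HH 127 (nat_lit 13072351425, nat_lit 5) := top_sound R_13072351425
  ⟨V6_11997819072_ok, trivial⟩
  ⟨W_13071040640_ok, W_13071036608_ok, trivial⟩ C_13072351425
theorem L_13072351488 : HH 127 (nat_lit 13072351488, nat_lit 2) := top_sound R_13072351488
  ⟨V6_11998347264_ok, trivial⟩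
  ⟨W_13070778560_ok, W_11997298880_ok, trivial⟩ C_13072351488
theorem L_13072355457 : HH 127 (nat_lit 13072355457, nat_lit 6) := top_sound R_13072355457
  ⟨V6_11998081089_ok, V6_11998077057_ok, trivial⟩
  ⟨W_13071556736_ok, W_13071040640_ok, W_13070782592_ok, trivial⟩ C_13072355457
theorem L_13072355520 : HH 127 (nat_lit 13072355520, nat_lit 10) := top_sound R_13072355520
  ⟨V6_11998347264_ok, V6_11998343232_ok, trivial⟩
  ⟨W_13071822848_ok, W_13071040640_ok, W_13070782592_ok, W_11997040832_ok, trivial⟩ C_13072355520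
theorem L_13072359489 : HH 127 (nat_lit 13072359489, nat_lit 5) := top_sound R_13072359489
  ⟨V6_11998597185_ok, V6_11997306945_ok, trivial⟩
  ⟨W_13071560768_ok, trivial⟩ C_13072359489
theorem L_13072359552 : HH 127 (nat_lit 13072359552, nat_lit 9) := top_sound R_13072359552
  ⟨V6_11997569088_ok, trivial⟩
  ⟨W_13072080896_ok, W_13071556736_ok, W_13071040640_ok, W_11997302912_ok, trivial⟩ C_13072359552
theorem L_13072363584 : HH 127 (nat_lit 13072363584, nat_lit 8) := top_sound R_13072363584
  ⟨V6_13072339008_ok, V6_11997573120_ok, trivial⟩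
  ⟨W_13071564800_ok, W_11998597184_ok, W_11998343168_ok, trivial⟩ C_13072363584
theorem L_13072367616 : HH 127 (nat_lit 13072367616, nat_lit 2) := top_sound R_13072367616
  ⟨V6_11998605312_ok, trivial⟩
  ⟨W_13072080896_ok, trivial⟩ C_13072367616
theorem L_13087817988 : HH 127 (nat_lit 13087817988, nat_lit 1) := top_sound R_13087817988
  ⟨V6_12987154692_ok, trivial⟩
  ⟨W_13054001408_ok, trivial⟩ C_13087817988
theorem L_13087822083 : HH 127 (nat_lit 13087822083, nat_lit 1) := top_sound R_13087822083
  ⟨V6_13087555776_ok, trivial⟩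
  ⟨W_13020713216_ok, trivial⟩ C_13087822083
theorem L_13087822146 : HH 127 (nat_lit 13087822146, nat_lit 1) := top_sound R_13087822146
  ⟨V6_13037228352_ok, trivial⟩
  ⟨W_13020713216_ok, trivial⟩ C_13087822146
theorem L_13087826115 : HH 127 (nat_lit 13087826115, nat_lit 1) := top_sound R_13087826115
  ⟨V6_13037482179_ok, trivial⟩
  ⟨W_13020717248_ok, trivial⟩ C_13087826115
theorem L_13087826178 : HH 127 (nat_lit 13087826178, nat_lit 5) := top_sound R_13087826178
  ⟨V6_13003940034_ok, V6_12987162882_ok, trivial⟩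
  ⟨W_13071040640_ok, W_13054267520_ok, trivial⟩ C_13087826178
theorem L_13087826241 : HH 127 (nat_lit 13087826241, nat_lit 3) := top_sound R_13087826241
  ⟨V6_13087821888_ok, trivial⟩
  ⟨W_13037494400_ok, trivial⟩ C_13087826241
theorem L_13087826304 : HH 127 (nat_lit 13087826304, nat_lit 4) := top_sound R_13087826304
  ⟨V6_13087825920_ok, trivial⟩
  ⟨W_13054271552_ok, trivial⟩ C_13087826304
theorem L_13088080131 : HH 127 (nat_lit 13088080131, nat_lit 2) := top_sound R_13088080131
  ⟨V6_13070516418_ok, trivial⟩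
  ⟨W_13054001408_ok, W_13020971264_ok, trivial⟩ C_13088080131
theorem L_13088084163 : HH 127 (nat_lit 13088084163, nat_lit 2) := top_sound R_13088084163
  ⟨V6_13004198082_ok, trivial⟩
  ⟨W_13071036608_ok, W_13070778560_ok, trivial⟩ C_13088084163
theorem L_13088084226 : HH 127 (nat_lit 13088084226, nat_lit 4) := top_sound R_13088084226
  ⟨V6_13087559808_ok, trivial⟩
  ⟨W_13071040640_ok, W_13020971264_ok, trivial⟩ C_13088084226
theorem L_13088084289 : HH 127 (nat_lit 13088084289, nat_lit 3) := top_sound R_13088084289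
  ⟨V6_13087559808_ok, V6_13037228352_ok, trivial⟩
  ⟨W_13070782592_ok, W_13020975296_ok, W_13020713216_ok, trivial⟩ C_13088084289
theorem L_13088088258 : HH 127 (nat_lit 13088088258, nat_lit 6) := top_sound R_13088088258
  ⟨V6_13087813824_ok, V6_13003940034_ok, trivial⟩
  ⟨W_13071298688_ok, W_13037494400_ok, trivial⟩ C_13088088258
theorem L_13088088321 : HH 127 (nat_lit 13088088321, nat_lit 10) := top_sound R_13088088321
  ⟨V6_13087821888_ok, trivial⟩
  ⟨W_13054271552_ok, W_13037494400_ok, W_13037486336_ok, W_13020971264_ok, W_13020713216_ok, trivial⟩ C_13088088321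
theorem L_13088088384 : HH 127 (nat_lit 13088088384, nat_lit 8) := top_sound R_13088088384
  ⟨V6_13087825920_ok, trivial⟩
  ⟨W_13054271552_ok, W_13037494400_ok, W_13020975296_ok, trivial⟩ C_13088088384
theorem L_13088092290 : HH 127 (nat_lit 13088092290, nat_lit 2) := top_sound R_13088092290
  ⟨V6_13020983424_ok, trivial⟩
  ⟨W_13088071808_ok, trivial⟩ C_13088092290
theorem L_13088092353 : HH 127 (nat_lit 13088092353, nat_lit 5) := top_sound R_13088092353
  ⟨V6_13037760576_ok, trivial⟩
  ⟨W_13088075840_ok, W_13071298688_ok, W_13054521536_ok, trivial⟩ C_13088092353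
theorem L_13088092416 : HH 127 (nat_lit 13088092416, nat_lit 5) := top_sound R_13088092416
  ⟨V6_13088083968_ok, trivial⟩
  ⟨W_13088079872_ok, W_13020975296_ok, W_13020971264_ok, trivial⟩ C_13088092416
theorem L_13088342211 : HH 127 (nat_lit 13088342211, nat_lit 1) := top_sound R_13088342211
  ⟨V6_13070516418_ok, trivial⟩
  ⟨W_13071036608_ok, trivial⟩ C_13088342211
theorem L_13088342274 : HH 127 (nat_lit 13088342274, nat_lit 6) := top_sound R_13088342274
  ⟨V6_13021233408_ok, trivial⟩
  ⟨W_13087555712_ok, W_13087293632_ok, W_13071040640_ok, trivial⟩ C_13088342274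
theorem L_13088346306 : HH 127 (nat_lit 13088346306, nat_lit 7) := top_sound R_13088346306
  ⟨V6_13087555776_ok, trivial⟩
  ⟨W_13071298688_ok, W_13021237376_ok, W_13021233344_ok, trivial⟩ C_13088346306
theorem L_13088346369 : HH 127 (nat_lit 13088346369, nat_lit 11) := top_sound R_13088346369
  ⟨V6_13021233408_ok, trivial⟩
  ⟨W_13087817792_ok, W_13087555712_ok, W_13071040640_ok, W_13070782592_ok, W_13054001408_ok, trivial⟩ C_13088346369
theorem L_13088346432 : HH 127 (nat_lit 13088346432, nat_lit 5) := top_sound R_13088346432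
  ⟨V6_13088083968_ok, V6_13037228352_ok, trivial⟩
  ⟨W_13087821824_ok, W_13021237376_ok, W_13020713216_ok, trivial⟩ C_13088346432
theorem L_13088350338 : HH 127 (nat_lit 13088350338, nat_lit 9) := top_sound R_13088350338
  ⟨V6_13088071809_ok, V6_13087809666_ok, V6_13071294594_ok, trivial⟩
  ⟨W_13054267520_ok, W_13037494400_ok, W_13021237376_ok, trivial⟩ C_13088350338
theorem L_13088350401 : HH 127 (nat_lit 13088350401, nat_lit 15) := top_sound R_13088350401
  ⟨V6_13087821888_ok, trivial⟩
  ⟨W_13071560768_ok, W_13054271552_ok, W_13037494400_ok, W_13021237376_ok, W_13021233344_ok, trivial⟩ C_13088350401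
theorem L_13088350464 : HH 127 (nat_lit 13088350464, nat_lit 23) := top_sound R_13088350464
  ⟨V6_13087825920_ok, V6_13021233408_ok, trivial⟩
  ⟨W_13087821824_ok, W_13071564800_ok, W_13071048704_ok, W_13054271552_ok, W_13037494400_ok, W_13021237376_ok, trivial⟩ C_13088350464
theorem L_13088354433 : HH 127 (nat_lit 13088354433, nat_lit 11) := top_sound R_13088354433
  ⟨V6_13088333952_ok, trivial⟩
  ⟨W_13071560768_ok, W_13021241408_ok, W_13021237376_ok, W_13020979328_ok, trivial⟩ C_13088354433
theorem L_13088354496 : HH 127 (nat_lit 13088354496, nat_lit 16) := top_sound R_13088354496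
  ⟨V6_13088342016_ok, trivial⟩
  ⟨W_13071560768_ok, W_13071298688_ok, W_13054521536_ok, W_13021245440_ok, W_13021237376_ok, W_13021233344_ok, W_13020975296_ok, trivial⟩ C_13088354496
theorem L_13088358465 : HH 127 (nat_lit 13088358465, nat_lit 2) := top_sound R_13088358465
  ⟨V6_13021241409_ok, trivial⟩
  ⟨W_13088333888_ok, trivial⟩ C_13088358465
theorem L_13088358528 : HH 127 (nat_lit 13088358528, nat_lit 13) := top_sound R_13088358528
  ⟨V6_13088333952_ok, trivial⟩
  ⟨W_13088337920_ok, W_13071560768_ok, W_13021241408_ok, trivial⟩ C_13088358528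
theorem L_13088600259 : HH 127 (nat_lit 13088600259, nat_lit 1) := top_sound R_13088600259
  ⟨V6_13037482179_ok, trivial⟩
  ⟨W_13071036608_ok, trivial⟩ C_13088600259
theorem L_13088604354 : HH 127 (nat_lit 13088604354, nat_lit 5) := top_sound R_13088604354
  ⟨V6_13087555776_ok, trivial⟩
  ⟨W_13071040640_ok, W_13038268544_ok, trivial⟩ C_13088604354
theorem L_13088604417 : HH 127 (nat_lit 13088604417, nat_lit 7) := top_sound R_13088604417
  ⟨V6_13087555776_ok, trivial⟩
  ⟨W_13071040640_ok, W_13054001408_ok, W_13038272576_ok, W_13037486336_ok, trivial⟩ C_13088604417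
theorem L_13088608386 : HH 127 (nat_lit 13088608386, nat_lit 6) := top_sound R_13088608386
  ⟨V6_13087559808_ok, V6_13071294594_ok, trivial⟩
  ⟨W_13088071808_ok, W_13071040640_ok, trivial⟩ C_13088608386
theorem L_13088608449 : HH 127 (nat_lit 13088608449, nat_lit 13) := top_sound R_13088608449
  ⟨V6_13087821888_ok, trivial⟩
  ⟨W_13071560768_ok, W_13071298688_ok, W_13070778560_ok, W_13055045696_ok, W_13038268544_ok, trivial⟩ C_13088608449
theorem L_13088608512 : HH 127 (nat_lit 13088608512, nat_lit 14) := top_sound R_13088608512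
  ⟨V6_13088083968_ok, V6_13087559808_ok, trivial⟩
  ⟨W_13087821824_ok, W_13071040640_ok, W_13070778560_ok, W_13054263488_ok, W_13054001408_ok, W_13038272576_ok, W_13037486336_ok, trivial⟩ C_13088608512
theorem L_13088612481 : HH 127 (nat_lit 13088612481, nat_lit 15) := top_sound R_13088612481
  ⟨V6_13088333952_ok, trivial⟩
  ⟨W_13071044672_ok, W_13055045696_ok, W_13054271552_ok, W_13038272576_ok, W_13038268544_ok, W_13037494400_ok, trivial⟩ C_13088612481
theorem L_13088612544 : HH 127 (nat_lit 13088612544, nat_lit 24) := top_sound R_13088612544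
  ⟨V6_13087825920_ok, V6_13087813824_ok, V6_13038280704_ok, trivial⟩
  ⟨W_13088337920_ok, W_13071822848_ok, W_13071560768_ok, W_13071048704_ok, W_13054271552_ok, W_13038268544_ok, W_13037494400_ok, trivial⟩ C_13088612544
theorem L_13088616513 : HH 127 (nat_lit 13088616513, nat_lit 7) := top_sound R_13088616513
  ⟨V6_13037760576_ok, trivial⟩
  ⟨W_13088333888_ok, W_13071818816_ok, W_13055045696_ok, trivial⟩ C_13088616513
theorem L_13088616576 : HH 127 (nat_lit 13088616576, nat_lit 18) := top_sound R_13088616576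
  ⟨V6_13088333952_ok, V6_13038280704_ok, trivial⟩
  ⟨W_13088595968_ok, W_13088337920_ok, W_13088075840_ok, W_13071822848_ok, W_13071560768_ok, W_13055041664_ok, trivial⟩ C_13088616576
theorem L_13088620608 : HH 127 (nat_lit 13088620608, nat_lit 10) := top_sound R_13088620608
  ⟨V6_13088342016_ok, trivial⟩
  ⟨W_13088595968_ok, W_13071818816_ok, W_13055045696_ok, trivial⟩ C_13088620608
theorem L_13088624640 : HH 127 (nat_lit 13088624640, nat_lit 1) := top_sound R_13088624640
  ⟨V6_13038280704_ok, trivial⟩
  ⟨W_13088595968_ok, trivial⟩ C_13088624640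
theorem L_13088862402 : HH 127 (nat_lit 13088862402, nat_lit 1) := top_sound R_13088862402
  ⟨V6_13070774466_ok, trivial⟩
  ⟨W_13087813760_ok, trivial⟩ C_13088862402

theorem H_3 : AllH 127 tb3 :=
  ⟨L_13071048963, L_13071049026, L_13071049089, L_13071307011, L_13071307074, L_13071311043, L_13071311106, L_13071311169, L_13071311232, L_13071315138, L_13071315201, L_13071315264, L_13071565059, L_13071569091, L_13071569154, L_13071569217, L_13071573186, L_13071573249, L_13071573312, L_13071577218, L_13071577281, L_13071577344, L_13071581313, L_13071581376, L_13071827139, L_13071827202, L_13071831234, L_13071831297, L_13071831360, L_13071835266, L_13071835329, L_13071835392, L_13071839361, L_13071839424, L_13071843393, L_13071843456, L_13071847488, L_13072089282, L_13072089345, L_13072093314, L_13072093377, L_13072093440, L_13072097409, L_13072097472, L_13072101441, L_13072101504, L_13072105536, L_13072109568, L_13072347330, L_13072351362, L_13072351425, L_13072351488, L_13072355457, L_13072355520, L_13072359489, L_13072359552,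 L_13072363584, L_13072367616, L_13087817988, L_13087822083, L_13087822146, L_13087826115, L_13087826178, L_13087826241, L_13087826304, L_13088080131, L_13088084163, L_13088084226, L_13088084289, L_13088088258, L_13088088321, L_13088088384, L_13088092290, L_13088092353, L_13088092416, L_13088342211, L_13088342274, L_13088346306, L_13088346369, L_13088346432, L_13088350338, L_13088350401, L_13088350464, L_13088354433, L_13088354496, L_13088358465, L_13088358528, L_13088600259, L_13088604354, L_13088604417, L_13088608386, L_13088608449, L_13088608512, L_13088612481, L_13088612544, L_13088616513, L_13088616576, L_13088620608, L_13088624640, L_13088862402, trivial⟩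

theorem L_13088866434 : HH 127 (nat_lit 13088866434, nat_lit 6) := top_sound R_13088866434
  ⟨V6_13087809666_ok, V6_13071294594_ok, trivial⟩
  ⟨W_13087813760_ok, W_13071040640_ok, trivial⟩ C_13088866434
theorem L_13088866497 : HH 127 (nat_lit 13088866497, nat_lit 8) := top_sound R_13088866497
  ⟨V6_13087813824_ok, V6_13087555776_ok, trivial⟩
  ⟨W_13071560768_ok, W_13055045696_ok, trivial⟩ C_13088866497
theorem L_13088866560 : HH 127 (nat_lit 13088866560, nat_lit 11) := top_sound R_13088866560
  ⟨V6_13055311872_ok, trivial⟩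
  ⟨W_13087555712_ok, W_13087293632_ok, W_13071040640_ok, W_13070778560_ok, W_13054263488_ok, W_13054001408_ok, trivial⟩ C_13088866560
theorem L_13088870529 : HH 127 (nat_lit 13088870529, nat_lit 12) := top_sound R_13088870529
  ⟨V6_13088333952_ok, trivial⟩
  ⟨W_13071044672_ok, W_13055303744_ok, W_13055045696_ok, W_13054267520_ok, trivial⟩ C_13088870529
theorem L_13088870592 : HH 127 (nat_lit 13088870592, nat_lit 16) := top_sound R_13088870592
  ⟨V6_13087559808_ok, V6_13055311872_ok, trivial⟩
  ⟨W_13088337920_ok, W_13071822848_ok, W_13071560768_ok, W_13071298688_ok, trivial⟩ C_13088870592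
theorem L_13088874561 : HH 127 (nat_lit 13088874561, nat_lit 6) := top_sound R_13088874561
  ⟨V6_13087821888_ok, trivial⟩
  ⟨W_13072076864_ok, W_13055303744_ok, W_13055045696_ok, trivial⟩ C_13088874561
theorem L_13088874624 : HH 127 (nat_lit 13088874624, nat_lit 25) := top_sound R_13088874624
  ⟨V6_13088333952_ok, V6_13087825920_ok, trivial⟩
  ⟨W_13088071808_ok, W_13071560768_ok, W_13071298688_ok, W_13071040640_ok, W_13055307776_ok, W_13055045696_ok, W_13054271552_ok, trivial⟩ C_13088874624
theorem L_13088878656 : HH 127 (nat_lit 13088878656, nat_lit 15) := top_sound R_13088878656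
  ⟨V6_13088858112_ok, V6_13054537728_ok, trivial⟩
  ⟨W_13088337920_ok, W_13071560768_ok, W_13055307776_ok, W_13055303744_ok, trivial⟩ C_13088878656
theorem L_13088882688 : HH 127 (nat_lit 13088882688, nat_lit 9) := top_sound R_13088882688
  ⟨V6_13088858112_ok, trivial⟩
  ⟨W_13071564800_ok, W_13055307776_ok, trivial⟩ C_13088882688
theorem L_13089124482 : HH 127 (nat_lit 13089124482, nat_lit 2) := top_sound R_13089124482
  ⟨V6_13087809666_ok, trivial⟩
  ⟨W_13087813760_ok, trivial⟩ C_13089124482
theorem L_13089124545 : HH 127 (nat_lit 13089124545, nat_lit 2) := top_sound R_13089124545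
  ⟨V6_13087813824_ok, trivial⟩
  ⟨W_13088075840_ok, trivial⟩ C_13089124545
theorem L_13089128577 : HH 127 (nat_lit 13089128577, nat_lit 6) := top_sound R_13089128577
  ⟨V6_13088333952_ok, trivial⟩
  ⟨W_13071818816_ok, W_13071560768_ok, trivial⟩ C_13089128577
theorem L_13089128640 : HH 127 (nat_lit 13089128640, nat_lit 8) := top_sound R_13089128640
  ⟨V6_13087813824_ok, V6_13087555776_ok, trivial⟩
  ⟨W_13088337920_ok, W_13071822848_ok, trivial⟩ C_13089128640
theorem L_13089132609 : HH 127 (nat_lit 13089132609, nat_lit 5) := top_sound R_13089132609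
  ⟨V6_13072339008_ok, V6_13072076865_ok, trivial⟩
  ⟨W_13088333888_ok, W_13087817792_ok, trivial⟩ C_13089132609
theorem L_13089132672 : HH 127 (nat_lit 13089132672, nat_lit 13) := top_sound R_13089132672
  ⟨V6_13088333952_ok, trivial⟩
  ⟨W_13087821824_ok, W_13072080896_ok, W_13071822848_ok, W_13071306752_ok, trivial⟩ C_13089132672
theorem L_13089136704 : HH 127 (nat_lit 13089136704, nat_lit 11) := top_sound R_13089136704
  ⟨V6_13087825920_ok, trivial⟩
  ⟨W_13088333888_ok, W_13072076864_ok, W_13071564800_ok, trivial⟩ C_13089136704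
theorem L_13089140736 : HH 127 (nat_lit 13089140736, nat_lit 5) := top_sound R_13089140736
  ⟨V6_13088858112_ok, trivial⟩
  ⟨W_13071306752_ok, trivial⟩ C_13089140736
theorem L_13089382530 : HH 127 (nat_lit 13089382530, nat_lit 2) := top_sound R_13089382530
  ⟨V6_13087809666_ok, trivial⟩
  ⟨W_13088071808_ok, trivial⟩ C_13089382530
theorem L_13089386625 : HH 127 (nat_lit 13089386625, nat_lit 1) := top_sound R_13089386625
  ⟨V6_13088071809_ok, trivial⟩
  ⟨W_13088333888_ok, trivial⟩ C_13089386625
theorem L_13089386688 : HH 127 (nat_lit 13089386688, nat_lit 1) := top_sound R_13089386688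
  ⟨V6_13087813824_ok, trivial⟩
  ⟨W_13088337920_ok, trivial⟩ C_13089386688
theorem L_13089390657 : HH 127 (nat_lit 13089390657, nat_lit 1) := top_sound R_13089390657
  ⟨V6_13088591937_ok, trivial⟩
  ⟨W_13087817792_ok, trivial⟩ C_13089390657
theorem L_13089390720 : HH 127 (nat_lit 13089390720, nat_lit 7) := top_sound R_13089390720
  ⟨V6_13088333952_ok, trivial⟩
  ⟨W_13088595968_ok, W_13088337920_ok, trivial⟩ C_13089390720
theorem L_13089394752 : HH 127 (nat_lit 13089394752, nat_lit 3) := top_sound R_13089394752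
  ⟨V6_13089116160_ok, V6_13088854080_ok, trivial⟩
  ⟨W_13087821824_ok, trivial⟩ C_13089394752
theorem L_13089398784 : HH 127 (nat_lit 13089398784, nat_lit 6) := top_sound R_13089398784
  ⟨V6_13087825920_ok, trivial⟩
  ⟨W_13089112064_ok, W_13088854016_ok, W_13088595968_ok, trivial⟩ C_13089398784
theorem L_14077682052 : HH 127 (nat_lit 14077682052, nat_lit 1) := top_sound R_14077682052
  ⟨V6_10839679236_ok, trivial⟩
  ⟨W_11913421184_ok, trivial⟩ C_14077682052
theorem L_14094459204 : HH 127 (nat_lit 14094459204, nat_lit 1) := top_sound R_14094459204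
  ⟨V6_10839679236_ok, trivial⟩
  ⟨W_10873233728_ok, trivial⟩ C_14094459204
theorem L_14094459267 : HH 127 (nat_lit 14094459267, nat_lit 2) := top_sound R_14094459267
  ⟨V6_10856456451_ok, V6_9765937539_ok, trivial⟩
  ⟨W_13020717248_ok, trivial⟩ C_14094459267
theorem L_14094721284 : HH 127 (nat_lit 14094721284, nat_lit 1) := top_sound R_14094721284
  ⟨V6_10873225476_ok, trivial⟩
  ⟨W_11947233536_ok, trivial⟩ C_14094721284
theorem L_14094721347 : HH 127 (nat_lit 14094721347, nat_lit 2) := top_sound R_14094721347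
  ⟨V6_10856456451_ok, V6_9799753986_ok, trivial⟩
  ⟨W_14094454976_ok, trivial⟩ C_14094721347
theorem L_14094721410 : HH 127 (nat_lit 14094721410, nat_lit 2) := top_sound R_14094721410
  ⟨V6_11947237506_ok, trivial⟩
  ⟨W_14077681856_ok, W_13003940096_ok, trivial⟩ C_14094721410
theorem L_14094725379 : HH 127 (nat_lit 14094725379, nat_lit 1) := top_sound R_14094725379
  ⟨V6_9799753986_ok, trivial⟩
  ⟨W_14077939904_ok, trivial⟩ C_14094725379
theorem L_14094725442 : HH 127 (nat_lit 14094725442, nat_lit 1) := top_sound R_14094725442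
  ⟨V6_9799753986_ok, trivial⟩
  ⟨W_14077939904_ok, trivial⟩ C_14094725442
theorem L_14094979332 : HH 127 (nat_lit 14094979332, nat_lit 2) := top_sound R_14094979332
  ⟨V6_10873753857_ok, trivial⟩
  ⟨W_14094450944_ok, trivial⟩ C_14094979332
theorem L_14094979395 : HH 127 (nat_lit 14094979395, nat_lit 1) := top_sound R_14094979395
  ⟨V6_10873753794_ok, trivial⟩
  ⟨W_14094454976_ok, trivial⟩ C_14094979395
theorem L_14094983427 : HH 127 (nat_lit 14094983427, nat_lit 4) := top_sound R_14094983427
  ⟨V6_10873757952_ok, trivial⟩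
  ⟨W_14094454976_ok, W_14094450944_ok, trivial⟩ C_14094983427
theorem L_14094983490 : HH 127 (nat_lit 14094983490, nat_lit 5) := top_sound R_14094983490
  ⟨V6_10873757952_ok, trivial⟩
  ⟨W_14094459008_ok, W_14094454976_ok, W_10873233728_ok, trivial⟩ C_14094983490
theorem L_14094983553 : HH 127 (nat_lit 14094983553, nat_lit 4) := top_sound R_14094983553
  ⟨V6_10873233792_ok, V6_8726274432_ok, trivial⟩
  ⟨W_14094721088_ok, W_13021241408_ok, trivial⟩ C_14094983553
theorem L_14094987459 : HH 127 (nat_lit 14094987459, nat_lit 1) := top_sound R_14094987459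
  ⟨V6_10873499841_ok, trivial⟩
  ⟨W_13021233344_ok, trivial⟩ C_14094987459
theorem L_14094987522 : HH 127 (nat_lit 14094987522, nat_lit 5) := top_sound R_14094987522
  ⟨V6_10873757952_ok, trivial⟩
  ⟨W_14094713024_ok, W_13021233344_ok, W_10873761920_ok, trivial⟩ C_14094987522
theorem L_14094987585 : HH 127 (nat_lit 14094987585, nat_lit 5) := top_sound R_14094987585
  ⟨V6_13020983361_ok, V6_10873499841_ok, V6_9800016192_ok, trivial⟩
  ⟨W_14094979136_ok, W_11947233536_ok, trivial⟩ C_14094987585
theorem L_14094987648 : HH 127 (nat_lit 14094987648, nat_lit 4) := top_sound R_14094987648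
  ⟨V6_14094987264_ok, trivial⟩
  ⟨W_14094721088_ok, W_9800016128_ok, trivial⟩ C_14094987648
theorem L_14094991554 : HH 127 (nat_lit 14094991554, nat_lit 3) := top_sound R_14094991554
  ⟨V6_11947491522_ok, V6_10873753794_ok, trivial⟩
  ⟨W_13021237376_ok, trivial⟩ C_14094991554
theorem L_14094991617 : HH 127 (nat_lit 14094991617, nat_lit 6) := top_sound R_14094991617
  ⟨V6_11947491585_ok, V6_10873753857_ok, trivial⟩
  ⟨W_14094979136_ok, W_10873765952_ok, W_8726282432_ok, trivial⟩ C_14094991617
theorem L_14094991680 : HH 127 (nat_lit 14094991680, nat_lit 6) := top_sound R_14094991680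
  ⟨V6_13021249536_ok, V6_8726282496_ok, trivial⟩
  ⟨W_14094979136_ok, W_9800016128_ok, W_8726282432_ok, trivial⟩ C_14094991680
theorem L_14111236356 : HH 127 (nat_lit 14111236356, nat_lit 2) := top_sound R_14111236356
  ⟨V6_12987154692_ok, V6_10856456451_ok, trivial⟩
  ⟨W_14094450944_ok, trivial⟩ C_14111236356
theorem L_14111236419 : HH 127 (nat_lit 14111236419, nat_lit 3) := top_sound R_14111236419
  ⟨V6_10890010944_ok, trivial⟩
  ⟨W_14094454976_ok, W_14060904704_ok, trivial⟩ C_14111236419
theorem L_14111236482 : HH 127 (nat_lit 14111236482, nat_lit 3) := top_sound R_14111236482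
  ⟨V6_10873233792_ok, trivial⟩
  ⟨W_13037494400_ok, trivial⟩ C_14111236482
theorem L_14111494404 : HH 127 (nat_lit 14111494404, nat_lit 1) := top_sound R_14111494404
  ⟨V6_10873225476_ok, trivial⟩
  ⟨W_11963748608_ok, trivial⟩ C_14111494404
theorem L_14111494467 : HH 127 (nat_lit 14111494467, nat_lit 2) := top_sound R_14111494467
  ⟨V6_13037228352_ok, V6_10890006849_ok, trivial⟩
  ⟨W_14077939904_ok, W_9816527168_ok, trivial⟩ C_14111494467
theorem L_14111498499 : HH 127 (nat_lit 14111498499, nat_lit 5) := top_sound R_14111498499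
  ⟨V6_13004198082_ok, V6_11930198274_ok, V6_9799753986_ok, trivial⟩
  ⟨W_14111228096_ok, W_14094713024_ok, W_14094450944_ok, trivial⟩ C_14111498499
theorem L_14111498562 : HH 127 (nat_lit 14111498562, nat_lit 7) := top_sound R_14111498562
  ⟨V6_11947237506_ok, V6_11930198274_ok, V6_10873233729_ok, V6_9799753986_ok, trivial⟩
  ⟨W_14111232128_ok, W_13037494400_ok, W_9816527168_ok, trivial⟩ C_14111498562
theorem L_14111498625 : HH 127 (nat_lit 14111498625, nat_lit 5) := top_sound R_14111498625
  ⟨V6_10873233792_ok, V6_10873233729_ok, trivial⟩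
  ⟨W_14111236160_ok, W_10890272960_ok, trivial⟩ C_14111498625
theorem L_14111502531 : HH 127 (nat_lit 14111502531, nat_lit 2) := top_sound R_14111502531
  ⟨V6_14077931715_ok, V6_10873499841_ok, trivial⟩
  ⟨W_14111486144_ok, trivial⟩ C_14111502531
theorem L_14111502594 : HH 127 (nat_lit 14111502594, nat_lit 3) := top_sound R_14111502594
  ⟨V6_11947237506_ok, V6_9799753986_ok, trivial⟩
  ⟨W_14111490176_ok, W_14077939904_ok, trivial⟩ C_14111502594
theorem L_14111502657 : HH 127 (nat_lit 14111502657, nat_lit 4) := top_sound R_14111502657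
  ⟨V6_13020983361_ok, V6_10873499841_ok, trivial⟩
  ⟨W_14094721088_ok, W_14077939904_ok, W_9816527168_ok, trivial⟩ C_14111502657
theorem L_14111502720 : HH 127 (nat_lit 14111502720, nat_lit 2) := top_sound R_14111502720
  ⟨V6_14111502336_ok, trivial⟩
  ⟨W_11947237568_ok, W_10890272960_ok, trivial⟩ C_14111502720
theorem L_14111756547 : HH 127 (nat_lit 14111756547, nat_lit 5) := top_sound R_14111756547
  ⟨V6_10890526977_ok, V6_10873753857_ok, trivial⟩
  ⟨W_14110970048_ok, W_14094454976_ok, W_14094450944_ok, trivial⟩ C_14111756547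
theorem L_14111756610 : HH 127 (nat_lit 14111756610, nat_lit 5) := top_sound R_14111756610
  ⟨V6_11947495554_ok, V6_10873753857_ok, trivial⟩
  ⟨W_14111232128_ok, W_14110970048_ok, trivial⟩ C_14111756610
theorem L_14111760579 : HH 127 (nat_lit 14111760579, nat_lit 5) := top_sound R_14111760579
  ⟨V6_11947499712_ok, trivial⟩
  ⟨W_14111486144_ok, W_14094454976_ok, trivial⟩ C_14111760579
theorem L_14111760642 : HH 127 (nat_lit 14111760642, nat_lit 13) := top_sound R_14111760642
  ⟨V6_11947495554_ok, V6_10890526977_ok, V6_10873757952_ok, V6_10873753857_ok, trivial⟩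
  ⟨W_14111490176_ok, W_14111232128_ok, W_14094459008_ok, W_14094450944_ok, W_13037494400_ok, trivial⟩ C_14111760642
theorem L_14111760705 : HH 127 (nat_lit 14111760705, nat_lit 14) := top_sound R_14111760705
  ⟨V6_14094979137_ok, V6_10873757952_ok, trivial⟩
  ⟨W_14111236160_ok, W_14094721088_ok, W_14094454976_ok, W_13037494400_ok, W_10873233728_ok, W_9816527168_ok, trivial⟩ C_14111760705
theorem L_14111760768 : HH 127 (nat_lit 14111760768, nat_lit 9) := top_sound R_14111760768
  ⟨V6_11947499712_ok, V6_9816793344_ok, trivial⟩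
  ⟨W_14111236160_ok, W_14094983168_ok, trivial⟩ C_14111760768
theorem L_14111764674 : HH 127 (nat_lit 14111764674, nat_lit 9) := top_sound R_14111764674
  ⟨V6_11947499712_ok, V6_10873499841_ok, trivial⟩
  ⟨W_14111748224_ok, W_14111490176_ok, W_14111486144_ok, W_10873761920_ok, trivial⟩ C_14111764674
theorem L_14111764737 : HH 127 (nat_lit 14111764737, nat_lit 13) := top_sound R_14111764737
  ⟨V6_13021233408_ok, V6_10890539073_ok, V6_10890526977_ok, V6_10873499841_ok, trivial⟩
  ⟨W_14111490176_ok, W_14094979136_ok, W_14094721088_ok, W_11964018752_ok, W_11947503680_ok, W_10873761920_ok, trivial⟩ C_14111764737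
theorem L_14111764800 : HH 127 (nat_lit 14111764800, nat_lit 14) := top_sound R_14111764800
  ⟨V6_14111502336_ok, V6_14094987264_ok, trivial⟩
  ⟨W_14111494208_ok, W_14094983168_ok, W_10873761920_ok, W_9816527168_ok, W_9800016128_ok, trivial⟩ C_14111764800
theorem L_14111768706 : HH 127 (nat_lit 14111768706, nat_lit 3) := top_sound R_14111768706
  ⟨V6_11947495554_ok, trivial⟩
  ⟨W_14111748224_ok, trivial⟩ C_14111768706
theorem L_14111768769 : HH 127 (nat_lit 14111768769, nat_lit 9) := top_sound R_14111768769
  ⟨V6_11947499712_ok, V6_10890539073_ok, trivial⟩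
  ⟨W_14111748224_ok, W_14094979136_ok, W_10873765952_ok, trivial⟩ C_14111768769
theorem L_14111768832 : HH 127 (nat_lit 14111768832, nat_lit 12) := top_sound R_14111768832
  ⟨V6_13021249536_ok, V6_13021233408_ok, trivial⟩
  ⟨W_14094983168_ok, W_14094979136_ok, W_13021245440_ok, W_11964280832_ok, trivial⟩ C_14111768832
theorem L_14112014595 : HH 127 (nat_lit 14112014595, nat_lit 1) := top_sound R_14112014595
  ⟨V6_9816785091_ok, trivial⟩
  ⟨W_13037486336_ok, trivial⟩ C_14112014595
theorem L_14112018627 : HH 127 (nat_lit 14112018627, nat_lit 3) := top_sound R_14112018627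
  ⟨V6_13037482179_ok, V6_9817051329_ok, V6_9816785091_ok, trivial⟩
  ⟨W_14111486144_ok, W_10890531008_ok, trivial⟩ C_14112018627
theorem L_14112018690 : HH 127 (nat_lit 14112018690, nat_lit 4) := top_sound R_14112018690
  ⟨V6_10890526977_ok, V6_9817051329_ok, V6_9817051266_ok, trivial⟩
  ⟨W_14111232128_ok, W_14110970048_ok, trivial⟩ C_14112018690
theorem L_14112018753 : HH 127 (nat_lit 14112018753, nat_lit 5) := top_sound R_14112018753
  ⟨V6_13037228352_ok, V6_10890006849_ok, V6_9817051329_ok, V6_9816789312_ok, trivial⟩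
  ⟨W_14111232128_ok, W_11964534848_ok, trivial⟩ C_14112018753
theorem L_14112022722 : HH 127 (nat_lit 14112022722, nat_lit 7) := top_sound R_14112022722
  ⟨V6_13038268608_ok, trivial⟩
  ⟨W_14111232128_ok, W_13037494400_ok, W_11964014720_ok, trivial⟩ C_14112022722
theorem L_14112022785 : HH 127 (nat_lit 14112022785, nat_lit 10) := top_sound R_14112022785
  ⟨V6_11964268800_ok, V6_10890526977_ok, V6_9817055424_ok, V6_9817051329_ok, V6_9816793344_ok, trivial⟩
  ⟨W_14111236160_ok, W_14111232128_ok, W_13038272576_ok, W_13037494400_ok, trivial⟩ C_14112022785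
theorem L_14112022848 : HH 127 (nat_lit 14112022848, nat_lit 10) := top_sound R_14112022848
  ⟨V6_14112018432_ok, V6_9816793344_ok, trivial⟩
  ⟨W_14111236160_ok, W_14111232128_ok, W_13037494400_ok, W_9816527168_ok, trivial⟩ C_14112022848
theorem L_14112026754 : HH 127 (nat_lit 14112026754, nat_lit 3) := top_sound R_14112026754
  ⟨V6_14111744130_ok, V6_9817051266_ok, trivial⟩
  ⟨W_13038268544_ok, W_11964014720_ok, W_10890535040_ok, trivial⟩ C_14112026754
theorem L_14112026817 : HH 127 (nat_lit 14112026817, nat_lit 9) := top_sound R_14112026817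
  ⟨V6_13038268608_ok, trivial⟩
  ⟨W_14112010304_ok, W_14111748224_ok, W_11964534848_ok, W_11964018752_ok, W_11964014720_ok, trivial⟩ C_14112026817
theorem L_14112026880 : HH 127 (nat_lit 14112026880, nat_lit 9) := top_sound R_14112026880
  ⟨V6_14111502336_ok, V6_9817055424_ok, trivial⟩
  ⟨W_14112014336_ok, W_14111494208_ok, W_13038272576_ok, W_11964534848_ok, trivial⟩ C_14112026880
theorem L_14112030849 : HH 127 (nat_lit 14112030849, nat_lit 4) := top_sound R_14112030849
  ⟨V6_14112006273_ok, V6_10890539073_ok, trivial⟩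
  ⟨W_14112010304_ok, W_11964534848_ok, trivial⟩ C_14112030849
theorem L_14112030912 : HH 127 (nat_lit 14112030912, nat_lit 7) := top_sound R_14112030912
  ⟨V6_13038268608_ok, trivial⟩
  ⟨W_14112014336_ok, W_14112010304_ok, W_11964534848_ok, W_11964280832_ok, trivial⟩ C_14112030912
theorem L_14112034881 : HH 127 (nat_lit 14112034881, nat_lit 1) := top_sound R_14112034881
  ⟨V6_10890801216_ok, trivial⟩
  ⟨W_14112010304_ok, trivial⟩ C_14112034881
theorem L_14112034944 : HH 127 (nat_lit 14112034944, nat_lit 1) := top_sound R_14112034944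
  ⟨V6_10890801216_ok, trivial⟩
  ⟨W_13038268544_ok, trivial⟩ C_14112034944
theorem L_14128009476 : HH 127 (nat_lit 14128009476, nat_lit 1) := top_sound R_14128009476
  ⟨V6_10873225476_ok, trivial⟩
  ⟨W_13054001408_ok, trivial⟩ C_14128009476
theorem L_14128009539 : HH 127 (nat_lit 14128009539, nat_lit 1) := top_sound R_14128009539
  ⟨V6_10890006849_ok, trivial⟩
  ⟨W_14110970048_ok, trivial⟩ C_14128009539
theorem L_14128013571 : HH 127 (nat_lit 14128013571, nat_lit 5) := top_sound R_14128013571
  ⟨V6_12987162882_ok, V6_11930198274_ok, trivial⟩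
  ⟨W_14094450944_ok, W_13054263488_ok, trivial⟩ C_14128013571
theorem L_14128013634 : HH 127 (nat_lit 14128013634, nat_lit 6) := top_sound R_14128013634
  ⟨V6_14060904768_ok, V6_11913421122_ok, V6_10873233729_ok, trivial⟩
  ⟨W_14111232128_ok, W_13054267520_ok, trivial⟩ C_14128013634
theorem L_14128013697 : HH 127 (nat_lit 14128013697, nat_lit 6) := top_sound R_14128013697
  ⟨V6_11930198400_ok, V6_10873233792_ok, V6_10873233729_ok, trivial⟩
  ⟨W_14111236160_ok, W_13054271552_ok, trivial⟩ C_14128013697
theorem L_14128267524 : HH 127 (nat_lit 14128267524, nat_lit 2) := top_sound R_14128267524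
  ⟨V6_10907042049_ok, trivial⟩
  ⟨W_14094450944_ok, trivial⟩ C_14128267524
theorem L_14128271619 : HH 127 (nat_lit 14128271619, nat_lit 5) := top_sound R_14128271619
  ⟨V6_10907042049_ok, V6_10907041986_ok, trivial⟩
  ⟨W_14094454976_ok, W_14094450944_ok, W_14077939904_ok, trivial⟩ C_14128271619
theorem L_14128271682 : HH 127 (nat_lit 14128271682, nat_lit 4) := top_sound R_14128271682
  ⟨V6_13004198082_ok, V6_10907046018_ok, V6_10890006849_ok, trivial⟩
  ⟨W_14110970048_ok, W_13054267520_ok, trivial⟩ C_14128271682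
theorem L_14128275651 : HH 127 (nat_lit 14128275651, nat_lit 6) := top_sound R_14128275651
  ⟨V6_13003940034_ok, V6_10907041986_ok, V6_10907037891_ok, trivial⟩
  ⟨W_14128001216_ok, W_14111486144_ok, W_13054521536_ok, W_10906788032_ok, trivial⟩ C_14128275651
theorem L_14128275714 : HH 127 (nat_lit 14128275714, nat_lit 14) := top_sound R_14128275714
  ⟨V6_14077944000_ok, V6_13004198082_ok, V6_10907046018_ok, V6_10907042049_ok, V6_10907041986_ok, trivial⟩
  ⟨W_14094450944_ok, W_13054525568_ok, W_13054267520_ok, W_13037494400_ok, W_10907042048_ok, trivial⟩ C_14128275714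
theorem L_14128275777 : HH 127 (nat_lit 14128275777, nat_lit 13) := top_sound R_14128275777
  ⟨V6_14128013376_ok, trivial⟩
  ⟨W_14128009280_ok, W_14094721088_ok, W_13037494400_ok, W_11963748608_ok, W_10906788032_ok, W_10873233728_ok, trivial⟩ C_14128275777
theorem L_14128275840 : HH 127 (nat_lit 14128275840, nat_lit 10) := top_sound R_14128275840
  ⟨V6_14128013376_ok, trivial⟩
  ⟨W_14128013312_ok, W_14094721088_ok, W_10906788032_ok, W_10873233728_ok, trivial⟩ C_14128275840
theorem L_14128279746 : HH 127 (nat_lit 14128279746, nat_lit 6) := top_sound R_14128279746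
  ⟨V6_13004198082_ok, V6_10907046018_ok, V6_10907041986_ok, V6_10873499841_ok, trivial⟩
  ⟨W_14128263296_ok, W_14111486144_ok, W_10907050112_ok, trivial⟩ C_14128279746
theorem L_14128279809 : HH 127 (nat_lit 14128279809, nat_lit 10) := top_sound R_14128279809
  ⟨V6_14077939968_ok, V6_13020983361_ok, V6_10907042049_ok, trivial⟩
  ⟨W_14128267328_ok, W_11980791872_ok, W_10907050112_ok, W_10907042048_ok, trivial⟩ C_14128279809
theorem L_14128279872 : HH 127 (nat_lit 14128279872, nat_lit 8) := top_sound R_14128279872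
  ⟨V6_14111502336_ok, trivial⟩
  ⟨W_14111494208_ok, W_10907050112_ok, W_10890272960_ok, trivial⟩ C_14128279872
theorem L_14128529667 : HH 127 (nat_lit 14128529667, nat_lit 5) := top_sound R_14128529667
  ⟨V6_10907304192_ok, trivial⟩
  ⟨W_14127743168_ok, W_14094450944_ok, W_13020971264_ok, trivial⟩ C_14128529667
theorem L_14128533699 : HH 127 (nat_lit 14128533699, nat_lit 6) := top_sound R_14128533699
  ⟨V6_11947491522_ok, V6_10907041986_ok, V6_10907037891_ok, V6_10873753794_ok, trivial⟩
  ⟨W_14128001216_ok, W_14111486144_ok, W_14110970048_ok, W_11981041856_ok, trivial⟩ C_14128533699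
theorem L_14128533762 : HH 127 (nat_lit 14128533762, nat_lit 15) := top_sound R_14128533762
  ⟨V6_10907308161_ok, V6_10907304192_ok, V6_10907304066_ok, V6_10907046018_ok, trivial⟩
  ⟨W_14127747200_ok, W_14127743168_ok, W_14111232128_ok, W_14110970048_ok, W_14094454976_ok, W_14094450944_ok, W_13021237376_ok, trivial⟩ C_14128533762

theorem H_4 : AllH 127 tb4 :=
  ⟨L_13088866434, L_13088866497, L_13088866560, L_13088870529, L_13088870592, L_13088874561, L_13088874624, L_13088878656, L_13088882688, L_13089124482, L_13089124545, L_13089128577, L_13089128640, L_13089132609, L_13089132672, L_13089136704, L_13089140736, L_13089382530, L_13089386625, L_13089386688, L_13089390657, L_13089390720, L_13089394752, L_13089398784, L_14077682052, L_14094459204, L_14094459267, L_14094721284, L_14094721347, L_14094721410, L_14094725379, L_14094725442, L_14094979332, L_14094979395, L_14094983427, L_14094983490, L_14094983553, L_14094987459, L_14094987522, L_14094987585, L_14094987648, L_14094991554, L_14094991617, L_14094991680, L_14111236356,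 L_14111236419, L_14111236482, L_14111494404, L_14111494467, L_14111498499, L_14111498562, L_14111498625, L_14111502531, L_14111502594, L_14111502657, L_14111502720, L_14111756547, L_14111756610, L_14111760579, L_14111760642, L_14111760705, L_14111760768, L_14111764674, L_14111764737, L_14111764800, L_14111768706, L_14111768769, L_14111768832, L_14112014595, L_14112018627, L_14112018690, L_14112018753, L_14112022722, L_14112022785, L_14112022848, L_14112026754, L_14112026817, L_14112026880, L_14112030849, L_14112030912, L_14112034881, L_14112034944, L_14128009476, L_14128009539, L_14128013571, L_14128013634, L_14128013697, L_14128267524, L_14128271619, L_14128271682, L_14128275651, L_14128275714, L_14128275777, L_14128275840, L_14128279746, L_14128279809, L_14128279872, L_14128529667, L_14128533699, L_14128533762, trivial⟩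

theorem L_14128533825 : HH 127 (nat_lit 14128533825, nat_lit 10) := top_sound R_14128533825
  ⟨V6_14094979137_ok, V6_10873753857_ok, trivial⟩
  ⟨W_14110970048_ok, W_14094979136_ok, W_14094454976_ok, W_13021237376_ok, trivial⟩ C_14128533825
theorem L_14128537794 : HH 127 (nat_lit 14128537794, nat_lit 20) := top_sound R_14128537794
  ⟨V6_10907312256_ok, V6_10907308161_ok, V6_10907304066_ok, V6_10907041986_ok, trivial⟩
  ⟨W_14128001216_ok, W_14111748224_ok, W_14111486144_ok, W_14111232128_ok, W_14094459008_ok, W_13037494400_ok, W_13020979328_ok, trivial⟩ C_14128537794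
theorem L_14128537857 : HH 127 (nat_lit 14128537857, nat_lit 32) := top_sound R_14128537857
  ⟨V6_14128013376_ok, V6_10873753857_ok, trivial⟩
  ⟨W_14128267328_ok, W_14128009280_ok, W_14111490176_ok, W_14111236160_ok, W_14094979136_ok, W_14094450944_ok, W_13037494400_ok, W_13021237376_ok, W_10907042048_ok, trivial⟩ C_14128537857
theorem L_14128537920 : HH 127 (nat_lit 14128537920, nat_lit 28) := top_sound R_14128537920
  ⟨V6_14128013376_ok, trivial⟩
  ⟨W_14128013312_ok, W_14128009280_ok, W_14094983168_ok, W_14094979136_ok, W_14094721088_ok, W_13021237376_ok, W_10906788032_ok, W_10873233728_ok, trivial⟩ C_14128537920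
theorem L_14128541826 : HH 127 (nat_lit 14128541826, nat_lit 10) := top_sound R_14128541826
  ⟨V6_10907312256_ok, trivial⟩
  ⟨W_14128521344_ok, W_14128263296_ok, W_13020979328_ok, trivial⟩ C_14128541826
theorem L_14128541889 : HH 127 (nat_lit 14128541889, nat_lit 24) := top_sound R_14128541889
  ⟨V6_14094979137_ok, V6_10907316288_ok, V6_10907312256_ok, V6_10907308161_ok, trivial⟩
  ⟨W_14128525376_ok, W_14128267328_ok, W_14111748224_ok, W_14111490176_ok, W_14111486144_ok, W_14094721088_ok, W_11964018752_ok, trivial⟩ C_14128541889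
theorem L_14128541952 : HH 127 (nat_lit 14128541952, nat_lit 32) := top_sound R_14128541952
  ⟨V6_14094987264_ok, V6_13054537728_ok, V6_11981058048_ok, V6_10907312256_ok, V6_10873757952_ok, trivial⟩
  ⟨W_14128267328_ok, W_14111494208_ok, W_14111490176_ok, W_14094983168_ok, W_14094721088_ok, W_13020971264_ok, W_11980783808_ok, W_10907042048_ok, trivial⟩ C_14128541952
theorem L_14128545921 : HH 127 (nat_lit 14128545921, nat_lit 14) := top_sound R_14128545921
  ⟨V6_10907312256_ok, V6_10907308161_ok, trivial⟩
  ⟨W_14128525376_ok, W_14128521344_ok, W_14094979136_ok, W_11947503680_ok, trivial⟩ C_14128545921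
theorem L_14128545984 : HH 127 (nat_lit 14128545984, nat_lit 22) := top_sound R_14128545984
  ⟨V6_13021249536_ok, V6_11981058048_ok, V6_10907320320_ok, V6_10907312256_ok, trivial⟩
  ⟨W_14128525376_ok, W_14111748224_ok, W_14094983168_ok, W_14094979136_ok, W_13021233344_ok, trivial⟩ C_14128545984
theorem L_14128791747 : HH 127 (nat_lit 14128791747, nat_lit 4) := top_sound R_14128791747
  ⟨V6_10907566272_ok, trivial⟩
  ⟨W_14128001216_ok, W_14111486144_ok, trivial⟩ C_14128791747
theorem L_14128791810 : HH 127 (nat_lit 14128791810, nat_lit 7) := top_sound R_14128791810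
  ⟨V6_10907566209_ok, V6_10907304066_ok, trivial⟩
  ⟨W_14127743168_ok, W_14111490176_ok, W_13054001408_ok, trivial⟩ C_14128791810
theorem L_14128795842 : HH 127 (nat_lit 14128795842, nat_lit 14) := top_sound R_14128795842
  ⟨V6_10907566209_ok, V6_10907308161_ok, V6_10907304066_ok, V6_10907046018_ok, V6_10907041986_ok, trivial⟩
  ⟨W_14128263296_ok, W_14111748224_ok, W_14111486144_ok, W_14111232128_ok, W_14110970048_ok, trivial⟩ C_14128795842
theorem L_14128795905 : HH 127 (nat_lit 14128795905, nat_lit 18) := top_sound R_14128795905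
  ⟨V6_10907566209_ok, V6_10907308161_ok, V6_10907304192_ok, V6_10907042049_ok, V6_10890526977_ok, trivial⟩
  ⟨W_14128267328_ok, W_14128009280_ok, W_14127747200_ok, W_14111232128_ok, W_14110970048_ok, W_13054001408_ok, trivial⟩ C_14128795905
theorem L_14128795968 : HH 127 (nat_lit 14128795968, nat_lit 11) := top_sound R_14128795968
  ⟨V6_13055053824_ok, trivial⟩
  ⟨W_14127747200_ok, W_14111232128_ok, W_14110970048_ok, W_11980525760_ok, W_11964010688_ok, W_11963748608_ok, W_10890531008_ok, trivial⟩ C_14128795968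
theorem L_14128799874 : HH 127 (nat_lit 14128799874, nat_lit 11) := top_sound R_14128799874
  ⟨V6_10907312256_ok, V6_10907304066_ok, trivial⟩
  ⟨W_14128521344_ok, W_14128263296_ok, W_14111232128_ok, trivial⟩ C_14128799874
theorem L_14128799937 : HH 127 (nat_lit 14128799937, nat_lit 29) := top_sound R_14128799937
  ⟨V6_14128013376_ok, trivial⟩
  ⟨W_14128525376_ok, W_14128267328_ok, W_14128001216_ok, W_14111748224_ok, W_14111486144_ok, W_13055045696_ok, W_13038268544_ok, W_11964526784_ok, W_10907566208_ok, trivial⟩ C_14128799937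
theorem L_14128800000 : HH 127 (nat_lit 14128800000, nat_lit 35) := top_sound R_14128800000
  ⟨V6_14112018432_ok, V6_13055053824_ok, V6_10907312256_ok, trivial⟩
  ⟨W_14128013312_ok, W_14112014336_ok, W_14111490176_ok, W_14111236160_ok, W_14111232128_ok, W_13054263488_ok, W_13037494400_ok, W_13037486336_ok, W_11980783808_ok, W_11980525760_ok, W_11980521728_ok, W_11963748608_ok, W_10907566208_ok, W_10907042048_ok, W_10906788032_ok, trivial⟩ C_14128800000
theorem L_14128803969 : HH 127 (nat_lit 14128803969, nat_lit 19) := top_sound R_14128803969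
  ⟨V6_14112006273_ok, V6_10907316288_ok, V6_10907312256_ok, V6_10907308161_ok, trivial⟩
  ⟨W_14128525376_ok, W_14112010304_ok, W_14111748224_ok, W_13055045696_ok, W_13055041664_ok, W_11964018752_ok, trivial⟩ C_14128803969
theorem L_14128804032 : HH 127 (nat_lit 14128804032, nat_lit 33) := top_sound R_14128804032
  ⟨V6_14128787520_ok, trivial⟩
  ⟨W_14128787456_ok, W_14111748224_ok, W_14111490176_ok, W_14111486144_ok, W_13038010496_ok, W_11980795904_ok, W_11964526784_ok, W_11964280832_ok, W_11964268736_ok, W_11964010688_ok, W_10907316224_ok, W_10907304128_ok, W_10890535040_ok, W_10890531008_ok, W_10890272960_ok, trivial⟩ C_14128804032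
theorem L_14128808001 : HH 127 (nat_lit 14128808001, nat_lit 7) := top_sound R_14128808001
  ⟨V6_14128787520_ok, trivial⟩
  ⟨W_14128525376_ok, trivial⟩ C_14128808001
theorem L_14128808064 : HH 127 (nat_lit 14128808064, nat_lit 21) := top_sound R_14128808064
  ⟨V6_11981058048_ok, V6_10907320320_ok, V6_10907316288_ok, V6_10907312256_ok, trivial⟩
  ⟨W_14128787456_ok, W_14128525376_ok, W_14128521344_ok, W_14111748224_ok, W_13055041664_ok, trivial⟩ C_14128808064
theorem L_14128812096 : HH 127 (nat_lit 14128812096, nat_lit 5) := top_sound R_14128812096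
  ⟨V6_13038280704_ok, trivial⟩
  ⟨W_14128783424_ok, W_10907574272_ok, trivial⟩ C_14128812096
theorem L_14129049795 : HH 127 (nat_lit 14129049795, nat_lit 1) := top_sound R_14129049795
  ⟨V6_10907037891_ok, trivial⟩
  ⟨W_14128001216_ok, trivial⟩ C_14129049795
theorem L_14129053890 : HH 127 (nat_lit 14129053890, nat_lit 6) := top_sound R_14129053890
  ⟨V6_10907304066_ok, V6_10907041986_ok, trivial⟩
  ⟨W_14128263296_ok, W_14128001216_ok, trivial⟩ C_14129053890
theorem L_14129053953 : HH 127 (nat_lit 14129053953, nat_lit 10) := top_sound R_14129053953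
  ⟨V6_14127481089_ok, V6_10907828352_ok, V6_10907042049_ok, trivial⟩
  ⟨W_14128267328_ok, W_10907828288_ok, W_10907566208_ok, trivial⟩ C_14129053953
theorem L_14129057922 : HH 127 (nat_lit 14129057922, nat_lit 7) := top_sound R_14129057922
  ⟨V6_10907820162_ok, V6_10907304066_ok, V6_10907046018_ok, trivial⟩
  ⟨W_14128521344_ok, W_14127747200_ok, W_13055041664_ok, W_11981561984_ok, trivial⟩ C_14129057922
theorem L_14129057985 : HH 127 (nat_lit 14129057985, nat_lit 15) := top_sound R_14129057985
  ⟨V6_10907828352_ok, V6_10907566272_ok, V6_10907566209_ok, V6_10907308161_ok, trivial⟩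
  ⟨W_14128525376_ok, W_14128009280_ok, W_14128001216_ok, W_14127747200_ok, W_14127743168_ok, trivial⟩ C_14129057985
theorem L_14129058048 : HH 127 (nat_lit 14129058048, nat_lit 18) := top_sound R_14129058048
  ⟨V6_13055311872_ok, V6_11981574144_ok, trivial⟩
  ⟨W_14128009280_ok, W_14127747200_ok, W_13054263488_ok, W_13054001408_ok, W_11980783808_ok, W_11980521728_ok, W_10907828288_ok, W_10907566208_ok, W_10907304128_ok, W_10907042048_ok, trivial⟩ C_14129058048
theorem L_14129062017 : HH 127 (nat_lit 14129062017, nat_lit 17) := top_sound R_14129062017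
  ⟨V6_10907566209_ok, V6_10907312256_ok, V6_10907308161_ok, trivial⟩
  ⟨W_14128783424_ok, W_14128267328_ok, W_13055303744_ok, W_11981566016_ok, W_11981561984_ok, trivial⟩ C_14129062017
theorem L_14129062080 : HH 127 (nat_lit 14129062080, nat_lit 29) := top_sound R_14129062080
  ⟨V6_13055311872_ok, V6_11981574144_ok, V6_10907312256_ok, trivial⟩
  ⟨W_14128787456_ok, W_14128525376_ok, W_14128013312_ok, W_14128001216_ok, W_13054521536_ok, W_13054263488_ok, W_11980525760_ok, W_10906788032_ok, trivial⟩ C_14129062080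
theorem L_14129066049 : HH 127 (nat_lit 14129066049, nat_lit 9) := top_sound R_14129066049
  ⟨V6_14128787520_ok, trivial⟩
  ⟨W_14128525376_ok, W_11981566016_ok, W_10907828288_ok, trivial⟩ C_14129066049
theorem L_14129066112 : HH 127 (nat_lit 14129066112, nat_lit 25) := top_sound R_14129066112
  ⟨V6_13055311872_ok, V6_10907312256_ok, trivial⟩
  ⟨W_14129045504_ok, W_14128787456_ok, W_14128525376_ok, W_14128521344_ok, W_11981561984_ok, W_10907832320_ok, trivial⟩ C_14129066112
theorem L_14129070144 : HH 127 (nat_lit 14129070144, nat_lit 15) := top_sound R_14129070144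
  ⟨V6_13055311872_ok, trivial⟩
  ⟨W_14129045504_ok, W_14128783424_ok, W_14128525376_ok, W_10907316224_ok, trivial⟩ C_14129070144
theorem L_14129074176 : HH 127 (nat_lit 14129074176, nat_lit 5) := top_sound R_14129074176
  ⟨V6_11981574144_ok, V6_10907578368_ok, trivial⟩
  ⟨W_14129045504_ok, trivial⟩ C_14129074176
theorem L_14144782596 : HH 127 (nat_lit 14144782596, nat_lit 1) := top_sound R_14144782596
  ⟨V6_12987154692_ok, trivial⟩
  ⟨W_14127481088_ok, trivial⟩ C_14144782596
theorem L_14144786691 : HH 127 (nat_lit 14144786691, nat_lit 4) := top_sound R_14144786691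
  ⟨V6_14060900610_ok, V6_14060896515_ok, V6_11997040833_ok, V6_11997036801_ok, trivial⟩
  ⟨W_14094450944_ok, W_13054001408_ok, W_11997040832_ok, trivial⟩ C_14144786691
theorem L_14144786754 : HH 127 (nat_lit 14144786754, nat_lit 3) := top_sound R_14144786754
  ⟨V6_11963748672_ok, trivial⟩
  ⟨W_14127747200_ok, W_13070782592_ok, W_11997040832_ok, trivial⟩ C_14144786754
theorem L_14144790723 : HH 127 (nat_lit 14144790723, nat_lit 4) := top_sound R_14144790723
  ⟨V6_13037482179_ok, V6_13003940034_ok, trivial⟩
  ⟨W_14128001216_ok, W_13071036608_ok, W_11980525760_ok, trivial⟩ C_14144790723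
theorem L_14144790786 : HH 127 (nat_lit 14144790786, nat_lit 9) := top_sound R_14144790786
  ⟨V6_14077681794_ok, V6_14060904642_ok, V6_14060900610_ok, V6_13003940034_ok, V6_11930198274_ok, trivial⟩
  ⟨W_14094450944_ok, W_13071040640_ok, W_13054267520_ok, trivial⟩ C_14144790786
theorem L_14144790849 : HH 127 (nat_lit 14144790849, nat_lit 9) := top_sound R_14144790849
  ⟨V6_14060904768_ok, V6_11997306945_ok, trivial⟩
  ⟨W_14128009280_ok, W_13054267520_ok, trivial⟩ C_14144790849
theorem L_14144790912 : HH 127 (nat_lit 14144790912, nat_lit 6) := top_sound R_14144790912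
  ⟨V6_14144790528_ok, V6_11930198400_ok, trivial⟩
  ⟨W_14077681856_ok, W_14060904704_ok, W_13037494400_ok, W_13003940096_ok, trivial⟩ C_14144790912
theorem L_14145044739 : HH 127 (nat_lit 14145044739, nat_lit 4) := top_sound R_14145044739
  ⟨V6_14144258304_ok, trivial⟩
  ⟨W_13020971264_ok, W_11997298880_ok, W_11980783808_ok, trivial⟩ C_14145044739
theorem L_14145048771 : HH 127 (nat_lit 14145048771, nat_lit 6) := top_sound R_14145048771
  ⟨V6_14077939905_ok, V6_14077931715_ok, trivial⟩
  ⟨W_14144516288_ok, W_14128001216_ok, W_13070778560_ok, W_11997556928_ok, W_11997040832_ok, trivial⟩ C_14145048771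
theorem L_14145048834 : HH 127 (nat_lit 14145048834, nat_lit 13) := top_sound R_14145048834
  ⟨V6_14077939968_ok, V6_14077939905_ok, V6_13004198082_ok, V6_11997040833_ok, V6_11997036801_ok, trivial⟩
  ⟨W_14144520320_ok, W_13071040640_ok, W_13070782592_ok, W_13054525568_ok, W_13054001408_ok, W_11997040832_ok, trivial⟩ C_14145048834
theorem L_14145048897 : HH 127 (nat_lit 14145048897, nat_lit 9) := top_sound R_14145048897
  ⟨V6_14077939968_ok, V6_14077939905_ok, trivial⟩
  ⟨W_13071044672_ok, W_13070782592_ok, W_11997564992_ok, W_11997302912_ok, W_11997040832_ok, trivial⟩ C_14145048897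
theorem L_14145052866 : HH 127 (nat_lit 14145052866, nat_lit 16) := top_sound R_14145052866
  ⟨V6_14077944000_ok, V6_14077939905_ok, V6_14077939842_ok, V6_14077681794_ok, V6_13004198082_ok, trivial⟩
  ⟨W_14144778368_ok, W_14128263296_ok, W_14128001216_ok, W_13071298688_ok, W_13071036608_ok, W_11997560960_ok, W_11997556928_ok, W_11997302912_ok, trivial⟩ C_14145052866
theorem L_14145052929 : HH 127 (nat_lit 14145052929, nat_lit 24) := top_sound R_14145052929
  ⟨V6_14077944000_ok, V6_14077939968_ok, V6_14077939905_ok, V6_11997569088_ok, trivial⟩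
  ⟨W_14144782400_ok, W_14128267328_ok, W_14111236160_ok, W_13071040640_ok, W_11997564992_ok, trivial⟩ C_14145052929
theorem L_14145052992 : HH 127 (nat_lit 14145052992, nat_lit 21) := top_sound R_14145052992
  ⟨V6_13071310848_ok, V6_11997569088_ok, trivial⟩
  ⟨W_14128013312_ok, W_14128009280_ok, W_14111236160_ok, W_13037494400_ok, W_13003940096_ok, W_11963748608_ok, trivial⟩ C_14145052992
theorem L_14145056898 : HH 127 (nat_lit 14145056898, nat_lit 5) := top_sound R_14145056898
  ⟨V6_14077939842_ok, V6_13071294594_ok, V6_11947237506_ok, trivial⟩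
  ⟨W_13071298688_ok, W_11997560960_ok, W_11964014720_ok, trivial⟩ C_14145056898
theorem L_14145056961 : HH 127 (nat_lit 14145056961, nat_lit 14) := top_sound R_14145056961
  ⟨V6_13020983361_ok, V6_11997569088_ok, trivial⟩
  ⟨W_14128267328_ok, W_14111486144_ok, W_14077939904_ok, W_11997556928_ok, trivial⟩ C_14145056961
theorem L_14145057024 : HH 127 (nat_lit 14145057024, nat_lit 17) := top_sound R_14145057024
  ⟨V6_13054537728_ok, V6_11997573120_ok, V6_11997569088_ok, trivial⟩
  ⟨W_14145044480_ok, W_14128267328_ok, W_11997564992_ok, trivial⟩ C_14145057024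
theorem L_14145306819 : HH 127 (nat_lit 14145306819, nat_lit 6) := top_sound R_14145306819
  ⟨V6_11997819072_ok, trivial⟩
  ⟨W_14144258240_ok, W_14111486144_ok, W_13021233344_ok, trivial⟩ C_14145306819
theorem L_14145306882 : HH 127 (nat_lit 14145306882, nat_lit 10) := top_sound R_14145306882
  ⟨V6_13021233408_ok, trivial⟩
  ⟨W_14144520320_ok, W_14111490176_ok, W_13071040640_ok, trivial⟩ C_14145306882
theorem L_14145310914 : HH 127 (nat_lit 14145310914, nat_lit 20) := top_sound R_14145310914
  ⟨V6_14094975168_ok, V6_11947495554_ok, V6_11947491522_ok, trivial⟩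
  ⟨W_14144516288_ok, W_14128001216_ok, W_14111748224_ok, W_14111486144_ok, W_13071298688_ok, W_13071040640_ok, W_11997819008_ok, W_11997556928_ok, W_11997040832_ok, trivial⟩ C_14145310914
theorem L_14145310977 : HH 127 (nat_lit 14145310977, nat_lit 29) := top_sound R_14145310977
  ⟨V6_14094979137_ok, V6_13021233408_ok, V6_11947495680_ok, V6_11947491585_ok, trivial⟩
  ⟨W_14144782400_ok, W_14144524352_ok, W_14144520320_ok, W_14128267328_ok, W_14110970048_ok, W_14094450944_ok, W_13054001408_ok, W_11997823040_ok, W_11997564992_ok, trivial⟩ C_14145310977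
theorem L_14145311040 : HH 127 (nat_lit 14145311040, nat_lit 19) := top_sound R_14145311040
  ⟨V6_13071568896_ok, V6_11947495680_ok, trivial⟩
  ⟨W_14127747200_ok, W_14111232128_ok, W_14110970048_ok, W_14094979136_ok, W_13070782592_ok, W_13021237376_ok, W_11997564992_ok, W_11997302912_ok, W_11997040832_ok, trivial⟩ C_14145311040
theorem L_14145314946 : HH 127 (nat_lit 14145314946, nat_lit 15) := top_sound R_14145314946
  ⟨V6_14145298560_ok, trivial⟩
  ⟨W_14094459008_ok, W_13054267520_ok, W_13037494400_ok, W_13021237376_ok, W_13020979328_ok, W_11997302912_ok, W_11964014720_ok, trivial⟩ C_14145314946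
theorem L_14145315009 : HH 127 (nat_lit 14145315009, nat_lit 42) := top_sound R_14145315009
  ⟨V6_14128013376_ok, V6_13021241409_ok, V6_11997569088_ok, trivial⟩
  ⟨W_14144782400_ok, W_14128525376_ok, W_14128001216_ok, W_14111748224_ok, W_14111486144_ok, W_14094721088_ok, W_13071560768_ok, W_13021237376_ok, W_13021233344_ok, W_11997564992_ok, W_11997556928_ok, trivial⟩ C_14145315009
theorem L_14145315072 : HH 127 (nat_lit 14145315072, nat_lit 50) := top_sound R_14145315072
  ⟨V6_14144790528_ok, V6_13071568896_ok, V6_13071310848_ok, trivial⟩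
  ⟨W_14145044480_ok, W_14128013312_ok, W_14111236160_ok, W_14111232128_ok, W_14094983168_ok, W_14094721088_ok, W_14094450944_ok, W_13071048704_ok, W_13054263488_ok, W_13021233344_ok, W_13020971264_ok, W_11997298880_ok, W_11980783808_ok, W_11980525760_ok, W_11947491584_ok, W_11947233536_ok, trivial⟩ C_14145315072
theorem L_14145319041 : HH 127 (nat_lit 14145319041, nat_lit 27) := top_sound R_14145319041
  ⟨V6_14145298560_ok, V6_13021241409_ok, trivial⟩
  ⟨W_14128525376_ok, W_14094979136_ok, W_14094721088_ok, W_13071560768_ok, W_13021237376_ok, W_11997564992_ok, W_11964018752_ok, W_11947503680_ok, trivial⟩ C_14145319041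
theorem L_14145319104 : HH 127 (nat_lit 14145319104, nat_lit 45) := top_sound R_14145319104
  ⟨V6_13071568896_ok, V6_13071310848_ok, V6_11981058048_ok, trivial⟩
  ⟨W_14145302528_ok, W_14145044480_ok, W_14111486144_ok, W_14094983168_ok, W_14094725120_ok, W_14094721088_ok, W_13071560768_ok, W_13071298688_ok, W_13054521536_ok, W_13021233344_ok, W_11997556928_ok, W_11980783808_ok, trivial⟩ C_14145319104
theorem L_14145323073 : HH 127 (nat_lit 14145323073, nat_lit 10) := top_sound R_14145323073
  ⟨V6_14094979137_ok, V6_13021241409_ok, trivial⟩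
  ⟨W_14128525376_ok, W_13071560768_ok, trivial⟩ C_14145323073
theorem L_14145323136 : HH 127 (nat_lit 14145323136, nat_lit 25) := top_sound R_14145323136
  ⟨V6_14145298560_ok, V6_13021249536_ok, trivial⟩
  ⟨W_14145302528_ok, W_14094983168_ok, W_14094979136_ok, W_13021245440_ok, W_11997827072_ok, trivial⟩ C_14145323136
theorem L_14145564867 : HH 127 (nat_lit 14145564867, nat_lit 2) := top_sound R_14145564867
  ⟨V6_14144254146_ok, V6_13037482179_ok, trivial⟩
  ⟨W_14144516288_ok, trivial⟩ C_14145564867
theorem L_14145568962 : HH 127 (nat_lit 14145568962, nat_lit 14) := top_sound R_14145568962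
  ⟨V6_14144258241_ok, V6_14144258178_ok, V6_14144254146_ok, V6_14127481026_ok, V6_13070774466_ok, V6_13070516418_ok, trivial⟩
  ⟨W_14111748224_ok, W_13054783616_ok, W_13038268544_ok, W_11997819008_ok, W_11981303936_ok, W_11981045888_ok, W_11964526784_ok, trivial⟩ C_14145568962
theorem L_14145569025 : HH 127 (nat_lit 14145569025, nat_lit 15) := top_sound R_14145569025
  ⟨V6_14144258304_ok, V6_14144258241_ok, V6_14127481089_ok, V6_11997036801_ok, trivial⟩
  ⟨W_14111752256_ok, W_13054787648_ok, W_13038272576_ok, W_11981045888_ok, trivial⟩ C_14145569025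
theorem L_14145572994 : HH 127 (nat_lit 14145572994, nat_lit 13) := top_sound R_14145572994
  ⟨V6_14145298560_ok, trivial⟩
  ⟨W_14111748224_ok, W_13071040640_ok, W_13070782592_ok, W_13054267520_ok, W_11997302912_ok, trivial⟩ C_14145572994
theorem L_14145573057 : HH 127 (nat_lit 14145573057, nat_lit 35) := top_sound R_14145573057
  ⟨V6_14128787520_ok, trivial⟩
  ⟨W_14111748224_ok, W_14111490176_ok, W_14111486144_ok, W_14111232128_ok, W_14110970048_ok, W_13071560768_ok, W_13038010496_ok, W_11997564992_ok, W_11997556928_ok, W_11997302912_ok, W_11997298880_ok, W_11997040832_ok, W_11964526784_ok, W_11964268736_ok, W_11964010688_ok, trivial⟩ C_14145573057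
theorem L_14145573120 : HH 127 (nat_lit 14145573120, nat_lit 37) := top_sound R_14145573120
  ⟨V6_14112018432_ok, V6_13071568896_ok, trivial⟩
  ⟨W_14145044480_ok, W_14112014336_ok, W_14111232128_ok, W_14110970048_ok, W_13071040640_ok, W_13070778560_ok, W_13054263488_ok, W_13054001408_ok, W_13037486336_ok, W_11997564992_ok, W_11997298880_ok, W_11997040832_ok, W_11980783808_ok, W_11980525760_ok, W_11980521728_ok, W_11964268736_ok, W_11963748608_ok, trivial⟩ C_14145573120
theorem L_14145577089 : HH 127 (nat_lit 14145577089, nat_lit 35) := top_sound R_14145577089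
  ⟨V6_14145298560_ok, V6_11997569088_ok, trivial⟩
  ⟨W_14144782400_ok, W_14128783424_ok, W_14128525376_ok, W_14112010304_ok, W_14111236160_ok, W_13071560768_ok, W_13037494400_ok, W_11998081088_ok, trivial⟩ C_14145577089
theorem L_14145577152 : HH 127 (nat_lit 14145577152, nat_lit 58) := top_sound R_14145577152
  ⟨V6_14144790528_ok, V6_14112018432_ok, V6_13071568896_ok, V6_13071310848_ok, trivial⟩
  ⟨W_14145302528_ok, W_14145044480_ok, W_14128787456_ok, W_14128013312_ok, W_14128001216_ok, W_14112010304_ok, W_14111236160_ok, W_14111232128_ok, W_13071036608_ok, W_13054263488_ok, W_11998081088_ok, W_11997556928_ok, W_11997298880_ok, W_11980783808_ok, W_11964526784_ok, trivial⟩ C_14145577152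
theorem L_14145581121 : HH 127 (nat_lit 14145581121, nat_lit 18) := top_sound R_14145581121
  ⟨V6_14145556545_ok, V6_11998081089_ok, V6_11997569088_ok, trivial⟩
  ⟨W_14145556544_ok, W_14128783424_ok, W_14128525376_ok, W_14112010304_ok, W_13038272576_ok, W_11964018752_ok, trivial⟩ C_14145581121
theorem L_14145581184 : HH 127 (nat_lit 14145581184, nat_lit 46) := top_sound R_14145581184
  ⟨V6_14145298560_ok, V6_13071310848_ok, V6_11997573120_ok, V6_11981058048_ok, trivial⟩
  ⟨W_14145302528_ok, W_14145044480_ok, W_14128787456_ok, W_14128783424_ok, W_14112010304_ok, W_13071822848_ok, W_13071560768_ok, W_11997564992_ok, trivial⟩ C_14145581184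
theorem L_14145585216 : HH 127 (nat_lit 14145585216, nat_lit 25) := top_sound R_14145585216
  ⟨V6_14128787520_ok, trivial⟩
  ⟨W_14145560576_ok, W_14145556544_ok, W_14145302528_ok, W_14112014336_ok, W_13071822848_ok, W_11998085120_ok, W_11964280832_ok, trivial⟩ C_14145585216
theorem L_14145589248 : HH 127 (nat_lit 14145589248, nat_lit 5) := top_sound R_14145589248
  ⟨V6_14112018432_ok, trivial⟩
  ⟨W_14145560576_ok, W_11998085120_ok, trivial⟩ C_14145589248
theorem L_14145827010 : HH 127 (nat_lit 14145827010, nat_lit 5) := top_sound R_14145827010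
  ⟨V6_11997819072_ok, trivial⟩
  ⟨W_14144516288_ok, W_13071298688_ok, trivial⟩ C_14145827010
theorem L_14145831042 : HH 127 (nat_lit 14145831042, nat_lit 8) := top_sound R_14145831042
  ⟨V6_14145298560_ok, trivial⟩
  ⟨W_14128521344_ok, W_13071040640_ok, trivial⟩ C_14145831042
theorem L_14145831105 : HH 127 (nat_lit 14145831105, nat_lit 21) := top_sound R_14145831105
  ⟨V6_14128787520_ok, trivial⟩
  ⟨W_14144782400_ok, W_13071560768_ok, W_13071040640_ok, W_11998081088_ok, W_11997556928_ok, W_11997298880_ok, trivial⟩ C_14145831105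
theorem L_14145831168 : HH 127 (nat_lit 14145831168, nat_lit 18) := top_sound R_14145831168
  ⟨V6_14144258304_ok, V6_13055311872_ok, trivial⟩
  ⟨W_14145044480_ok, W_13071040640_ok, W_13054001408_ok, W_11980783808_ok, trivial⟩ C_14145831168
theorem L_14145835137 : HH 127 (nat_lit 14145835137, nat_lit 27) := top_sound R_14145835137
  ⟨V6_14145298560_ok, V6_11998077057_ok, V6_11981561985_ok, trivial⟩
  ⟨W_14144782400_ok, W_14144524352_ok, W_14128525376_ok, W_13071044672_ok, W_11997564992_ok, W_11981566016_ok, trivial⟩ C_14145835137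
theorem L_14145835200 : HH 127 (nat_lit 14145835200, nat_lit 43) := top_sound R_14145835200
  ⟨V6_13071568896_ok, V6_13055311872_ok, V6_11981574144_ok, trivial⟩
  ⟨W_14145302528_ok, W_14145044480_ok, W_14144516288_ok, W_14128787456_ok, W_14128001216_ok, W_13071298688_ok, W_13071036608_ok, W_13054263488_ok, W_11997556928_ok, W_11997040832_ok, W_11980783808_ok, trivial⟩ C_14145835200
theorem L_14145839169 : HH 127 (nat_lit 14145839169, nat_lit 20) := top_sound R_14145839169
  ⟨V6_14128013376_ok, trivial⟩
  ⟨W_14145556544_ok, W_14128783424_ok, W_14128525376_ok, W_13055303744_ok, W_11998081088_ok, trivial⟩ C_14145839169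
theorem L_14145839232 : HH 127 (nat_lit 14145839232, nat_lit 48) := top_sound R_14145839232
  ⟨V6_14145298560_ok, V6_14144790528_ok, V6_13071310848_ok, trivial⟩
  ⟨W_14145302528_ok, W_14145044480_ok, W_14129045504_ok, W_14128787456_ok, W_14128013312_ok, W_13055307776_ok, W_13055303744_ok, W_11998081088_ok, W_11981570048_ok, W_11981566016_ok, trivial⟩ C_14145839232
theorem L_14145843264 : HH 127 (nat_lit 14145843264, nat_lit 35) := top_sound R_14145843264
  ⟨V6_13055311872_ok, V6_11997569088_ok, V6_11981574144_ok, V6_11981058048_ok, trivial⟩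
  ⟨W_14145818624_ok, W_14145556544_ok, W_14145302528_ok, W_14145044480_ok, W_13072080896_ok, W_13055303744_ok, W_11998343168_ok, trivial⟩ C_14145843264
theorem L_14145847296 : HH 127 (nat_lit 14145847296, nat_lit 14) := top_sound R_14145847296
  ⟨V6_13072084992_ok, V6_11998347264_ok, trivial⟩
  ⟨W_14129045504_ok, W_14128787456_ok, W_11981570048_ok, trivial⟩ C_14145847296
theorem L_14146089090 : HH 127 (nat_lit 14146089090, nat_lit 2) := top_sound R_14146089090
  ⟨V6_11998077057_ok, trivial⟩
  ⟨W_13071556736_ok, trivial⟩ C_14146089090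
theorem L_14146089153 : HH 127 (nat_lit 14146089153, nat_lit 5) := top_sound R_14146089153
  ⟨V6_11997819072_ok, trivial⟩
  ⟨W_13071560768_ok, trivial⟩ C_14146089153
theorem L_14146093185 : HH 127 (nat_lit 14146093185, nat_lit 10) := top_sound R_14146093185
  ⟨V6_11998343232_ok, V6_11998081089_ok, trivial⟩
  ⟨W_14144782400_ok, W_13071556736_ok, trivial⟩ C_14146093185
theorem L_14146093248 : HH 127 (nat_lit 14146093248, nat_lit 15) := top_sound R_14146093248
  ⟨V6_13072084992_ok, V6_11998605312_ok, V6_11998347264_ok, trivial⟩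
  ⟨W_14145044480_ok, W_14144516288_ok, W_14144258240_ok, W_11997556928_ok, W_11997298880_ok, trivial⟩ C_14146093248
theorem L_14146097217 : HH 127 (nat_lit 14146097217, nat_lit 10) := top_sound R_14146097217
  ⟨V6_13072339008_ok, V6_11998339137_ok, V6_11998081089_ok, trivial⟩
  ⟨W_14144782400_ok, W_14144524352_ok, trivial⟩ C_14146097217
theorem L_14146097280 : HH 127 (nat_lit 14146097280, nat_lit 22) := top_sound R_14146097280
  ⟨V6_13071568896_ok, trivial⟩
  ⟨W_14145302528_ok, W_14145044480_ok, W_14145036416_ok, W_11998343168_ok, trivial⟩ C_14146097280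
theorem L_14146101312 : HH 127 (nat_lit 14146101312, nat_lit 20) := top_sound R_14146101312
  ⟨V6_14146080768_ok, V6_13072339008_ok, V6_11998605312_ok, V6_11997569088_ok, trivial⟩
  ⟨W_14145302528_ok, W_14145044480_ok, trivial⟩ C_14146101312
theorem L_14146105344 : HH 127 (nat_lit 14146105344, nat_lit 9) := top_sound R_14146105344
  ⟨V6_14146080768_ok, V6_11997573120_ok, trivial⟩
  ⟨W_14145302528_ok, trivial⟩ C_14146105344
theorem L_14161301763 : HH 127 (nat_lit 14161301763, nat_lit 1) := top_sound R_14161301763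
  ⟨V6_14094192897_ok, trivial⟩
  ⟨W_13070778560_ok, trivial⟩ C_14161301763
theorem L_14161559811 : HH 127 (nat_lit 14161559811, nat_lit 3) := top_sound R_14161559811
  ⟨V6_14060896515_ok, V6_13070516418_ok, trivial⟩
  ⟨W_14094450944_ok, W_13054001408_ok, trivial⟩ C_14161559811
theorem L_14161563843 : HH 127 (nat_lit 14161563843, nat_lit 3) := top_sound R_14161563843
  ⟨V6_13087813824_ok, trivial⟩
  ⟨W_14110970048_ok, W_14094454976_ok, trivial⟩ C_14161563843
theorem L_14161563906 : HH 127 (nat_lit 14161563906, nat_lit 7) := top_sound R_14161563906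
  ⟨V6_13087555776_ok, trivial⟩
  ⟨W_14094450944_ok, W_13071040640_ok, W_13020713216_ok, trivial⟩ C_14161563906
theorem L_14161563969 : HH 127 (nat_lit 14161563969, nat_lit 4) := top_sound R_14161563969
  ⟨V6_13087559808_ok, V6_13037228352_ok, trivial⟩
  ⟨W_14111232128_ok, trivial⟩ C_14161563969
theorem L_14161567938 : HH 127 (nat_lit 14161567938, nat_lit 8) := top_sound R_14161567938
  ⟨V6_13087813824_ok, V6_13003940034_ok, trivial⟩
  ⟨W_14128001216_ok, W_13071040640_ok, W_13037494400_ok, trivial⟩ C_14161567938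
theorem L_14161568001 : HH 127 (nat_lit 14161568001, nat_lit 14) := top_sound R_14161568001
  ⟨V6_13087821888_ok, trivial⟩
  ⟨W_14144782400_ok, W_14111236160_ok, W_14094450944_ok, W_14060904704_ok, trivial⟩ C_14161568001

theorem H_5 : AllH 127 tb5 :=
  ⟨L_14128533825, L_14128537794, L_14128537857, L_14128537920, L_14128541826, L_14128541889, L_14128541952, L_14128545921, L_14128545984, L_14128791747, L_14128791810, L_14128795842, L_14128795905, L_14128795968, L_14128799874, L_14128799937, L_14128800000, L_14128803969, L_14128804032, L_14128808001, L_14128808064, L_14128812096, L_14129049795, L_14129053890, L_14129053953, L_14129057922, L_14129057985, L_14129058048, L_14129062017, L_14129062080, L_14129066049, L_14129066112, L_14129070144, L_14129074176, L_14144782596, L_14144786691, L_14144786754, L_14144790723, L_14144790786, L_14144790849, L_14144790912, L_14145044739, L_14145048771, L_14145048834, L_14145048897, L_14145052866, L_14145052929, L_14145052992, L_14145056898, L_14145056961, L_14145057024, L_14145306819,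 L_14145306882, L_14145310914, L_14145310977, L_14145311040, L_14145314946, L_14145315009, L_14145315072, L_14145319041, L_14145319104, L_14145323073, L_14145323136, L_14145564867, L_14145568962, L_14145569025, L_14145572994, L_14145573057, L_14145573120, L_14145577089, L_14145577152, L_14145581121, L_14145581184, L_14145585216, L_14145589248, L_14145827010, L_14145831042, L_14145831105, L_14145831168, L_14145835137, L_14145835200, L_14145839169, L_14145839232, L_14145843264, L_14145847296, L_14146089090, L_14146089153, L_14146093185, L_14146093248, L_14146097217, L_14146097280, L_14146101312, L_14146105344, L_14161301763, L_14161559811, L_14161563843, L_14161563906, L_14161563969, L_14161567938, L_14161568001, trivial⟩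

theorem L_14161568064 : HH 127 (nat_lit 14161568064, nat_lit 11) := top_sound R_14161568064
  ⟨V6_13087825920_ok, trivial⟩
  ⟨W_14128009280_ok, W_14111232128_ok, W_14060904704_ok, trivial⟩ C_14161568064
theorem L_14161821891 : HH 127 (nat_lit 14161821891, nat_lit 4) := top_sound R_14161821891
  ⟨V6_14077931715_ok, V6_13070516418_ok, V6_13037482179_ok, trivial⟩
  ⟨W_14144516288_ok, W_14094713024_ok, trivial⟩ C_14161821891
theorem L_14161821954 : HH 127 (nat_lit 14161821954, nat_lit 8) := top_sound R_14161821954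
  ⟨V6_14161035456_ok, trivial⟩
  ⟨W_13054525568_ok, W_13054001408_ok, W_13037486336_ok, W_13020971264_ok, trivial⟩ C_14161821954
theorem L_14161825986 : HH 127 (nat_lit 14161825986, nat_lit 14) := top_sound R_14161825986
  ⟨V6_14077939905_ok, V6_13087555776_ok, V6_13004198082_ok, trivial⟩
  ⟨W_14128263296_ok, W_14128001216_ok, W_14111486144_ok, W_14110970048_ok, W_13071298688_ok, trivial⟩ C_14161825986
theorem L_14161826049 : HH 127 (nat_lit 14161826049, nat_lit 19) := top_sound R_14161826049
  ⟨V6_14077939905_ok, V6_13087821888_ok, trivial⟩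
  ⟨W_14161297472_ok, W_14144782400_ok, W_14110970048_ok, W_14094450944_ok, W_13071040640_ok, W_13070778560_ok, W_13054001408_ok, W_13020971264_ok, trivial⟩ C_14161826049
theorem L_14161826112 : HH 127 (nat_lit 14161826112, nat_lit 11) := top_sound R_14161826112
  ⟨V6_13088083968_ok, V6_13037228352_ok, trivial⟩
  ⟨W_14161301504_ok, W_14127747200_ok, W_14111232128_ok, W_14110970048_ok, W_14077939904_ok, W_13070782592_ok, W_13020713216_ok, trivial⟩ C_14161826112
theorem L_14161830018 : HH 127 (nat_lit 14161830018, nat_lit 11) := top_sound R_14161830018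
  ⟨V6_13088071809_ok, V6_13087809666_ok, V6_13071294594_ok, trivial⟩
  ⟨W_13088071808_ok, W_13071040640_ok, W_13037494400_ok, W_13020979328_ok, trivial⟩ C_14161830018
theorem L_14161830081 : HH 127 (nat_lit 14161830081, nat_lit 27) := top_sound R_14161830081
  ⟨V6_14077944000_ok, V6_14077939905_ok, V6_13087821888_ok, V6_13087813824_ok, trivial⟩
  ⟨W_14161555520_ok, W_14128001216_ok, W_14111486144_ok, W_14111236160_ok, W_14094721088_ok, W_13088075840_ok, W_13054271552_ok, W_13037494400_ok, trivial⟩ C_14161830081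
theorem L_14161830144 : HH 127 (nat_lit 14161830144, nat_lit 33) := top_sound R_14161830144
  ⟨V6_13088083968_ok, V6_13087825920_ok, V6_13071310848_ok, trivial⟩
  ⟨W_14161559552_ok, W_14145044480_ok, W_14128013312_ok, W_14111236160_ok, W_14094450944_ok, W_13054263488_ok, trivial⟩ C_14161830144
theorem L_14161834113 : HH 127 (nat_lit 14161834113, nat_lit 12) := top_sound R_14161834113
  ⟨V6_14094725184_ok, V6_13088071809_ok, V6_13020983361_ok, trivial⟩
  ⟨W_14161813568_ok, W_14094721088_ok, W_13088075840_ok, W_13088071808_ok, W_13071298688_ok, trivial⟩ C_14161834113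
theorem L_14161834176 : HH 127 (nat_lit 14161834176, nat_lit 20) := top_sound R_14161834176
  ⟨V6_14111502336_ok, V6_13088083968_ok, V6_13054537728_ok, trivial⟩
  ⟨W_14161817600_ok, W_14111486144_ok, W_14094721088_ok, W_13088075840_ok, W_13071298688_ok, W_13054521536_ok, trivial⟩ C_14161834176
theorem L_14162079939 : HH 127 (nat_lit 14162079939, nat_lit 1) := top_sound R_14162079939
  ⟨V6_13037482179_ok, trivial⟩
  ⟨W_14144516288_ok, trivial⟩ C_14162079939
theorem L_14162084034 : HH 127 (nat_lit 14162084034, nat_lit 15) := top_sound R_14162084034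
  ⟨V6_14161035456_ok, V6_13087555776_ok, trivial⟩
  ⟨W_14128263296_ok, W_14111748224_ok, W_14111486144_ok, W_13071298688_ok, trivial⟩ C_14162084034
theorem L_14162084097 : HH 127 (nat_lit 14162084097, nat_lit 17) := top_sound R_14162084097
  ⟨V6_14144258304_ok, V6_14127481089_ok, V6_13021233408_ok, trivial⟩
  ⟨W_14144782400_ok, W_14128267328_ok, W_13087817792_ok, trivial⟩ C_14162084097
theorem L_14162088066 : HH 127 (nat_lit 14162088066, nat_lit 15) := top_sound R_14162088066
  ⟨V6_13088333952_ok, trivial⟩
  ⟨W_14127747200_ok, W_14111748224_ok, W_13071040640_ok, W_13054267520_ok, W_13021237376_ok, trivial⟩ C_14162088066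
theorem L_14162088129 : HH 127 (nat_lit 14162088129, nat_lit 35) := top_sound R_14162088129
  ⟨V6_14161293504_ok, V6_13087821888_ok, V6_13087559808_ok, V6_13087555776_ok, trivial⟩
  ⟨W_14161555520_ok, W_14161297472_ok, W_14128001216_ok, W_14111748224_ok, W_14111486144_ok, W_14094979136_ok, W_13088075840_ok, W_13071560768_ok, W_13021237376_ok, W_13021233344_ok, trivial⟩ C_14162088129
theorem L_14162088192 : HH 127 (nat_lit 14162088192, nat_lit 40) := top_sound R_14162088192
  ⟨V6_13088342016_ok, V6_13087821888_ok, V6_13087559808_ok, trivial⟩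
  ⟨W_14161559552_ok, W_14161301504_ok, W_14161297472_ok, W_14145044480_ok, W_14110970048_ok, W_14094979136_ok, W_14094713024_ok, W_14094450944_ok, W_13054001408_ok, W_13021237376_ok, W_13021233344_ok, W_13020971264_ok, trivial⟩ C_14162088192
theorem L_14162092161 : HH 127 (nat_lit 14162092161, nat_lit 38) := top_sound R_14162092161
  ⟨V6_14145298560_ok, V6_13088333952_ok, trivial⟩
  ⟨W_14144782400_ok, W_14111236160_ok, W_14094979136_ok, W_14094721088_ok, W_14094459008_ok, W_13071044672_ok, W_13054271552_ok, W_13054267520_ok, W_13037494400_ok, W_13021241408_ok, W_13020979328_ok, trivial⟩ C_14162092161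
theorem L_14162092224 : HH 127 (nat_lit 14162092224, nat_lit 61) := top_sound R_14162092224
  ⟨V6_13088342016_ok, V6_13087825920_ok, V6_13071568896_ok, trivial⟩
  ⟨W_14161817600_ok, W_14161555520_ok, W_14145302528_ok, W_14145044480_ok, W_14128013312_ok, W_14128001216_ok, W_14111236160_ok, W_14111232128_ok, W_14094983168_ok, W_14094721088_ok, W_13054263488_ok, trivial⟩ C_14162092224
theorem L_14162096193 : HH 127 (nat_lit 14162096193, nat_lit 16) := top_sound R_14162096193
  ⟨V6_14094979137_ok, V6_14094725184_ok, V6_13021241409_ok, trivial⟩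
  ⟨W_14162071616_ok, W_14128525376_ok, W_13088333888_ok, W_13088075840_ok, trivial⟩ C_14162096193
theorem L_14162096256 : HH 127 (nat_lit 14162096256, nat_lit 46) := top_sound R_14162096256
  ⟨V6_13088342016_ok, V6_13088333952_ok, V6_13088083968_ok, trivial⟩
  ⟨W_14161817600_ok, W_14161813568_ok, W_14145302528_ok, W_14145044480_ok, W_14094983168_ok, W_14094721088_ok, W_13088071808_ok, W_13021245440_ok, trivial⟩ C_14162096256
theorem L_14162100288 : HH 127 (nat_lit 14162100288, nat_lit 22) := top_sound R_14162100288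
  ⟨V6_13088342016_ok, trivial⟩
  ⟨W_14145302528_ok, W_14094983168_ok, W_14094979136_ok, W_13021245440_ok, trivial⟩ C_14162100288
theorem L_14162342082 : HH 127 (nat_lit 14162342082, nat_lit 6) := top_sound R_14162342082
  ⟨V6_13038268608_ok, trivial⟩
  ⟨W_14161293440_ok, W_13071298688_ok, trivial⟩ C_14162342082
theorem L_14162346114 : HH 127 (nat_lit 14162346114, nat_lit 12) := top_sound R_14162346114
  ⟨V6_13088333952_ok, trivial⟩
  ⟨W_14111748224_ok, W_14111490176_ok, W_13071040640_ok, trivial⟩ C_14162346114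
theorem L_14162346177 : HH 127 (nat_lit 14162346177, nat_lit 27) := top_sound R_14162346177
  ⟨V6_14161293504_ok, V6_14161035456_ok, V6_13087813824_ok, V6_13087555776_ok, trivial⟩
  ⟨W_14161555520_ok, W_14161297472_ok, W_14112010304_ok, W_14111748224_ok, W_13071560768_ok, W_13055045696_ok, W_13038272576_ok, trivial⟩ C_14162346177
theorem L_14162346240 : HH 127 (nat_lit 14162346240, nat_lit 24) := top_sound R_14162346240
  ⟨V6_13088342016_ok, trivial⟩
  ⟨W_14161559552_ok, W_14145044480_ok, W_14111490176_ok, W_13038272576_ok, W_13037486336_ok, trivial⟩ C_14162346240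
theorem L_14162350209 : HH 127 (nat_lit 14162350209, nat_lit 35) := top_sound R_14162350209
  ⟨V6_13088333952_ok, V6_13088071809_ok, V6_13087821888_ok, trivial⟩
  ⟨W_14161555520_ok, W_14161297472_ok, W_14128783424_ok, W_14128525376_ok, W_14112010304_ok, W_13071560768_ok, W_13055045696_ok, W_13038272576_ok, trivial⟩ C_14162350209
theorem L_14162350272 : HH 127 (nat_lit 14162350272, nat_lit 55) := top_sound R_14162350272
  ⟨V6_14161563648_ok, V6_13088342016_ok, V6_13088083968_ok, trivial⟩
  ⟨W_14161817600_ok, W_14161555520_ok, W_14145302528_ok, W_14145044480_ok, W_14144516288_ok, W_14128787456_ok, W_14128001216_ok, W_14112014336_ok, W_14112010304_ok, W_13071036608_ok, W_13054263488_ok, W_13038268544_ok, trivial⟩ C_14162350272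
theorem L_14162354241 : HH 127 (nat_lit 14162354241, nat_lit 24) := top_sound R_14162354241
  ⟨V6_14128013376_ok, trivial⟩
  ⟨W_14162071616_ok, W_14161813568_ok, W_14145556544_ok, W_14128525376_ok, W_14112010304_ok, W_13088333888_ok, trivial⟩ C_14162354241
theorem L_14162354304 : HH 127 (nat_lit 14162354304, nat_lit 65) := top_sound R_14162354304
  ⟨V6_14161563648_ok, V6_13088342016_ok, V6_13088083968_ok, V6_13087825920_ok, trivial⟩
  ⟨W_14161817600_ok, W_14161813568_ok, W_14145560576_ok, W_14145302528_ok, W_14128787456_ok, W_14128783424_ok, W_14128013312_ok, W_14112010304_ok, W_14111236160_ok, W_13088071808_ok, W_13071556736_ok, trivial⟩ C_14162354304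
theorem L_14162358336 : HH 127 (nat_lit 14162358336, nat_lit 42) := top_sound R_14162358336
  ⟨V6_13088342016_ok, V6_13055053824_ok, V6_13038280704_ok, trivial⟩
  ⟨W_14162333696_ok, W_14161813568_ok, W_14145560576_ok, W_14145556544_ok, W_14145302528_ok, W_14128783424_ok, W_14112010304_ok, W_13088333888_ok, trivial⟩ C_14162358336
theorem L_14162362368 : HH 127 (nat_lit 14162362368, nat_lit 17) := top_sound R_14162362368
  ⟨V6_13088342016_ok, trivial⟩
  ⟨W_14162333696_ok, W_14145560576_ok, W_14128787456_ok, trivial⟩ C_14162362368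
theorem L_14162604162 : HH 127 (nat_lit 14162604162, nat_lit 6) := top_sound R_14162604162
  ⟨V6_14161289346_ok, V6_13087809666_ok, trivial⟩
  ⟨W_14128521344_ok, W_13087813760_ok, trivial⟩ C_14162604162
theorem L_14162604225 : HH 127 (nat_lit 14162604225, nat_lit 10) := top_sound R_14162604225
  ⟨V6_14161293504_ok, V6_13087813824_ok, trivial⟩
  ⟨W_14128525376_ok, W_13055045696_ok, trivial⟩ C_14162604225
theorem L_14162608257 : HH 127 (nat_lit 14162608257, nat_lit 27) := top_sound R_14162608257
  ⟨V6_14145298560_ok, V6_13088071809_ok, trivial⟩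
  ⟨W_14161555520_ok, W_14144782400_ok, W_14128525376_ok, W_13055303744_ok, W_13055045696_ok, trivial⟩ C_14162608257
theorem L_14162608320 : HH 127 (nat_lit 14162608320, nat_lit 38) := top_sound R_14162608320
  ⟨V6_14161035456_ok, V6_13088342016_ok, V6_13087813824_ok, trivial⟩
  ⟨W_14161817600_ok, W_14145302528_ok, W_14128787456_ok, W_13071822848_ok, W_13055307776_ok, W_13055045696_ok, trivial⟩ C_14162608320
theorem L_14162612289 : HH 127 (nat_lit 14162612289, nat_lit 20) := top_sound R_14162612289
  ⟨V6_14129041473_ok, V6_13088854080_ok, V6_13087821888_ok, V6_13072076865_ok, trivial⟩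
  ⟨W_14161813568_ok, W_14128783424_ok, W_14128525376_ok, W_13055303744_ok, trivial⟩ C_14162612289
theorem L_14162612352 : HH 127 (nat_lit 14162612352, nat_lit 56) := top_sound R_14162612352
  ⟨V6_14161563648_ok, V6_13088858112_ok, V6_13088333952_ok, V6_13088083968_ok, trivial⟩
  ⟨W_14161817600_ok, W_14145302528_ok, W_14145044480_ok, W_14129045504_ok, W_14128787456_ok, W_14128783424_ok, W_13071818816_ok, W_13055307776_ok, W_13055303744_ok, trivial⟩ C_14162612352
theorem L_14162616384 : HH 127 (nat_lit 14162616384, nat_lit 51) := top_sound R_14162616384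
  ⟨V6_13088858112_ok, V6_13088854080_ok, V6_13088342016_ok, V6_13087825920_ok, trivial⟩
  ⟨W_14145556544_ok, W_14145302528_ok, W_14145044480_ok, W_14129045504_ok, W_14128787456_ok, W_14128783424_ok, W_14128013312_ok, W_13055303744_ok, trivial⟩ C_14162616384
theorem L_14162620416 : HH 127 (nat_lit 14162620416, nat_lit 26) := top_sound R_14162620416
  ⟨V6_13088858112_ok, V6_13055311872_ok, trivial⟩
  ⟨W_14162333696_ok, W_14161817600_ok, W_14145302528_ok, trivial⟩ C_14162620416
theorem L_14162862210 : HH 127 (nat_lit 14162862210, nat_lit 1) := top_sound R_14162862210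
  ⟨V6_13087809666_ok, trivial⟩
  ⟨W_13088071808_ok, trivial⟩ C_14162862210
theorem L_14162866305 : HH 127 (nat_lit 14162866305, nat_lit 12) := top_sound R_14162866305
  ⟨V6_13088333952_ok, trivial⟩
  ⟨W_14161555520_ok, W_13071560768_ok, trivial⟩ C_14162866305
theorem L_14162866368 : HH 127 (nat_lit 14162866368, nat_lit 11) := top_sound R_14162866368
  ⟨V6_14161293504_ok, V6_13087813824_ok, trivial⟩
  ⟨W_14161817600_ok, W_13088337920_ok, trivial⟩ C_14162866368
theorem L_14162870337 : HH 127 (nat_lit 14162870337, nat_lit 11) := top_sound R_14162870337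
  ⟨V6_14145556545_ok, V6_13088854080_ok, V6_13072339008_ok, trivial⟩
  ⟨W_14161555520_ok, W_14161297472_ok, trivial⟩ C_14162870337
theorem L_14162870400 : HH 127 (nat_lit 14162870400, nat_lit 31) := top_sound R_14162870400
  ⟨V6_13088858112_ok, V6_13088342016_ok, trivial⟩
  ⟨W_14161555520_ok, W_14145302528_ok, W_14145044480_ok, W_14145036416_ok, trivial⟩ C_14162870400
theorem L_14162874432 : HH 127 (nat_lit 14162874432, nat_lit 33) := top_sound R_14162874432
  ⟨V6_13088858112_ok, V6_13088854080_ok, V6_13087821888_ok, V6_13072339008_ok, trivial⟩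
  ⟨W_14161559552_ok, W_14161301504_ok, W_14145302528_ok, W_14145044480_ok, trivial⟩ C_14162874432
theorem L_14162878464 : HH 127 (nat_lit 14162878464, nat_lit 20) := top_sound R_14162878464
  ⟨V6_14162853888_ok, V6_14146080768_ok, V6_13087825920_ok, V6_13072343040_ok, trivial⟩
  ⟨W_14145302528_ok, W_13088854016_ok, W_13071564800_ok, trivial⟩ C_14162878464
theorem L_14163124353 : HH 127 (nat_lit 14163124353, nat_lit 3) := top_sound R_14163124353
  ⟨V6_13088071809_ok, trivial⟩
  ⟨W_14161813568_ok, trivial⟩ C_14163124353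
theorem L_14163128385 : HH 127 (nat_lit 14163128385, nat_lit 3) := top_sound R_14163128385
  ⟨V6_13088854080_ok, V6_13088591937_ok, trivial⟩
  ⟨W_14161555520_ok, trivial⟩ C_14163128385
theorem L_14163128448 : HH 127 (nat_lit 14163128448, nat_lit 10) := top_sound R_14163128448
  ⟨V6_13088333952_ok, trivial⟩
  ⟨W_14161817600_ok, trivial⟩ C_14163128448
theorem L_14163132480 : HH 127 (nat_lit 14163132480, nat_lit 14) := top_sound R_14163132480
  ⟨V6_13088342016_ok, trivial⟩
  ⟨W_14162333696_ok, W_14162071616_ok, W_14161555520_ok, trivial⟩ C_14163132480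
theorem L_14163136512 : HH 127 (nat_lit 14163136512, nat_lit 11) := top_sound R_14163136512
  ⟨V6_13088083968_ok, trivial⟩
  ⟨W_14162591744_ok, W_14161301504_ok, W_13088854016_ok, W_13088595968_ok, trivial⟩ C_14163136512
theorem L_14178074883 : HH 127 (nat_lit 14178074883, nat_lit 1) := top_sound R_14178074883
  ⟨V6_14127481089_ok, trivial⟩
  ⟨W_14144258240_ok, trivial⟩ C_14178074883
theorem L_14178078978 : HH 127 (nat_lit 14178078978, nat_lit 1) := top_sound R_14178078978
  ⟨V6_14094192834_ok, trivial⟩
  ⟨W_14127747200_ok, trivial⟩ C_14178078978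
theorem L_14178079041 : HH 127 (nat_lit 14178079041, nat_lit 1) := top_sound R_14178079041
  ⟨V6_14094192897_ok, trivial⟩
  ⟨W_14144524352_ok, trivial⟩ C_14178079041
theorem L_14178336963 : HH 127 (nat_lit 14178336963, nat_lit 2) := top_sound R_14178336963
  ⟨V6_14177808576_ok, trivial⟩
  ⟨W_14128001216_ok, trivial⟩ C_14178336963
theorem L_14178337026 : HH 127 (nat_lit 14178337026, nat_lit 3) := top_sound R_14178337026
  ⟨V6_14177812608_ok, trivial⟩
  ⟨W_14127481088_ok, W_14094450944_ok, trivial⟩ C_14178337026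
theorem L_14178341058 : HH 127 (nat_lit 14178341058, nat_lit 7) := top_sound R_14178341058
  ⟨V6_14161293504_ok, trivial⟩
  ⟨W_14144516288_ok, W_14128001216_ok, W_14110970048_ok, W_14094454976_ok, trivial⟩ C_14178341058
theorem L_14178341121 : HH 127 (nat_lit 14178341121, nat_lit 7) := top_sound R_14178341121
  ⟨V6_14178074688_ok, trivial⟩
  ⟨W_14144782400_ok, trivial⟩ C_14178341121
theorem L_14178341184 : HH 127 (nat_lit 14178341184, nat_lit 5) := top_sound R_14178341184
  ⟨V6_14178078720_ok, trivial⟩
  ⟨W_14161301504_ok, W_14110970048_ok, W_14094454976_ok, trivial⟩ C_14178341184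
theorem L_14178345090 : HH 127 (nat_lit 14178345090, nat_lit 2) := top_sound R_14178345090
  ⟨V6_14144774274_ok, V6_14077681794_ok, trivial⟩
  ⟨W_14161551488_ok, trivial⟩ C_14178345090
theorem L_14178345153 : HH 127 (nat_lit 14178345153, nat_lit 10) := top_sound R_14178345153
  ⟨V6_14128013376_ok, trivial⟩
  ⟨W_14161555520_ok, W_14128001216_ok, W_14077681856_ok, trivial⟩ C_14178345153
theorem L_14178345216 : HH 127 (nat_lit 14178345216, nat_lit 10) := top_sound R_14178345216
  ⟨V6_14144790528_ok, trivial⟩
  ⟨W_14128013312_ok, W_14111236160_ok, trivial⟩ C_14178345216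
theorem L_14178595011 : HH 127 (nat_lit 14178595011, nat_lit 2) := top_sound R_14178595011
  ⟨V6_14177808576_ok, trivial⟩
  ⟨W_14111486144_ok, trivial⟩ C_14178595011
theorem L_14178599106 : HH 127 (nat_lit 14178599106, nat_lit 7) := top_sound R_14178599106
  ⟨V6_14177808576_ok, V6_14127481026_ok, trivial⟩
  ⟨W_14111490176_ok, W_14111486144_ok, trivial⟩ C_14178599106
theorem L_14178599169 : HH 127 (nat_lit 14178599169, nat_lit 9) := top_sound R_14178599169
  ⟨V6_14177812608_ok, V6_14127481089_ok, trivial⟩
  ⟨W_14144782400_ok, W_14128267328_ok, trivial⟩ C_14178599169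
theorem L_14178603138 : HH 127 (nat_lit 14178603138, nat_lit 7) := top_sound R_14178603138
  ⟨V6_14178066561_ok, V6_14161289346_ok, V6_14077939842_ok, trivial⟩
  ⟨W_14127747200_ok, W_14111232128_ok, W_14094717056_ok, trivial⟩ C_14178603138
theorem L_14178603201 : HH 127 (nat_lit 14178603201, nat_lit 18) := top_sound R_14178603201
  ⟨V6_14178074688_ok, V6_14077939905_ok, trivial⟩
  ⟨W_14161555520_ok, W_14144782400_ok, W_14128001216_ok, W_14111486144_ok, trivial⟩ C_14178603201
theorem L_14178603264 : HH 127 (nat_lit 14178603264, nat_lit 19) := top_sound R_14178603264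
  ⟨V6_14178336768_ok, V6_14178078720_ok, trivial⟩
  ⟨W_14161297472_ok, W_14145044480_ok, W_14127747200_ok, W_14110970048_ok, W_14094450944_ok, trivial⟩ C_14178603264
theorem L_14178607233 : HH 127 (nat_lit 14178607233, nat_lit 16) := top_sound R_14178607233
  ⟨V6_14128013376_ok, trivial⟩
  ⟨W_14161813568_ok, W_14161555520_ok, W_14111490176_ok, trivial⟩ C_14178607233
theorem L_14178607296 : HH 127 (nat_lit 14178607296, nat_lit 28) := top_sound R_14178607296
  ⟨V6_14178336768_ok, V6_14144790528_ok, trivial⟩
  ⟨W_14161817600_ok, W_14145044480_ok, W_14128001216_ok, W_14111486144_ok, W_14094721088_ok, trivial⟩ C_14178607296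
theorem L_14178611265 : HH 127 (nat_lit 14178611265, nat_lit 5) := top_sound R_14178611265
  ⟨V6_14094725184_ok, trivial⟩
  ⟨W_14178586688_ok, W_14161813568_ok, trivial⟩ C_14178611265
theorem L_14178611328 : HH 127 (nat_lit 14178611328, nat_lit 16) := top_sound R_14178611328
  ⟨V6_14178590784_ok, trivial⟩
  ⟨W_14161817600_ok, W_14145044480_ok, trivial⟩ C_14178611328
theorem L_14178857154 : HH 127 (nat_lit 14178857154, nat_lit 5) := top_sound R_14178857154
  ⟨V6_14177808576_ok, V6_14177546370_ok, trivial⟩
  ⟨W_14177546432_ok, W_14111748224_ok, trivial⟩ C_14178857154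
theorem L_14178861186 : HH 127 (nat_lit 14178861186, nat_lit 6) := top_sound R_14178861186
  ⟨V6_14177812608_ok, V6_14144258178_ok, trivial⟩
  ⟨W_14128521344_ok, W_14094975104_ok, trivial⟩ C_14178861186
theorem L_14178861249 : HH 127 (nat_lit 14178861249, nat_lit 20) := top_sound R_14178861249
  ⟨V6_14178074688_ok, V6_14177808576_ok, trivial⟩
  ⟨W_14161555520_ok, W_14128525376_ok, W_14111748224_ok, W_14111486144_ok, trivial⟩ C_14178861249
theorem L_14178861312 : HH 127 (nat_lit 14178861312, nat_lit 14) := top_sound R_14178861312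
  ⟨V6_14178336768_ok, trivial⟩
  ⟨W_14145044480_ok, W_14127481088_ok, W_14094450944_ok, trivial⟩ C_14178861312
theorem L_14178865281 : HH 127 (nat_lit 14178865281, nat_lit 24) := top_sound R_14178865281
  ⟨V6_14178074688_ok, V6_14094979137_ok, trivial⟩
  ⟨W_14178070592_ok, W_14161813568_ok, W_14161555520_ok, W_14111748224_ok, W_14094979136_ok, trivial⟩ C_14178865281
theorem L_14178865344 : HH 127 (nat_lit 14178865344, nat_lit 39) := top_sound R_14178865344
  ⟨V6_14178336768_ok, V6_14161563648_ok, trivial⟩
  ⟨W_14178070592_ok, W_14161817600_ok, W_14145302528_ok, W_14144516288_ok, W_14128001216_ok, W_14111748224_ok, W_14111486144_ok, W_14110970048_ok, trivial⟩ C_14178865344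
theorem L_14178869313 : HH 127 (nat_lit 14178869313, nat_lit 18) := top_sound R_14178869313
  ⟨V6_14178848832_ok, V6_14094979137_ok, trivial⟩
  ⟨W_14161555520_ok, W_14144782400_ok, W_14111236160_ok, trivial⟩ C_14178869313
theorem L_14178869376 : HH 127 (nat_lit 14178869376, nat_lit 40) := top_sound R_14178869376
  ⟨V6_14144790528_ok, V6_14128013376_ok, trivial⟩
  ⟨W_14178590720_ok, W_14178332672_ok, W_14161817600_ok, W_14161813568_ok, W_14161559552_ok, W_14094983168_ok, W_14094721088_ok, trivial⟩ C_14178869376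
theorem L_14178873408 : HH 127 (nat_lit 14178873408, nat_lit 28) := top_sound R_14178873408
  ⟨V6_14178848832_ok, V6_14111502336_ok, V6_14094987264_ok, V6_14094725184_ok, trivial⟩
  ⟨W_14178848768_ok, W_14178586688_ok, W_14161817600_ok, W_14145302528_ok, trivial⟩ C_14178873408
theorem L_14178877440 : HH 127 (nat_lit 14178877440, nat_lit 6) := top_sound R_14178877440
  ⟨V6_14178852864_ok, trivial⟩
  ⟨W_14145302528_ok, trivial⟩ C_14178877440
theorem L_14179119234 : HH 127 (nat_lit 14179119234, nat_lit 5) := top_sound R_14179119234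
  ⟨V6_14178066561_ok, V6_14177546370_ok, trivial⟩
  ⟨W_14177808512_ok, W_14111748224_ok, trivial⟩ C_14179119234
theorem L_14179119297 : HH 127 (nat_lit 14179119297, nat_lit 10) := top_sound R_14179119297
  ⟨V6_14177808576_ok, V6_14161293504_ok, trivial⟩
  ⟨W_14128525376_ok, W_14112010304_ok, trivial⟩ C_14179119297
theorem L_14179123329 : HH 127 (nat_lit 14179123329, nat_lit 20) := top_sound R_14179123329
  ⟨V6_14178074688_ok, V6_14112006273_ok, trivial⟩
  ⟨W_14177808512_ok, W_14161813568_ok, W_14128783424_ok, W_14128525376_ok, W_14112010304_ok, trivial⟩ C_14179123329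
theorem L_14179123392 : HH 127 (nat_lit 14179123392, nat_lit 31) := top_sound R_14179123392
  ⟨V6_14178336768_ok, V6_14177812608_ok, V6_14177808576_ok, V6_14161035456_ok, trivial⟩
  ⟨W_14161817600_ok, W_14145302528_ok, W_14128787456_ok, W_14112010304_ok, trivial⟩ C_14179123392
theorem L_14179127361 : HH 127 (nat_lit 14179127361, nat_lit 17) := top_sound R_14179127361
  ⟨V6_14178074688_ok, trivial⟩
  ⟨W_14178586688_ok, W_14162071616_ok, W_14145556544_ok, W_14128783424_ok, W_14112010304_ok, trivial⟩ C_14179127361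
theorem L_14179127424 : HH 127 (nat_lit 14179127424, nat_lit 44) := top_sound R_14179127424
  ⟨V6_14178078720_ok, V6_14161563648_ok, V6_14112018432_ok, trivial⟩
  ⟨W_14178590720_ok, W_14178332672_ok, W_14178070592_ok, W_14161817600_ok, W_14161813568_ok, W_14145302528_ok, W_14145036416_ok, trivial⟩ C_14179127424
theorem L_14179131456 : HH 127 (nat_lit 14179131456, nat_lit 40) := top_sound R_14179131456
  ⟨V6_14179110912_ok, V6_14178848832_ok, V6_14128013376_ok, trivial⟩
  ⟨W_14161817600_ok, W_14161559552_ok, W_14145302528_ok, W_14128787456_ok, trivial⟩ C_14179131456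
theorem L_14179135488 : HH 127 (nat_lit 14179135488, nat_lit 20) := top_sound R_14179135488
  ⟨V6_14112018432_ok, V6_14111502336_ok, trivial⟩
  ⟨W_14178848768_ok, W_14162333696_ok, W_14161817600_ok, trivial⟩ C_14179135488
theorem L_14179377282 : HH 127 (nat_lit 14179377282, nat_lit 1) := top_sound R_14179377282
  ⟨V6_14161289346_ok, trivial⟩
  ⟨W_14128521344_ok, trivial⟩ C_14179377282
theorem L_14179381377 : HH 127 (nat_lit 14179381377, nat_lit 11) := top_sound R_14179381377
  ⟨V6_14178590784_ok, trivial⟩
  ⟨W_14128525376_ok, W_14128521344_ok, trivial⟩ C_14179381377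
theorem L_14179381440 : HH 127 (nat_lit 14179381440, nat_lit 17) := top_sound R_14179381440
  ⟨V6_14128787520_ok, trivial⟩
  ⟨W_14178332672_ok, W_14178070592_ok, W_14177546432_ok, W_14161817600_ok, trivial⟩ C_14179381440
theorem L_14179385409 : HH 127 (nat_lit 14179385409, nat_lit 17) := top_sound R_14179385409
  ⟨V6_14178074688_ok, trivial⟩
  ⟨W_14178586688_ok, W_14178070592_ok, W_14128783424_ok, W_14128525376_ok, trivial⟩ C_14179385409
theorem L_14179385472 : HH 127 (nat_lit 14179385472, nat_lit 32) := top_sound R_14179385472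
  ⟨V6_14178336768_ok, V6_14145298560_ok, trivial⟩
  ⟨W_14178590720_ok, W_14178332672_ok, W_14161817600_ok, W_14129045504_ok, W_14128787456_ok, trivial⟩ C_14179385472
theorem L_14179389504 : HH 127 (nat_lit 14179389504, nat_lit 38) := top_sound R_14179389504
  ⟨V6_14179110912_ok, V6_14178848832_ok, V6_14178336768_ok, V6_14178078720_ok, trivial⟩
  ⟨W_14145302528_ok, W_14145044480_ok, W_14129045504_ok, W_14128787456_ok, W_14128783424_ok, trivial⟩ C_14179389504
theorem L_14179393536 : HH 127 (nat_lit 14179393536, nat_lit 21) := top_sound R_14179393536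
  ⟨V6_14179110912_ok, V6_14144790528_ok, trivial⟩
  ⟨W_14162591744_ok, W_14162333696_ok, W_14129045504_ok, W_14128787456_ok, trivial⟩ C_14179393536
theorem L_14179639425 : HH 127 (nat_lit 14179639425, nat_lit 3) := top_sound R_14179639425
  ⟨V6_14178066561_ok, trivial⟩
  ⟨W_14145298496_ok, trivial⟩ C_14179639425
theorem L_14179643457 : HH 127 (nat_lit 14179643457, nat_lit 8) := top_sound R_14179643457
  ⟨V6_14178848832_ok, trivial⟩
  ⟨W_14178070592_ok, W_14161555520_ok, trivial⟩ C_14179643457

theorem H_6 : AllH 127 tb6 :=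
  ⟨L_14161568064, L_14161821891, L_14161821954, L_14161825986, L_14161826049, L_14161826112, L_14161830018, L_14161830081, L_14161830144, L_14161834113, L_14161834176, L_14162079939, L_14162084034, L_14162084097, L_14162088066, L_14162088129, L_14162088192, L_14162092161, L_14162092224, L_14162096193, L_14162096256, L_14162100288, L_14162342082, L_14162346114, L_14162346177, L_14162346240, L_14162350209, L_14162350272, L_14162354241, L_14162354304, L_14162358336, L_14162362368, L_14162604162, L_14162604225, L_14162608257, L_14162608320, L_14162612289, L_14162612352, L_14162616384, L_14162620416, L_14162862210, L_14162866305, L_14162866368, L_14162870337, L_14162870400, L_14162874432, L_14162878464, L_14163124353, L_14163128385, L_14163128448, L_14163132480, L_14163136512, L_14178074883, L_14178078978, L_14178079041, L_14178336963, L_14178337026, L_14178341058, L_14178341121, L_14178341184, L_14178345090, L_14178345153, L_14178345216, L_14178595011, L_14178599106, L_14178599169, L_14178603138, L_14178603201, L_14178603264,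 L_14178607233, L_14178607296, L_14178611265, L_14178611328, L_14178857154, L_14178861186, L_14178861249, L_14178861312, L_14178865281, L_14178865344, L_14178869313, L_14178869376, L_14178873408, L_14178877440, L_14179119234, L_14179119297, L_14179123329, L_14179123392, L_14179127361, L_14179127424, L_14179131456, L_14179135488, L_14179377282, L_14179381377, L_14179381440, L_14179385409, L_14179385472, L_14179389504, L_14179393536, L_14179639425, L_14179643457, trivial⟩

theorem L_14179643520 : HH 127 (nat_lit 14179643520, nat_lit 17) := top_sound R_14179643520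
  ⟨V6_14145298560_ok, trivial⟩
  ⟨W_14178332672_ok, W_14161817600_ok, trivial⟩ C_14179643520
theorem L_14179647552 : HH 127 (nat_lit 14179647552, nat_lit 25) := top_sound R_14179647552
  ⟨V6_14178848832_ok, V6_14178336768_ok, trivial⟩
  ⟨W_14162333696_ok, W_14145818624_ok, W_14145556544_ok, W_14145302528_ok, trivial⟩ C_14179647552
theorem L_14179651584 : HH 127 (nat_lit 14179651584, nat_lit 18) := top_sound R_14179651584
  ⟨V6_14179110912_ok, V6_14178078720_ok, trivial⟩
  ⟨W_14162591744_ok, W_14145818624_ok, W_14145302528_ok, trivial⟩ C_14179651584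
theorem L_14179901505 : HH 127 (nat_lit 14179901505, nat_lit 3) := top_sound R_14179901505
  ⟨V6_14178848832_ok, trivial⟩
  ⟨W_14178328640_ok, trivial⟩ C_14179901505
theorem L_14179901568 : HH 127 (nat_lit 14179901568, nat_lit 3) := top_sound R_14179901568
  ⟨V6_14178852864_ok, trivial⟩
  ⟨W_14178328640_ok, trivial⟩ C_14179901568
theorem L_14179905600 : HH 127 (nat_lit 14179905600, nat_lit 13) := top_sound R_14179905600
  ⟨V6_14179110912_ok, V6_14178848832_ok, trivial⟩
  ⟨W_14178070592_ok, W_14161817600_ok, trivial⟩ C_14179905600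
theorem L_14179909632 : HH 127 (nat_lit 14179909632, nat_lit 8) := top_sound R_14179909632
  ⟨V6_14178336768_ok, trivial⟩
  ⟨W_14162591744_ok, W_14162333696_ok, trivial⟩ C_14179909632
theorem L_14180159553 : HH 127 (nat_lit 14180159553, nat_lit 2) := top_sound R_14180159553
  ⟨V6_14178848832_ok, trivial⟩
  ⟨W_14178586688_ok, trivial⟩ C_14180159553
theorem L_14180163648 : HH 127 (nat_lit 14180163648, nat_lit 2) := top_sound R_14180163648
  ⟨V6_14178848832_ok, trivial⟩
  ⟨W_14178590720_ok, trivial⟩ C_14180163648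
theorem L_14180167680 : HH 127 (nat_lit 14180167680, nat_lit 4) := top_sound R_14180167680
  ⟨V6_14179110912_ok, trivial⟩
  ⟨W_14178332672_ok, trivial⟩ C_14180167680
theorem L_15134646660 : HH 127 (nat_lit 15134646660, nat_lit 1) := top_sound R_15134646660
  ⟨V6_10839679236_ok, trivial⟩
  ⟨W_11913421184_ok, trivial⟩ C_15134646660
theorem L_15151423875 : HH 127 (nat_lit 15151423875, nat_lit 1) := top_sound R_15151423875
  ⟨V6_9765937539_ok, trivial⟩
  ⟨W_15134646464_ok, trivial⟩ C_15151423875
theorem L_15151685955 : HH 127 (nat_lit 15151685955, nat_lit 1) := top_sound R_15151685955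
  ⟨V6_10856456451_ok, trivial⟩
  ⟨W_14077939904_ok, trivial⟩ C_15151685955
theorem L_15168200964 : HH 127 (nat_lit 15168200964, nat_lit 2) := top_sound R_15168200964
  ⟨V6_12987154692_ok, V6_10856456451_ok, trivial⟩
  ⟨W_14094450944_ok, trivial⟩ C_15168200964
theorem L_15168201027 : HH 127 (nat_lit 15168201027, nat_lit 2) := top_sound R_15168201027
  ⟨V6_10873233729_ok, trivial⟩
  ⟨W_15151419584_ok, W_15134646464_ok, trivial⟩ C_15168201027
theorem L_15168201090 : HH 127 (nat_lit 15168201090, nat_lit 4) := top_sound R_15168201090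
  ⟨V6_11913421122_ok, V6_10873233792_ok, trivial⟩
  ⟨W_15151423616_ok, W_15134646464_ok, W_11913421184_ok, trivial⟩ C_15168201090
theorem L_15168459012 : HH 127 (nat_lit 15168459012, nat_lit 1) := top_sound R_15168459012
  ⟨V6_10873225476_ok, trivial⟩
  ⟨W_15167930624_ok, trivial⟩ C_15168459012
theorem L_15168459075 : HH 127 (nat_lit 15168459075, nat_lit 1) := top_sound R_15168459075
  ⟨V6_11930194179_ok, trivial⟩
  ⟨W_11947233536_ok, trivial⟩ C_15168459075
theorem L_15168463107 : HH 127 (nat_lit 15168463107, nat_lit 4) := top_sound R_15168463107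
  ⟨V6_11930198274_ok, V6_10856456451_ok, V6_9799753986_ok, trivial⟩
  ⟨W_15168192704_ok, W_14094713024_ok, trivial⟩ C_15168463107
theorem L_15168463170 : HH 127 (nat_lit 15168463170, nat_lit 4) := top_sound R_15168463170
  ⟨V6_11930460480_ok, V6_10873233729_ok, V6_9799753986_ok, trivial⟩
  ⟨W_15168196736_ok, W_15151419584_ok, trivial⟩ C_15168463170
theorem L_15168463233 : HH 127 (nat_lit 15168463233, nat_lit 4) := top_sound R_15168463233
  ⟨V6_10873233792_ok, V6_10873233729_ok, trivial⟩
  ⟨W_15168200768_ok, trivial⟩ C_15168463233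
theorem L_15168467139 : HH 127 (nat_lit 15168467139, nat_lit 1) := top_sound R_15168467139
  ⟨V6_10873499841_ok, trivial⟩
  ⟨W_15151677632_ok, trivial⟩ C_15168467139
theorem L_15168467202 : HH 127 (nat_lit 15168467202, nat_lit 2) := top_sound R_15168467202
  ⟨V6_10873499841_ok, V6_9799753986_ok, trivial⟩
  ⟨W_15151677632_ok, W_14077939904_ok, trivial⟩ C_15168467202
theorem L_15168467265 : HH 127 (nat_lit 15168467265, nat_lit 2) := top_sound R_15168467265
  ⟨V6_13020983361_ok, trivial⟩
  ⟨W_15151685696_ok, W_14077939904_ok, trivial⟩ C_15168467265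
theorem L_15168467328 : HH 127 (nat_lit 15168467328, nat_lit 1) := top_sound R_15168467328
  ⟨V6_11930460480_ok, trivial⟩
  ⟨W_14094725120_ok, trivial⟩ C_15168467328
theorem L_15168717060 : HH 127 (nat_lit 15168717060, nat_lit 2) := top_sound R_15168717060
  ⟨V6_11947491585_ok, trivial⟩
  ⟨W_14094450944_ok, trivial⟩ C_15168717060
theorem L_15168721155 : HH 127 (nat_lit 15168721155, nat_lit 3) := top_sound R_15168721155
  ⟨V6_10873753857_ok, trivial⟩
  ⟨W_15167930624_ok, W_14094450944_ok, trivial⟩ C_15168721155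
theorem L_15168721218 : HH 127 (nat_lit 15168721218, nat_lit 2) := top_sound R_15168721218
  ⟨V6_11947495554_ok, trivial⟩
  ⟨W_15168196736_ok, trivial⟩ C_15168721218
theorem L_15168725187 : HH 127 (nat_lit 15168725187, nat_lit 2) := top_sound R_15168725187
  ⟨V6_11947491522_ok, trivial⟩
  ⟨W_15168450752_ok, W_13020717248_ok, trivial⟩ C_15168725187
theorem L_15168725250 : HH 127 (nat_lit 15168725250, nat_lit 11) := top_sound R_15168725250
  ⟨V6_11947495554_ok, V6_10873757952_ok, V6_10873753794_ok, V6_9799753986_ok, trivial⟩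
  ⟨W_15168454784_ok, W_15168196736_ok, W_14094459008_ok, W_14094450944_ok, trivial⟩ C_15168725250
theorem L_15168725313 : HH 127 (nat_lit 15168725313, nat_lit 9) := top_sound R_15168725313
  ⟨V6_13021241409_ok, V6_10873757952_ok, trivial⟩
  ⟨W_15168458816_ok, W_15168200768_ok, W_15168196736_ok, trivial⟩ C_15168725313
theorem L_15168725376 : HH 127 (nat_lit 15168725376, nat_lit 8) := top_sound R_15168725376
  ⟨V6_15168724992_ok, trivial⟩
  ⟨W_15168462848_ok, W_15168200768_ok, W_10873233728_ok, trivial⟩ C_15168725376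
theorem L_15168729282 : HH 127 (nat_lit 15168729282, nat_lit 5) := top_sound R_15168729282
  ⟨V6_11947495554_ok, V6_10873761984_ok, trivial⟩
  ⟨W_15168454784_ok, trivial⟩ C_15168729282
theorem L_15168729345 : HH 127 (nat_lit 15168729345, nat_lit 10) := top_sound R_15168729345
  ⟨V6_11947491585_ok, V6_10873757952_ok, trivial⟩
  ⟨W_15168716864_ok, W_14094721088_ok, W_13020971264_ok, W_11947503680_ok, trivial⟩ C_15168729345
theorem L_15168729408 : HH 127 (nat_lit 15168729408, nat_lit 8) := top_sound R_15168729408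
  ⟨V6_14094987264_ok, V6_10873757952_ok, trivial⟩
  ⟨W_15168458816_ok, W_14094721088_ok, trivial⟩ C_15168729408
theorem L_15168733314 : HH 127 (nat_lit 15168733314, nat_lit 4) := top_sound R_15168733314
  ⟨V6_15168708738_ok, trivial⟩
  ⟨W_13021237376_ok, W_10873761920_ok, trivial⟩ C_15168733314
theorem L_15168733377 : HH 127 (nat_lit 15168733377, nat_lit 6) := top_sound R_15168733377
  ⟨V6_15168712896_ok, V6_10873761984_ok, V6_9800024256_ok, trivial⟩
  ⟨W_14094979136_ok, W_10873765952_ok, W_10873761920_ok, trivial⟩ C_15168733377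
theorem L_15168733440 : HH 127 (nat_lit 15168733440, nat_lit 11) := top_sound R_15168733440
  ⟨V6_13021233408_ok, V6_8726282496_ok, trivial⟩
  ⟨W_15168720896_ok, W_13021245440_ok, W_11947507712_ok, W_8726282432_ok, trivial⟩ C_15168733440
theorem L_15184974084 : HH 127 (nat_lit 15184974084, nat_lit 1) := top_sound R_15184974084
  ⟨V6_10873225476_ok, trivial⟩
  ⟨W_15167930624_ok, trivial⟩ C_15184974084
theorem L_15184974147 : HH 127 (nat_lit 15184974147, nat_lit 1) := top_sound R_15184974147
  ⟨V6_10890006849_ok, trivial⟩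
  ⟨W_14110970048_ok, trivial⟩ C_15184974147
theorem L_15184978179 : HH 127 (nat_lit 15184978179, nat_lit 5) := top_sound R_15184978179
  ⟨V6_12987162882_ok, V6_11930198274_ok, trivial⟩
  ⟨W_15168192704_ok, W_14094450944_ok, W_10890010880_ok, trivial⟩ C_15184978179
theorem L_15184978242 : HH 127 (nat_lit 15184978242, nat_lit 6) := top_sound R_15184978242
  ⟨V6_15134646402_ok, V6_10873233729_ok, trivial⟩
  ⟨W_15151423616_ok, W_13037494400_ok, W_11963748608_ok, trivial⟩ C_15184978242
theorem L_15184978305 : HH 127 (nat_lit 15184978305, nat_lit 6) := top_sound R_15184978305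
  ⟨V6_11930198400_ok, V6_10873233792_ok, V6_10873233729_ok, trivial⟩
  ⟨W_15168200768_ok, W_15134646464_ok, trivial⟩ C_15184978305
theorem L_15185232132 : HH 127 (nat_lit 15185232132, nat_lit 1) := top_sound R_15185232132
  ⟨V6_10873225476_ok, trivial⟩
  ⟨W_15184445696_ok, trivial⟩ C_15185232132
theorem L_15185236227 : HH 127 (nat_lit 15185236227, nat_lit 5) := top_sound R_15185236227
  ⟨V6_14077939968_ok, V6_13004198082_ok, trivial⟩
  ⟨W_15184707776_ok, W_14110970048_ok, W_14094450944_ok, trivial⟩ C_15185236227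
theorem L_15185236290 : HH 127 (nat_lit 15185236290, nat_lit 5) := top_sound R_15185236290
  ⟨V6_14077677888_ok, V6_13037228352_ok, V6_13004198082_ok, trivial⟩
  ⟨W_14111232128_ok, W_9816527168_ok, trivial⟩ C_15185236290
theorem L_15185240259 : HH 127 (nat_lit 15185240259, nat_lit 6) := top_sound R_15185240259
  ⟨V6_14077944000_ok, trivial⟩
  ⟨W_15184965824_ok, W_15168450752_ok, W_14111486144_ok, W_10890272960_ok, trivial⟩ C_15185240259
theorem L_15185240322 : HH 127 (nat_lit 15185240322, nat_lit 12) := top_sound R_15185240322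
  ⟨V6_14077944000_ok, V6_14077939842_ok, V6_14077681794_ok, V6_13004198082_ok, V6_9799753986_ok, trivial⟩
  ⟨W_15184969856_ok, W_14094450944_ok, W_13037494400_ok, W_10890010880_ok, trivial⟩ C_15185240322
theorem L_15185240385 : HH 127 (nat_lit 15185240385, nat_lit 14) := top_sound R_15185240385
  ⟨V6_15151685697_ok, V6_15151681665_ok, V6_14077939905_ok, trivial⟩
  ⟨W_15184973888_ok, W_15168200768_ok, W_10890010880_ok, W_10873233728_ok, W_9816527168_ok, trivial⟩ C_15185240385
theorem L_15185240448 : HH 127 (nat_lit 15185240448, nat_lit 8) := top_sound R_15185240448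
  ⟨V6_14077944000_ok, V6_10873233792_ok, trivial⟩
  ⟨W_15168462848_ok, W_15168200768_ok, trivial⟩ C_15185240448
theorem L_15185244354 : HH 127 (nat_lit 15185244354, nat_lit 6) := top_sound R_15185244354
  ⟨V6_14077948032_ok, V6_13004198082_ok, V6_11947237506_ok, V6_10873499841_ok, trivial⟩
  ⟨W_15185227904_ok, W_14111486144_ok, trivial⟩ C_15185244354
theorem L_15185244417 : HH 127 (nat_lit 15185244417, nat_lit 8) := top_sound R_15185244417
  ⟨V6_15151685697_ok, V6_13020983361_ok, trivial⟩
  ⟨W_15185231936_ok, W_13020971264_ok, W_11964018752_ok, trivial⟩ C_15185244417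
theorem L_15185244480 : HH 127 (nat_lit 15185244480, nat_lit 8) := top_sound R_15185244480
  ⟨V6_14111502336_ok, trivial⟩
  ⟨W_15168458816_ok, W_11947237568_ok, W_11947233536_ok, W_10890272960_ok, W_9816527168_ok, trivial⟩ C_15185244480
theorem L_15185494275 : HH 127 (nat_lit 15185494275, nat_lit 4) := top_sound R_15185494275
  ⟨V6_11947491522_ok, V6_10890526977_ok, trivial⟩
  ⟨W_15184445696_ok, W_15167930624_ok, W_14094450944_ok, trivial⟩ C_15185494275
theorem L_15185498307 : HH 127 (nat_lit 15185498307, nat_lit 5) := top_sound R_15185498307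
  ⟨V6_13037482179_ok, V6_11947491522_ok, V6_10873753794_ok, V6_9816785091_ok, trivial⟩
  ⟨W_15184707776_ok, W_14111486144_ok, trivial⟩ C_15185498307
theorem L_15185498370 : HH 127 (nat_lit 15185498370, nat_lit 13) := top_sound R_15185498370
  ⟨V6_11947495680_ok, V6_11947495554_ok, V6_10873753857_ok, V6_10873753794_ok, trivial⟩
  ⟨W_15184969856_ok, W_15184711808_ok, W_15184707776_ok, W_14111232128_ok, trivial⟩ C_15185498370
theorem L_15185498433 : HH 127 (nat_lit 15185498433, nat_lit 10) := top_sound R_15185498433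
  ⟨V6_14094979137_ok, V6_10873753857_ok, trivial⟩
  ⟨W_15184973888_ok, W_14094454976_ok, W_9816527168_ok, trivial⟩ C_15185498433
theorem L_15185502402 : HH 127 (nat_lit 15185502402, nat_lit 17) := top_sound R_15185502402
  ⟨V6_14094975168_ok, V6_10873753794_ok, trivial⟩
  ⟨W_15184969856_ok, W_14111748224_ok, W_14111486144_ok, W_13037494400_ok, trivial⟩ C_15185502402
theorem L_15185502465 : HH 127 (nat_lit 15185502465, nat_lit 28) := top_sound R_15185502465
  ⟨V6_13021233408_ok, V6_11947495680_ok, V6_11947491585_ok, V6_10873757952_ok, V6_10873753857_ok, trivial⟩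
  ⟨W_15185231936_ok, W_15184973888_ok, W_15168716864_ok, W_15168200768_ok, W_14111236160_ok, W_14094450944_ok, W_13037494400_ok, trivial⟩ C_15185502465
theorem L_15185502528 : HH 127 (nat_lit 15185502528, nat_lit 26) := top_sound R_15185502528
  ⟨V6_15168724992_ok, V6_10873757952_ok, trivial⟩
  ⟨W_15184973888_ok, W_15168200768_ok, W_14111494208_ok, W_14111236160_ok, W_14111232128_ok, trivial⟩ C_15185502528
theorem L_15185506434 : HH 127 (nat_lit 15185506434, nat_lit 8) := top_sound R_15185506434
  ⟨V6_15168708738_ok, V6_14111744130_ok, V6_11947495554_ok, trivial⟩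
  ⟨W_15168712832_ok, W_15168454784_ok, W_10873761920_ok, trivial⟩ C_15185506434
theorem L_15185506497 : HH 127 (nat_lit 15185506497, nat_lit 21) := top_sound R_15185506497
  ⟨V6_15168712896_ok, V6_14094979137_ok, V6_13021241409_ok, V6_10890539073_ok, V6_10873761984_ok, V6_10873499841_ok, trivial⟩
  ⟨W_15185489984_ok, W_15185231936_ok, W_15168450752_ok, W_14111486144_ok, W_14094721088_ok, W_11964018752_ok, trivial⟩ C_15185506497
theorem L_15185506560 : HH 127 (nat_lit 15185506560, nat_lit 27) := top_sound R_15185506560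
  ⟨V6_14094725184_ok, V6_13021233408_ok, V6_11947495680_ok, V6_10873757952_ok, trivial⟩
  ⟨W_15185494016_ok, W_15185231936_ok, W_15168716864_ok, W_14094983168_ok, W_13021245440_ok, W_11964280832_ok, trivial⟩ C_15185506560
theorem L_15185510529 : HH 127 (nat_lit 15185510529, nat_lit 11) := top_sound R_15185510529
  ⟨V6_14094979137_ok, V6_13021241409_ok, trivial⟩
  ⟨W_15185489984_ok, W_15185485952_ok, W_10873765952_ok, trivial⟩ C_15185510529
theorem L_15185510592 : HH 127 (nat_lit 15185510592, nat_lit 18) := top_sound R_15185510592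
  ⟨V6_14094975168_ok, V6_13021249536_ok, trivial⟩
  ⟨W_15185494016_ok, W_15185489984_ok, W_13021245440_ok, W_11964280832_ok, trivial⟩ C_15185510592
theorem L_15185756355 : HH 127 (nat_lit 15185756355, nat_lit 3) := top_sound R_15185756355
  ⟨V6_13038268608_ok, trivial⟩
  ⟨W_14111486144_ok, trivial⟩ C_15185756355
theorem L_15185756418 : HH 127 (nat_lit 15185756418, nat_lit 2) := top_sound R_15185756418
  ⟨V6_10890526977_ok, trivial⟩
  ⟨W_15184707776_ok, trivial⟩ C_15185756418
theorem L_15185760450 : HH 127 (nat_lit 15185760450, nat_lit 10) := top_sound R_15185760450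
  ⟨V6_13038268608_ok, V6_9817051329_ok, trivial⟩
  ⟨W_15184969856_ok, W_14111232128_ok, W_14110970048_ok, trivial⟩ C_15185760450
theorem L_15185760513 : HH 127 (nat_lit 15185760513, nat_lit 11) := top_sound R_15185760513
  ⟨V6_15184707840_ok, V6_10890526977_ok, V6_9817051329_ok, trivial⟩
  ⟨W_15185231936_ok, W_15184973888_ok, W_13038272576_ok, W_11964534848_ok, trivial⟩ C_15185760513
theorem L_15185760576 : HH 127 (nat_lit 15185760576, nat_lit 10) := top_sound R_15185760576
  ⟨V6_14112018432_ok, V6_13037228352_ok, trivial⟩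
  ⟨W_15184973888_ok, W_14110970048_ok, W_11963748608_ok, W_10890531008_ok, W_9816527168_ok, trivial⟩ C_15185760576
theorem L_15185764482 : HH 127 (nat_lit 15185764482, nat_lit 5) := top_sound R_15185764482
  ⟨V6_14112006273_ok, V6_14111744130_ok, trivial⟩
  ⟨W_13038268544_ok, W_13037494400_ok, W_11964014720_ok, W_10890535040_ok, trivial⟩ C_15185764482
theorem L_15185764545 : HH 127 (nat_lit 15185764545, nat_lit 19) := top_sound R_15185764545
  ⟨V6_15185752128_ok, trivial⟩
  ⟨W_15184973888_ok, W_14111236160_ok, W_13037494400_ok, W_11964010688_ok, W_10890535040_ok, W_10890531008_ok, W_10890272960_ok, trivial⟩ C_15185764545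
theorem L_15185764608 : HH 127 (nat_lit 15185764608, nat_lit 19) := top_sound R_15185764608
  ⟨V6_15185756160_ok, V6_13038280704_ok, trivial⟩
  ⟨W_15184969856_ok, W_14111236160_ok, W_14111232128_ok, W_13037494400_ok, W_11963748608_ok, W_10890531008_ok, trivial⟩ C_15185764608
theorem L_15185768577 : HH 127 (nat_lit 15185768577, nat_lit 11) := top_sound R_15185768577
  ⟨V6_15185748033_ok, V6_14112006273_ok, trivial⟩
  ⟨W_15185231936_ok, W_11964534848_ok, W_11964018752_ok, W_11964014720_ok, W_10890535040_ok, trivial⟩ C_15185768577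
theorem L_15185768640 : HH 127 (nat_lit 15185768640, nat_lit 20) := top_sound R_15185768640
  ⟨V6_15185756160_ok, V6_13038280704_ok, trivial⟩
  ⟨W_15185489984_ok, W_15185231936_ok, W_14111486144_ok, W_11964526784_ok, W_11964018752_ok, W_10890531008_ok, trivial⟩ C_15185768640
theorem L_15185772609 : HH 127 (nat_lit 15185772609, nat_lit 5) := top_sound R_15185772609
  ⟨V6_15185748033_ok, trivial⟩
  ⟨W_15185489984_ok, trivial⟩ C_15185772609
theorem L_15185772672 : HH 127 (nat_lit 15185772672, nat_lit 10) := top_sound R_15185772672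
  ⟨V6_15185748096_ok, V6_13038280704_ok, trivial⟩
  ⟨W_15185494016_ok, W_11964534848_ok, W_11964280832_ok, trivial⟩ C_15185772672
theorem L_15185776704 : HH 127 (nat_lit 15185776704, nat_lit 1) := top_sound R_15185776704
  ⟨V6_10890801216_ok, trivial⟩
  ⟨W_15185748032_ok, trivial⟩ C_15185776704
theorem L_15201747204 : HH 127 (nat_lit 15201747204, nat_lit 2) := top_sound R_15201747204
  ⟨V6_14060896515_ok, V6_12987154692_ok, trivial⟩
  ⟨W_15167930624_ok, W_13054001408_ok, trivial⟩ C_15201747204
theorem L_15201751299 : HH 127 (nat_lit 15201751299, nat_lit 5) := top_sound R_15201751299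
  ⟨V6_15134642433_ok, V6_15134638338_ok, trivial⟩
  ⟨W_14110970048_ok, W_13054263488_ok, W_13054001408_ok, trivial⟩ C_15201751299
theorem L_15201751362 : HH 127 (nat_lit 15201751362, nat_lit 2) := top_sound R_15201751362
  ⟨V6_11963486466_ok, V6_10890006849_ok, trivial⟩
  ⟨W_15168196736_ok, W_14127747200_ok, trivial⟩ C_15201751362
theorem L_15201755331 : HH 127 (nat_lit 15201755331, nat_lit 3) := top_sound R_15201755331
  ⟨V6_13003940034_ok, trivial⟩
  ⟨W_14128001216_ok, W_10906788032_ok, trivial⟩ C_15201755331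
theorem L_15201755394 : HH 127 (nat_lit 15201755394, nat_lit 14) := top_sound R_15201755394
  ⟨V6_15134646528_ok, V6_15134646402_ok, V6_15134642370_ok, V6_14077681794_ok, V6_14060900610_ok, trivial⟩
  ⟨W_15184969856_ok, W_13054267520_ok, W_13054263488_ok, W_10906788032_ok, trivial⟩ C_15201755394
theorem L_15201755457 : HH 127 (nat_lit 15201755457, nat_lit 12) := top_sound R_15201755457
  ⟨V6_15134646528_ok, V6_14060904768_ok, V6_10873233729_ok, trivial⟩
  ⟨W_15184973888_ok, W_14128009280_ok, W_10906788032_ok, trivial⟩ C_15201755457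
theorem L_15201755520 : HH 127 (nat_lit 15201755520, nat_lit 11) := top_sound R_15201755520
  ⟨V6_15201755136_ok, V6_11930198400_ok, trivial⟩
  ⟨W_15151423616_ok, W_15134646464_ok, W_14060904704_ok, W_13037494400_ok, W_13003940096_ok, W_10906788032_ok, W_10890010880_ok, W_10873233728_ok, trivial⟩ C_15201755520
theorem L_15202009347 : HH 127 (nat_lit 15202009347, nat_lit 6) := top_sound R_15202009347
  ⟨V6_14127481089_ok, V6_10907041986_ok, trivial⟩
  ⟨W_15201222848_ok, W_15167930624_ok, W_15151677632_ok, W_15151415552_ok, W_10907042048_ok, trivial⟩ C_15202009347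
theorem L_15202013379 : HH 127 (nat_lit 15202013379, nat_lit 7) := top_sound R_15202013379
  ⟨V6_14077931715_ok, V6_13037482179_ok, V6_13004198082_ok, V6_10907041986_ok, V6_10907037891_ok, trivial⟩
  ⟨W_15184707776_ok, W_14128001216_ok, W_14111486144_ok, trivial⟩ C_15202013379
theorem L_15202013442 : HH 127 (nat_lit 15202013442, nat_lit 15) := top_sound R_15202013442
  ⟨V6_14077939968_ok, V6_14077939905_ok, V6_10907046018_ok, V6_10907042049_ok, V6_10907041986_ok, trivial⟩
  ⟨W_15201484928_ok, W_15184969856_ok, W_15167930624_ok, W_13054267520_ok, W_13054001408_ok, W_10907042048_ok, trivial⟩ C_15202013442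
theorem L_15202013505 : HH 127 (nat_lit 15202013505, nat_lit 9) := top_sound R_15202013505
  ⟨V6_14077939968_ok, V6_14077939905_ok, trivial⟩
  ⟨W_15184973888_ok, W_13054529600_ok, W_11980787840_ok, trivial⟩ C_15202013505
theorem L_15202017474 : HH 127 (nat_lit 15202017474, nat_lit 20) := top_sound R_15202017474
  ⟨V6_15151681728_ok, V6_14077944000_ok, V6_10907046018_ok, V6_10907041986_ok, trivial⟩
  ⟨W_15184969856_ok, W_14128263296_ok, W_14128001216_ok, W_14111486144_ok, W_13037494400_ok, trivial⟩ C_15202017474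
theorem L_15202017537 : HH 127 (nat_lit 15202017537, nat_lit 32) := top_sound R_15202017537
  ⟨V6_14128013376_ok, V6_14077939968_ok, trivial⟩
  ⟨W_15201747008_ok, W_15185231936_ok, W_15184973888_ok, W_15151415552_ok, W_14094721088_ok, W_14094450944_ok, W_13020971264_ok, W_11980521728_ok, W_10907042048_ok, W_10906788032_ok, trivial⟩ C_15202017537
theorem L_15202017600 : HH 127 (nat_lit 15202017600, nat_lit 27) := top_sound R_15202017600
  ⟨V6_15201755136_ok, V6_11930460480_ok, trivial⟩
  ⟨W_15168462848_ok, W_15168458816_ok, W_15151419584_ok, W_14128009280_ok, W_14094721088_ok, W_13003940096_ok, W_11980525760_ok, W_11963748608_ok, W_11947233536_ok, W_10906788032_ok, W_10890272960_ok, W_10890010880_ok, W_10873233728_ok, trivial⟩ C_15202017600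
theorem L_15202021506 : HH 127 (nat_lit 15202021506, nat_lit 5) := top_sound R_15202021506
  ⟨V6_14077948032_ok, V6_14077939842_ok, V6_11947237506_ok, V6_10907046018_ok, trivial⟩
  ⟨W_15202001024_ok, W_11964014720_ok, W_10907050112_ok, trivial⟩ C_15202021506
theorem L_15202021569 : HH 127 (nat_lit 15202021569, nat_lit 17) := top_sound R_15202021569
  ⟨V6_15151685697_ok, V6_15151677633_ok, V6_14077939905_ok, trivial⟩
  ⟨W_14128267328_ok, W_14128263296_ok, W_11980791872_ok, W_11964018752_ok, W_10907050112_ok, trivial⟩ C_15202021569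
theorem L_15202021632 : HH 127 (nat_lit 15202021632, nat_lit 19) := top_sound R_15202021632
  ⟨V6_14094725184_ok, V6_14077944000_ok, V6_14077939968_ok, V6_13054537728_ok, trivial⟩
  ⟨W_15202009088_ok, W_15185231936_ok, W_15168462848_ok, W_10907050112_ok, W_10907042048_ok, trivial⟩ C_15202021632
theorem L_15202271427 : HH 127 (nat_lit 15202271427, nat_lit 5) := top_sound R_15202271427
  ⟨V6_11947491522_ok, V6_10907041986_ok, V6_10907037891_ok, trivial⟩
  ⟨W_15201480896_ok, W_15201222848_ok, W_14128001216_ok, trivial⟩ C_15202271427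
theorem L_15202271490 : HH 127 (nat_lit 15202271490, nat_lit 16) := top_sound R_15202271490
  ⟨V6_11947491585_ok, V6_10907304192_ok, V6_10907042049_ok, V6_10907041986_ok, V6_10890526977_ok, trivial⟩
  ⟨W_15201484928_ok, W_15201222848_ok, W_15184969856_ok, W_14094450944_ok, W_13054001408_ok, trivial⟩ C_15202271490
theorem L_15202275522 : HH 127 (nat_lit 15202275522, nat_lit 23) := top_sound R_15202275522
  ⟨V6_15168712896_ok, V6_11947495554_ok, V6_11947491522_ok, V6_10907308161_ok, V6_10907304066_ok, V6_10907046018_ok, V6_10907041986_ok, V6_10873753794_ok, trivial⟩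
  ⟨W_15184969856_ok, W_15168712832_ok, W_14128001216_ok, W_14111748224_ok, W_14111486144_ok, W_14110970048_ok, W_13021237376_ok, trivial⟩ C_15202275522
theorem L_15202275585 : HH 127 (nat_lit 15202275585, nat_lit 35) := top_sound R_15202275585
  ⟨V6_15168720960_ok, V6_11947491585_ok, V6_10907308161_ok, V6_10873753857_ok, trivial⟩
  ⟨W_15201747008_ok, W_15185231936_ok, W_15184973888_ok, W_15184707776_ok, W_15168716864_ok, W_15167930624_ok, W_14110970048_ok, W_14094450944_ok, W_13054001408_ok, W_10907042048_ok, trivial⟩ C_15202275585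
theorem L_15202275648 : HH 127 (nat_lit 15202275648, nat_lit 19) := top_sound R_15202275648
  ⟨V6_15168720960_ok, trivial⟩
  ⟨W_15184973888_ok, W_15168720896_ok, W_14110970048_ok, W_14094979136_ok, W_10907308160_ok, trivial⟩ C_15202275648

theorem H_7 : AllH 127 tb7 :=
  ⟨L_14179643520, L_14179647552, L_14179651584, L_14179901505, L_14179901568, L_14179905600, L_14179909632, L_14180159553, L_14180163648, L_14180167680, L_15134646660, L_15151423875, L_15151685955, L_15168200964, L_15168201027, L_15168201090, L_15168459012, L_15168459075, L_15168463107, L_15168463170, L_15168463233, L_15168467139, L_15168467202, L_15168467265, L_15168467328, L_15168717060, L_15168721155, L_15168721218, L_15168725187, L_15168725250, L_15168725313, L_15168725376, L_15168729282, L_15168729345, L_15168729408, L_15168733314, L_15168733377, L_15168733440, L_15184974084, L_15184974147, L_15184978179, L_15184978242, L_15184978305, L_15185232132, L_15185236227, L_15185236290, L_15185240259, L_15185240322, L_15185240385, L_15185240448, L_15185244354,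 L_15185244417, L_15185244480, L_15185494275, L_15185498307, L_15185498370, L_15185498433, L_15185502402, L_15185502465, L_15185502528, L_15185506434, L_15185506497, L_15185506560, L_15185510529, L_15185510592, L_15185756355, L_15185756418, L_15185760450, L_15185760513, L_15185760576, L_15185764482, L_15185764545, L_15185764608, L_15185768577, L_15185768640, L_15185772609, L_15185772672, L_15185776704, L_15201747204, L_15201751299, L_15201751362, L_15201755331, L_15201755394, L_15201755457, L_15201755520, L_15202009347, L_15202013379, L_15202013442, L_15202013505, L_15202017474, L_15202017537, L_15202017600, L_15202021506, L_15202021569, L_15202021632, L_15202271427, L_15202271490, L_15202275522, L_15202275585, L_15202275648, trivial⟩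

theorem L_15202279554 : HH 127 (nat_lit 15202279554, nat_lit 23) := top_sound R_15202279554
  ⟨V6_15202263168_ok, trivial⟩
  ⟨W_15168712832_ok, W_15168454784_ok, W_15168196736_ok, W_14094459008_ok, W_13037494400_ok, W_13021237376_ok, W_13020979328_ok, trivial⟩ C_15202279554
theorem L_15202279617 : HH 127 (nat_lit 15202279617, nat_lit 50) := top_sound R_15202279617
  ⟨V6_15202267200_ok, trivial⟩
  ⟨W_15201747008_ok, W_15184973888_ok, W_15168716864_ok, W_15168200768_ok, W_14111236160_ok, W_14094721088_ok, W_14094454976_ok, W_13037494400_ok, W_13021237376_ok, W_13021233344_ok, W_13020975296_ok, W_13020717248_ok, trivial⟩ C_15202279617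
theorem L_15202279680 : HH 127 (nat_lit 15202279680, nat_lit 68) := top_sound R_15202279680
  ⟨V6_15201755136_ok, V6_15168724992_ok, V6_10907312256_ok, V6_10873757952_ok, trivial⟩
  ⟨W_15202009088_ok, W_15201747008_ok, W_15185494016_ok, W_15185231936_ok, W_15184973888_ok, W_15184969856_ok, W_15168720896_ok, W_15168716864_ok, W_14128013312_ok, W_13054263488_ok, W_10907042048_ok, trivial⟩ C_15202279680
theorem L_15202283649 : HH 127 (nat_lit 15202283649, nat_lit 33) := top_sound R_15202283649
  ⟨V6_15202263168_ok, V6_10907316288_ok, trivial⟩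
  ⟨W_15185231936_ok, W_15168716864_ok, W_14094979136_ok, W_14094721088_ok, W_13021241408_ok, W_13021237376_ok, W_13020979328_ok, W_11980791872_ok, W_11964018752_ok, trivial⟩ C_15202283649
theorem L_15202283712 : HH 127 (nat_lit 15202283712, nat_lit 55) := top_sound R_15202283712
  ⟨V6_15202267200_ok, V6_10907312256_ok, trivial⟩
  ⟨W_15202009088_ok, W_15185494016_ok, W_15168720896_ok, W_15168716864_ok, W_14094983168_ok, W_14094725120_ok, W_14094721088_ok, W_13021245440_ok, W_13021237376_ok, W_11980795904_ok, W_10907316224_ok, trivial⟩ C_15202283712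
theorem L_15202287681 : HH 127 (nat_lit 15202287681, nat_lit 10) := top_sound R_15202287681
  ⟨V6_14094979137_ok, V6_10907316288_ok, trivial⟩
  ⟨W_15185489984_ok, W_11947503680_ok, W_10873765952_ok, trivial⟩ C_15202287681
theorem L_15202287744 : HH 127 (nat_lit 15202287744, nat_lit 35) := top_sound R_15202287744
  ⟨V6_15202263168_ok, V6_10907316288_ok, trivial⟩
  ⟨W_15185494016_ok, W_15168720896_ok, W_14094983168_ok, W_14094979136_ok, W_13021245440_ok, W_13021241408_ok, W_11964280832_ok, W_10907316224_ok, W_10873761920_ok, trivial⟩ C_15202287744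
theorem L_15202529475 : HH 127 (nat_lit 15202529475, nat_lit 2) := top_sound R_15202529475
  ⟨V6_10907562177_ok, V6_10907037891_ok, trivial⟩
  ⟨W_15184965824_ok, trivial⟩ C_15202529475
theorem L_15202533570 : HH 127 (nat_lit 15202533570, nat_lit 16) := top_sound R_15202533570
  ⟨V6_14127481026_ok, V6_10907566272_ok, V6_10907566209_ok, V6_10907304066_ok, V6_10907041986_ok, trivial⟩
  ⟨W_15184969856_ok, W_14128263296_ok, W_14111748224_ok, W_13038268544_ok, trivial⟩ C_15202533570
theorem L_15202533633 : HH 127 (nat_lit 15202533633, nat_lit 18) := top_sound R_15202533633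
  ⟨V6_15201222912_ok, V6_14127481089_ok, V6_10907566209_ok, trivial⟩
  ⟨W_14128267328_ok, W_13054787648_ok, W_10907566208_ok, W_10907304128_ok, trivial⟩ C_15202533633
theorem L_15202537602 : HH 127 (nat_lit 15202537602, nat_lit 14) := top_sound R_15202537602
  ⟨V6_14111744130_ok, V6_10907566209_ok, V6_10907308161_ok, V6_10907304066_ok, V6_10907046018_ok, trivial⟩
  ⟨W_15202001024_ok, W_15201484928_ok, W_15185485952_ok, W_14127747200_ok, W_13054267520_ok, trivial⟩ C_15202537602
theorem L_15202537665 : HH 127 (nat_lit 15202537665, nat_lit 37) := top_sound R_15202537665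
  ⟨V6_15202267200_ok, trivial⟩
  ⟨W_15201747008_ok, W_15185231936_ok, W_15184973888_ok, W_14112010304_ok, W_14111486144_ok, W_14110970048_ok, W_11964526784_ok, W_11964010688_ok, W_10907566208_ok, trivial⟩ C_15202537665
theorem L_15202537728 : HH 127 (nat_lit 15202537728, nat_lit 42) := top_sound R_15202537728
  ⟨V6_15185756160_ok, V6_14112018432_ok, V6_13055053824_ok, trivial⟩
  ⟨W_15202009088_ok, W_15201747008_ok, W_15184969856_ok, W_14110970048_ok, W_13054263488_ok, W_13054001408_ok, W_11980783808_ok, W_11980525760_ok, W_10907042048_ok, trivial⟩ C_15202537728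
theorem L_15202541697 : HH 127 (nat_lit 15202541697, nat_lit 40) := top_sound R_15202541697
  ⟨V6_14128013376_ok, V6_10907312256_ok, trivial⟩
  ⟨W_15202001024_ok, W_15201747008_ok, W_15185489984_ok, W_15185485952_ok, W_15185231936_ok, W_14112010304_ok, W_13038268544_ok, W_10907566208_ok, trivial⟩ C_15202541697
theorem L_15202541760 : HH 127 (nat_lit 15202541760, nat_lit 66) := top_sound R_15202541760
  ⟨V6_15201755136_ok, V6_14112018432_ok, V6_13055053824_ok, V6_10907312256_ok, trivial⟩
  ⟨W_15202009088_ok, W_15201747008_ok, W_15185494016_ok, W_15185489984_ok, W_15185231936_ok, W_15184969856_ok, W_14128787456_ok, W_14128001216_ok, W_11964526784_ok, trivial⟩ C_15202541760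
theorem L_15202545729 : HH 127 (nat_lit 15202545729, nat_lit 19) := top_sound R_15202545729
  ⟨V6_14128787520_ok, trivial⟩
  ⟨W_15202521152_ok, W_15185489984_ok, W_15185231936_ok, W_11964018752_ok, trivial⟩ C_15202545729
theorem L_15202545792 : HH 127 (nat_lit 15202545792, nat_lit 50) := top_sound R_15202545792
  ⟨V6_15202263168_ok, V6_11981058048_ok, V6_10907316288_ok, V6_10907312256_ok, trivial⟩
  ⟨W_15202009088_ok, W_15185752064_ok, W_15185494016_ok, W_15185231936_ok, W_14128787456_ok, W_14112014336_ok, W_11980795904_ok, W_10907316224_ok, trivial⟩ C_15202545792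
theorem L_15202549824 : HH 127 (nat_lit 15202549824, nat_lit 28) := top_sound R_15202549824
  ⟨V6_14128787520_ok, trivial⟩
  ⟨W_15202525184_ok, W_15202521152_ok, W_15185494016_ok, W_14112014336_ok, W_11964280832_ok, W_10907574272_ok, W_10907316224_ok, trivial⟩ C_15202549824
theorem L_15202553856 : HH 127 (nat_lit 15202553856, nat_lit 4) := top_sound R_15202553856
  ⟨V6_13038280704_ok, trivial⟩
  ⟨W_15202525184_ok, trivial⟩ C_15202553856
theorem L_15202791618 : HH 127 (nat_lit 15202791618, nat_lit 2) := top_sound R_15202791618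
  ⟨V6_15201218754_ok, V6_10907562177_ok, trivial⟩
  ⟨W_14128263296_ok, trivial⟩ C_15202791618
theorem L_15202795650 : HH 127 (nat_lit 15202795650, nat_lit 11) := top_sound R_15202795650
  ⟨V6_15202263168_ok, trivial⟩
  ⟨W_15202001024_ok, W_15201484928_ok, W_14128521344_ok, trivial⟩ C_15202795650
theorem L_15202795713 : HH 127 (nat_lit 15202795713, nat_lit 18) := top_sound R_15202795713
  ⟨V6_14128787520_ok, trivial⟩
  ⟨W_15201747008_ok, W_15201222848_ok, W_11981566016_ok, W_10907828288_ok, W_10907566208_ok, W_10907304128_ok, trivial⟩ C_15202795713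
theorem L_15202795776 : HH 127 (nat_lit 15202795776, nat_lit 22) := top_sound R_15202795776
  ⟨V6_15201222912_ok, V6_13055311872_ok, trivial⟩
  ⟨W_15202009088_ok, W_11981570048_ok, W_11980783808_ok, W_10907828288_ok, W_10907304128_ok, W_10907042048_ok, trivial⟩ C_15202795776
theorem L_15202799745 : HH 127 (nat_lit 15202799745, nat_lit 24) := top_sound R_15202799745
  ⟨V6_15202263168_ok, trivial⟩
  ⟨W_15201747008_ok, W_15201488960_ok, W_14128525376_ok, W_10907828288_ok, trivial⟩ C_15202799745
theorem L_15202799808 : HH 127 (nat_lit 15202799808, nat_lit 36) := top_sound R_15202799808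
  ⟨V6_15202529280_ok, trivial⟩
  ⟨W_15202009088_ok, W_15201747008_ok, W_15201484928_ok, W_14128001216_ok, W_10907304128_ok, trivial⟩ C_15202799808
theorem L_15202803777 : HH 127 (nat_lit 15202803777, nat_lit 14) := top_sound R_15202803777
  ⟨V6_14128013376_ok, trivial⟩
  ⟨W_15201747008_ok, W_13055303744_ok, W_11981566016_ok, W_10907828288_ok, trivial⟩ C_15202803777
theorem L_15202803840 : HH 127 (nat_lit 15202803840, nat_lit 51) := top_sound R_15202803840
  ⟨V6_15201755136_ok, V6_13055311872_ok, V6_10907312256_ok, trivial⟩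
  ⟨W_15202525184_ok, W_15202009088_ok, W_15202001024_ok, W_15201747008_ok, W_14129045504_ok, W_13055303744_ok, trivial⟩ C_15202803840
theorem L_15202807872 : HH 127 (nat_lit 15202807872, nat_lit 32) := top_sound R_15202807872
  ⟨V6_15202787328_ok, V6_15202783296_ok, V6_10907316288_ok, trivial⟩
  ⟨W_15202009088_ok, W_14128267328_ok, W_11980795904_ok, W_11980791872_ok, W_10907832320_ok, W_10907316224_ok, trivial⟩ C_15202807872
theorem L_15202811904 : HH 127 (nat_lit 15202811904, nat_lit 17) := top_sound R_15202811904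
  ⟨V6_13055311872_ok, V6_10907320320_ok, trivial⟩
  ⟨W_15202525184_ok, W_14129045504_ok, W_10907574272_ok, W_10907316224_ok, trivial⟩ C_15202811904
theorem L_15218262276 : HH 127 (nat_lit 15218262276, nat_lit 1) := top_sound R_15218262276
  ⟨V6_15134114052_ok, trivial⟩
  ⟨W_15167930624_ok, trivial⟩ C_15218262276
theorem L_15218266371 : HH 127 (nat_lit 15218266371, nat_lit 1) := top_sound R_15218266371
  ⟨V6_11963486466_ok, trivial⟩
  ⟨W_11997040832_ok, trivial⟩ C_15218266371
theorem L_15218266434 : HH 127 (nat_lit 15218266434, nat_lit 1) := top_sound R_15218266434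
  ⟨V6_11963486466_ok, trivial⟩
  ⟨W_13070782592_ok, trivial⟩ C_15218266434
theorem L_15218524419 : HH 127 (nat_lit 15218524419, nat_lit 5) := top_sound R_15218524419
  ⟨V6_15134638338_ok, V6_13070516418_ok, trivial⟩
  ⟨W_15201222848_ok, W_14094450944_ok, W_13054001408_ok, trivial⟩ C_15218524419
theorem L_15218528451 : HH 127 (nat_lit 15218528451, nat_lit 5) := top_sound R_15218528451
  ⟨V6_15151157442_ok, V6_15134642370_ok, V6_13070774466_ok, V6_13037482179_ok, V6_11997040833_ok, trivial⟩
  ⟨W_14144516288_ok, W_14128001216_ok, W_11997040832_ok, trivial⟩ C_15218528451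
theorem L_15218528514 : HH 127 (nat_lit 15218528514, nat_lit 12) := top_sound R_15218528514
  ⟨V6_15151419522_ok, V6_15151157505_ok, V6_15151157442_ok, V6_15134642370_ok, V6_15134638338_ok, V6_14060900610_ok, V6_11997040833_ok, V6_11997036801_ok, trivial⟩
  ⟨W_15184969856_ok, W_13071040640_ok, W_13070782592_ok, W_11997040832_ok, trivial⟩ C_15218528514
theorem L_15218528577 : HH 127 (nat_lit 15218528577, nat_lit 7) := top_sound R_15218528577
  ⟨V6_15151157505_ok, V6_15134642433_ok, V6_14077677888_ok, V6_13037228352_ok, V6_11997040833_ok, trivial⟩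
  ⟨W_15184973888_ok, W_11997302912_ok, W_11997040832_ok, trivial⟩ C_15218528577
theorem L_15218532546 : HH 127 (nat_lit 15218532546, nat_lit 14) := top_sound R_15218532546
  ⟨V6_15151419522_ok, V6_15134646465_ok, V6_15134646402_ok, V6_15134642370_ok, V6_14077681794_ok, V6_14060904642_ok, trivial⟩
  ⟨W_14144778368_ok, W_14128001216_ok, W_13071040640_ok, W_13054263488_ok, W_11997302912_ok, trivial⟩ C_15218532546
theorem L_15218532609 : HH 127 (nat_lit 15218532609, nat_lit 22) := top_sound R_15218532609
  ⟨V6_14128013376_ok, trivial⟩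
  ⟨W_15201747008_ok, W_15151415552_ok, W_14094450944_ok, W_13071040640_ok, W_11997298880_ok, W_11980521728_ok, trivial⟩ C_15218532609
theorem L_15218532672 : HH 127 (nat_lit 15218532672, nat_lit 18) := top_sound R_15218532672
  ⟨V6_14144790528_ok, V6_14060904768_ok, trivial⟩
  ⟨W_15184973888_ok, W_15168200768_ok, W_14128009280_ok, trivial⟩ C_15218532672
theorem L_15218786499 : HH 127 (nat_lit 15218786499, nat_lit 7) := top_sound R_15218786499
  ⟨V6_14144258241_ok, trivial⟩
  ⟨W_15168450752_ok, W_15151677632_ok, W_14111486144_ok, W_11980783808_ok, trivial⟩ C_15218786499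
theorem L_15218786562 : HH 127 (nat_lit 15218786562, nat_lit 13) := top_sound R_15218786562
  ⟨V6_14144258304_ok, V6_14144258178_ok, V6_14127481089_ok, V6_11997036801_ok, trivial⟩
  ⟨W_15184969856_ok, W_15168454784_ok, W_13071040640_ok, trivial⟩ C_15218786562
theorem L_15218790594 : HH 127 (nat_lit 15218790594, nat_lit 23) := top_sound R_15218790594
  ⟨V6_15151681728_ok, V6_15151677633_ok, V6_14077939905_ok, V6_14077939842_ok, trivial⟩
  ⟨W_14144778368_ok, W_14144516288_ok, W_14128263296_ok, W_13071298688_ok, W_13071040640_ok, W_13070782592_ok, W_11997560960_ok, W_11997556928_ok, W_11997302912_ok, W_11997040832_ok, trivial⟩ C_15218790594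
theorem L_15218790657 : HH 127 (nat_lit 15218790657, nat_lit 33) := top_sound R_15218790657
  ⟨V6_15151681728_ok, V6_15151681665_ok, V6_15151677633_ok, V6_15151157505_ok, V6_14077939968_ok, V6_14077939905_ok, trivial⟩
  ⟨W_15201747008_ok, W_14144782400_ok, W_14144524352_ok, W_13071044672_ok, W_13071040640_ok, W_11997564992_ok, W_11997040832_ok, trivial⟩ C_15218790657
theorem L_15218790720 : HH 127 (nat_lit 15218790720, nat_lit 20) := top_sound R_15218790720
  ⟨V6_15218528256_ok, V6_14077939968_ok, trivial⟩
  ⟨W_15218266112_ok, W_14127747200_ok, W_14110970048_ok, W_13070782592_ok, W_13020713216_ok, W_11997564992_ok, W_11997302912_ok, W_11997040832_ok, W_11980787840_ok, W_11980525760_ok, W_11964010688_ok, W_11963748608_ok, W_11947233536_ok, trivial⟩ C_15218790720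
theorem L_15218794626 : HH 127 (nat_lit 15218794626, nat_lit 16) := top_sound R_15218794626
  ⟨V6_15151685760_ok, V6_15151681665_ok, V6_14077939842_ok, V6_14077681794_ok, V6_13071294594_ok, trivial⟩
  ⟨W_15218516096_ok, W_15202001024_ok, W_13071298688_ok, W_13071040640_ok, W_11997560960_ok, trivial⟩ C_15218794626
theorem L_15218794689 : HH 127 (nat_lit 15218794689, nat_lit 45) := top_sound R_15218794689
  ⟨V6_15151685760_ok, V6_15151685697_ok, V6_15151681728_ok, V6_15151681665_ok, V6_15151677633_ok, V6_14077944000_ok, V6_14077939905_ok, trivial⟩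
  ⟨W_15201747008_ok, W_14144782400_ok, W_14144778368_ok, W_13071302720_ok, W_13071298688_ok, W_13071044672_ok, W_13071040640_ok, W_11997564992_ok, W_11997556928_ok, trivial⟩ C_15218794689
theorem L_15218794752 : HH 127 (nat_lit 15218794752, nat_lit 55) := top_sound R_15218794752
  ⟨V6_15201755136_ok, V6_14144790528_ok, V6_13071310848_ok, trivial⟩
  ⟨W_15202009088_ok, W_15201747008_ok, W_15185231936_ok, W_15184969856_ok, W_14145044480_ok, W_11997564992_ok, W_11980783808_ok, trivial⟩ C_15218794752
theorem L_15218798721 : HH 127 (nat_lit 15218798721, nat_lit 20) := top_sound R_15218798721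
  ⟨V6_15151685697_ok, V6_15151681665_ok, V6_11997569088_ok, trivial⟩
  ⟨W_15202001024_ok, W_15185231936_ok, W_14145036416_ok, W_11997564992_ok, W_11964018752_ok, trivial⟩ C_15218798721
theorem L_15218798784 : HH 127 (nat_lit 15218798784, nat_lit 34) := top_sound R_15218798784
  ⟨V6_13071310848_ok, V6_13054537728_ok, V6_11997573120_ok, V6_11997569088_ok, trivial⟩
  ⟨W_15202009088_ok, W_15185231936_ok, W_15168462848_ok, W_15168450752_ok, W_15151677632_ok, W_14111486144_ok, W_11997556928_ok, trivial⟩ C_15218798784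
theorem L_15219044547 : HH 127 (nat_lit 15219044547, nat_lit 3) := top_sound R_15219044547
  ⟨V6_11997819072_ok, trivial⟩
  ⟨W_15168450752_ok, W_14144516288_ok, trivial⟩ C_15219044547
theorem L_15219048642 : HH 127 (nat_lit 15219048642, nat_lit 23) := top_sound R_15219048642
  ⟨V6_15218000064_ok, V6_15168712896_ok, V6_11947491522_ok, trivial⟩
  ⟨W_15168712832_ok, W_14128001216_ok, W_14111748224_ok, W_14111490176_ok, W_14111486144_ok, W_13071040640_ok, W_11997819008_ok, W_11997560960_ok, W_11997556928_ok, trivial⟩ C_15219048642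
theorem L_15219048705 : HH 127 (nat_lit 15219048705, nat_lit 29) := top_sound R_15219048705
  ⟨V6_15218000064_ok, V6_13021233408_ok, V6_11947491585_ok, trivial⟩
  ⟨W_15201747008_ok, W_15185231936_ok, W_15168716864_ok, W_14128267328_ok, W_11997823040_ok, trivial⟩ C_15219048705
theorem L_15219052674 : HH 127 (nat_lit 15219052674, nat_lit 24) := top_sound R_15219052674
  ⟨V6_14145298560_ok, trivial⟩
  ⟨W_15168712832_ok, W_15168454784_ok, W_15168196736_ok, W_14127747200_ok, W_13071040640_ok, W_13054267520_ok, W_13021237376_ok, W_11997302912_ok, trivial⟩ C_15219052674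
theorem L_15219052737 : HH 127 (nat_lit 15219052737, nat_lit 58) := top_sound R_15219052737
  ⟨V6_15202267200_ok, trivial⟩
  ⟨W_15218262080_ok, W_15201747008_ok, W_15185231936_ok, W_15184973888_ok, W_15168716864_ok, W_14110970048_ok, W_14094454976_ok, W_13021237376_ok, W_13021233344_ok, W_13020975296_ok, W_11997564992_ok, W_11997302912_ok, W_11997298880_ok, W_11997040832_ok, W_11964010688_ok, trivial⟩ C_15219052737
theorem L_15219052800 : HH 127 (nat_lit 15219052800, nat_lit 66) := top_sound R_15219052800
  ⟨V6_15218528256_ok, V6_13071568896_ok, trivial⟩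
  ⟨W_15218262080_ok, W_15202009088_ok, W_15201747008_ok, W_15185494016_ok, W_15184969856_ok, W_15168720896_ok, W_15168716864_ok, W_15167930624_ok, W_13054001408_ok, W_11997040832_ok, W_11980783808_ok, W_11947491584_ok, trivial⟩ C_15219052800
theorem L_15219056769 : HH 127 (nat_lit 15219056769, nat_lit 61) := top_sound R_15219056769
  ⟨V6_15202263168_ok, V6_14145298560_ok, trivial⟩
  ⟨W_15201747008_ok, W_15185231936_ok, W_15184973888_ok, W_15168716864_ok, W_15168200768_ok, W_14111236160_ok, W_14094979136_ok, W_14094721088_ok, W_14094459008_ok, W_13071044672_ok, W_11997564992_ok, trivial⟩ C_15219056769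
theorem L_15219056832 : HH 127 (nat_lit 15219056832, nat_lit 99) := top_sound R_15219056832
  ⟨V6_15201755136_ok, V6_15168724992_ok, V6_14144790528_ok, V6_13071568896_ok, V6_13071310848_ok, trivial⟩
  ⟨W_15218524160_ok, W_15202009088_ok, W_15201747008_ok, W_15185494016_ok, W_15185489984_ok, W_15185231936_ok, W_15184969856_ok, W_15168720896_ok, W_15168716864_ok, W_14145044480_ok, W_11997556928_ok, W_11997298880_ok, trivial⟩ C_15219056832
theorem L_15219060801 : HH 127 (nat_lit 15219060801, nat_lit 28) := top_sound R_15219060801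
  ⟨V6_15168720960_ok, V6_11997569088_ok, trivial⟩
  ⟨W_15219036224_ok, W_15185489984_ok, W_14128267328_ok, W_13071560768_ok, trivial⟩ C_15219060801
theorem L_15219060864 : HH 127 (nat_lit 15219060864, nat_lit 74) := top_sound R_15219060864
  ⟨V6_15168724992_ok, V6_14094987264_ok, V6_13071568896_ok, V6_13071310848_ok, V6_11997573120_ok, V6_11981058048_ok, trivial⟩
  ⟨W_15202009088_ok, W_15202001024_ok, W_15185494016_ok, W_15185489984_ok, W_15185485952_ok, W_15185231936_ok, W_15168716864_ok, W_15168712832_ok, W_14145044480_ok, trivial⟩ C_15219060864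
theorem L_15219064896 : HH 127 (nat_lit 15219064896, nat_lit 34) := top_sound R_15219064896
  ⟨V6_13071568896_ok, V6_13021249536_ok, V6_11981058048_ok, trivial⟩
  ⟨W_15185494016_ok, W_15185489984_ok, W_15168720896_ok, W_15168716864_ok, W_13021245440_ok, trivial⟩ C_15219064896
theorem L_15219306690 : HH 127 (nat_lit 15219306690, nat_lit 10) := top_sound R_15219306690
  ⟨V6_14144254146_ok, V6_13070774466_ok, V6_11997819072_ok, trivial⟩
  ⟨W_14111748224_ok, W_14111486144_ok, W_13038268544_ok, W_11997556928_ok, W_11964526784_ok, trivial⟩ C_15219306690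
theorem L_15219310722 : HH 127 (nat_lit 15219310722, nat_lit 16) := top_sound R_15219310722
  ⟨V6_14145298560_ok, trivial⟩
  ⟨W_15218000000_ok, W_15201484928_ok, W_15185485952_ok, W_13071040640_ok, W_13038268544_ok, W_11981303936_ok, trivial⟩ C_15219310722
theorem L_15219310785 : HH 127 (nat_lit 15219310785, nat_lit 43) := top_sound R_15219310785
  ⟨V6_15202267200_ok, trivial⟩
  ⟨W_15218262080_ok, W_15201747008_ok, W_15201222848_ok, W_15185231936_ok, W_14111490176_ok, W_14111486144_ok, W_11998081088_ok, W_11997298880_ok, W_11964526784_ok, W_11964268736_ok, trivial⟩ C_15219310785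
theorem L_15219310848 : HH 127 (nat_lit 15219310848, nat_lit 36) := top_sound R_15219310848
  ⟨V6_15218000064_ok, V6_15185756160_ok, V6_14144258304_ok, trivial⟩
  ⟨W_15218524160_ok, W_15202009088_ok, W_14145044480_ok, W_13071040640_ok, trivial⟩ C_15219310848
theorem L_15219314817 : HH 127 (nat_lit 15219314817, nat_lit 55) := top_sound R_15219314817
  ⟨V6_15202263168_ok, V6_14145298560_ok, trivial⟩
  ⟨W_15218262080_ok, W_15201747008_ok, W_15185231936_ok, W_15184973888_ok, W_14144782400_ok, W_14144524352_ok, W_13071044672_ok, W_11997564992_ok, W_11997302912_ok, trivial⟩ C_15219314817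
theorem L_15219314880 : HH 127 (nat_lit 15219314880, nat_lit 88) := top_sound R_15219314880
  ⟨V6_15202529280_ok, V6_14112018432_ok, V6_13071568896_ok, V6_13055053824_ok, trivial⟩
  ⟨W_15218524160_ok, W_15218266112_ok, W_15218262080_ok, W_15202009088_ok, W_15201747008_ok, W_15185231936_ok, W_15184973888_ok, W_15184969856_ok, W_14144516288_ok, W_14110970048_ok, W_13071036608_ok, W_13054263488_ok, W_11997556928_ok, W_11997298880_ok, W_11997040832_ok, W_11964526784_ok, trivial⟩ C_15219314880
theorem L_15219318849 : HH 127 (nat_lit 15219318849, nat_lit 39) := top_sound R_15219318849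
  ⟨V6_14128013376_ok, V6_11997569088_ok, trivial⟩
  ⟨W_15202521152_ok, W_15201747008_ok, W_15185748032_ok, W_15185489984_ok, W_15185231936_ok, W_14145556544_ok, trivial⟩ C_15219318849
theorem L_15219318912 : HH 127 (nat_lit 15219318912, nat_lit 98) := top_sound R_15219318912
  ⟨V6_15219302400_ok, V6_15201755136_ok, V6_14144790528_ok, V6_13071310848_ok, trivial⟩
  ⟨W_15218524160_ok, W_15202009088_ok, W_15202001024_ok, W_15201747008_ok, W_15185752064_ok, W_15185494016_ok, W_15185489984_ok, W_15185485952_ok, W_15185231936_ok, W_15184969856_ok, W_14112010304_ok, W_13071040640_ok, trivial⟩ C_15219318912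
theorem L_15219322944 : HH 127 (nat_lit 15219322944, nat_lit 67) := top_sound R_15219322944
  ⟨V6_15219302400_ok, V6_13071568896_ok, V6_11981058048_ok, trivial⟩
  ⟨W_15219298304_ok, W_15202525184_ok, W_15202521152_ok, W_15202009088_ok, W_15185494016_ok, W_15185489984_ok, W_15185231936_ok, W_14112010304_ok, trivial⟩ C_15219322944
theorem L_15219326976 : HH 127 (nat_lit 15219326976, nat_lit 24) := top_sound R_15219326976
  ⟨V6_15219302400_ok, trivial⟩
  ⟨W_15185494016_ok, W_14128787456_ok, W_11997827072_ok, W_11981053952_ok, trivial⟩ C_15219326976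
theorem L_15219568770 : HH 127 (nat_lit 15219568770, nat_lit 8) := top_sound R_15219568770
  ⟨V6_14145298560_ok, trivial⟩
  ⟨W_15202001024_ok, W_11997819008_ok, W_11981561984_ok, W_11981303936_ok, trivial⟩ C_15219568770
theorem L_15219568833 : HH 127 (nat_lit 15219568833, nat_lit 15) := top_sound R_15219568833
  ⟨V6_14128787520_ok, trivial⟩
  ⟨W_15217995968_ok, W_14128525376_ok, W_13071560768_ok, W_13071036608_ok, W_11997556928_ok, trivial⟩ C_15219568833
theorem L_15219572865 : HH 127 (nat_lit 15219572865, nat_lit 38) := top_sound R_15219572865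
  ⟨V6_15202263168_ok, trivial⟩
  ⟨W_15218262080_ok, W_15201747008_ok, W_14144782400_ok, W_14128525376_ok, W_11981566016_ok, trivial⟩ C_15219572865
theorem L_15219572928 : HH 127 (nat_lit 15219572928, nat_lit 55) := top_sound R_15219572928
  ⟨V6_15202529280_ok, V6_13055311872_ok, V6_11998347264_ok, trivial⟩
  ⟨W_15218524160_ok, W_15218262080_ok, W_15202009088_ok, W_15201747008_ok, W_13054263488_ok, trivial⟩ C_15219572928
theorem L_15219576897 : HH 127 (nat_lit 15219576897, nat_lit 31) := top_sound R_15219576897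
  ⟨V6_14128787520_ok, trivial⟩
  ⟨W_15218262080_ok, W_15201747008_ok, W_14145556544_ok, W_13072076864_ok, W_13071818816_ok, W_11997564992_ok, trivial⟩ C_15219576897
theorem L_15219576960 : HH 127 (nat_lit 15219576960, nat_lit 80) := top_sound R_15219576960
  ⟨V6_15219302400_ok, V6_15202787328_ok, V6_13071568896_ok, trivial⟩
  ⟨W_15218524160_ok, W_15218266112_ok, W_15218262080_ok, W_15202009088_ok, W_15202001024_ok, W_15201747008_ok, W_15201484928_ok, W_14145044480_ok, W_13071298688_ok, trivial⟩ C_15219576960
theorem L_15219580992 : HH 127 (nat_lit 15219580992, nat_lit 73) := top_sound R_15219580992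
  ⟨V6_15202787328_ok, V6_15201755136_ok, V6_14144790528_ok, V6_11998347264_ok, trivial⟩
  ⟨W_15219298304_ok, W_15218524160_ok, W_15202009088_ok, W_15201747008_ok, W_14145556544_ok, W_14145302528_ok, W_11998081088_ok, trivial⟩ C_15219580992
theorem L_15219585024 : HH 127 (nat_lit 15219585024, nat_lit 36) := top_sound R_15219585024
  ⟨V6_15202787328_ok, V6_11998347264_ok, V6_11997573120_ok, V6_11981058048_ok, trivial⟩
  ⟨W_15219556352_ok, W_15219298304_ok, W_15202009088_ok, W_14145818624_ok, W_13072080896_ok, trivial⟩ C_15219585024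
theorem L_15219826818 : HH 127 (nat_lit 15219826818, nat_lit 1) := top_sound R_15219826818
  ⟨V6_11998077057_ok, trivial⟩
  ⟨W_15218516096_ok, trivial⟩ C_15219826818
theorem L_15219830913 : HH 127 (nat_lit 15219830913, nat_lit 11) := top_sound R_15219830913
  ⟨V6_11998343232_ok, V6_11998339137_ok, V6_11998077057_ok, trivial⟩
  ⟨W_15218516096_ok, W_15218258048_ok, W_13071556736_ok, trivial⟩ C_15219830913
theorem L_15219830976 : HH 127 (nat_lit 15219830976, nat_lit 16) := top_sound R_15219830976
  ⟨V6_13072084992_ok, V6_11998343232_ok, trivial⟩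
  ⟨W_15217995968_ok, W_14145302528_ok, W_14144516288_ok, W_13071036608_ok, W_11997556928_ok, trivial⟩ C_15219830976
theorem L_15219834945 : HH 127 (nat_lit 15219834945, nat_lit 17) := top_sound R_15219834945
  ⟨V6_14145556545_ok, V6_13072339008_ok, V6_13072076865_ok, V6_11998597185_ok, V6_11998339137_ok, V6_11998081089_ok, trivial⟩
  ⟨W_15218262080_ok, W_14145556544_ok, W_14144782400_ok, trivial⟩ C_15219834945
theorem L_15219835008 : HH 127 (nat_lit 15219835008, nat_lit 30) := top_sound R_15219835008
  ⟨V6_14145298560_ok, V6_13072343040_ok, V6_11998605312_ok, V6_11998347264_ok, trivial⟩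
  ⟨W_15218524160_ok, W_15218262080_ok, W_14145560576_ok, W_11998343168_ok, trivial⟩ C_15219835008
theorem L_15219839040 : HH 127 (nat_lit 15219839040, nat_lit 37) := top_sound R_15219839040
  ⟨V6_15218528256_ok, V6_13072339008_ok, trivial⟩
  ⟨W_15219298304_ok, W_14145818624_ok, W_14145556544_ok, W_14145302528_ok, W_13072080896_ok, W_13072076864_ok, W_11998597184_ok, W_11998343168_ok, W_11998081088_ok, trivial⟩ C_15219839040
theorem L_15219843072 : HH 127 (nat_lit 15219843072, nat_lit 19) := top_sound R_15219843072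
  ⟨V6_14146080768_ok, V6_14144790528_ok, V6_11998605312_ok, trivial⟩
  ⟨W_15219556352_ok, W_15219298304_ok, W_14145818624_ok, W_13072080896_ok, trivial⟩ C_15219843072
theorem L_15234777348 : HH 127 (nat_lit 15234777348, nat_lit 1) := top_sound R_15234777348
  ⟨V6_15134114052_ok, trivial⟩
  ⟨W_14127481088_ok, trivial⟩ C_15234777348
theorem L_15235039491 : HH 127 (nat_lit 15235039491, nat_lit 2) := top_sound R_15235039491
  ⟨V6_13087555776_ok, trivial⟩
  ⟨W_15201222848_ok, trivial⟩ C_15235039491
theorem L_15235043523 : HH 127 (nat_lit 15235043523, nat_lit 2) := top_sound R_15235043523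
  ⟨V6_13087555776_ok, trivial⟩
  ⟨W_14144516288_ok, trivial⟩ C_15235043523
theorem L_15235043586 : HH 127 (nat_lit 15235043586, nat_lit 2) := top_sound R_15235043586
  ⟨V6_13087559808_ok, trivial⟩
  ⟨W_15167930624_ok, W_13054001408_ok, trivial⟩ C_15235043586
theorem L_15235043649 : HH 127 (nat_lit 15235043649, nat_lit 1) := top_sound R_15235043649
  ⟨V6_13037228352_ok, trivial⟩
  ⟨W_14127747200_ok, trivial⟩ C_15235043649
theorem L_15235301571 : HH 127 (nat_lit 15235301571, nat_lit 4) := top_sound R_15235301571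
  ⟨V6_13087813824_ok, trivial⟩
  ⟨W_15201222848_ok, W_14144516288_ok, trivial⟩ C_15235301571
theorem L_15235301634 : HH 127 (nat_lit 15235301634, nat_lit 12) := top_sound R_15235301634
  ⟨V6_15134638338_ok, V6_13087555776_ok, V6_13070516418_ok, trivial⟩
  ⟨W_15184969856_ok, W_14094450944_ok, W_13071040640_ok, trivial⟩ C_15235301634
theorem L_15235305666 : HH 127 (nat_lit 15235305666, nat_lit 14) := top_sound R_15235305666
  ⟨V6_15134642370_ok, V6_13087813824_ok, V6_13087555776_ok, V6_13070774466_ok, trivial⟩
  ⟨W_15184969856_ok, W_14128001216_ok, W_14110970048_ok, W_13071040640_ok, trivial⟩ C_15235305666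
theorem L_15235305729 : HH 127 (nat_lit 15235305729, nat_lit 21) := top_sound R_15235305729
  ⟨V6_13087821888_ok, V6_13087555776_ok, trivial⟩
  ⟨W_15201747008_ok, W_15184973888_ok, W_15151415552_ok, W_14094450944_ok, W_13054001408_ok, trivial⟩ C_15235305729
theorem L_15235305792 : HH 127 (nat_lit 15235305792, nat_lit 10) := top_sound R_15235305792
  ⟨V6_13087821888_ok, trivial⟩
  ⟨W_15218266112_ok, W_15184973888_ok, trivial⟩ C_15235305792
theorem L_15235309698 : HH 127 (nat_lit 15235309698, nat_lit 13) := top_sound R_15235309698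
  ⟨V6_15235293312_ok, trivial⟩
  ⟨W_15184969856_ok, W_13054267520_ok, W_13037494400_ok, trivial⟩ C_15235309698
theorem L_15235309761 : HH 127 (nat_lit 15235309761, nat_lit 25) := top_sound R_15235309761
  ⟨V6_14128013376_ok, trivial⟩
  ⟨W_15201747008_ok, W_15168200768_ok, W_14161555520_ok, trivial⟩ C_15235309761
theorem L_15235309824 : HH 127 (nat_lit 15235309824, nat_lit 35) := top_sound R_15235309824
  ⟨V6_14161563648_ok, V6_13087825920_ok, trivial⟩
  ⟨W_15218524160_ok, W_15201747008_ok, W_15151423616_ok, W_15151415552_ok, W_15134646464_ok, W_13054263488_ok, W_13037486336_ok, trivial⟩ C_15235309824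
theorem L_15235559619 : HH 127 (nat_lit 15235559619, nat_lit 2) := top_sound R_15235559619
  ⟨V6_15234511041_ok, V6_13037482179_ok, trivial⟩
  ⟨W_14144516288_ok, trivial⟩ C_15235559619
theorem L_15235563714 : HH 127 (nat_lit 15235563714, nat_lit 20) := top_sound R_15235563714
  ⟨V6_15151677633_ok, V6_14161035456_ok, V6_13087555776_ok, trivial⟩
  ⟨W_15234773120_ok, W_14128263296_ok, W_14128001216_ok, W_14111486144_ok, W_13071298688_ok, W_13071040640_ok, trivial⟩ C_15235563714

theorem H_8 : AllH 127 tb8 :=
  ⟨L_15202279554, L_15202279617, L_15202279680, L_15202283649, L_15202283712, L_15202287681, L_15202287744, L_15202529475, L_15202533570, L_15202533633, L_15202537602, L_15202537665, L_15202537728, L_15202541697, L_15202541760, L_15202545729, L_15202545792, L_15202549824, L_15202553856, L_15202791618, L_15202795650, L_15202795713, L_15202795776, L_15202799745, L_15202799808, L_15202803777, L_15202803840, L_15202807872, L_15202811904, L_15218262276, L_15218266371, L_15218266434, L_15218524419, L_15218528451, L_15218528514,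 L_15218528577, L_15218532546, L_15218532609, L_15218532672, L_15218786499, L_15218786562, L_15218790594, L_15218790657, L_15218790720, L_15218794626, L_15218794689, L_15218794752, L_15218798721, L_15218798784, L_15219044547, L_15219048642, L_15219048705, L_15219052674, L_15219052737, L_15219052800, L_15219056769, L_15219056832, L_15219060801, L_15219060864, L_15219064896, L_15219306690, L_15219310722, L_15219310785, L_15219310848, L_15219314817, L_15219314880, L_15219318849, L_15219318912, L_15219322944, L_15219326976, L_15219568770, L_15219568833, L_15219572865, L_15219572928, L_15219576897, L_15219576960, L_15219580992, L_15219585024, L_15219826818, L_15219830913, L_15219830976, L_15219834945, L_15219835008, L_15219839040, L_15219843072, L_15234777348, L_15235039491, L_15235043523, L_15235043586, L_15235043649, L_15235301571, L_15235301634, L_15235305666, L_15235305729, L_15235305792, L_15235309698, L_15235309761, L_15235309824, L_15235559619, L_15235563714, trivial⟩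

theorem L_15235563777 : HH 127 (nat_lit 15235563777, nat_lit 25) := top_sound R_15235563777
  ⟨V6_15234777216_ok, trivial⟩
  ⟨W_15185231936_ok, W_14128267328_ok, W_13071302720_ok, W_13054525568_ok, W_13020971264_ok, trivial⟩ C_15235563777
theorem L_15235567746 : HH 127 (nat_lit 15235567746, nat_lit 18) := top_sound R_15235567746
  ⟨V6_15235031169_ok, V6_13088071809_ok, V6_13087559808_ok, trivial⟩
  ⟨W_15202001024_ok, W_15201484928_ok, W_13088071808_ok, W_13071298688_ok, W_13071040640_ok, trivial⟩ C_15235567746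
theorem L_15235567809 : HH 127 (nat_lit 15235567809, nat_lit 46) := top_sound R_15235567809
  ⟨V6_15151681728_ok, V6_15151681665_ok, V6_15151677633_ok, V6_14077939905_ok, V6_13087821888_ok, V6_13087559808_ok, trivial⟩
  ⟨W_15218262080_ok, W_15201747008_ok, W_15201480896_ok, W_15185231936_ok, W_14161555520_ok, W_14161297472_ok, W_14144516288_ok, W_14128001216_ok, W_13088075840_ok, trivial⟩ C_15235567809
theorem L_15235567872 : HH 127 (nat_lit 15235567872, nat_lit 50) := top_sound R_15235567872
  ⟨V6_15235043328_ok, V6_14161563648_ok, V6_13088083968_ok, trivial⟩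
  ⟨W_15218524160_ok, W_15202009088_ok, W_15201747008_ok, W_15184969856_ok, W_15151677632_ok, W_13020971264_ok, trivial⟩ C_15235567872
theorem L_15235571841 : HH 127 (nat_lit 15235571841, nat_lit 46) := top_sound R_15235571841
  ⟨V6_15235293312_ok, V6_15151685697_ok, V6_13088071809_ok, trivial⟩
  ⟨W_15201747008_ok, W_15185231936_ok, W_14161555520_ok, W_14144782400_ok, W_13071044672_ok, W_13054271552_ok, W_13054267520_ok, trivial⟩ C_15235571841
theorem L_15235571904 : HH 127 (nat_lit 15235571904, nat_lit 74) := top_sound R_15235571904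
  ⟨V6_14161563648_ok, V6_14144790528_ok, V6_13088083968_ok, V6_13087825920_ok, V6_13071310848_ok, trivial⟩
  ⟨W_15235297280_ok, W_15218524160_ok, W_15202009088_ok, W_15201747008_ok, W_15185231936_ok, W_15184969856_ok, W_15168462848_ok, W_15151677632_ok, W_13071036608_ok, W_13054521536_ok, trivial⟩ C_15235571904
theorem L_15235575873 : HH 127 (nat_lit 15235575873, nat_lit 16) := top_sound R_15235575873
  ⟨V6_15151689792_ok, V6_15151685697_ok, V6_14094725184_ok, V6_13020983361_ok, trivial⟩
  ⟨W_15235551296_ok, W_14128267328_ok, W_13088075840_ok, trivial⟩ C_15235575873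
theorem L_15235575936 : HH 127 (nat_lit 15235575936, nat_lit 37) := top_sound R_15235575936
  ⟨V6_15151685760_ok, V6_14077948032_ok, V6_13088083968_ok, V6_13071310848_ok, V6_13054537728_ok, trivial⟩
  ⟨W_15202009088_ok, W_15202001024_ok, W_14161817600_ok, W_14145036416_ok, W_13088071808_ok, trivial⟩ C_15235575936
theorem L_15235821762 : HH 127 (nat_lit 15235821762, nat_lit 9) := top_sound R_15235821762
  ⟨V6_14161293504_ok, trivial⟩
  ⟨W_15168712832_ok, W_14111748224_ok, W_13071298688_ok, trivial⟩ C_15235821762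
theorem L_15235825794 : HH 127 (nat_lit 15235825794, nat_lit 25) := top_sound R_15235825794
  ⟨V6_15234777216_ok, trivial⟩
  ⟨W_15202001024_ok, W_15185485952_ok, W_15168712832_ok, W_15168454784_ok, W_14111748224_ok, W_13071298688_ok, W_13071040640_ok, trivial⟩ C_15235825794
theorem L_15235825857 : HH 127 (nat_lit 15235825857, nat_lit 48) := top_sound R_15235825857
  ⟨V6_15202267200_ok, trivial⟩
  ⟨W_15234777152_ok, W_15218262080_ok, W_15201747008_ok, W_15185231936_ok, W_15168716864_ok, W_15168450752_ok, W_14161555520_ok, W_13021233344_ok, trivial⟩ C_15235825857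
theorem L_15235825920 : HH 127 (nat_lit 15235825920, nat_lit 51) := top_sound R_15235825920
  ⟨V6_15234777216_ok, V6_14144258304_ok, V6_13088342016_ok, trivial⟩
  ⟨W_15218524160_ok, W_15202009088_ok, W_15185494016_ok, W_15168716864_ok, W_14145044480_ok, W_13021233344_ok, W_13020971264_ok, trivial⟩ C_15235825920
theorem L_15235829889 : HH 127 (nat_lit 15235829889, nat_lit 65) := top_sound R_15235829889
  ⟨V6_15235293312_ok, V6_15235031169_ok, V6_13088333952_ok, trivial⟩
  ⟨W_15201747008_ok, W_15185489984_ok, W_15185231936_ok, W_15168716864_ok, W_14144782400_ok, W_14144524352_ok, W_14128525376_ok, W_14094979136_ok, W_13071044672_ok, W_13021237376_ok, trivial⟩ C_15235829889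
theorem L_15235829952 : HH 127 (nat_lit 15235829952, nat_lit 98) := top_sound R_15235829952
  ⟨V6_15235043328_ok, V6_14161563648_ok, V6_13088342016_ok, V6_13088083968_ok, V6_13071568896_ok, trivial⟩
  ⟨W_15235297280_ok, W_15202009088_ok, W_15201747008_ok, W_15185494016_ok, W_15185489984_ok, W_15185231936_ok, W_15184969856_ok, W_15168720896_ok, W_15168716864_ok, W_15168712832_ok, W_14144516288_ok, W_13071036608_ok, trivial⟩ C_15235829952
theorem L_15235833921 : HH 127 (nat_lit 15235833921, nat_lit 40) := top_sound R_15235833921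
  ⟨V6_14128013376_ok, V6_13087821888_ok, trivial⟩
  ⟨W_15201747008_ok, W_15185489984_ok, W_15185231936_ok, W_15168716864_ok, W_14162071616_ok, W_13088333888_ok, trivial⟩ C_15235833921
theorem L_15235833984 : HH 127 (nat_lit 15235833984, nat_lit 123) := top_sound R_15235833984
  ⟨V6_15235817472_ok, V6_15168724992_ok, V6_13088083968_ok, V6_13087825920_ok, V6_13071568896_ok, trivial⟩
  ⟨W_15235297280_ok, W_15218524160_ok, W_15202009088_ok, W_15202001024_ok, W_15201747008_ok, W_15185489984_ok, W_15185231936_ok, W_15184973888_ok, W_15184969856_ok, W_15168720896_ok, W_15168716864_ok, W_15168712832_ok, W_14128013312_ok, W_13088071808_ok, trivial⟩ C_15235833984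
theorem L_15235838016 : HH 127 (nat_lit 15235838016, nat_lit 70) := top_sound R_15235838016
  ⟨V6_15235817472_ok, V6_15235813440_ok, trivial⟩
  ⟨W_15202009088_ok, W_15168720896_ok, W_15168716864_ok, W_15168462848_ok, W_15168458816_ok, W_14111494208_ok, W_14094983168_ok, W_14094979136_ok, W_14094721088_ok, W_13071560768_ok, W_13071306752_ok, W_13037756480_ok, W_13021245440_ok, W_13021241408_ok, trivial⟩ C_15235838016
theorem L_15235842048 : HH 127 (nat_lit 15235842048, nat_lit 28) := top_sound R_15235842048
  ⟨V6_13088342016_ok, V6_13021249536_ok, trivial⟩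
  ⟨W_15185494016_ok, W_15168720896_ok, W_14145302528_ok, trivial⟩ C_15235842048
theorem L_15236083842 : HH 127 (nat_lit 15236083842, nat_lit 13) := top_sound R_15236083842
  ⟨V6_13088333952_ok, trivial⟩
  ⟨W_15202001024_ok, W_15185485952_ok, W_14111748224_ok, W_13038268544_ok, trivial⟩ C_15236083842
theorem L_15236083905 : HH 127 (nat_lit 15236083905, nat_lit 22) := top_sound R_15236083905
  ⟨V6_14128787520_ok, trivial⟩
  ⟨W_15185489984_ok, W_14161555520_ok, W_14111486144_ok, W_13071560768_ok, trivial⟩ C_15236083905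
theorem L_15236087937 : HH 127 (nat_lit 15236087937, nat_lit 56) := top_sound R_15236087937
  ⟨V6_15235031169_ok, V6_15234777216_ok, V6_13088333952_ok, V6_13088071809_ok, trivial⟩
  ⟨W_15201747008_ok, W_15185748032_ok, W_15185489984_ok, W_15185231936_ok, W_14144782400_ok, W_14128783424_ok, W_14128525376_ok, W_14112010304_ok, W_13038272576_ok, trivial⟩ C_15236087937
theorem L_15236088000 : HH 127 (nat_lit 15236088000, nat_lit 80) := top_sound R_15236088000
  ⟨V6_15234777216_ok, V6_15202529280_ok, V6_13088342016_ok, trivial⟩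
  ⟨W_15235297280_ok, W_15235039232_ok, W_15218524160_ok, W_15202009088_ok, W_15185494016_ok, W_15185489984_ok, W_14161817600_ok, W_14112010304_ok, W_13088337920_ok, trivial⟩ C_15236088000
theorem L_15236091969 : HH 127 (nat_lit 15236091969, nat_lit 44) := top_sound R_15236091969
  ⟨V6_15235813440_ok, V6_15185748033_ok, V6_13087821888_ok, trivial⟩
  ⟨W_15218262080_ok, W_15201747008_ok, W_15185489984_ok, W_15185231936_ok, W_15184973888_ok, trivial⟩ C_15236091969
theorem L_15236092032 : HH 127 (nat_lit 15236092032, nat_lit 115) := top_sound R_15236092032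
  ⟨V6_15235817472_ok, V6_15219302400_ok, V6_13071568896_ok, trivial⟩
  ⟨W_15235039232_ok, W_15218524160_ok, W_15218262080_ok, W_15202009088_ok, W_15201747008_ok, W_15201484928_ok, W_15185494016_ok, W_15185489984_ok, W_15185485952_ok, W_15185231936_ok, W_15184973888_ok, W_15184969856_ok, W_13088071808_ok, trivial⟩ C_15236092032
theorem L_15236096064 : HH 127 (nat_lit 15236096064, nat_lit 105) := top_sound R_15236096064
  ⟨V6_15235817472_ok, V6_14161563648_ok, V6_13088083968_ok, V6_13087825920_ok, trivial⟩
  ⟨W_15218524160_ok, W_15202525184_ok, W_15202009088_ok, W_15201747008_ok, W_15185494016_ok, W_15185489984_ok, W_15185231936_ok, W_15184973888_ok, W_14128013312_ok, W_14112010304_ok, W_14111236160_ok, trivial⟩ C_15236096064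
theorem L_15236100096 : HH 127 (nat_lit 15236100096, nat_lit 48) := top_sound R_15236100096
  ⟨V6_13088342016_ok, V6_13088083968_ok, V6_13055053824_ok, trivial⟩
  ⟨W_15219298304_ok, W_15202525184_ok, W_15202009088_ok, W_15185494016_ok, trivial⟩ C_15236100096
theorem L_15236341890 : HH 127 (nat_lit 15236341890, nat_lit 7) := top_sound R_15236341890
  ⟨V6_13087809666_ok, V6_13054779522_ok, trivial⟩
  ⟨W_15218516096_ok, W_13088071808_ok, trivial⟩ C_15236341890
theorem L_15236345985 : HH 127 (nat_lit 15236345985, nat_lit 31) := top_sound R_15236345985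
  ⟨V6_15235031169_ok, V6_13088333952_ok, V6_13088071809_ok, trivial⟩
  ⟨W_14161555520_ok, W_14128783424_ok, W_14128525376_ok, W_13071818816_ok, W_13071560768_ok, W_13055303744_ok, W_13055045696_ok, trivial⟩ C_15236345985
theorem L_15236346048 : HH 127 (nat_lit 15236346048, nat_lit 30) := top_sound R_15236346048
  ⟨V6_15202529280_ok, trivial⟩
  ⟨W_15235297280_ok, W_14161817600_ok, W_13088337920_ok, W_13088075840_ok, W_13055307776_ok, trivial⟩ C_15236346048
theorem L_15236350017 : HH 127 (nat_lit 15236350017, nat_lit 32) := top_sound R_15236350017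
  ⟨V6_15235813440_ok, V6_15202783296_ok, V6_14129041473_ok, V6_13088854080_ok, V6_13072076865_ok, trivial⟩
  ⟨W_15234777152_ok, W_15218262080_ok, W_15201747008_ok, W_14161297472_ok, W_13087817792_ok, W_13054787648_ok, trivial⟩ C_15236350017
theorem L_15236350080 : HH 127 (nat_lit 15236350080, nat_lit 96) := top_sound R_15236350080
  ⟨V6_15235817472_ok, V6_15202787328_ok, V6_13088342016_ok, trivial⟩
  ⟨W_15235297280_ok, W_15235039232_ok, W_15234777152_ok, W_15218524160_ok, W_15218262080_ok, W_15202009088_ok, W_15201747008_ok, W_15201484928_ok, W_13088071808_ok, W_13071298688_ok, trivial⟩ C_15236350080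
theorem L_15236354112 : HH 127 (nat_lit 15236354112, nat_lit 95) := top_sound R_15236354112
  ⟨V6_15235813440_ok, V6_14161563648_ok, V6_13088858112_ok, V6_13088342016_ok, V6_13088083968_ok, trivial⟩
  ⟨W_15235297280_ok, W_15219298304_ok, W_15218524160_ok, W_15202783232_ok, W_15202525184_ok, W_15202009088_ok, W_15201747008_ok, W_14129045504_ok, W_13072076864_ok, W_13055303744_ok, trivial⟩ C_15236354112
theorem L_15236358144 : HH 127 (nat_lit 15236358144, nat_lit 66) := top_sound R_15236358144
  ⟨V6_15236333568_ok, V6_15201755136_ok, V6_13088858112_ok, V6_13087825920_ok, trivial⟩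
  ⟨W_15219298304_ok, W_15202783232_ok, W_15202525184_ok, W_15202009088_ok, W_14162591744_ok, W_14162333696_ok, W_14145302528_ok, W_14129045504_ok, trivial⟩ C_15236358144
theorem L_15236604033 : HH 127 (nat_lit 15236604033, nat_lit 10) := top_sound R_15236604033
  ⟨V6_15235031169_ok, trivial⟩
  ⟨W_14161813568_ok, W_13088333888_ok, W_13071818816_ok, trivial⟩ C_15236604033
theorem L_15236608065 : HH 127 (nat_lit 15236608065, nat_lit 17) := top_sound R_15236608065
  ⟨V6_15235813440_ok, trivial⟩
  ⟨W_15235035200_ok, W_14161555520_ok, W_13071560768_ok, trivial⟩ C_15236608065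
theorem L_15236608128 : HH 127 (nat_lit 15236608128, nat_lit 41) := top_sound R_15236608128
  ⟨V6_15235293312_ok, V6_13072343040_ok, trivial⟩
  ⟨W_15235297280_ok, W_14161817600_ok, W_14145302528_ok, W_13088595968_ok, trivial⟩ C_15236608128
theorem L_15236612160 : HH 127 (nat_lit 15236612160, nat_lit 59) := top_sound R_15236612160
  ⟨V6_15235813440_ok, V6_13088858112_ok, V6_13088342016_ok, V6_13072343040_ok, trivial⟩
  ⟨W_15235297280_ok, W_15235039232_ok, W_15234777152_ok, W_15218524160_ok, W_15218262080_ok, W_14145818624_ok, W_13088854016_ok, trivial⟩ C_15236612160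
theorem L_15236616192 : HH 127 (nat_lit 15236616192, nat_lit 41) := top_sound R_15236616192
  ⟨V6_15235043328_ok, V6_14161563648_ok, V6_13089116160_ok, trivial⟩
  ⟨W_15219556352_ok, W_15219298304_ok, W_14162591744_ok, W_14162333696_ok, W_14145818624_ok, W_14145302528_ok, W_13089112064_ok, W_13072080896_ok, trivial⟩ C_15236616192
theorem L_15236866113 : HH 127 (nat_lit 15236866113, nat_lit 3) := top_sound R_15236866113
  ⟨V6_15235813440_ok, trivial⟩
  ⟨W_13088333888_ok, trivial⟩ C_15236866113
theorem L_15236866176 : HH 127 (nat_lit 15236866176, nat_lit 14) := top_sound R_15236866176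
  ⟨V6_13088858112_ok, V6_13088333952_ok, trivial⟩
  ⟨W_14161813568_ok, W_13088595968_ok, W_13088333888_ok, W_13088071808_ok, trivial⟩ C_15236866176
theorem L_15236870208 : HH 127 (nat_lit 15236870208, nat_lit 20) := top_sound R_15236870208
  ⟨V6_15235813440_ok, trivial⟩
  ⟨W_15235297280_ok, W_13088595968_ok, trivial⟩ C_15236870208
theorem L_15236874240 : HH 127 (nat_lit 15236874240, nat_lit 25) := top_sound R_15236874240
  ⟨V6_13089374208_ok, V6_13088342016_ok, trivial⟩
  ⟨W_15236071424_ok, W_15235297280_ok, W_13089112064_ok, trivial⟩ C_15236874240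
theorem L_15251554563 : HH 127 (nat_lit 15251554563, nat_lit 1) := top_sound R_15251554563
  ⟨V6_14127481089_ok, trivial⟩
  ⟨W_14144258240_ok, trivial⟩ C_15251554563
theorem L_15251816643 : HH 127 (nat_lit 15251816643, nat_lit 2) := top_sound R_15251816643
  ⟨V6_14177808576_ok, trivial⟩
  ⟨W_15201222848_ok, trivial⟩ C_15251816643
theorem L_15251816706 : HH 127 (nat_lit 15251816706, nat_lit 4) := top_sound R_15251816706
  ⟨V6_14177812608_ok, trivial⟩
  ⟨W_15201222848_ok, W_15184445696_ok, W_15167930624_ok, trivial⟩ C_15251816706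
theorem L_15251820738 : HH 127 (nat_lit 15251820738, nat_lit 4) := top_sound R_15251820738
  ⟨V6_14161293504_ok, trivial⟩
  ⟨W_15201484928_ok, trivial⟩ C_15251820738
theorem L_15251820801 : HH 127 (nat_lit 15251820801, nat_lit 5) := top_sound R_15251820801
  ⟨V6_14178074688_ok, trivial⟩
  ⟨W_15218262080_ok, trivial⟩ C_15251820801
theorem L_15251820864 : HH 127 (nat_lit 15251820864, nat_lit 1) := top_sound R_15251820864
  ⟨V6_14178078720_ok, trivial⟩
  ⟨W_14110970048_ok, trivial⟩ C_15251820864
theorem L_15252074691 : HH 127 (nat_lit 15252074691, nat_lit 1) := top_sound R_15252074691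
  ⟨V6_15251288256_ok, trivial⟩
  ⟨W_14128001216_ok, trivial⟩ C_15252074691
theorem L_15252078786 : HH 127 (nat_lit 15252078786, nat_lit 12) := top_sound R_15252078786
  ⟨V6_14161035456_ok, V6_14127481026_ok, trivial⟩
  ⟨W_15234773120_ok, W_15184969856_ok, W_14128001216_ok, trivial⟩ C_15252078786
theorem L_15252078849 : HH 127 (nat_lit 15252078849, nat_lit 15) := top_sound R_15252078849
  ⟨V6_14178074688_ok, trivial⟩
  ⟨W_15201747008_ok, W_15184445696_ok, W_15151415552_ok, trivial⟩ C_15252078849
theorem L_15252082818 : HH 127 (nat_lit 15252082818, nat_lit 10) := top_sound R_15252082818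
  ⟨V6_15235031169_ok, trivial⟩
  ⟨W_15201484928_ok, W_15184969856_ok, trivial⟩ C_15252082818
theorem L_15252082881 : HH 127 (nat_lit 15252082881, nat_lit 25) := top_sound R_15252082881
  ⟨V6_14178074688_ok, V6_14161293504_ok, trivial⟩
  ⟨W_15201747008_ok, W_15184973888_ok, W_15151419584_ok, W_14178070592_ok, W_14128001216_ok, trivial⟩ C_15252082881
theorem L_15252082944 : HH 127 (nat_lit 15252082944, nat_lit 28) := top_sound R_15252082944
  ⟨V6_14178078720_ok, V6_14161563648_ok, trivial⟩
  ⟨W_15235039232_ok, W_15218524160_ok, W_15184969856_ok, trivial⟩ C_15252082944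
theorem L_15252086913 : HH 127 (nat_lit 15252086913, nat_lit 22) := top_sound R_15252086913
  ⟨V6_14128013376_ok, trivial⟩
  ⟨W_15201747008_ok, W_14178328640_ok, W_14161555520_ok, trivial⟩ C_15252086913
theorem L_15252086976 : HH 127 (nat_lit 15252086976, nat_lit 34) := top_sound R_15252086976
  ⟨V6_15201755136_ok, V6_14178336768_ok, trivial⟩
  ⟨W_15235297280_ok, W_15218524160_ok, W_15151419584_ok, W_15134646464_ok, W_14178332672_ok, W_14128001216_ok, trivial⟩ C_15252086976
theorem L_15252336834 : HH 127 (nat_lit 15252336834, nat_lit 8) := top_sound R_15252336834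
  ⟨V6_15251288256_ok, V6_15234511041_ok, V6_14177808576_ok, V6_14177546370_ok, V6_14144254146_ok, trivial⟩
  ⟨W_15185227904_ok, W_14111486144_ok, trivial⟩ C_15252336834
theorem L_15252340866 : HH 127 (nat_lit 15252340866, nat_lit 15) := top_sound R_15252340866
  ⟨V6_15234777216_ok, trivial⟩
  ⟨W_15202001024_ok, W_15168454784_ok, W_14128263296_ok, trivial⟩ C_15252340866
theorem L_15252340929 : HH 127 (nat_lit 15252340929, nat_lit 35) := top_sound R_15252340929
  ⟨V6_15218000064_ok, V6_15151677633_ok, V6_14177808576_ok, V6_14161035456_ok, trivial⟩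
  ⟨W_15185231936_ok, W_14178070592_ok, W_14161555520_ok, W_14145040448_ok, W_14128263296_ok, trivial⟩ C_15252340929
theorem L_15252340992 : HH 127 (nat_lit 15252340992, nat_lit 32) := top_sound R_15252340992
  ⟨V6_15251816448_ok, V6_14177812608_ok, trivial⟩
  ⟨W_15202009088_ok, W_15185231936_ok, W_15151677632_ok, W_14145044480_ok, trivial⟩ C_15252340992
theorem L_15252344961 : HH 127 (nat_lit 15252344961, nat_lit 42) := top_sound R_15252344961
  ⟨V6_15235293312_ok, V6_15151681665_ok, trivial⟩
  ⟨W_15218262080_ok, W_15201747008_ok, W_15185231936_ok, W_14178070592_ok, W_14144782400_ok, trivial⟩ C_15252344961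
theorem L_15252345024 : HH 127 (nat_lit 15252345024, nat_lit 67) := top_sound R_15252345024
  ⟨V6_15251816448_ok, V6_15235043328_ok, V6_14161563648_ok, trivial⟩
  ⟨W_15235297280_ok, W_15202009088_ok, W_15185231936_ok, W_15151677632_ok, W_14161817600_ok, W_14145044480_ok, W_14144516288_ok, trivial⟩ C_15252345024
theorem L_15252348993 : HH 127 (nat_lit 15252348993, nat_lit 28) := top_sound R_15252348993
  ⟨V6_14128013376_ok, trivial⟩
  ⟨W_15201747008_ok, W_14178586688_ok, W_14161813568_ok, W_14161555520_ok, trivial⟩ C_15252348993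
theorem L_15252349056 : HH 127 (nat_lit 15252349056, nat_lit 70) := top_sound R_15252349056
  ⟨V6_15252332544_ok, V6_15201755136_ok, trivial⟩
  ⟨W_15235297280_ok, W_15202009088_ok, W_14178328640_ok, W_14161817600_ok, W_14161559552_ok, W_14145044480_ok, W_14094721088_ok, trivial⟩ C_15252349056
theorem L_15252353088 : HH 127 (nat_lit 15252353088, nat_lit 32) := top_sound R_15252353088
  ⟨V6_15252332544_ok, V6_15252328512_ok, trivial⟩
  ⟨W_15151685696_ok, W_14145044480_ok, W_14128267328_ok, W_14111494208_ok, W_14094725120_ok, W_14094721088_ok, trivial⟩ C_15252353088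
theorem L_15252598914 : HH 127 (nat_lit 15252598914, nat_lit 11) := top_sound R_15252598914
  ⟨V6_14145298560_ok, trivial⟩
  ⟨W_15251546240_ok, W_15202001024_ok, W_14111748224_ok, trivial⟩ C_15252598914
theorem L_15252598977 : HH 127 (nat_lit 15252598977, nat_lit 20) := top_sound R_15252598977
  ⟨V6_15251288256_ok, V6_15168712896_ok, V6_14177808576_ok, V6_14161293504_ok, trivial⟩
  ⟨W_15251550272_ok, W_15185489984_ok, W_14177546432_ok, W_14161555520_ok, trivial⟩ C_15252598977
theorem L_15252603009 : HH 127 (nat_lit 15252603009, nat_lit 51) := top_sound R_15252603009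
  ⟨V6_15234777216_ok, V6_14177812608_ok, V6_14145298560_ok, trivial⟩
  ⟨W_15201747008_ok, W_15185489984_ok, W_15185231936_ok, W_15168716864_ok, W_14178328640_ok, W_14178070592_ok, W_14128525376_ok, trivial⟩ C_15252603009
theorem L_15252603072 : HH 127 (nat_lit 15252603072, nat_lit 73) := top_sound R_15252603072
  ⟨V6_15251816448_ok, V6_15234777216_ok, V6_14177812608_ok, V6_14177808576_ok, V6_14161035456_ok, trivial⟩
  ⟨W_15202009088_ok, W_15185494016_ok, W_15185489984_ok, W_15168716864_ok, W_15168712832_ok, W_14178332672_ok, W_14161817600_ok, W_14145302528_ok, trivial⟩ C_15252603072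
theorem L_15252607041 : HH 127 (nat_lit 15252607041, nat_lit 40) := top_sound R_15252607041
  ⟨V6_15252328512_ok, V6_15235813440_ok, V6_14178848832_ok, trivial⟩
  ⟨W_15201488960_ok, W_15184973888_ok, W_15168716864_ok, W_14161297472_ok, W_14144524352_ok, W_14128267328_ok, W_14111494208_ok, W_14094979136_ok, trivial⟩ C_15252607041
theorem L_15252607104 : HH 127 (nat_lit 15252607104, nat_lit 105) := top_sound R_15252607104
  ⟨V6_15252332544_ok, V6_15235817472_ok, V6_14178078720_ok, trivial⟩
  ⟨W_15218524160_ok, W_15202009088_ok, W_15201747008_ok, W_15185494016_ok, W_15185231936_ok, W_15184973888_ok, W_15184969856_ok, W_15168720896_ok, W_15168716864_ok, W_15168712832_ok, W_15168454784_ok, W_14094979136_ok, trivial⟩ C_15252607104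
theorem L_15252611136 : HH 127 (nat_lit 15252611136, nat_lit 93) := top_sound R_15252611136
  ⟨V6_15252332544_ok, V6_15252328512_ok, V6_15235813440_ok, V6_15168724992_ok, trivial⟩
  ⟨W_15218524160_ok, W_15202009088_ok, W_15201747008_ok, W_14161559552_ok, W_14145302528_ok, W_14145044480_ok, W_14128013312_ok, W_14111236160_ok, W_14094983168_ok, trivial⟩ C_15252611136
theorem L_15252615168 : HH 127 (nat_lit 15252615168, nat_lit 41) := top_sound R_15252615168
  ⟨V6_15252332544_ok, V6_14094987264_ok, trivial⟩
  ⟨W_15202009088_ok, W_14145302528_ok, W_14145044480_ok, W_14094725120_ok, trivial⟩ C_15252615168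
theorem L_15252856962 : HH 127 (nat_lit 15252856962, nat_lit 3) := top_sound R_15252856962
  ⟨V6_14112006273_ok, trivial⟩
  ⟨W_15202001024_ok, trivial⟩ C_15252856962
theorem L_15252861057 : HH 127 (nat_lit 15252861057, nat_lit 33) := top_sound R_15252861057
  ⟨V6_14128787520_ok, trivial⟩
  ⟨W_15251808320_ok, W_15251550272_ok, W_15251546240_ok, W_15202001024_ok, W_15185489984_ok, W_15185485952_ok, W_14178070592_ok, W_14177808512_ok, trivial⟩ C_15252861057
theorem L_15252861120 : HH 127 (nat_lit 15252861120, nat_lit 37) := top_sound R_15252861120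
  ⟨V6_15202529280_ok, V6_14177808576_ok, trivial⟩
  ⟨W_15251812352_ok, W_15235297280_ok, W_14178332672_ok, W_14178070592_ok, W_14177808512_ok, W_14177546432_ok, W_14111486144_ok, trivial⟩ C_15252861120
theorem L_15252865089 : HH 127 (nat_lit 15252865089, nat_lit 38) := top_sound R_15252865089
  ⟨V6_15252328512_ok, V6_15185748033_ok, V6_14178848832_ok, trivial⟩
  ⟨W_15234777152_ok, W_15218262080_ok, W_15201747008_ok, W_14178070592_ok, W_14161297472_ok, W_14144782400_ok, trivial⟩ C_15252865089
theorem L_15252865152 : HH 127 (nat_lit 15252865152, nat_lit 95) := top_sound R_15252865152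
  ⟨V6_15252332544_ok, V6_15235817472_ok, trivial⟩
  ⟨W_15234777152_ok, W_15218262080_ok, W_15202009088_ok, W_15201747008_ok, W_15201484928_ok, W_15185231936_ok, W_15184969856_ok, W_14178070592_ok, W_14144782400_ok, W_14128267328_ok, W_14128263296_ok, W_14112010304_ok, W_14111748224_ok, trivial⟩ C_15252865152
theorem L_15252869184 : HH 127 (nat_lit 15252869184, nat_lit 102) := top_sound R_15252869184
  ⟨V6_15252332544_ok, V6_15235813440_ok, V6_14178848832_ok, V6_14178078720_ok, V6_14161563648_ok, trivial⟩
  ⟨W_15235297280_ok, W_15218524160_ok, W_15202525184_ok, W_15202009088_ok, W_15201747008_ok, W_15185494016_ok, W_15184973888_ok, W_14128787456_ok, W_14112014336_ok, trivial⟩ C_15252869184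
theorem L_15252873216 : HH 127 (nat_lit 15252873216, nat_lit 61) := top_sound R_15252873216
  ⟨V6_15201755136_ok, V6_14179110912_ok, V6_14144790528_ok, V6_14112018432_ok, trivial⟩
  ⟨W_15252586496_ok, W_15235297280_ok, W_15219298304_ok, W_15202525184_ok, W_14178848768_ok, W_14162333696_ok, W_14161817600_ok, trivial⟩ C_15252873216
theorem L_15253119105 : HH 127 (nat_lit 15253119105, nat_lit 14) := top_sound R_15253119105
  ⟨V6_14178590784_ok, trivial⟩
  ⟨W_15202001024_ok, W_14161813568_ok, W_14128783424_ok, trivial⟩ C_15253119105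
theorem L_15253123137 : HH 127 (nat_lit 15253123137, nat_lit 25) := top_sound R_15253123137
  ⟨V6_15252328512_ok, V6_14178848832_ok, trivial⟩
  ⟨W_15251550272_ok, W_14178070592_ok, W_14161555520_ok, W_14128783424_ok, W_14128525376_ok, trivial⟩ C_15253123137
theorem L_15253123200 : HH 127 (nat_lit 15253123200, nat_lit 59) := top_sound R_15253123200
  ⟨V6_15252332544_ok, V6_15202787328_ok, trivial⟩
  ⟨W_15235297280_ok, W_14161817600_ok, W_14161555520_ok, W_14145302528_ok, W_14128525376_ok, W_14128263296_ok, trivial⟩ C_15253123200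
theorem L_15253127232 : HH 127 (nat_lit 15253127232, nat_lit 88) := top_sound R_15253127232
  ⟨V6_15252328512_ok, V6_15235813440_ok, V6_15202787328_ok, V6_15202783296_ok, V6_14179110912_ok, V6_14178848832_ok, trivial⟩
  ⟨W_15235297280_ok, W_15235039232_ok, W_15234777152_ok, W_15218524160_ok, W_15202009088_ok, W_14161559552_ok, W_14145044480_ok, trivial⟩ C_15253127232
theorem L_15253131264 : HH 127 (nat_lit 15253131264, nat_lit 62) := top_sound R_15253131264
  ⟨V6_15251816448_ok, V6_15235043328_ok, V6_14179110912_ok, V6_14178078720_ok, trivial⟩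
  ⟨W_15219556352_ok, W_15202783232_ok, W_15202525184_ok, W_15202009088_ok, W_14145818624_ok, W_14145302528_ok, W_14129045504_ok, W_14128787456_ok, trivial⟩ C_15253131264
theorem L_15253381185 : HH 127 (nat_lit 15253381185, nat_lit 13) := top_sound R_15253381185
  ⟨V6_14178848832_ok, V6_14145556545_ok, trivial⟩
  ⟨W_15235551296_ok, W_14178328640_ok, W_14161813568_ok, trivial⟩ C_15253381185
theorem L_15253381248 : HH 127 (nat_lit 15253381248, nat_lit 20) := top_sound R_15253381248
  ⟨V6_14145298560_ok, trivial⟩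
  ⟨W_15251808320_ok, W_14178590720_ok, W_14178328640_ok, W_14145560576_ok, trivial⟩ C_15253381248
theorem L_15253385280 : HH 127 (nat_lit 15253385280, nat_lit 51) := top_sound R_15253385280
  ⟨V6_15252332544_ok, V6_14178848832_ok, trivial⟩
  ⟨W_15235297280_ok, W_14162333696_ok, W_14161817600_ok, W_14145818624_ok, W_14145556544_ok, W_14145302528_ok, trivial⟩ C_15253385280
theorem L_15253389312 : HH 127 (nat_lit 15253389312, nat_lit 43) := top_sound R_15253389312
  ⟨V6_15251816448_ok, V6_15236333568_ok, V6_14146080768_ok, trivial⟩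
  ⟨W_15251554304_ok, W_15218524160_ok, W_14178848768_ok, W_14145302528_ok, W_14145044480_ok, trivial⟩ C_15253389312
theorem L_15253639233 : HH 127 (nat_lit 15253639233, nat_lit 2) := top_sound R_15253639233
  ⟨V6_14178848832_ok, trivial⟩
  ⟨W_15235551296_ok, trivial⟩ C_15253639233
theorem L_15253643328 : HH 127 (nat_lit 15253643328, nat_lit 22) := top_sound R_15253643328
  ⟨V6_15252328512_ok, V6_14178848832_ok, trivial⟩
  ⟨W_14178848768_ok, W_14178590720_ok, W_14162333696_ok, W_14161813568_ok, trivial⟩ C_15253643328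
theorem L_15253647360 : HH 127 (nat_lit 15253647360, nat_lit 23) := top_sound R_15253647360
  ⟨V6_15252332544_ok, trivial⟩
  ⟨W_15236071424_ok, W_14162333696_ok, W_14161817600_ok, trivial⟩ C_15253647360
theorem L_15253901376 : HH 127 (nat_lit 15253901376, nat_lit 5) := top_sound R_15253901376
  ⟨V6_14178848832_ok, trivial⟩
  ⟨W_14178848768_ok, trivial⟩ C_15253901376
theorem L_15253905408 : HH 127 (nat_lit 15253905408, nat_lit 5) := top_sound R_15253905408
  ⟨V6_14178852864_ok, trivial⟩
  ⟨W_15252586496_ok, trivial⟩ C_15253905408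
theorem L_15268331778 : HH 127 (nat_lit 15268331778, nat_lit 2) := top_sound R_15268331778
  ⟨V6_15201222912_ok, trivial⟩
  ⟨W_15218000000_ok, trivial⟩ C_15268331778
theorem L_15268589763 : HH 127 (nat_lit 15268589763, nat_lit 1) := top_sound R_15268589763
  ⟨V6_15234511041_ok, trivial⟩
  ⟨W_15201480896_ok, trivial⟩ C_15268589763
theorem L_15268593858 : HH 127 (nat_lit 15268593858, nat_lit 3) := top_sound R_15268593858
  ⟨V6_15234773184_ok, trivial⟩
  ⟨W_15201484928_ok, trivial⟩ C_15268593858
theorem L_15268593921 : HH 127 (nat_lit 15268593921, nat_lit 5) := top_sound R_15268593921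
  ⟨V6_15184707840_ok, trivial⟩
  ⟨W_15234777152_ok, trivial⟩ C_15268593921
theorem L_15268597890 : HH 127 (nat_lit 15268597890, nat_lit 1) := top_sound R_15268597890
  ⟨V6_15235031169_ok, trivial⟩
  ⟨W_15201484928_ok, trivial⟩ C_15268597890
theorem L_15268597953 : HH 127 (nat_lit 15268597953, nat_lit 5) := top_sound R_15268597953
  ⟨V6_15218258112_ok, trivial⟩
  ⟨W_15218262080_ok, trivial⟩ C_15268597953

theorem H_9 : AllH 127 tb9 :=
  ⟨L_15235563777, L_15235567746, L_15235567809, L_15235567872, L_15235571841, L_15235571904, L_15235575873, L_15235575936, L_15235821762, L_15235825794, L_15235825857, L_15235825920, L_15235829889, L_15235829952, L_15235833921, L_15235833984, L_15235838016, L_15235842048, L_15236083842, L_15236083905, L_15236087937, L_15236088000, L_15236091969, L_15236092032, L_15236096064, L_15236100096, L_15236341890, L_15236345985, L_15236346048, L_15236350017, L_15236350080, L_15236354112, L_15236358144, L_15236604033, L_15236608065, L_15236608128, L_15236612160, L_15236616192, L_15236866113, L_15236866176,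 L_15236870208, L_15236874240, L_15251554563, L_15251816643, L_15251816706, L_15251820738, L_15251820801, L_15251820864, L_15252074691, L_15252078786, L_15252078849, L_15252082818, L_15252082881, L_15252082944, L_15252086913, L_15252086976, L_15252336834, L_15252340866, L_15252340929, L_15252340992, L_15252344961, L_15252345024, L_15252348993, L_15252349056, L_15252353088, L_15252598914, L_15252598977, L_15252603009, L_15252603072, L_15252607041, L_15252607104, L_15252611136, L_15252615168, L_15252856962, L_15252861057, L_15252861120, L_15252865089, L_15252865152, L_15252869184, L_15252873216, L_15253119105, L_15253123137, L_15253123200, L_15253127232, L_15253131264, L_15253381185, L_15253381248, L_15253385280, L_15253389312, L_15253639233, L_15253643328, L_15253647360, L_15253901376, L_15253905408, L_15268331778, L_15268589763, L_15268593858, L_15268593921, L_15268597890, L_15268597953, trivial⟩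

end Crest.Agent.R187.SN.Top
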