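import Crest.Agent.R187.SN.TD.WO7_Mg
import Crest.Agent.R187.SN.TD.FO6
import Crest.Agent.R187.SN.TD.C_5
import Crest.Agent.R187.SN.TD.C_6
import Crest.Agent.R187.SN.TD.C_7
import Crest.Agent.R187.SN.TD.C_8
import Crest.Agent.R187.SN.TD.C_9

/-!
# Row 187, PLAN S, generated certificate data (mod 127): rank bounds, glue, part 1

Written by a C++ program (helper824).  The tables are only data: every property is checked by
the kernel.
-/

set_option autoImplicit false
set_option maxRecDepth 100000
set_option Elab.async false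

namespace Crest.Agent.R187.SN.Top

theorem L_15268598016 : HH 127 (nat_lit 15268598016, nat_lit 4) := top_sound R_15268598016
  ⟨V6_15235043328_ok, trivial⟩
  ⟨W_15218262080_ok, trivial⟩ C_15268598016
theorem L_15268851906 : HH 127 (nat_lit 15268851906, nat_lit 2) := top_sound R_15268851906
  ⟨V6_15234511041_ok, V6_15201218754_ok, trivial⟩
  ⟨W_15234773120_ok, trivial⟩ C_15268851906
theorem L_15268855938 : HH 127 (nat_lit 15268855938, nat_lit 9) := top_sound R_15268855938
  ⟨V6_15234777216_ok, trivial⟩
  ⟨W_15218516096_ok, W_15184969856_ok, trivial⟩ C_15268855938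
theorem L_15268856001 : HH 127 (nat_lit 15268856001, nat_lit 14) := top_sound R_15268856001
  ⟨V6_15218000064_ok, trivial⟩
  ⟨W_15251550272_ok, W_15201747008_ok, trivial⟩ C_15268856001
theorem L_15268856064 : HH 127 (nat_lit 15268856064, nat_lit 17) := top_sound R_15268856064
  ⟨V6_15268331520_ok, V6_15201222912_ok, trivial⟩
  ⟨W_15235039232_ok, W_15218524160_ok, trivial⟩ C_15268856064
theorem L_15268860033 : HH 127 (nat_lit 15268860033, nat_lit 17) := top_sound R_15268860033
  ⟨V6_15235293312_ok, trivial⟩
  ⟨W_15201747008_ok, W_15184973888_ok, trivial⟩ C_15268860033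
theorem L_15268860096 : HH 127 (nat_lit 15268860096, nat_lit 24) := top_sound R_15268860096
  ⟨V6_15268589568_ok, V6_15235043328_ok, trivial⟩
  ⟨W_15201747008_ok, W_15184973888_ok, W_15184969856_ok, trivial⟩ C_15268860096
theorem L_15268864065 : HH 127 (nat_lit 15268864065, nat_lit 6) := top_sound R_15268864065
  ⟨V6_15268843584_ok, V6_15168200769_ok, trivial⟩
  ⟨W_15184973888_ok, trivial⟩ C_15268864065
theorem L_15268864128 : HH 127 (nat_lit 15268864128, nat_lit 28) := top_sound R_15268864128
  ⟨V6_15201755136_ok, trivial⟩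
  ⟨W_15235297280_ok, W_15201747008_ok, trivial⟩ C_15268864128
theorem L_15269113986 : HH 127 (nat_lit 15269113986, nat_lit 5) := top_sound R_15269113986
  ⟨V6_15235031169_ok, trivial⟩
  ⟨W_15202001024_ok, trivial⟩ C_15269113986
theorem L_15269114049 : HH 127 (nat_lit 15269114049, nat_lit 9) := top_sound R_15269114049
  ⟨V6_15268065345_ok, V6_15234773184_ok, trivial⟩
  ⟨W_15251550272_ok, W_15185227904_ok, trivial⟩ C_15269114049
theorem L_15269118081 : HH 127 (nat_lit 15269118081, nat_lit 26) := top_sound R_15269118081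
  ⟨V6_15234777216_ok, trivial⟩
  ⟨W_15268323392_ok, W_15251808320_ok, W_15251550272_ok, W_15202001024_ok, W_15185231936_ok, trivial⟩ C_15269118081
theorem L_15269118144 : HH 127 (nat_lit 15269118144, nat_lit 36) := top_sound R_15269118144
  ⟨V6_15268589568_ok, V6_15268331520_ok, V6_15218000064_ok, trivial⟩
  ⟨W_15218524160_ok, W_15202009088_ok, W_15168450752_ok, W_15151677632_ok, trivial⟩ C_15269118144
theorem L_15269122113 : HH 127 (nat_lit 15269122113, nat_lit 20) := top_sound R_15269122113
  ⟨V6_15252328512_ok, trivial⟩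
  ⟨W_15201747008_ok, W_15201488960_ok, W_15184973888_ok, trivial⟩ C_15269122113
theorem L_15269122176 : HH 127 (nat_lit 15269122176, nat_lit 48) := top_sound R_15269122176
  ⟨V6_15252332544_ok, V6_15235043328_ok, trivial⟩
  ⟨W_15202009088_ok, W_15202001024_ok, W_15201747008_ok, W_15185231936_ok, W_15184969856_ok, trivial⟩ C_15269122176
theorem L_15269126208 : HH 127 (nat_lit 15269126208, nat_lit 41) := top_sound R_15269126208
  ⟨V6_15252328512_ok, V6_15201755136_ok, trivial⟩
  ⟨W_15202009088_ok, W_15185231936_ok, W_15184973888_ok, W_15168462848_ok, W_15168458816_ok, trivial⟩ C_15269126208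
theorem L_15269130240 : HH 127 (nat_lit 15269130240, nat_lit 10) := top_sound R_15269130240
  ⟨V6_15269105664_ok, trivial⟩
  ⟨W_15202009088_ok, trivial⟩ C_15269130240
theorem L_15269372034 : HH 127 (nat_lit 15269372034, nat_lit 6) := top_sound R_15269372034
  ⟨V6_15268061313_ok, V6_15168708738_ok, trivial⟩
  ⟨W_15268061312_ok, W_15202001024_ok, trivial⟩ C_15269372034
theorem L_15269376129 : HH 127 (nat_lit 15269376129, nat_lit 20) := top_sound R_15269376129
  ⟨V6_15202263168_ok, trivial⟩
  ⟨W_15268323392_ok, W_15251808320_ok, W_15251550272_ok, W_15185489984_ok, trivial⟩ C_15269376129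
theorem L_15269376192 : HH 127 (nat_lit 15269376192, nat_lit 19) := top_sound R_15269376192
  ⟨V6_15268589568_ok, V6_15168712896_ok, trivial⟩
  ⟨W_15251550272_ok, W_15235297280_ok, W_15168450752_ok, trivial⟩ C_15269376192
theorem L_15269380161 : HH 127 (nat_lit 15269380161, nat_lit 21) := top_sound R_15269380161
  ⟨V6_15235813440_ok, trivial⟩
  ⟨W_15251550272_ok, W_15234777152_ok, W_15185231936_ok, W_15168716864_ok, trivial⟩ C_15269380161
theorem L_15269380224 : HH 127 (nat_lit 15269380224, nat_lit 66) := top_sound R_15269380224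
  ⟨V6_15268331520_ok, V6_15251816448_ok, V6_15234777216_ok, trivial⟩
  ⟨W_15235297280_ok, W_15202009088_ok, W_15202001024_ok, W_15185494016_ok, W_15185489984_ok, W_15168716864_ok, W_15168712832_ok, trivial⟩ C_15269380224
theorem L_15269384256 : HH 127 (nat_lit 15269384256, nat_lit 61) := top_sound R_15269384256
  ⟨V6_15268843584_ok, V6_15235817472_ok, trivial⟩
  ⟨W_15218266112_ok, W_15202009088_ok, W_15201747008_ok, W_15185231936_ok, W_15184973888_ok, W_15168720896_ok, W_15168716864_ok, trivial⟩ C_15269384256
theorem L_15269388288 : HH 127 (nat_lit 15269388288, nat_lit 43) := top_sound R_15269388288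
  ⟨V6_15201755136_ok, V6_15168724992_ok, trivial⟩
  ⟨W_15269101568_ok, W_15252586496_ok, W_15235297280_ok, W_15218524160_ok, trivial⟩ C_15269388288
theorem L_15269634177 : HH 127 (nat_lit 15269634177, nat_lit 11) := top_sound R_15269634177
  ⟨V6_15185748096_ok, V6_15185748033_ok, trivial⟩
  ⟨W_15268323392_ok, W_15268061312_ok, W_15251546240_ok, W_15202001024_ok, trivial⟩ C_15269634177
theorem L_15269638209 : HH 127 (nat_lit 15269638209, nat_lit 18) := top_sound R_15269638209
  ⟨V6_15185752128_ok, trivial⟩
  ⟨W_15268323392_ok, W_15251808320_ok, W_15251550272_ok, W_15235551296_ok, trivial⟩ C_15269638209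
theorem L_15269638272 : HH 127 (nat_lit 15269638272, nat_lit 41) := top_sound R_15269638272
  ⟨V6_15202529280_ok, V6_15185748096_ok, trivial⟩
  ⟨W_15268585472_ok, W_15268327424_ok, W_15268323392_ok, W_15268061312_ok, W_15251812352_ok, W_15251546240_ok, W_15235297280_ok, trivial⟩ C_15269638272
theorem L_15269642304 : HH 127 (nat_lit 15269642304, nat_lit 62) := top_sound R_15269642304
  ⟨V6_15269105664_ok, V6_15268843584_ok, V6_15268331520_ok, V6_15251816448_ok, trivial⟩
  ⟨W_15202525184_ok, W_15202521152_ok, W_15202009088_ok, W_15185752064_ok, W_15185748032_ok, W_15185494016_ok, W_15185489984_ok, W_15185231936_ok, trivial⟩ C_15269642304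
theorem L_15269646336 : HH 127 (nat_lit 15269646336, nat_lit 43) := top_sound R_15269646336
  ⟨V6_15218528256_ok, trivial⟩
  ⟨W_15269101568_ok, W_15268843520_ok, W_15268585472_ok, W_15252586496_ok, W_15251812352_ok, W_15202525184_ok, W_15185752064_ok, trivial⟩ C_15269646336
theorem L_15269896257 : HH 127 (nat_lit 15269896257, nat_lit 8) := top_sound R_15269896257
  ⟨V6_15268581441_ok, V6_15202783296_ok, trivial⟩
  ⟨W_15268323392_ok, W_15235551296_ok, trivial⟩ C_15269896257
theorem L_15269896320 : HH 127 (nat_lit 15269896320, nat_lit 25) := top_sound R_15269896320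
  ⟨V6_15202263168_ok, trivial⟩
  ⟨W_15268585472_ok, W_15268323392_ok, W_15202525184_ok, W_15202001024_ok, trivial⟩ C_15269896320
theorem L_15269900352 : HH 127 (nat_lit 15269900352, nat_lit 43) := top_sound R_15269900352
  ⟨V6_15269105664_ok, V6_15268843584_ok, V6_15202787328_ok, trivial⟩
  ⟨W_15268585472_ok, W_15268327424_ok, W_15251812352_ok, W_15251550272_ok, W_15235551296_ok, W_15235297280_ok, trivial⟩ C_15269900352
theorem L_15269904384 : HH 127 (nat_lit 15269904384, nat_lit 46) := top_sound R_15269904384
  ⟨V6_15268331520_ok, V6_15251816448_ok, V6_15236333568_ok, trivial⟩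
  ⟨W_15269101568_ok, W_15219298304_ok, W_15202783232_ok, W_15202525184_ok, W_15202009088_ok, trivial⟩ C_15269904384
theorem L_15270154305 : HH 127 (nat_lit 15270154305, nat_lit 4) := top_sound R_15270154305
  ⟨V6_15268843584_ok, trivial⟩
  ⟨W_15235551296_ok, trivial⟩ C_15270154305
theorem L_15270158400 : HH 127 (nat_lit 15270158400, nat_lit 23) := top_sound R_15270158400
  ⟨V6_15268843584_ok, V6_15252328512_ok, trivial⟩
  ⟨W_15268843520_ok, W_15268585472_ok, W_15268581440_ok, W_15219298304_ok, trivial⟩ C_15270158400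
theorem L_15270162432 : HH 127 (nat_lit 15270162432, nat_lit 27) := top_sound R_15270162432
  ⟨V6_15269105664_ok, V6_15268589568_ok, trivial⟩
  ⟨W_15236071424_ok, W_15235297280_ok, W_15219556352_ok, trivial⟩ C_15270162432
theorem L_15270416448 : HH 127 (nat_lit 15270416448, nat_lit 5) := top_sound R_15270416448
  ⟨V6_15268843584_ok, trivial⟩
  ⟨W_15268843520_ok, trivial⟩ C_15270416448
theorem L_15270420480 : HH 127 (nat_lit 15270420480, nat_lit 18) := top_sound R_15270420480
  ⟨V6_15269105664_ok, V6_15236333568_ok, trivial⟩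
  ⟨W_15269101568_ok, W_15268585472_ok, W_15252586496_ok, trivial⟩ C_15270420480
theorem L_15270678528 : HH 127 (nat_lit 15270678528, nat_lit 5) := top_sound R_15270678528
  ⟨V6_15269105664_ok, trivial⟩
  ⟨W_15252586496_ok, trivial⟩ C_15270678528
theorem L_15270936576 : HH 127 (nat_lit 15270936576, nat_lit 3) := top_sound R_15270936576
  ⟨V6_15269363712_ok, trivial⟩
  ⟨W_15269101568_ok, trivial⟩ C_15270936576
theorem L_16208388483 : HH 127 (nat_lit 16208388483, nat_lit 1) := top_sound R_16208388483
  ⟨V6_9765937539_ok, trivial⟩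
  ⟨W_15134646464_ok, trivial⟩ C_16208388483
theorem L_16225165572 : HH 127 (nat_lit 16225165572, nat_lit 1) := top_sound R_16225165572
  ⟨V6_10839679236_ok, trivial⟩
  ⟨W_16208380160_ok, trivial⟩ C_16225165572
theorem L_16225165635 : HH 127 (nat_lit 16225165635, nat_lit 1) := top_sound R_16225165635
  ⟨V6_10856456451_ok, trivial⟩
  ⟨W_15134646464_ok, trivial⟩ C_16225165635
theorem L_16225165698 : HH 127 (nat_lit 16225165698, nat_lit 2) := top_sound R_16225165698
  ⟨V6_11930198274_ok, trivial⟩
  ⟨W_16208388224_ok, trivial⟩ C_16225165698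
theorem L_16225427715 : HH 127 (nat_lit 16225427715, nat_lit 1) := top_sound R_16225427715
  ⟨V6_10856456451_ok, trivial⟩
  ⟨W_16225157312_ok, trivial⟩ C_16225427715
theorem L_16225427778 : HH 127 (nat_lit 16225427778, nat_lit 1) := top_sound R_16225427778
  ⟨V6_11930460480_ok, trivial⟩
  ⟨W_16225161344_ok, trivial⟩ C_16225427778
theorem L_16225427841 : HH 127 (nat_lit 16225427841, nat_lit 1) := top_sound R_16225427841
  ⟨V6_11930460480_ok, trivial⟩
  ⟨W_16225165376_ok, trivial⟩ C_16225427841
theorem L_16225431747 : HH 127 (nat_lit 16225431747, nat_lit 1) := top_sound R_16225431747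
  ⟨V6_14077931715_ok, trivial⟩
  ⟨W_16225415360_ok, trivial⟩ C_16225431747
theorem L_16241938692 : HH 127 (nat_lit 16241938692, nat_lit 1) := top_sound R_16241938692
  ⟨V6_10873225476_ok, trivial⟩
  ⟨W_16208380160_ok, trivial⟩ C_16241938692
theorem L_16241942787 : HH 127 (nat_lit 16241942787, nat_lit 4) := top_sound R_16241942787
  ⟨V6_12987162882_ok, V6_10856456451_ok, trivial⟩
  ⟨W_16208380160_ok, W_15168192704_ok, trivial⟩ C_16241942787
theorem L_16241942850 : HH 127 (nat_lit 16241942850, nat_lit 5) := top_sound R_16241942850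
  ⟨V6_12987162882_ok, V6_10873233729_ok, trivial⟩
  ⟨W_16208388224_ok, W_15168196736_ok, trivial⟩ C_16241942850
theorem L_16241942913 : HH 127 (nat_lit 16241942913, nat_lit 5) := top_sound R_16241942913
  ⟨V6_11930198400_ok, V6_10873233792_ok, V6_10873233729_ok, trivial⟩
  ⟨W_16225165376_ok, W_16208388224_ok, W_15134646464_ok, trivial⟩ C_16241942913
theorem L_16242196740 : HH 127 (nat_lit 16242196740, nat_lit 1) := top_sound R_16242196740
  ⟨V6_10873225476_ok, trivial⟩
  ⟨W_16241410304_ok, trivial⟩ C_16242196740
theorem L_16242200835 : HH 127 (nat_lit 16242200835, nat_lit 4) := top_sound R_16242200835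
  ⟨V6_14077939968_ok, trivial⟩
  ⟨W_16241672384_ok, W_15167930624_ok, W_13020971264_ok, trivial⟩ C_16242200835
theorem L_16242200898 : HH 127 (nat_lit 16242200898, nat_lit 2) := top_sound R_16242200898
  ⟨V6_13004198082_ok, trivial⟩
  ⟨W_14094717056_ok, trivial⟩ C_16242200898
theorem L_16242204867 : HH 127 (nat_lit 16242204867, nat_lit 3) := top_sound R_16242204867
  ⟨V6_13003940034_ok, trivial⟩
  ⟨W_16241930432_ok, W_16225415360_ok, W_15168450752_ok, trivial⟩ C_16242204867
theorem L_16242204930 : HH 127 (nat_lit 16242204930, nat_lit 9) := top_sound R_16242204930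
  ⟨V6_14077944000_ok, V6_13004198082_ok, V6_9799753986_ok, trivial⟩
  ⟨W_16241934464_ok, W_15151423616_ok, W_14094450944_ok, W_13020971264_ok, trivial⟩ C_16242204930
theorem L_16242204993 : HH 127 (nat_lit 16242204993, nat_lit 9) := top_sound R_16242204993
  ⟨V6_16225165377_ok, V6_11930460480_ok, V6_10873233729_ok, trivial⟩
  ⟨W_15168200768_ok, W_14094721088_ok, W_11947233536_ok, W_10873233728_ok, trivial⟩ C_16242204993
theorem L_16242205056 : HH 127 (nat_lit 16242205056, nat_lit 6) := top_sound R_16242205056
  ⟨V6_16242204672_ok, trivial⟩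
  ⟨W_16225165376_ok, W_15151423616_ok, W_13003940096_ok, W_10873233728_ok, trivial⟩ C_16242205056
theorem L_16242208962 : HH 127 (nat_lit 16242208962, nat_lit 3) := top_sound R_16242208962
  ⟨V6_11947237506_ok, V6_10873499841_ok, trivial⟩
  ⟨W_16225419392_ok, W_16225415360_ok, W_15151677632_ok, trivial⟩ C_16242208962
theorem L_16242209025 : HH 127 (nat_lit 16242209025, nat_lit 5) := top_sound R_16242209025
  ⟨V6_14077948032_ok, V6_13020983361_ok, V6_10873499841_ok, trivial⟩
  ⟨W_16242196544_ok, trivial⟩ C_16242209025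
theorem L_16242209088 : HH 127 (nat_lit 16242209088, nat_lit 4) := top_sound R_16242209088
  ⟨V6_14094725184_ok, trivial⟩
  ⟨W_16225427456_ok, W_15168462848_ok, trivial⟩ C_16242209088
theorem L_16242458883 : HH 127 (nat_lit 16242458883, nat_lit 3) := top_sound R_16242458883
  ⟨V6_11947491585_ok, trivial⟩
  ⟨W_16241672384_ok, W_16241410304_ok, trivial⟩ C_16242458883
theorem L_16242462915 : HH 127 (nat_lit 16242462915, nat_lit 2) := top_sound R_16242462915
  ⟨V6_11947491522_ok, trivial⟩
  ⟨W_16241930432_ok, W_15168450752_ok, trivial⟩ C_16242462915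
theorem L_16242462978 : HH 127 (nat_lit 16242462978, nat_lit 9) := top_sound R_16242462978
  ⟨V6_13021233408_ok, trivial⟩
  ⟨W_16241676416_ok, W_16241672384_ok, W_15168196736_ok, W_14094450944_ok, trivial⟩ C_16242462978
theorem L_16242463041 : HH 127 (nat_lit 16242463041, nat_lit 5) := top_sound R_16242463041
  ⟨V6_14094979137_ok, trivial⟩
  ⟨W_16241676416_ok, W_14094979136_ok, W_13020713216_ok, trivial⟩ C_16242463041
theorem L_16242467010 : HH 127 (nat_lit 16242467010, nat_lit 10) := top_sound R_16242467010
  ⟨V6_15168712896_ok, V6_11947495554_ok, V6_10873753794_ok, trivial⟩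
  ⟨W_16242192512_ok, W_16241930432_ok, W_15168712832_ok, W_13021237376_ok, trivial⟩ C_16242467010
theorem L_16242467073 : HH 127 (nat_lit 16242467073, nat_lit 18) := top_sound R_16242467073
  ⟨V6_13021233408_ok, V6_10873757952_ok, V6_10873753857_ok, trivial⟩
  ⟨W_16242196544_ok, W_15168716864_ok, W_15168200768_ok, W_14094979136_ok, trivial⟩ C_16242467073
theorem L_16242467136 : HH 127 (nat_lit 16242467136, nat_lit 16) := top_sound R_16242467136
  ⟨V6_15168724992_ok, trivial⟩
  ⟨W_15168458816_ok, W_15168200768_ok, W_14094721088_ok, W_13020713216_ok, W_11947233536_ok, W_10873233728_ok, trivial⟩ C_16242467136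
theorem L_16242471042 : HH 127 (nat_lit 16242471042, nat_lit 6) := top_sound R_16242471042
  ⟨V6_15168708738_ok, V6_11947495554_ok, trivial⟩
  ⟨W_16242192512_ok, W_13020979328_ok, trivial⟩ C_16242471042
theorem L_16242471105 : HH 127 (nat_lit 16242471105, nat_lit 12) := top_sound R_16242471105
  ⟨V6_13020983361_ok, V6_11947499712_ok, V6_10873499841_ok, trivial⟩
  ⟨W_16242454592_ok, W_16242196544_ok, W_15168450752_ok, W_10873761920_ok, trivial⟩ C_16242471105
theorem L_16242471168 : HH 127 (nat_lit 16242471168, nat_lit 18) := top_sound R_16242471168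
  ⟨V6_14094987264_ok, V6_13021233408_ok, V6_10873757952_ok, trivial⟩
  ⟨W_16242458624_ok, W_16242196544_ok, W_14094721088_ok, trivial⟩ C_16242471168
theorem L_16242475137 : HH 127 (nat_lit 16242475137, nat_lit 7) := top_sound R_16242475137
  ⟨V6_16242450561_ok, V6_13021241409_ok, trivial⟩
  ⟨W_14094979136_ok, W_13021241408_ok, trivial⟩ C_16242475137
theorem L_16242475200 : HH 127 (nat_lit 16242475200, nat_lit 13) := top_sound R_16242475200
  ⟨V6_13021249536_ok, V6_11947499712_ok, trivial⟩
  ⟨W_16242458624_ok, W_16242454592_ok, W_8726282432_ok, trivial⟩ C_16242475200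
theorem L_16258711812 : HH 127 (nat_lit 16258711812, nat_lit 2) := top_sound R_16258711812
  ⟨V6_12987154692_ok, V6_10873225476_ok, trivial⟩
  ⟨W_16241410304_ok, W_15167930624_ok, trivial⟩ C_16258711812
theorem L_16258715907 : HH 127 (nat_lit 16258715907, nat_lit 4) := top_sound R_16258715907
  ⟨V6_16208384256_ok, V6_14060900610_ok, trivial⟩
  ⟨W_15167930624_ok, W_14110970048_ok, W_14094450944_ok, trivial⟩ C_16258715907
theorem L_16258715970 : HH 127 (nat_lit 16258715970, nat_lit 3) := top_sound R_16258715970
  ⟨V6_11963748672_ok, trivial⟩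
  ⟨W_16225161344_ok, W_14110970048_ok, trivial⟩ C_16258715970
theorem L_16258719939 : HH 127 (nat_lit 16258719939, nat_lit 4) := top_sound R_16258719939
  ⟨V6_13037482179_ok, V6_13003940034_ok, trivial⟩
  ⟨W_16241930432_ok, W_15184965824_ok, W_15134646464_ok, trivial⟩ C_16258719939
theorem L_16258720002 : HH 127 (nat_lit 16258720002, nat_lit 12) := top_sound R_16258720002
  ⟨V6_15134646528_ok, V6_15134646402_ok, V6_14060900610_ok, trivial⟩
  ⟨W_15184969856_ok, W_13037494400_ok, W_11963748608_ok, W_10890010880_ok, trivial⟩ C_16258720002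
theorem L_16258720065 : HH 127 (nat_lit 16258720065, nat_lit 11) := top_sound R_16258720065
  ⟨V6_16225165377_ok, V6_14060904768_ok, V6_10873233729_ok, trivial⟩
  ⟨W_15184973888_ok, W_14111236160_ok, W_11963748608_ok, W_10890010880_ok, trivial⟩ C_16258720065
theorem L_16258720128 : HH 127 (nat_lit 16258720128, nat_lit 10) := top_sound R_16258720128
  ⟨V6_16258719744_ok, V6_11930198400_ok, trivial⟩
  ⟨W_16208388224_ok, W_15134646464_ok, W_14060904704_ok, W_13037494400_ok, W_13003940096_ok, W_10890010880_ok, W_10873233728_ok, trivial⟩ C_16258720128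
theorem L_16258973955 : HH 127 (nat_lit 16258973955, nat_lit 4) := top_sound R_16258973955
  ⟨V6_16258187520_ok, trivial⟩
  ⟨W_15151677632_ok, W_15151415552_ok, W_14094713024_ok, trivial⟩ C_16258973955
theorem L_16258977987 : HH 127 (nat_lit 16258977987, nat_lit 6) := top_sound R_16258977987
  ⟨V6_14077939905_ok, V6_13037482179_ok, trivial⟩
  ⟨W_16258445504_ok, W_16241930432_ok, W_14111486144_ok, W_14110970048_ok, trivial⟩ C_16258977987
theorem L_16258978050 : HH 127 (nat_lit 16258978050, nat_lit 13) := top_sound R_16258978050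
  ⟨V6_15151157505_ok, V6_14077939968_ok, V6_14077939905_ok, V6_14077939842_ok, V6_13004198082_ok, trivial⟩
  ⟨W_16258449536_ok, W_15184969856_ok, W_15167930624_ok, W_14094450944_ok, W_11963748608_ok, trivial⟩ C_16258978050
theorem L_16258978113 : HH 127 (nat_lit 16258978113, nat_lit 9) := top_sound R_16258978113
  ⟨V6_16225423425_ok, V6_14077939905_ok, trivial⟩
  ⟨W_15184973888_ok, W_11963748608_ok, W_9816527168_ok, trivial⟩ C_16258978113
theorem L_16258982082 : HH 127 (nat_lit 16258982082, nat_lit 17) := top_sound R_16258982082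
  ⟨V6_15151681728_ok, V6_14077944000_ok, trivial⟩
  ⟨W_16241930432_ok, W_15184969856_ok, W_15151423616_ok, W_14111486144_ok, W_13037494400_ok, W_10890272960_ok, trivial⟩ C_16258982082
theorem L_16258982145 : HH 127 (nat_lit 16258982145, nat_lit 27) := top_sound R_16258982145
  ⟨V6_16225427520_ok, V6_16225165377_ok, V6_15151685697_ok, V6_14077944000_ok, trivial⟩
  ⟨W_15185231936_ok, W_15184973888_ok, W_15184969856_ok, W_14094450944_ok, W_10890272960_ok, W_10890010880_ok, trivial⟩ C_16258982145
theorem L_16258982208 : HH 127 (nat_lit 16258982208, nat_lit 24) := top_sound R_16258982208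
  ⟨V6_16258719744_ok, V6_14077944000_ok, trivial⟩
  ⟨W_16225423424_ok, W_15184973888_ok, W_15168458816_ok, W_13037494400_ok, W_13003940096_ok, W_11963748608_ok, W_11947233536_ok, W_10890272960_ok, W_10890010880_ok, W_10873233728_ok, W_9816527168_ok, trivial⟩ C_16258982208
theorem L_16258986114 : HH 127 (nat_lit 16258986114, nat_lit 4) := top_sound R_16258986114
  ⟨V6_14077948032_ok, V6_14077939842_ok, V6_11947237506_ok, trivial⟩
  ⟨W_16258965632_ok, W_13020979328_ok, trivial⟩ C_16258986114
theorem L_16258986177 : HH 127 (nat_lit 16258986177, nat_lit 14) := top_sound R_16258986177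
  ⟨V6_16225415361_ok, V6_15151677633_ok, V6_13020983361_ok, trivial⟩
  ⟨W_16242196544_ok, W_15185231936_ok, W_11964018752_ok, trivial⟩ C_16258986177
theorem L_16258986240 : HH 127 (nat_lit 16258986240, nat_lit 16) := top_sound R_16258986240
  ⟨V6_15151689792_ok, V6_14111502336_ok, V6_14094725184_ok, trivial⟩
  ⟨W_16242196544_ok, W_15185231936_ok, W_13020971264_ok, W_11947233536_ok, trivial⟩ C_16258986240
theorem L_16259236035 : HH 127 (nat_lit 16259236035, nat_lit 5) := top_sound R_16259236035
  ⟨V6_15168712896_ok, trivial⟩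
  ⟨W_16258187456_ok, W_16241930432_ok, W_14111486144_ok, trivial⟩ C_16259236035
theorem L_16259236098 : HH 127 (nat_lit 16259236098, nat_lit 10) := top_sound R_16259236098
  ⟨V6_11964268800_ok, V6_11947491522_ok, V6_10890526977_ok, trivial⟩
  ⟨W_16258187456_ok, W_16241410304_ok, W_15184969856_ok, W_15167930624_ok, trivial⟩ C_16259236098
theorem L_16259240130 : HH 127 (nat_lit 16259240130, nat_lit 19) := top_sound R_16259240130
  ⟨V6_14094975168_ok, V6_11947495554_ok, trivial⟩
  ⟨W_16258707584_ok, W_16258445504_ok, W_15168712832_ok, W_14111748224_ok, W_14111486144_ok, W_14110970048_ok, trivial⟩ C_16259240130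
theorem L_16259240193 : HH 127 (nat_lit 16259240193, nat_lit 28) := top_sound R_16259240193
  ⟨V6_14094979137_ok, V6_13021233408_ok, V6_11947495680_ok, V6_10873753857_ok, trivial⟩
  ⟨W_16242196544_ok, W_15185231936_ok, W_15184973888_ok, W_15184707776_ok, W_15168716864_ok, W_15167930624_ok, trivial⟩ C_16259240193
theorem L_16259240256 : HH 127 (nat_lit 16259240256, nat_lit 19) := top_sound R_16259240256
  ⟨V6_16242462720_ok, V6_11947495680_ok, trivial⟩
  ⟨W_16258453568_ok, W_16241676416_ok, W_15184973888_ok, W_14110970048_ok, W_14094979136_ok, W_13021237376_ok, trivial⟩ C_16259240256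
theorem L_16259244162 : HH 127 (nat_lit 16259244162, nat_lit 16) := top_sound R_16259244162
  ⟨V6_16242450561_ok, V6_15168708738_ok, V6_11947495554_ok, trivial⟩
  ⟨W_15168454784_ok, W_15168196736_ok, W_14094459008_ok, W_13037494400_ok, W_13020979328_ok, trivial⟩ C_16259244162
theorem L_16259244225 : HH 127 (nat_lit 16259244225, nat_lit 41) := top_sound R_16259244225
  ⟨V6_16259231808_ok, trivial⟩
  ⟨W_16242196544_ok, W_15168450752_ok, W_15168200768_ok, W_14111236160_ok, W_14094721088_ok, W_14094454976_ok, W_13037494400_ok, W_13021237376_ok, W_13021233344_ok, W_13020975296_ok, W_13020717248_ok, W_11964014720_ok, W_11964010688_ok, W_11947237568_ok, W_10890535040_ok, W_10890531008_ok, W_10890272960_ok, W_10873757888_ok, trivial⟩ C_16259244225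
theorem L_16259244288 : HH 127 (nat_lit 16259244288, nat_lit 52) := top_sound R_16259244288
  ⟨V6_16258719744_ok, V6_15168724992_ok, V6_10873757952_ok, trivial⟩
  ⟨W_16242458624_ok, W_16242196544_ok, W_15185494016_ok, W_15185231936_ok, W_15184969856_ok, W_15168716864_ok, W_14094721088_ok, W_13020971264_ok, trivial⟩ C_16259244288
theorem L_16259248257 : HH 127 (nat_lit 16259248257, nat_lit 26) := top_sound R_16259248257
  ⟨V6_16242450561_ok, V6_14094979137_ok, V6_14094725184_ok, V6_13021241409_ok, V6_10890539073_ok, trivial⟩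
  ⟨W_16242196544_ok, W_15185489984_ok, W_15185231936_ok, W_10873761920_ok, trivial⟩ C_16259248257

theorem H_10 : AllH 127 tb10 :=
  ⟨L_15268598016, L_15268851906, L_15268855938, L_15268856001, L_15268856064, L_15268860033, L_15268860096, L_15268864065, L_15268864128, L_15269113986, L_15269114049, L_15269118081, L_15269118144, L_15269122113, L_15269122176, L_15269126208, L_15269130240, L_15269372034, L_15269376129, L_15269376192, L_15269380161, L_15269380224, L_15269384256, L_15269388288, L_15269634177, L_15269638209, L_15269638272, L_15269642304, L_15269646336, L_15269896257, L_15269896320, L_15269900352, L_15269904384, L_15270154305, L_15270158400, L_15270162432, L_15270416448, L_15270420480, L_15270678528, L_15270936576, L_16208388483, L_16225165572, L_16225165635, L_16225165698, L_16225427715, L_16225427778, L_16225427841, L_16225431747, L_16241938692, L_16241942787, L_16241942850, L_16241942913, L_16242196740, L_16242200835, L_16242200898, L_16242204867, L_16242204930, L_16242204993, L_16242205056, L_16242208962, L_16242209025,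 L_16242209088, L_16242458883, L_16242462915, L_16242462978, L_16242463041, L_16242467010, L_16242467073, L_16242467136, L_16242471042, L_16242471105, L_16242471168, L_16242475137, L_16242475200, L_16258711812, L_16258715907, L_16258715970, L_16258719939, L_16258720002, L_16258720065, L_16258720128, L_16258973955, L_16258977987, L_16258978050, L_16258978113, L_16258982082, L_16258982145, L_16258982208, L_16258986114, L_16258986177, L_16258986240, L_16259236035, L_16259236098, L_16259240130, L_16259240193, L_16259240256, L_16259244162, L_16259244225, L_16259244288, L_16259248257, trivial⟩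

theorem L_16259248320 : HH 127 (nat_lit 16259248320, nat_lit 42) := top_sound R_16259248320
  ⟨V6_16259231808_ok, V6_14094987264_ok, trivial⟩
  ⟨W_15168720896_ok, W_15168462848_ok, W_15168450752_ok, W_14111486144_ok, W_14094983168_ok, W_14094725120_ok, W_14094721088_ok, W_13021245440_ok, W_13021237376_ok, W_13021233344_ok, W_13020975296_ok, W_11964280832_ok, W_11964268736_ok, W_11964010688_ok, W_11947237568_ok, W_10890535040_ok, W_10890531008_ok, W_10890272960_ok, W_10873761920_ok, W_10873757888_ok, trivial⟩ C_16259248320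
theorem L_16259252289 : HH 127 (nat_lit 16259252289, nat_lit 9) := top_sound R_16259252289
  ⟨V6_14094979137_ok, V6_10890539073_ok, trivial⟩
  ⟨W_15185489984_ok, W_10873765952_ok, trivial⟩ C_16259252289
theorem L_16259252352 : HH 127 (nat_lit 16259252352, nat_lit 25) := top_sound R_16259252352
  ⟨V6_15168724992_ok, V6_13021249536_ok, trivial⟩
  ⟨W_16242450560_ok, W_15185494016_ok, W_15185489984_ok, W_15185485952_ok, trivial⟩ C_16259252352
theorem L_16259494083 : HH 127 (nat_lit 16259494083, nat_lit 2) := top_sound R_16259494083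
  ⟨V6_13038268608_ok, trivial⟩
  ⟨W_16258445504_ok, trivial⟩ C_16259494083
theorem L_16259498178 : HH 127 (nat_lit 16259498178, nat_lit 8) := top_sound R_16259498178
  ⟨V6_13038268608_ok, trivial⟩
  ⟨W_16258187456_ok, W_15184969856_ok, trivial⟩ C_16259498178
theorem L_16259498241 : HH 127 (nat_lit 16259498241, nat_lit 9) := top_sound R_16259498241
  ⟨V6_16258187520_ok, V6_11964268800_ok, trivial⟩
  ⟨W_15185231936_ok, W_13038272576_ok, trivial⟩ C_16259498241
theorem L_16259502210 : HH 127 (nat_lit 16259502210, nat_lit 8) := top_sound R_16259502210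
  ⟨V6_15185748096_ok, V6_14111744130_ok, trivial⟩
  ⟨W_15184969856_ok, W_13038268544_ok, trivial⟩ C_16259502210
theorem L_16259502273 : HH 127 (nat_lit 16259502273, nat_lit 23) := top_sound R_16259502273
  ⟨V6_16259231808_ok, trivial⟩
  ⟨W_16258453568_ok, W_15185231936_ok, W_15184973888_ok, W_14110970048_ok, W_11964526784_ok, W_11964010688_ok, W_10890531008_ok, trivial⟩ C_16259502273
theorem L_16259502336 : HH 127 (nat_lit 16259502336, nat_lit 22) := top_sound R_16259502336
  ⟨V6_15185756160_ok, V6_14112018432_ok, trivial⟩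
  ⟨W_16258453568_ok, W_15184973888_ok, W_15184969856_ok, W_14111232128_ok, W_11963748608_ok, trivial⟩ C_16259502336
theorem L_16259506305 : HH 127 (nat_lit 16259506305, nat_lit 22) := top_sound R_16259506305
  ⟨V6_16259231808_ok, trivial⟩
  ⟨W_15185231936_ok, W_15184973888_ok, W_14111236160_ok, W_13037494400_ok, trivial⟩ C_16259506305
theorem L_16259506368 : HH 127 (nat_lit 16259506368, nat_lit 38) := top_sound R_16259506368
  ⟨V6_16258719744_ok, V6_14112018432_ok, trivial⟩
  ⟨W_15185494016_ok, W_15185489984_ok, W_15185231936_ok, W_14111748224_ok, W_14111486144_ok, W_13038268544_ok, W_11964526784_ok, W_10890531008_ok, trivial⟩ C_16259506368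
theorem L_16259510337 : HH 127 (nat_lit 16259510337, nat_lit 11) := top_sound R_16259510337
  ⟨V6_15185752128_ok, trivial⟩
  ⟨W_16259485760_ok, W_15185231936_ok, trivial⟩ C_16259510337
theorem L_16259510400 : HH 127 (nat_lit 16259510400, nat_lit 26) := top_sound R_16259510400
  ⟨V6_14112018432_ok, V6_14111502336_ok, V6_13038280704_ok, trivial⟩
  ⟨W_16259489792_ok, W_15185494016_ok, W_15185485952_ok, W_15185231936_ok, W_11964280832_ok, trivial⟩ C_16259510400
theorem L_16259514432 : HH 127 (nat_lit 16259514432, nat_lit 13) := top_sound R_16259514432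
  ⟨V6_14112018432_ok, trivial⟩
  ⟨W_16259485760_ok, W_15185748032_ok, W_15185489984_ok, trivial⟩ C_16259514432
theorem L_16259518464 : HH 127 (nat_lit 16259518464, nat_lit 2) := top_sound R_16259518464
  ⟨V6_14112018432_ok, trivial⟩
  ⟨W_16259489792_ok, trivial⟩ C_16259518464
theorem L_16275226884 : HH 127 (nat_lit 16275226884, nat_lit 1) := top_sound R_16275226884
  ⟨V6_15134114052_ok, trivial⟩
  ⟨W_15167930624_ok, trivial⟩ C_16275226884
theorem L_16275230979 : HH 127 (nat_lit 16275230979, nat_lit 1) := top_sound R_16275230979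
  ⟨V6_11963486466_ok, trivial⟩
  ⟨W_16241672384_ok, trivial⟩ C_16275230979
theorem L_16275489027 : HH 127 (nat_lit 16275489027, nat_lit 6) := top_sound R_16275489027
  ⟨V6_16208380161_ok, V6_15134638338_ok, trivial⟩
  ⟨W_16241410304_ok, W_13054263488_ok, W_13054001408_ok, W_11980521728_ok, trivial⟩ C_16275489027
theorem L_16275493059 : HH 127 (nat_lit 16275493059, nat_lit 5) := top_sound R_16275493059
  ⟨V6_16208384193_ok, V6_15134642370_ok, V6_13037482179_ok, trivial⟩
  ⟨W_15201480896_ok, W_14128001216_ok, W_14110970048_ok, W_11980525760_ok, trivial⟩ C_16275493059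
theorem L_16275493122 : HH 127 (nat_lit 16275493122, nat_lit 13) := top_sound R_16275493122
  ⟨V6_16208384256_ok, V6_16208380161_ok, V6_15151419522_ok, V6_15134642370_ok, V6_14060900610_ok, trivial⟩
  ⟨W_15201484928_ok, W_14110970048_ok, W_13054267520_ok, W_13054263488_ok, W_13054001408_ok, trivial⟩ C_16275493122
theorem L_16275493185 : HH 127 (nat_lit 16275493185, nat_lit 7) := top_sound R_16275493185
  ⟨V6_16208384256_ok, V6_16208384193_ok, trivial⟩
  ⟨W_14128009280_ok, W_14127747200_ok, W_14110970048_ok, trivial⟩ C_16275493185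
theorem L_16275497154 : HH 127 (nat_lit 16275497154, nat_lit 16) := top_sound R_16275497154
  ⟨V6_16225165440_ok, V6_15134642370_ok, trivial⟩
  ⟨W_15184969856_ok, W_14128001216_ok, W_13054267520_ok, W_13054263488_ok, W_10906788032_ok, trivial⟩ C_16275497154
theorem L_16275497217 : HH 127 (nat_lit 16275497217, nat_lit 26) := top_sound R_16275497217
  ⟨V6_14128013376_ok, trivial⟩
  ⟨W_16208388224_ok, W_16208380160_ok, W_15201747008_ok, W_15184973888_ok, W_15151415552_ok, W_14094450944_ok, trivial⟩ C_16275497217
theorem L_16275497280 : HH 127 (nat_lit 16275497280, nat_lit 22) := top_sound R_16275497280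
  ⟨V6_15201755136_ok, trivial⟩
  ⟨W_16208388224_ok, W_15184973888_ok, W_15134646464_ok, W_14128009280_ok, W_13003940096_ok, W_11980525760_ok, W_11963748608_ok, W_10906788032_ok, W_10890010880_ok, W_10873233728_ok, trivial⟩ C_16275497280
theorem L_16275751107 : HH 127 (nat_lit 16275751107, nat_lit 7) := top_sound R_16275751107
  ⟨V6_14127481026_ok, V6_14077931715_ok, V6_10907041986_ok, V6_10907037891_ok, trivial⟩
  ⟨W_16258445504_ok, W_16225157312_ok, W_14111486144_ok, trivial⟩ C_16275751107
theorem L_16275751170 : HH 127 (nat_lit 16275751170, nat_lit 16) := top_sound R_16275751170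
  ⟨V6_15201222912_ok, V6_10907042049_ok, V6_10907041986_ok, trivial⟩
  ⟨W_16241934464_ok, W_15168454784_ok, W_15151677632_ok, W_14111490176_ok, trivial⟩ C_16275751170
theorem L_16275755202 : HH 127 (nat_lit 16275755202, nat_lit 24) := top_sound R_16275755202
  ⟨V6_16225415361_ok, V6_15151681728_ok, V6_15151677633_ok, V6_14077939905_ok, trivial⟩
  ⟨W_16241676416_ok, W_15201480896_ok, W_14128263296_ok, W_14128001216_ok, W_14111486144_ok, W_13054525568_ok, W_13054267520_ok, W_11980787840_ok, W_11980783808_ok, W_11980525760_ok, trivial⟩ C_16275755202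
theorem L_16275755265 : HH 127 (nat_lit 16275755265, nat_lit 35) := top_sound R_16275755265
  ⟨V6_16225423425_ok, V6_16224899265_ok, V6_15151681728_ok, V6_15151681665_ok, V6_15151677633_ok, V6_14077939905_ok, trivial⟩
  ⟨W_15201747008_ok, W_15185231936_ok, W_13054529600_ok, W_13054525568_ok, W_11980787840_ok, W_11980783808_ok, W_10907042048_ok, trivial⟩ C_16275755265
theorem L_16275755328 : HH 127 (nat_lit 16275755328, nat_lit 19) := top_sound R_16275755328
  ⟨V6_16275492864_ok, trivial⟩
  ⟨W_16275230720_ok, W_16225423424_ok, W_15184973888_ok, W_13020713216_ok, W_11964010688_ok, W_11963748608_ok, W_11947233536_ok, trivial⟩ C_16275755328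
theorem L_16275759234 : HH 127 (nat_lit 16275759234, nat_lit 19) := top_sound R_16275759234
  ⟨V6_16225165440_ok, V6_15151685760_ok, trivial⟩
  ⟨W_15202001024_ok, W_14128263296_ok, W_13054525568_ok, W_13054267520_ok, W_10907050112_ok, trivial⟩ C_16275759234
theorem L_16275759297 : HH 127 (nat_lit 16275759297, nat_lit 49) := top_sound R_16275759297
  ⟨V6_16225427520_ok, V6_16225419456_ok, V6_16225415361_ok, V6_16225165377_ok, V6_15151685697_ok, V6_15151681728_ok, trivial⟩
  ⟨W_16242196544_ok, W_15201747008_ok, W_15185231936_ok, W_13054529600_ok, W_13054525568_ok, W_13054267520_ok, W_11980791872_ok, W_11980787840_ok, W_11980783808_ok, W_10907050112_ok, trivial⟩ C_16275759297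
theorem L_16275759360 : HH 127 (nat_lit 16275759360, nat_lit 62) := top_sound R_16275759360
  ⟨V6_16258719744_ok, V6_16242204672_ok, V6_15201755136_ok, trivial⟩
  ⟨W_15202009088_ok, W_15201747008_ok, W_15185231936_ok, W_15184969856_ok, W_14128267328_ok, W_13054267520_ok, W_13020971264_ok, W_11980783808_ok, W_10907042048_ok, W_10906788032_ok, trivial⟩ C_16275759360
theorem L_16275763329 : HH 127 (nat_lit 16275763329, nat_lit 21) := top_sound R_16275763329
  ⟨V6_16225423425_ok, V6_15151685697_ok, V6_15151681665_ok, V6_14094725184_ok, trivial⟩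
  ⟨W_15202001024_ok, W_15185231936_ok, W_14128263296_ok, W_11964018752_ok, W_10907050112_ok, trivial⟩ C_16275763329
theorem L_16275763392 : HH 127 (nat_lit 16275763392, nat_lit 36) := top_sound R_16275763392
  ⟨V6_16225431552_ok, V6_16225419456_ok, V6_15151681728_ok, V6_14077944000_ok, V6_13054537728_ok, trivial⟩
  ⟨W_15202009088_ok, W_15185231936_ok, W_15168462848_ok, W_14128263296_ok, trivial⟩ C_16275763392
theorem L_16276009155 : HH 127 (nat_lit 16276009155, nat_lit 2) := top_sound R_16276009155
  ⟨V6_13037482179_ok, V6_10907037891_ok, trivial⟩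
  ⟨W_16274960576_ok, W_15168450752_ok, trivial⟩ C_16276009155
theorem L_16276013250 : HH 127 (nat_lit 16276013250, nat_lit 25) := top_sound R_16276013250
  ⟨V6_16274964672_ok, V6_16274960577_ok, V6_16241668290_ok, V6_15201218754_ok, trivial⟩
  ⟨W_15168712832_ok, W_14111748224_ok, W_14111486144_ok, W_14094975104_ok, W_13054783616_ok, W_13021233344_ok, W_11981045888_ok, W_11981041856_ok, W_11980783808_ok, W_11964268736_ok, W_10907304128_ok, trivial⟩ C_16276013250
theorem L_16276013313 : HH 127 (nat_lit 16276013313, nat_lit 32) := top_sound R_16276013313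
  ⟨V6_16274964672_ok, V6_16258187520_ok, V6_14127481089_ok, trivial⟩
  ⟨W_15201747008_ok, W_15168716864_ok, W_14128267328_ok, W_13021233344_ok, W_10907304128_ok, W_10907042048_ok, trivial⟩ C_16276013313
theorem L_16276017282 : HH 127 (nat_lit 16276017282, nat_lit 26) := top_sound R_16276017282
  ⟨V6_15202263168_ok, trivial⟩
  ⟨W_16242450560_ok, W_16242192512_ok, W_16241676416_ok, W_15202001024_ok, W_15185485952_ok, W_15168712832_ok, W_13054267520_ok, W_13021237376_ok, trivial⟩ C_16276017282
theorem L_16276017345 : HH 127 (nat_lit 16276017345, nat_lit 60) := top_sound R_16276017345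
  ⟨V6_16259231808_ok, V6_10907308161_ok, trivial⟩
  ⟨W_16258453568_ok, W_16242454592_ok, W_16242196544_ok, W_16241676416_ok, W_15201747008_ok, W_15185231936_ok, W_15184973888_ok, W_15168716864_ok, W_14110970048_ok, W_14094454976_ok, W_13021237376_ok, W_13021233344_ok, trivial⟩ C_16276017345
theorem L_16276017408 : HH 127 (nat_lit 16276017408, nat_lit 71) := top_sound R_16276017408
  ⟨V6_16275492864_ok, V6_16242462720_ok, trivial⟩
  ⟨W_16242458624_ok, W_15202009088_ok, W_15201747008_ok, W_15185494016_ok, W_15185231936_ok, W_13054263488_ok, W_13054001408_ok, W_11980783808_ok, W_11947491584_ok, W_10907304128_ok, W_10907042048_ok, W_10890531008_ok, trivial⟩ C_16276017408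
theorem L_16276021377 : HH 127 (nat_lit 16276021377, nat_lit 66) := top_sound R_16276021377
  ⟨V6_16276004928_ok, V6_10907312256_ok, trivial⟩
  ⟨W_16242450560_ok, W_16242196544_ok, W_15201747008_ok, W_15185231936_ok, W_15168716864_ok, W_15168200768_ok, W_14111236160_ok, W_14094979136_ok, W_14094721088_ok, W_14094459008_ok, W_13037494400_ok, W_13021237376_ok, W_13020979328_ok, trivial⟩ C_16276021377
theorem L_16276021440 : HH 127 (nat_lit 16276021440, nat_lit 108) := top_sound R_16276021440
  ⟨V6_16276008960_ok, V6_16258719744_ok, V6_15168724992_ok, trivial⟩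
  ⟨W_16242458624_ok, W_16242196544_ok, W_15202009088_ok, W_15201747008_ok, W_15185494016_ok, W_15185489984_ok, W_15185231936_ok, W_15184969856_ok, W_15168720896_ok, W_15168716864_ok, W_14128013312_ok, W_14094983168_ok, trivial⟩ C_16276021440
theorem L_16276025409 : HH 127 (nat_lit 16276025409, nat_lit 28) := top_sound R_16276025409
  ⟨V6_16276004928_ok, trivial⟩
  ⟨W_16242454592_ok, W_16242196544_ok, W_15168716864_ok, W_14094721088_ok, W_13021241408_ok, W_11980791872_ok, W_11964018752_ok, trivial⟩ C_16276025409
theorem L_16276025472 : HH 127 (nat_lit 16276025472, nat_lit 80) := top_sound R_16276025472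
  ⟨V6_16276004928_ok, V6_11981058048_ok, V6_10907312256_ok, trivial⟩
  ⟨W_16242458624_ok, W_16242450560_ok, W_16242196544_ok, W_15202009088_ok, W_15185494016_ok, W_15168720896_ok, W_15168716864_ok, W_15168462848_ok, W_14094983168_ok, W_14094725120_ok, W_14094721088_ok, W_13021245440_ok, W_10907316224_ok, trivial⟩ C_16276025472
theorem L_16276029504 : HH 127 (nat_lit 16276029504, nat_lit 37) := top_sound R_16276029504
  ⟨V6_16276004928_ok, V6_10907316288_ok, trivial⟩
  ⟨W_16242458624_ok, W_15185494016_ok, W_15168720896_ok, W_14094983168_ok, W_13021245440_ok, W_11964280832_ok, W_10907316224_ok, trivial⟩ C_16276029504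
theorem L_16276271298 : HH 127 (nat_lit 16276271298, nat_lit 9) := top_sound R_16276271298
  ⟨V6_13038268608_ok, trivial⟩
  ⟨W_16258707584_ok, W_16258445504_ok, trivial⟩ C_16276271298
theorem L_16276275330 : HH 127 (nat_lit 16276275330, nat_lit 18) := top_sound R_16276275330
  ⟨V6_15185748096_ok, V6_14112006273_ok, V6_14111744130_ok, V6_10907566209_ok, V6_10907304066_ok, trivial⟩
  ⟨W_16274964608_ok, W_15202001024_ok, W_15201484928_ok, W_15185485952_ok, trivial⟩ C_16276275330
theorem L_16276275393 : HH 127 (nat_lit 16276275393, nat_lit 41) := top_sound R_16276275393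
  ⟨V6_15202267200_ok, trivial⟩
  ⟨W_15201747008_ok, W_15185489984_ok, W_15185231936_ok, W_14111490176_ok, W_14111486144_ok, W_11964526784_ok, W_11964268736_ok, W_10907566208_ok, W_10907304128_ok, trivial⟩ C_16276275393
theorem L_16276275456 : HH 127 (nat_lit 16276275456, nat_lit 38) := top_sound R_16276275456
  ⟨V6_16274964672_ok, V6_16258187520_ok, V6_15185756160_ok, trivial⟩
  ⟨W_15202009088_ok, W_15201747008_ok, W_15185494016_ok, trivial⟩ C_16276275456
theorem L_16276279425 : HH 127 (nat_lit 16276279425, nat_lit 52) := top_sound R_16276279425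
  ⟨V6_15202263168_ok, V6_15185748033_ok, V6_14112006273_ok, V6_10907308161_ok, trivial⟩
  ⟨W_16258453568_ok, W_15201747008_ok, W_15201488960_ok, W_15185489984_ok, W_15185231936_ok, W_15184973888_ok, W_14128525376_ok, W_14112010304_ok, trivial⟩ C_16276279425
theorem L_16276279488 : HH 127 (nat_lit 16276279488, nat_lit 83) := top_sound R_16276279488
  ⟨V6_16276008960_ok, V6_13055053824_ok, trivial⟩
  ⟨W_16275230720_ok, W_16258453568_ok, W_15202009088_ok, W_15201747008_ok, W_15185494016_ok, W_15185231936_ok, W_15184973888_ok, W_15184969856_ok, W_14111232128_ok, W_14110970048_ok, W_13054263488_ok, W_11980525760_ok, W_11964526784_ok, trivial⟩ C_16276279488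
theorem L_16276283457 : HH 127 (nat_lit 16276283457, nat_lit 36) := top_sound R_16276283457
  ⟨V6_15185748033_ok, V6_14128013376_ok, trivial⟩
  ⟨W_16276000832_ok, W_16259485760_ok, W_15202521152_ok, W_15201747008_ok, W_15185489984_ok, W_14112010304_ok, trivial⟩ C_16276283457
theorem L_16276283520 : HH 127 (nat_lit 16276283520, nat_lit 98) := top_sound R_16276283520
  ⟨V6_16276267008_ok, V6_16258719744_ok, V6_15201755136_ok, trivial⟩
  ⟨W_15202525184_ok, W_15202009088_ok, W_15202001024_ok, W_15201747008_ok, W_15185494016_ok, W_15185489984_ok, W_15185485952_ok, W_15185231936_ok, W_15184969856_ok, W_14128787456_ok, W_14112010304_ok, W_13055045696_ok, trivial⟩ C_16276283520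
theorem L_16276287552 : HH 127 (nat_lit 16276287552, nat_lit 63) := top_sound R_16276287552
  ⟨V6_16276267008_ok, V6_16276262976_ok, V6_10907316288_ok, trivial⟩
  ⟨W_15202009088_ok, W_15185494016_ok, W_15185489984_ok, W_15185231936_ok, W_14112010304_ok, W_14111494208_ok, W_13037756480_ok, W_11980795904_ok, W_11980791872_ok, W_11964280832_ok, W_10907316224_ok, trivial⟩ C_16276287552
theorem L_16276291584 : HH 127 (nat_lit 16276291584, nat_lit 24) := top_sound R_16276291584
  ⟨V6_13055053824_ok, V6_11981058048_ok, V6_10907578368_ok, trivial⟩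
  ⟨W_16276262912_ok, W_16259489792_ok, W_15185494016_ok, trivial⟩ C_16276291584
theorem L_16276533378 : HH 127 (nat_lit 16276533378, nat_lit 7) := top_sound R_16276533378
  ⟨V6_15202263168_ok, trivial⟩
  ⟨W_15202001024_ok, W_11981561984_ok, W_11981303936_ok, trivial⟩ C_16276533378
theorem L_16276533441 : HH 127 (nat_lit 16276533441, nat_lit 10) := top_sound R_16276533441
  ⟨V6_14128787520_ok, trivial⟩
  ⟨W_14128525376_ok, W_14128001216_ok, W_11981041856_ok, trivial⟩ C_16276533441
theorem L_16276537473 : HH 127 (nat_lit 16276537473, nat_lit 30) := top_sound R_16276537473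
  ⟨V6_15202263168_ok, trivial⟩
  ⟨W_15201747008_ok, W_14128525376_ok, W_13055303744_ok, W_13055045696_ok, W_11981566016_ok, W_11981561984_ok, W_10907828288_ok, W_10907566208_ok, trivial⟩ C_16276537473
theorem L_16276537536 : HH 127 (nat_lit 16276537536, nat_lit 44) := top_sound R_16276537536
  ⟨V6_15202529280_ok, V6_13055311872_ok, trivial⟩
  ⟨W_15202009088_ok, W_15201747008_ok, W_14128787456_ok, W_14128001216_ok, W_10907828288_ok, W_10907566208_ok, W_10907304128_ok, trivial⟩ C_16276537536
theorem L_16276541505 : HH 127 (nat_lit 16276541505, nat_lit 22) := top_sound R_16276541505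
  ⟨V6_16276262976_ok, V6_14129041473_ok, trivial⟩
  ⟨W_15201747008_ok, W_13054529600_ok, W_11981566016_ok, W_11981049920_ok, W_10907828288_ok, trivial⟩ C_16276541505
theorem L_16276541568 : HH 127 (nat_lit 16276541568, nat_lit 63) := top_sound R_16276541568
  ⟨V6_16275492864_ok, V6_15202787328_ok, trivial⟩
  ⟨W_15202525184_ok, W_15202009088_ok, W_15202001024_ok, W_15201747008_ok, W_14128787456_ok, W_14128783424_ok, W_14128521344_ok, W_11981303936_ok, trivial⟩ C_16276541568
theorem L_16276545600 : HH 127 (nat_lit 16276545600, nat_lit 58) := top_sound R_16276545600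
  ⟨V6_15202787328_ok, V6_15202783296_ok, V6_15201755136_ok, trivial⟩
  ⟨W_16276262912_ok, W_16276000832_ok, W_15202009088_ok, W_15201747008_ok, W_14128267328_ok, W_10907832320_ok, W_10907574272_ok, trivial⟩ C_16276545600
theorem L_16276549632 : HH 127 (nat_lit 16276549632, nat_lit 31) := top_sound R_16276549632
  ⟨V6_15202787328_ok, V6_11981574144_ok, V6_11981058048_ok, trivial⟩
  ⟨W_16276520960_ok, W_16276262912_ok, W_15202009088_ok, trivial⟩ C_16276549632
theorem L_16292004099 : HH 127 (nat_lit 16292004099, nat_lit 3) := top_sound R_16292004099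
  ⟨V6_13070516418_ok, V6_11997036801_ok, trivial⟩
  ⟨W_16241672384_ok, W_15167930624_ok, trivial⟩ C_16292004099
theorem L_16292008131 : HH 127 (nat_lit 16292008131, nat_lit 2) := top_sound R_16292008131
  ⟨V6_13070774466_ok, V6_11997040833_ok, trivial⟩
  ⟨W_16241672384_ok, trivial⟩ C_16292008131
theorem L_16292008194 : HH 127 (nat_lit 16292008194, nat_lit 4) := top_sound R_16292008194
  ⟨V6_15151157505_ok, V6_15151157442_ok, V6_11997040833_ok, V6_11997036801_ok, trivial⟩
  ⟨W_15201484928_ok, trivial⟩ C_16292008194
theorem L_16292008257 : HH 127 (nat_lit 16292008257, nat_lit 1) := top_sound R_16292008257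
  ⟨V6_11997040833_ok, trivial⟩
  ⟨W_16241676416_ok, trivial⟩ C_16292008257
theorem L_16292266179 : HH 127 (nat_lit 16292266179, nat_lit 6) := top_sound R_16292266179
  ⟨V6_14144258241_ok, trivial⟩
  ⟨W_16258445504_ok, W_16241930432_ok, W_16225157312_ok, W_13071036608_ok, trivial⟩ C_16292266179
theorem L_16292266242 : HH 127 (nat_lit 16292266242, nat_lit 14) := top_sound R_16292266242
  ⟨V6_16208380161_ok, V6_14144258304_ok, V6_14127481026_ok, V6_13070516418_ok, trivial⟩
  ⟨W_16241934464_ok, W_16208380160_ok, W_15184969856_ok, W_13071040640_ok, trivial⟩ C_16292266242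
theorem L_16292270274 : HH 127 (nat_lit 16292270274, nat_lit 20) := top_sound R_16292270274
  ⟨V6_16241668290_ok, V6_16225161408_ok, V6_16208384193_ok, V6_15134642370_ok, trivial⟩
  ⟨W_15201484928_ok, W_14144778368_ok, W_14144516288_ok, W_13071040640_ok, W_13070782592_ok, W_13070778560_ok, W_11997302912_ok, W_11997040832_ok, trivial⟩ C_16292270274
theorem L_16292270337 : HH 127 (nat_lit 16292270337, nat_lit 29) := top_sound R_16292270337
  ⟨V6_16225161408_ok, V6_16224899265_ok, V6_16208384256_ok, V6_16208384193_ok, V6_16208380161_ok, trivial⟩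
  ⟨W_15218262080_ok, W_15201747008_ok, W_14144782400_ok, W_13071044672_ok, W_13070782592_ok, W_11997302912_ok, W_11997040832_ok, trivial⟩ C_16292270337
theorem L_16292270400 : HH 127 (nat_lit 16292270400, nat_lit 15) := top_sound R_16292270400
  ⟨V6_16292007936_ok, trivial⟩
  ⟨W_16258453568_ok, W_15184973888_ok, W_14110970048_ok, W_13020713216_ok, W_11997040832_ok, W_11980525760_ok, W_11963748608_ok, trivial⟩ C_16292270400
theorem L_16292274306 : HH 127 (nat_lit 16292274306, nat_lit 14) := top_sound R_16292274306
  ⟨V6_16225165440_ok, trivial⟩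
  ⟨W_15218516096_ok, W_14144778368_ok, W_13071040640_ok, W_13054267520_ok, trivial⟩ C_16292274306
theorem L_16292274369 : HH 127 (nat_lit 16292274369, nat_lit 35) := top_sound R_16292274369
  ⟨V6_16225165377_ok, V6_14128013376_ok, trivial⟩
  ⟨W_16241930432_ok, W_16208388224_ok, W_15201747008_ok, W_15184973888_ok, W_14144782400_ok, W_14128001216_ok, W_13071036608_ok, W_11997298880_ok, trivial⟩ C_16292274369
theorem L_16292274432 : HH 127 (nat_lit 16292274432, nat_lit 44) := top_sound R_16292274432
  ⟨V6_15218528256_ok, trivial⟩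
  ⟨W_16225157312_ok, W_16208388224_ok, W_16208380160_ok, W_15218524160_ok, W_15201747008_ok, W_14128013312_ok, W_13054263488_ok, trivial⟩ C_16292274432
theorem L_16292524227 : HH 127 (nat_lit 16292524227, nat_lit 3) := top_sound R_16292524227
  ⟨V6_14077931715_ok, V6_13070774466_ok, V6_13037482179_ok, trivial⟩
  ⟨W_14111486144_ok, trivial⟩ C_16292524227
theorem L_16292528322 : HH 127 (nat_lit 16292528322, nat_lit 27) := top_sound R_16292528322
  ⟨V6_16225415361_ok, V6_15218000064_ok, V6_15151677633_ok, V6_14144254146_ok, trivial⟩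
  ⟨W_14128263296_ok, W_14128001216_ok, W_14111486144_ok, W_13071298688_ok, W_13071040640_ok, W_13071036608_ok, W_13054525568_ok, W_11997560960_ok, W_11997556928_ok, W_11980783808_ok, trivial⟩ C_16292528322
theorem L_16292528385 : HH 127 (nat_lit 16292528385, nat_lit 32) := top_sound R_16292528385
  ⟨V6_16291741761_ok, V6_16258187520_ok, V6_15151677633_ok, V6_14144258304_ok, trivial⟩
  ⟨W_16242196544_ok, W_15201747008_ok, W_13071302720_ok, W_13054525568_ok, W_11997560960_ok, W_11997298880_ok, trivial⟩ C_16292528385
theorem L_16292532354 : HH 127 (nat_lit 16292532354, nat_lit 24) := top_sound R_16292532354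
  ⟨V6_16291995777_ok, V6_16225423488_ok, trivial⟩
  ⟨W_15202001024_ok, W_13071298688_ok, W_13071040640_ok, W_13054525568_ok, W_13054267520_ok, W_11997560960_ok, W_11997302912_ok, W_11980787840_ok, trivial⟩ C_16292532354
theorem L_16292532417 : HH 127 (nat_lit 16292532417, nat_lit 62) := top_sound R_16292532417
  ⟨V6_16225423488_ok, V6_16225423425_ok, V6_16225419456_ok, V6_16225415361_ok, V6_16225161408_ok, V6_15151681728_ok, trivial⟩
  ⟨W_15218262080_ok, W_15201747008_ok, W_15185231936_ok, W_14144782400_ok, W_14144524352_ok, W_14144516288_ok, W_13071302720_ok, W_13071298688_ok, W_13071044672_ok, W_13054529600_ok, W_11997564992_ok, W_11997560960_ok, W_11997556928_ok, W_11997040832_ok, trivial⟩ C_16292532417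
theorem L_16292532480 : HH 127 (nat_lit 16292532480, nat_lit 70) := top_sound R_16292532480
  ⟨V6_16292007936_ok, V6_16275492864_ok, trivial⟩
  ⟨W_16242196544_ok, W_15218524160_ok, W_15202009088_ok, W_15185231936_ok, W_14145044480_ok, W_13054263488_ok, W_13054001408_ok, W_13020971264_ok, W_11997298880_ok, W_11997040832_ok, W_11980783808_ok, W_11947233536_ok, trivial⟩ C_16292532480
theorem L_16292536449 : HH 127 (nat_lit 16292536449, nat_lit 61) := top_sound R_16292536449
  ⟨V6_16225427520_ok, V6_16225423488_ok, V6_16225423425_ok, V6_16225165440_ok, V6_16225165377_ok, V6_15151685760_ok, V6_15151685697_ok, trivial⟩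
  ⟨W_15218516096_ok, W_15202001024_ok, W_15201747008_ok, W_15185231936_ok, W_14144782400_ok, W_13071302720_ok, W_13071298688_ok, W_13071044672_ok, W_13071040640_ok, W_11997564992_ok, W_11997560960_ok, W_11997302912_ok, trivial⟩ C_16292536449
theorem L_16292536512 : HH 127 (nat_lit 16292536512, nat_lit 98) := top_sound R_16292536512
  ⟨V6_16258719744_ok, V6_16242204672_ok, V6_15201755136_ok, V6_14144790528_ok, V6_13071310848_ok, trivial⟩
  ⟨W_16242196544_ok, W_15218524160_ok, W_15202009088_ok, W_15201747008_ok, W_15185231936_ok, W_15184969856_ok, W_14145044480_ok, W_13071298688_ok, W_13071040640_ok, W_13071036608_ok, W_13054263488_ok, W_11997556928_ok, W_11997298880_ok, W_11980783808_ok, trivial⟩ C_16292536512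
theorem L_16292540481 : HH 127 (nat_lit 16292540481, nat_lit 20) := top_sound R_16292540481
  ⟨V6_15151685697_ok, V6_14094725184_ok, V6_11997569088_ok, trivial⟩
  ⟨W_16292515904_ok, W_16242196544_ok, W_11997564992_ok, trivial⟩ C_16292540481
theorem L_16292540544 : HH 127 (nat_lit 16292540544, nat_lit 51) := top_sound R_16292540544
  ⟨V6_16242204672_ok, V6_16225423488_ok, V6_13071310848_ok, V6_11997573120_ok, trivial⟩
  ⟨W_15202009088_ok, W_15202001024_ok, W_15185231936_ok, W_14145044480_ok, W_14145036416_ok, W_13071298688_ok, W_11997564992_ok, trivial⟩ C_16292540544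
theorem L_16292786370 : HH 127 (nat_lit 16292786370, nat_lit 13) := top_sound R_16292786370
  ⟨V6_16291475586_ok, V6_16274960577_ok, V6_15168712896_ok, V6_14144254146_ok, V6_13070774466_ok, trivial⟩
  ⟨W_15168712832_ok, W_14111748224_ok, W_13071298688_ok, W_11997819008_ok, W_11997556928_ok, W_11981041856_ok, trivial⟩ C_16292786370
theorem L_16292790402 : HH 127 (nat_lit 16292790402, nat_lit 28) := top_sound R_16292790402
  ⟨V6_16242450561_ok, V6_14145298560_ok, trivial⟩
  ⟨W_16274964608_ok, W_16242450560_ok, W_15218000000_ok, W_15202001024_ok, W_15185485952_ok, W_15168712832_ok, W_13071040640_ok, W_11997560960_ok, trivial⟩ C_16292790402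
theorem L_16292790465 : HH 127 (nat_lit 16292790465, nat_lit 66) := top_sound R_16292790465
  ⟨V6_16291741824_ok, V6_16291741761_ok, V6_16274964672_ok, V6_16274960577_ok, trivial⟩
  ⟨W_16242454592_ok, W_16242196544_ok, W_15185489984_ok, W_15168716864_ok, W_15168712832_ok, W_14128525376_ok, W_14128267328_ok, W_14111752256_ok, W_14094975104_ok, W_13071560768_ok, W_13054787648_ok, W_13054783616_ok, W_13021233344_ok, trivial⟩ C_16292790465
theorem L_16292790528 : HH 127 (nat_lit 16292790528, nat_lit 60) := top_sound R_16292790528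
  ⟨V6_16291741824_ok, V6_16274964672_ok, V6_16258187520_ok, V6_14144258304_ok, trivial⟩
  ⟨W_16242458624_ok, W_15202009088_ok, W_15185494016_ok, W_15168716864_ok, W_14145044480_ok, W_14128529408_ok, W_11997823040_ok, trivial⟩ C_16292790528
theorem L_16292794497 : HH 127 (nat_lit 16292794497, nat_lit 85) := top_sound R_16292794497
  ⟨V6_16291995777_ok, V6_16276004928_ok, V6_16242450561_ok, trivial⟩
  ⟨W_16242454592_ok, W_16242450560_ok, W_16242196544_ok, W_15218262080_ok, W_15201747008_ok, W_15201488960_ok, W_15185231936_ok, W_15168716864_ok, W_14144782400_ok, W_14144524352_ok, W_13071044672_ok, W_13071040640_ok, W_13054267520_ok, W_13021237376_ok, W_11997564992_ok, W_11997560960_ok, W_11997302912_ok, trivial⟩ C_16292794497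
theorem L_16292794560 : HH 127 (nat_lit 16292794560, nat_lit 133) := top_sound R_16292794560
  ⟨V6_16292007936_ok, V6_16276008960_ok, V6_16242462720_ok, V6_13071568896_ok, trivial⟩
  ⟨W_16275230720_ok, W_16242458624_ok, W_16242454592_ok, W_16242196544_ok, W_15218524160_ok, W_15218262080_ok, W_15202009088_ok, W_15201747008_ok, W_15185494016_ok, W_15185489984_ok, W_15168720896_ok, W_15168716864_ok, W_14145044480_ok, W_14144516288_ok, W_13071036608_ok, W_11997556928_ok, W_11997298880_ok, W_11997040832_ok, trivial⟩ C_16292794560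
theorem L_16292798529 : HH 127 (nat_lit 16292798529, nat_lit 58) := top_sound R_16292798529
  ⟨V6_16276004928_ok, trivial⟩
  ⟨W_16242196544_ok, W_15184973888_ok, W_15168716864_ok, W_15168200768_ok, W_14144782400_ok, W_14111236160_ok, W_14094979136_ok, W_14094721088_ok, W_13071044672_ok, W_13054271552_ok, W_13021241408_ok, W_11997564992_ok, W_11980791872_ok, trivial⟩ C_16292798529
theorem L_16292798592 : HH 127 (nat_lit 16292798592, nat_lit 152) := top_sound R_16292798592
  ⟨V6_16292782080_ok, V6_16258719744_ok, V6_16242462720_ok, V6_16242204672_ok, V6_15168724992_ok, trivial⟩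
  ⟨W_16242458624_ok, W_16242454592_ok, W_16242450560_ok, W_16242196544_ok, W_15218524160_ok, W_15202009088_ok, W_15202001024_ok, W_15201747008_ok, W_15185494016_ok, W_15185489984_ok, W_15185485952_ok, W_15168720896_ok, W_15168716864_ok, W_14145302528_ok, W_14145036416_ok, W_14128013312_ok, W_14094983168_ok, W_13071560768_ok, W_13071556736_ok, W_13071048704_ok, W_11997819008_ok, W_11997560960_ok, trivial⟩ C_16292798592
theorem L_16292802624 : HH 127 (nat_lit 16292802624, nat_lit 93) := top_sound R_16292802624
  ⟨V6_16292782080_ok, V6_13071568896_ok, V6_13071310848_ok, trivial⟩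
  ⟨W_16242458624_ok, W_16242454592_ok, W_16242196544_ok, W_15202009088_ok, W_15185494016_ok, W_15185489984_ok, W_15185231936_ok, W_15168720896_ok, W_15168716864_ok, W_15168458816_ok, W_14094983168_ok, W_14094725120_ok, trivial⟩ C_16292802624
theorem L_16292806656 : HH 127 (nat_lit 16292806656, nat_lit 30) := top_sound R_16292806656
  ⟨V6_13071568896_ok, V6_13021249536_ok, V6_11981058048_ok, trivial⟩
  ⟨W_16292777984_ok, W_16242458624_ok, W_15168720896_ok, trivial⟩ C_16292806656
theorem L_16293048450 : HH 127 (nat_lit 16293048450, nat_lit 15) := top_sound R_16293048450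
  ⟨V6_16291475586_ok, V6_15185748096_ok, V6_14112006273_ok, V6_13071294594_ok, V6_11998077057_ok, trivial⟩
  ⟨W_16291737728_ok, W_15202001024_ok, W_14111748224_ok, W_11997819008_ok, W_11981303936_ok, trivial⟩ C_16293048450
theorem L_16293048513 : HH 127 (nat_lit 16293048513, nat_lit 29) := top_sound R_16293048513
  ⟨V6_14128787520_ok, trivial⟩
  ⟨W_16291737728_ok, W_16274960576_ok, W_16258445504_ok, W_15185489984_ok, W_14111748224_ok, W_14111486144_ok, W_13071560768_ok, W_11997556928_ok, W_11964526784_ok, trivial⟩ C_16293048513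
theorem L_16293052545 : HH 127 (nat_lit 16293052545, nat_lit 69) := top_sound R_16293052545
  ⟨V6_16291995777_ok, V6_16291741824_ok, V6_16291741761_ok, V6_15185748033_ok, V6_11998077057_ok, trivial⟩
  ⟨W_15202001024_ok, W_15201747008_ok, W_15185748032_ok, W_15185489984_ok, W_15185231936_ok, W_14144782400_ok, W_14128783424_ok, W_14128525376_ok, W_13071560768_ok, W_13071040640_ok, W_11998081088_ok, W_11997819008_ok, trivial⟩ C_16293052545
theorem L_16293052608 : HH 127 (nat_lit 16293052608, nat_lit 100) := top_sound R_16293052608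
  ⟨V6_16291741824_ok, V6_16276008960_ok, trivial⟩
  ⟨W_15218524160_ok, W_15202009088_ok, W_15201747008_ok, W_15185752064_ok, W_15185494016_ok, W_15185231936_ok, W_14145044480_ok, W_14128787456_ok, W_14112010304_ok, W_13071040640_ok, W_11997556928_ok, W_11964526784_ok, trivial⟩ C_16293052608
theorem L_16293056577 : HH 127 (nat_lit 16293056577, nat_lit 57) := top_sound R_16293056577
  ⟨V6_16276004928_ok, trivial⟩
  ⟨W_16258453568_ok, W_15218262080_ok, W_15201747008_ok, W_15185231936_ok, W_15184973888_ok, W_14144782400_ok, W_14144524352_ok, W_13071044672_ok, W_11997564992_ok, trivial⟩ C_16293056577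

theorem H_11 : AllH 127 tb11 :=
  ⟨L_16259248320, L_16259252289, L_16259252352, L_16259494083, L_16259498178, L_16259498241, L_16259502210, L_16259502273, L_16259502336, L_16259506305, L_16259506368, L_16259510337, L_16259510400, L_16259514432, L_16259518464, L_16275226884, L_16275230979, L_16275489027, L_16275493059, L_16275493122, L_16275493185, L_16275497154, L_16275497217, L_16275497280, L_16275751107, L_16275751170, L_16275755202, L_16275755265, L_16275755328, L_16275759234, L_16275759297, L_16275759360, L_16275763329, L_16275763392, L_16276009155, L_16276013250, L_16276013313, L_16276017282, L_16276017345, L_16276017408, L_16276021377, L_16276021440, L_16276025409, L_16276025472, L_16276029504, L_16276271298, L_16276275330, L_16276275393, L_16276275456, L_16276279425, L_16276279488, L_16276283457, L_16276283520, L_16276287552, L_16276291584, L_16276533378, L_16276533441, L_16276537473, L_16276537536, L_16276541505, L_16276541568, L_16276545600, L_16276549632, L_16292004099, L_16292008131, L_16292008194, L_16292008257, L_16292266179,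 L_16292266242, L_16292270274, L_16292270337, L_16292270400, L_16292274306, L_16292274369, L_16292274432, L_16292524227, L_16292528322, L_16292528385, L_16292532354, L_16292532417, L_16292532480, L_16292536449, L_16292536512, L_16292540481, L_16292540544, L_16292786370, L_16292790402, L_16292790465, L_16292790528, L_16292794497, L_16292794560, L_16292798529, L_16292798592, L_16292802624, L_16292806656, L_16293048450, L_16293048513, L_16293052545, L_16293052608, L_16293056577, trivial⟩

theorem L_16293056640 : HH 127 (nat_lit 16293056640, nat_lit 144) := top_sound R_16293056640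
  ⟨V6_16292782080_ok, V6_16276267008_ok, V6_15219302400_ok, trivial⟩
  ⟨W_16258453568_ok, W_15218524160_ok, W_15218262080_ok, W_15201747008_ok, W_15185494016_ok, W_15185231936_ok, W_15184973888_ok, W_15184969856_ok, W_14144782400_ok, W_14144524352_ok, W_14128267328_ok, W_14127747200_ok, W_14111748224_ok, W_14111494208_ok, W_14111232128_ok, W_13071298688_ok, W_13071044672_ok, W_13071040640_ok, W_13070782592_ok, W_13054525568_ok, W_13054267520_ok, W_13037752448_ok, W_11997564992_ok, W_11997302912_ok, W_11981049920_ok, W_11980787840_ok, W_11964534848_ok, W_11964272768_ok, trivial⟩ C_16293056640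
theorem L_16293060672 : HH 127 (nat_lit 16293060672, nat_lit 130) := top_sound R_16293060672
  ⟨V6_16292782080_ok, V6_16276262976_ok, V6_15219302400_ok, V6_13071568896_ok, trivial⟩
  ⟨W_16276262912_ok, W_16259485760_ok, W_15218524160_ok, W_15202525184_ok, W_15202009088_ok, W_15201747008_ok, W_15185494016_ok, W_15185489984_ok, W_15185231936_ok, W_15184973888_ok, W_14145044480_ok, W_14128013312_ok, W_14111236160_ok, W_13071048704_ok, trivial⟩ C_16293060672
theorem L_16293064704 : HH 127 (nat_lit 16293064704, nat_lit 59) := top_sound R_16293064704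
  ⟨V6_15219302400_ok, V6_13071310848_ok, V6_11997573120_ok, V6_11981058048_ok, trivial⟩
  ⟨W_16276262912_ok, W_16259489792_ok, W_15219298304_ok, W_15202009088_ok, W_15185752064_ok, W_15185494016_ok, W_14112014336_ok, W_11980795904_ok, trivial⟩ C_16293064704
theorem L_16293306498 : HH 127 (nat_lit 16293306498, nat_lit 4) := top_sound R_16293306498
  ⟨V6_13054779522_ok, V6_11981561985_ok, trivial⟩
  ⟨W_16291995776_ok, trivial⟩ C_16293306498
theorem L_16293310593 : HH 127 (nat_lit 16293310593, nat_lit 36) := top_sound R_16293310593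
  ⟨V6_16291995777_ok, V6_14145298560_ok, trivial⟩
  ⟨W_15202001024_ok, W_14128783424_ok, W_14128525376_ok, W_13071818816_ok, W_13071560768_ok, W_13055303744_ok, W_13055045696_ok, W_13055041664_ok, W_11998081088_ok, W_11997819008_ok, W_11981561984_ok, W_11981303936_ok, trivial⟩ C_16293310593
theorem L_16293310656 : HH 127 (nat_lit 16293310656, nat_lit 38) := top_sound R_16293310656
  ⟨V6_15202529280_ok, trivial⟩
  ⟨W_14145302528_ok, W_14144516288_ok, W_14128787456_ok, W_14128001216_ok, W_13071560768_ok, W_13071298688_ok, W_13071036608_ok, W_11998343168_ok, W_11998081088_ok, W_11997819008_ok, W_11997556928_ok, trivial⟩ C_16293310656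
theorem L_16293314625 : HH 127 (nat_lit 16293314625, nat_lit 41) := top_sound R_16293314625
  ⟨V6_16291741761_ok, V6_16276262976_ok, V6_15202783296_ok, V6_14129041473_ok, trivial⟩
  ⟨W_15218262080_ok, W_15201747008_ok, W_14144782400_ok, W_14128267328_ok, W_13071302720_ok, W_11998081088_ok, W_11997823040_ok, trivial⟩ C_16293314625
theorem L_16293314688 : HH 127 (nat_lit 16293314688, nat_lit 103) := top_sound R_16293314688
  ⟨V6_16292782080_ok, V6_15219302400_ok, trivial⟩
  ⟨W_15218524160_ok, W_15202009088_ok, W_15201747008_ok, W_14145044480_ok, W_14129045504_ok, W_14128787456_ok, W_14128525376_ok, W_14128267328_ok, W_14128263296_ok, W_13071040640_ok, W_13055307776_ok, W_11981566016_ok, trivial⟩ C_16293314688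
theorem L_16293318720 : HH 127 (nat_lit 16293318720, nat_lit 111) := top_sound R_16293318720
  ⟨V6_16292007936_ok, V6_16276262976_ok, V6_15219302400_ok, V6_13071568896_ok, V6_11998347264_ok, trivial⟩
  ⟨W_16276262912_ok, W_15219298304_ok, W_15218524160_ok, W_15218262080_ok, W_15202783232_ok, W_15202525184_ok, W_15202009088_ok, W_15201747008_ok, W_14145818624_ok, W_14145044480_ok, W_14129045504_ok, W_13072076864_ok, trivial⟩ C_16293318720
theorem L_16293322752 : HH 127 (nat_lit 16293322752, nat_lit 66) := top_sound R_16293322752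
  ⟨V6_15202787328_ok, V6_15201755136_ok, V6_13071310848_ok, trivial⟩
  ⟨W_16276520960_ok, W_16276262912_ok, W_15219556352_ok, W_15219298304_ok, W_15202783232_ok, W_15202525184_ok, W_14145818624_ok, W_14145302528_ok, W_14129045504_ok, W_13055307776_ok, trivial⟩ C_16293322752
theorem L_16293568641 : HH 127 (nat_lit 16293568641, nat_lit 8) := top_sound R_16293568641
  ⟨V6_16291995777_ok, trivial⟩
  ⟨W_14145298496_ok, W_13071818816_ok, trivial⟩ C_16293568641
theorem L_16293572673 : HH 127 (nat_lit 16293572673, nat_lit 17) := top_sound R_16293572673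
  ⟨V6_14145556545_ok, V6_13072339008_ok, V6_13072076865_ok, V6_11998597185_ok, V6_11998339137_ok, V6_11998081089_ok, trivial⟩
  ⟨W_16292515904_ok, W_16291999808_ok, W_11998081088_ok, trivial⟩ C_16293572673
theorem L_16293572736 : HH 127 (nat_lit 16293572736, nat_lit 34) := top_sound R_16293572736
  ⟨V6_15219302400_ok, trivial⟩
  ⟨W_14145560576_ok, W_14145302528_ok, W_13071822848_ok, W_13071818816_ok, W_13071560768_ok, W_11998343168_ok, W_11998081088_ok, W_11997819008_ok, trivial⟩ C_16293572736
theorem L_16293576768 : HH 127 (nat_lit 16293576768, nat_lit 51) := top_sound R_16293576768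
  ⟨V6_15219302400_ok, V6_14146080768_ok, V6_13072343040_ok, V6_13072339008_ok, V6_11998605312_ok, V6_11998347264_ok, trivial⟩
  ⟨W_16292515904_ok, W_16291741760_ok, W_15218524160_ok, W_15218262080_ok, W_14145044480_ok, W_11998081088_ok, trivial⟩ C_16293576768
theorem L_16293580800 : HH 127 (nat_lit 16293580800, nat_lit 34) := top_sound R_16293580800
  ⟨V6_16292007936_ok, V6_14146080768_ok, V6_11998605312_ok, trivial⟩
  ⟨W_15219556352_ok, W_15219298304_ok, W_14145818624_ok, W_14145302528_ok, W_13072080896_ok, W_13071822848_ok, trivial⟩ C_16293580800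
theorem L_16308519171 : HH 127 (nat_lit 16308519171, nat_lit 2) := top_sound R_16308519171
  ⟨V6_13070516418_ok, trivial⟩
  ⟨W_15201222848_ok, trivial⟩ C_16308519171
theorem L_16308781251 : HH 127 (nat_lit 16308781251, nat_lit 3) := top_sound R_16308781251
  ⟨V6_13087555776_ok, trivial⟩
  ⟨W_16274960576_ok, W_16258445504_ok, trivial⟩ C_16308781251
theorem L_16308781314 : HH 127 (nat_lit 16308781314, nat_lit 7) := top_sound R_16308781314
  ⟨V6_13087555776_ok, trivial⟩
  ⟨W_16274964608_ok, W_16258187456_ok, W_16241410304_ok, W_15167930624_ok, trivial⟩ C_16308781314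
theorem L_16308785346 : HH 127 (nat_lit 16308785346, nat_lit 6) := top_sound R_16308785346
  ⟨V6_13087555776_ok, trivial⟩
  ⟨W_16258445504_ok, W_16241676416_ok, W_14144516288_ok, W_14110970048_ok, trivial⟩ C_16308785346
theorem L_16308785409 : HH 127 (nat_lit 16308785409, nat_lit 8) := top_sound R_16308785409
  ⟨V6_15151157505_ok, V6_13087555776_ok, trivial⟩
  ⟨W_15218262080_ok, trivial⟩ C_16308785409
theorem L_16308785472 : HH 127 (nat_lit 16308785472, nat_lit 3) := top_sound R_16308785472
  ⟨V6_13087559808_ok, trivial⟩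
  ⟨W_16275230720_ok, trivial⟩ C_16308785472
theorem L_16309039299 : HH 127 (nat_lit 16309039299, nat_lit 2) := top_sound R_16309039299
  ⟨V6_15234511041_ok, V6_13037482179_ok, trivial⟩
  ⟨W_16241930432_ok, W_13071036608_ok, trivial⟩ C_16309039299
theorem L_16309043394 : HH 127 (nat_lit 16309043394, nat_lit 21) := top_sound R_16309043394
  ⟨V6_14161035456_ok, V6_13087813824_ok, V6_13087555776_ok, trivial⟩
  ⟨W_16291737728_ok, W_16274960576_ok, W_16258707584_ok, W_16241934464_ok, W_16241930432_ok, W_16225157312_ok, trivial⟩ C_16309043394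
theorem L_16309043457 : HH 127 (nat_lit 16309043457, nat_lit 27) := top_sound R_16309043457
  ⟨V6_16208380161_ok, V6_15234777216_ok, trivial⟩
  ⟨W_15201747008_ok, W_14144782400_ok, W_13087817792_ok, W_13071040640_ok, W_13054001408_ok, trivial⟩ C_16309043457
theorem L_16309047426 : HH 127 (nat_lit 16309047426, nat_lit 19) := top_sound R_16309047426
  ⟨V6_15235293312_ok, trivial⟩
  ⟨W_16241676416_ok, W_16225161344_ok, W_15201484928_ok, W_14127747200_ok, W_13087813760_ok, W_13071040640_ok, W_13070782592_ok, W_13054267520_ok, trivial⟩ C_16309047426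
theorem L_16309047489 : HH 127 (nat_lit 16309047489, nat_lit 43) := top_sound R_16309047489
  ⟨V6_16225161408_ok, V6_16208384193_ok, V6_13087821888_ok, V6_13087813824_ok, V6_13087559808_ok, trivial⟩
  ⟨W_16258453568_ok, W_15235035200_ok, W_15218262080_ok, W_15201747008_ok, W_14161555520_ok, W_14161297472_ok, W_14128001216_ok, trivial⟩ C_16309047489
theorem L_16309047552 : HH 127 (nat_lit 16309047552, nat_lit 48) := top_sound R_16309047552
  ⟨V6_16225161408_ok, V6_15235043328_ok, V6_14161563648_ok, trivial⟩
  ⟨W_15235039232_ok, W_15218524160_ok, W_15218262080_ok, W_15201747008_ok, trivial⟩ C_16309047552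
theorem L_16309051521 : HH 127 (nat_lit 16309051521, nat_lit 38) := top_sound R_16309051521
  ⟨V6_15235293312_ok, trivial⟩
  ⟨W_16225165376_ok, W_16208388224_ok, W_15201747008_ok, W_15168200768_ok, W_15151423616_ok, W_14111236160_ok, W_14094459008_ok, W_13071044672_ok, W_13054271552_ok, W_13037494400_ok, trivial⟩ C_16309051521
theorem L_16309051584 : HH 127 (nat_lit 16309051584, nat_lit 62) := top_sound R_16309051584
  ⟨V6_15201755136_ok, V6_14144790528_ok, V6_13087825920_ok, trivial⟩
  ⟨W_16225157312_ok, W_16208388224_ok, W_15235297280_ok, W_15218524160_ok, W_15201747008_ok, W_15184969856_ok, W_13071036608_ok, W_13054263488_ok, trivial⟩ C_16309051584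
theorem L_16309301442 : HH 127 (nat_lit 16309301442, nat_lit 12) := top_sound R_16309301442
  ⟨V6_16225415361_ok, V6_15234511041_ok, V6_14144254146_ok, V6_13087813824_ok, V6_13070774466_ok, trivial⟩
  ⟨W_16308252800_ok, W_16291737728_ok, W_16225415360_ok, W_14111486144_ok, W_13071298688_ok, trivial⟩ C_16309301442
theorem L_16309305474 : HH 127 (nat_lit 16309305474, nat_lit 27) := top_sound R_16309305474
  ⟨V6_15234777216_ok, V6_13088071809_ok, trivial⟩
  ⟨W_16308510848_ok, W_16242192512_ok, W_15202001024_ok, W_15168454784_ok, W_13088071808_ok, W_13087813760_ok, W_13071040640_ok, trivial⟩ C_16309305474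
theorem L_16309305537 : HH 127 (nat_lit 16309305537, nat_lit 60) := top_sound R_16309305537
  ⟨V6_16308518976_ok, V6_16225419456_ok, V6_16225415361_ok, V6_14161035456_ok, trivial⟩
  ⟨W_16242196544_ok, W_15201747008_ok, W_15185231936_ok, W_14161555520_ok, W_14144782400_ok, W_13087817792_ok, W_13071302720_ok, W_13071298688_ok, W_13071040640_ok, trivial⟩ C_16309305537
theorem L_16309305600 : HH 127 (nat_lit 16309305600, nat_lit 57) := top_sound R_16309305600
  ⟨V6_16308781056_ok, V6_14161035456_ok, trivial⟩
  ⟨W_16242196544_ok, W_15202009088_ok, W_15201747008_ok, W_15185231936_ok, W_14145044480_ok, trivial⟩ C_16309305600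
theorem L_16309309569 : HH 127 (nat_lit 16309309569, nat_lit 74) := top_sound R_16309309569
  ⟨V6_16291995777_ok, V6_16225423425_ok, V6_15235293312_ok, V6_15235031169_ok, V6_13088071809_ok, trivial⟩
  ⟨W_16258453568_ok, W_16242196544_ok, W_15218262080_ok, W_15201747008_ok, W_15201488960_ok, W_15185231936_ok, W_14161555520_ok, W_14144782400_ok, W_14144524352_ok, W_13088075840_ok, W_13071044672_ok, W_13071040640_ok, W_13054267520_ok, trivial⟩ C_16309309569
theorem L_16309309632 : HH 127 (nat_lit 16309309632, nat_lit 113) := top_sound R_16309309632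
  ⟨V6_16308781056_ok, V6_16292007936_ok, V6_14161563648_ok, V6_13088083968_ok, trivial⟩
  ⟨W_16242196544_ok, W_15235297280_ok, W_15218524160_ok, W_15202009088_ok, W_15201747008_ok, W_15185231936_ok, W_15151677632_ok, W_14161817600_ok, W_14145044480_ok, W_14144516288_ok, W_13071298688_ok, W_13071036608_ok, W_13054521536_ok, W_13054263488_ok, trivial⟩ C_16309309632
theorem L_16309313601 : HH 127 (nat_lit 16309313601, nat_lit 46) := top_sound R_16309313601
  ⟨V6_16309293120_ok, V6_16225165377_ok, V6_15151685697_ok, trivial⟩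
  ⟨W_15201747008_ok, W_14161555520_ok, W_14144782400_ok, W_13088075840_ok, W_13087817792_ok, W_13071302720_ok, W_13071044672_ok, W_13054529600_ok, trivial⟩ C_16309313601
theorem L_16309313664 : HH 127 (nat_lit 16309313664, nat_lit 124) := top_sound R_16309313664
  ⟨V6_16309297152_ok, V6_16258719744_ok, V6_16242204672_ok, V6_13087825920_ok, trivial⟩
  ⟨W_15235297280_ok, W_15218524160_ok, W_15202009088_ok, W_15202001024_ok, W_15201747008_ok, W_15184969856_ok, W_14161817600_ok, W_14161813568_ok, W_14161555520_ok, W_14145044480_ok, W_14145036416_ok, W_13088071808_ok, W_13071298688_ok, W_13071040640_ok, trivial⟩ C_16309313664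
theorem L_16309317696 : HH 127 (nat_lit 16309317696, nat_lit 54) := top_sound R_16309317696
  ⟨V6_16309293120_ok, V6_16225427520_ok, V6_13088083968_ok, trivial⟩
  ⟨W_15202009088_ok, W_15185231936_ok, W_15168462848_ok, W_14161817600_ok, W_14145044480_ok, W_14094725120_ok, trivial⟩ C_16309317696
theorem L_16309563522 : HH 127 (nat_lit 16309563522, nat_lit 21) := top_sound R_16309563522
  ⟨V6_16291475586_ok, V6_13088333952_ok, V6_13088071809_ok, trivial⟩
  ⟨W_16242450560_ok, W_16242192512_ok, W_15202001024_ok, W_15185485952_ok, W_15168712832_ok, W_13087813760_ok, trivial⟩ C_16309563522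
theorem L_16309563585 : HH 127 (nat_lit 16309563585, nat_lit 33) := top_sound R_16309563585
  ⟨V6_16259231808_ok, trivial⟩
  ⟨W_16308514880_ok, W_16242454592_ok, W_15185489984_ok, W_14161555520_ok, W_13088075840_ok, W_13071560768_ok, trivial⟩ C_16309563585
theorem L_16309567617 : HH 127 (nat_lit 16309567617, nat_lit 89) := top_sound R_16309567617
  ⟨V6_16308518976_ok, V6_16291741824_ok, V6_15234777216_ok, trivial⟩
  ⟨W_16242454592_ok, W_16242450560_ok, W_15202001024_ok, W_15168716864_ok, W_15168712832_ok, W_14161813568_ok, W_14145036416_ok, W_14128525376_ok, W_14128521344_ok, W_14128267328_ok, W_14111752256_ok, W_14111748224_ok, W_14094975104_ok, W_13088071808_ok, W_13071560768_ok, W_13071556736_ok, W_13054787648_ok, W_13054783616_ok, W_13054525568_ok, W_13038010496_ok, trivial⟩ C_16309567617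
theorem L_16309567680 : HH 127 (nat_lit 16309567680, nat_lit 125) := top_sound R_16309567680
  ⟨V6_16308518976_ok, V6_16291741824_ok, V6_16276008960_ok, trivial⟩
  ⟨W_16308518912_ok, W_16242458624_ok, W_16242196544_ok, W_15235297280_ok, W_15218524160_ok, W_15202009088_ok, W_15185494016_ok, W_15168716864_ok, W_15168712832_ok, W_14161817600_ok, W_14145044480_ok, W_13088337920_ok, W_13021233344_ok, trivial⟩ C_16309567680
theorem L_16309571649 : HH 127 (nat_lit 16309571649, nat_lit 67) := top_sound R_16309571649
  ⟨V6_16276004928_ok, V6_15235813440_ok, trivial⟩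
  ⟨W_16258453568_ok, W_16242196544_ok, W_15218262080_ok, W_15201747008_ok, W_15201488960_ok, W_15185231936_ok, W_15168716864_ok, W_14144782400_ok, W_14144524352_ok, W_14094979136_ok, W_13088075840_ok, W_13071044672_ok, trivial⟩ C_16309571649
theorem L_16309571712 : HH 127 (nat_lit 16309571712, nat_lit 182) := top_sound R_16309571712
  ⟨V6_16309297152_ok, V6_16292782080_ok, V6_15235817472_ok, trivial⟩
  ⟨W_16258453568_ok, W_16242458624_ok, W_16242454592_ok, W_16242450560_ok, W_16242196544_ok, W_16242192512_ok, W_16241676416_ok, W_15218262080_ok, W_15202009088_ok, W_15201747008_ok, W_15201488960_ok, W_15185231936_ok, W_15184973888_ok, W_15168720896_ok, W_15168716864_ok, W_15168712832_ok, W_15168458816_ok, W_15168454784_ok, W_15168196736_ok, W_14144782400_ok, W_14144524352_ok, W_14128267328_ok, W_14128263296_ok, W_14111494208_ok, W_14111232128_ok, W_14094979136_ok, W_14094717056_ok, W_13087821824_ok, W_13087817792_ok, W_13071044672_ok, W_13070782592_ok, W_13054267520_ok, W_13037752448_ok, W_13021237376_ok, trivial⟩ C_16309571712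
theorem L_16309575744 : HH 127 (nat_lit 16309575744, nat_lit 159) := top_sound R_16309575744
  ⟨V6_16309297152_ok, V6_16292782080_ok, V6_15235813440_ok, trivial⟩
  ⟨W_16242458624_ok, W_16242454592_ok, W_16242196544_ok, W_15202009088_ok, W_15201747008_ok, W_15185494016_ok, W_15185231936_ok, W_15184973888_ok, W_15168720896_ok, W_15168716864_ok, W_15168462848_ok, W_15168458816_ok, W_15168200768_ok, W_14128267328_ok, W_14111494208_ok, W_14111236160_ok, W_14094983168_ok, W_14094979136_ok, W_14094721088_ok, W_13087821824_ok, W_13087817792_ok, W_13071048704_ok, W_13071044672_ok, W_13054271552_ok, W_13037756480_ok, trivial⟩ C_16309575744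
theorem L_16309579776 : HH 127 (nat_lit 16309579776, nat_lit 69) := top_sound R_16309579776
  ⟨V6_15235817472_ok, V6_13088342016_ok, trivial⟩
  ⟨W_16242458624_ok, W_15202009088_ok, W_15185494016_ok, W_15168720896_ok, W_15168462848_ok, W_14145044480_ok, W_14094983168_ok, W_13088337920_ok, trivial⟩ C_16309579776
theorem L_16309821570 : HH 127 (nat_lit 16309821570, nat_lit 9) := top_sound R_16309821570
  ⟨V6_13088071809_ok, V6_13087809666_ok, trivial⟩
  ⟨W_16308510848_ok, W_15202001024_ok, trivial⟩ C_16309821570
theorem L_16309825665 : HH 127 (nat_lit 16309825665, nat_lit 55) := top_sound R_16309825665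
  ⟨V6_15235293312_ok, V6_13088333952_ok, trivial⟩
  ⟨W_16308514880_ok, W_16308252800_ok, W_15185748032_ok, W_15185489984_ok, W_14161813568_ok, W_14161555520_ok, W_14128783424_ok, W_14128525376_ok, W_14112010304_ok, W_13071818816_ok, W_13071560768_ok, W_13038268544_ok, trivial⟩ C_16309825665
theorem L_16309825728 : HH 127 (nat_lit 16309825728, nat_lit 61) := top_sound R_16309825728
  ⟨V6_16276008960_ok, V6_15202529280_ok, trivial⟩
  ⟨W_16308514880_ok, W_16308252800_ok, W_15235297280_ok, W_14161817600_ok, W_14145302528_ok, W_14144516288_ok, W_13088337920_ok, W_13071560768_ok, W_13071298688_ok, W_13071036608_ok, W_13038268544_ok, trivial⟩ C_16309825728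
theorem L_16309829697 : HH 127 (nat_lit 16309829697, nat_lit 63) := top_sound R_16309829697
  ⟨V6_16308518976_ok, V6_15235813440_ok, V6_15185748033_ok, trivial⟩
  ⟨W_16292515904_ok, W_16259485760_ok, W_15201747008_ok, W_15185489984_ok, W_15185231936_ok, W_14128525376_ok, W_14112010304_ok, W_13088333888_ok, W_13071560768_ok, W_13055045696_ok, trivial⟩ C_16309829697
theorem L_16309829760 : HH 127 (nat_lit 16309829760, nat_lit 162) := top_sound R_16309829760
  ⟨V6_16309297152_ok, V6_16308518976_ok, V6_15235817472_ok, trivial⟩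
  ⟨W_16308518912_ok, W_15235297280_ok, W_15218524160_ok, W_15202525184_ok, W_15202009088_ok, W_15201747008_ok, W_15185494016_ok, W_15185231936_ok, W_14161559552_ok, W_14145302528_ok, W_14145044480_ok, W_14128787456_ok, W_14128267328_ok, W_14128263296_ok, W_14112014336_ok, trivial⟩ C_16309829760
theorem L_16309833792 : HH 127 (nat_lit 16309833792, nat_lit 167) := top_sound R_16309833792
  ⟨V6_16309297152_ok, V6_16276262976_ok, V6_15235817472_ok, V6_15235813440_ok, trivial⟩
  ⟨W_16258453568_ok, W_15235039232_ok, W_15218524160_ok, W_15218266112_ok, W_15218262080_ok, W_15202009088_ok, W_15201747008_ok, W_15201488960_ok, W_15185494016_ok, W_15185231936_ok, W_14161559552_ok, W_14161301504_ok, W_14145044480_ok, W_14144782400_ok, W_14144524352_ok, W_14128787456_ok, W_14128267328_ok, W_14111494208_ok, W_13087821824_ok, W_13087817792_ok, W_13071306752_ok, W_13071044672_ok, trivial⟩ C_16309833792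
theorem L_16309837824 : HH 127 (nat_lit 16309837824, nat_lit 105) := top_sound R_16309837824
  ⟨V6_15235817472_ok, V6_14161563648_ok, V6_13088083968_ok, V6_13087825920_ok, trivial⟩
  ⟨W_16276262912_ok, W_16259489792_ok, W_15235297280_ok, W_15219298304_ok, W_15218524160_ok, W_15202525184_ok, W_15202009088_ok, W_15185494016_ok, W_14128787456_ok, W_14112014336_ok, trivial⟩ C_16309837824
theorem L_16310083713 : HH 127 (nat_lit 16310083713, nat_lit 24) := top_sound R_16310083713
  ⟨V6_15235031169_ok, V6_13088333952_ok, trivial⟩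
  ⟨W_15202001024_ok, W_14161813568_ok, W_14128783424_ok, W_13088071808_ok, W_13071818816_ok, W_13055303744_ok, W_13055041664_ok, trivial⟩ C_16310083713
theorem L_16310087745 : HH 127 (nat_lit 16310087745, nat_lit 39) := top_sound R_16310087745
  ⟨V6_16309293120_ok, V6_14129041473_ok, V6_13088854080_ok, trivial⟩
  ⟨W_16308514880_ok, W_14161555520_ok, W_14128783424_ok, W_14128525376_ok, W_13088333888_ok, W_13071560768_ok, W_13055303744_ok, W_13055045696_ok, trivial⟩ C_16310087745
theorem L_16310087808 : HH 127 (nat_lit 16310087808, nat_lit 97) := top_sound R_16310087808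
  ⟨V6_15235817472_ok, V6_15219302400_ok, V6_13088858112_ok, trivial⟩
  ⟨W_16308514880_ok, W_15235297280_ok, W_15202001024_ok, W_14161817600_ok, W_14161555520_ok, W_14145302528_ok, W_14129045504_ok, W_14128787456_ok, W_14128525376_ok, W_14128263296_ok, W_13088071808_ok, W_13071298688_ok, W_13055307776_ok, W_13055045696_ok, trivial⟩ C_16310087808
theorem L_16310091840 : HH 127 (nat_lit 16310091840, nat_lit 141) := top_sound R_16310091840
  ⟨V6_16308518976_ok, V6_16276262976_ok, V6_15235817472_ok, V6_15235813440_ok, V6_13088858112_ok, trivial⟩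
  ⟨W_16308518912_ok, W_15235297280_ok, W_15235039232_ok, W_15218524160_ok, W_15202783232_ok, W_15202009088_ok, W_15201747008_ok, W_14161559552_ok, W_14145302528_ok, W_14145044480_ok, W_14128787456_ok, W_14128267328_ok, W_13055307776_ok, trivial⟩ C_16310091840
theorem L_16310095872 : HH 127 (nat_lit 16310095872, nat_lit 101) := top_sound R_16310095872
  ⟨V6_16308781056_ok, V6_15236333568_ok, V6_14161563648_ok, V6_13088858112_ok, trivial⟩
  ⟨W_16276520960_ok, W_16276262912_ok, W_15219298304_ok, W_15218524160_ok, W_15202783232_ok, W_15202525184_ok, W_15202009088_ok, W_14162333696_ok, W_14145818624_ok, W_14129045504_ok, W_14128787456_ok, W_13088854016_ok, W_13055307776_ok, trivial⟩ C_16310095872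
theorem L_16310345793 : HH 127 (nat_lit 16310345793, nat_lit 17) := top_sound R_16310345793
  ⟨V6_15235813440_ok, trivial⟩
  ⟨W_16292515904_ok, W_14161813568_ok, W_13072076864_ok, trivial⟩ C_16310345793
theorem L_16310345856 : HH 127 (nat_lit 16310345856, nat_lit 34) := top_sound R_16310345856
  ⟨V6_14145298560_ok, V6_13088333952_ok, trivial⟩
  ⟨W_16309035008_ok, W_14145560576_ok, W_13088595968_ok, W_13072080896_ok, trivial⟩ C_16310345856
theorem L_16310349888 : HH 127 (nat_lit 16310349888, nat_lit 73) := top_sound R_16310349888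
  ⟨V6_15235817472_ok, V6_13089116160_ok, V6_13088858112_ok, V6_13072343040_ok, trivial⟩
  ⟨W_16308514880_ok, W_16292515904_ok, W_15235297280_ok, W_15219298304_ok, W_14161555520_ok, W_14145556544_ok, W_14145302528_ok, W_13071818816_ok, W_13071560768_ok, trivial⟩ C_16310349888
theorem L_16310353920 : HH 127 (nat_lit 16310353920, nat_lit 65) := top_sound R_16310353920
  ⟨V6_16308781056_ok, V6_13089116160_ok, V6_13088858112_ok, V6_13072343040_ok, trivial⟩
  ⟨W_15235297280_ok, W_15219556352_ok, W_15219298304_ok, W_15218524160_ok, W_14162591744_ok, W_14145818624_ok, W_14145302528_ok, trivial⟩ C_16310353920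
theorem L_16310603841 : HH 127 (nat_lit 16310603841, nat_lit 3) := top_sound R_16310603841
  ⟨V6_13088854080_ok, V6_13088591937_ok, trivial⟩
  ⟨W_15235551296_ok, trivial⟩ C_16310603841
theorem L_16310607936 : HH 127 (nat_lit 16310607936, nat_lit 23) := top_sound R_16310607936
  ⟨V6_15235813440_ok, V6_13088858112_ok, trivial⟩
  ⟨W_14162333696_ok, W_14162071616_ok, W_14161813568_ok, W_13088854016_ok, W_13088595968_ok, W_13088333888_ok, trivial⟩ C_16310607936
theorem L_16310611968 : HH 127 (nat_lit 16310611968, nat_lit 30) := top_sound R_16310611968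
  ⟨V6_15236333568_ok, V6_14162853888_ok, V6_13089374208_ok, V6_13088858112_ok, trivial⟩
  ⟨W_15235297280_ok, W_14162591744_ok, W_14161817600_ok, W_13088854016_ok, trivial⟩ C_16310611968
theorem L_16325296323 : HH 127 (nat_lit 16325296323, nat_lit 1) := top_sound R_16325296323
  ⟨V6_14177808576_ok, trivial⟩
  ⟨W_16258187456_ok, trivial⟩ C_16325296323
theorem L_16325296386 : HH 127 (nat_lit 16325296386, nat_lit 3) := top_sound R_16325296386
  ⟨V6_14177812608_ok, trivial⟩
  ⟨W_16241410304_ok, W_15201222848_ok, trivial⟩ C_16325296386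
theorem L_16325554371 : HH 127 (nat_lit 16325554371, nat_lit 1) := top_sound R_16325554371
  ⟨V6_15251288256_ok, trivial⟩
  ⟨W_14177546432_ok, trivial⟩ C_16325554371
theorem L_16325558466 : HH 127 (nat_lit 16325558466, nat_lit 10) := top_sound R_16325558466
  ⟨V6_14161035456_ok, V6_14144254146_ok, trivial⟩
  ⟨W_16291737728_ok, W_16258445504_ok, W_15234773120_ok, W_14177808512_ok, trivial⟩ C_16325558466
theorem L_16325558529 : HH 127 (nat_lit 16325558529, nat_lit 12) := top_sound R_16325558529
  ⟨V6_14178074688_ok, trivial⟩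
  ⟨W_16291741760_ok, W_16241410304_ok, W_15234777152_ok, W_15167930624_ok, trivial⟩ C_16325558529
theorem L_16325562498 : HH 127 (nat_lit 16325562498, nat_lit 6) := top_sound R_16325562498
  ⟨V6_14178066561_ok, V6_14161289346_ok, trivial⟩
  ⟨W_16241676416_ok, W_15201484928_ok, trivial⟩ C_16325562498
theorem L_16325562561 : HH 127 (nat_lit 16325562561, nat_lit 13) := top_sound R_16325562561
  ⟨V6_14178074688_ok, trivial⟩
  ⟨W_16258453568_ok, W_16258445504_ok, W_15218262080_ok, trivial⟩ C_16325562561
theorem L_16325562624 : HH 127 (nat_lit 16325562624, nat_lit 14) := top_sound R_16325562624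
  ⟨V6_14178074688_ok, trivial⟩
  ⟨W_16275230720_ok, W_15235039232_ok, W_15167930624_ok, trivial⟩ C_16325562624
theorem L_16325816514 : HH 127 (nat_lit 16325816514, nat_lit 9) := top_sound R_16325816514
  ⟨V6_16241668290_ok, V6_15251288256_ok, V6_15234511041_ok, V6_14177808576_ok, V6_14177546370_ok, V6_14144254146_ok, trivial⟩
  ⟨W_16258707584_ok, W_16241930432_ok, W_14177546432_ok, trivial⟩ C_16325816514
theorem L_16325820546 : HH 127 (nat_lit 16325820546, nat_lit 18) := top_sound R_16325820546
  ⟨V6_15234777216_ok, trivial⟩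
  ⟨W_16308510848_ok, W_16291995776_ok, W_16241934464_ok, W_15251546240_ok, W_14177808512_ok, trivial⟩ C_16325820546
theorem L_16325820609 : HH 127 (nat_lit 16325820609, nat_lit 42) := top_sound R_16325820609
  ⟨V6_15234777216_ok, V6_14177812608_ok, V6_14177808576_ok, V6_14161035456_ok, trivial⟩
  ⟨W_16308514880_ok, W_16241930432_ok, W_16225157312_ok, W_15201747008_ok, W_14178070592_ok, W_14161555520_ok, W_14144782400_ok, trivial⟩ C_16325820609
theorem L_16325820672 : HH 127 (nat_lit 16325820672, nat_lit 38) := top_sound R_16325820672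
  ⟨V6_15251816448_ok, V6_14177812608_ok, V6_14144258304_ok, trivial⟩
  ⟨W_16308518912_ok, W_16291741760_ok, W_16225157312_ok, W_15251554304_ok, W_15234777152_ok, W_15201747008_ok, trivial⟩ C_16325820672
theorem L_16325824641 : HH 127 (nat_lit 16325824641, nat_lit 47) := top_sound R_16325824641
  ⟨V6_15235293312_ok, V6_15235031169_ok, trivial⟩
  ⟨W_16258453568_ok, W_16241676416_ok, W_15218262080_ok, W_15201747008_ok, W_15184973888_ok, W_14178070592_ok, W_14144782400_ok, W_14144524352_ok, trivial⟩ C_16325824641
theorem L_16325824704 : HH 127 (nat_lit 16325824704, nat_lit 71) := top_sound R_16325824704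
  ⟨V6_15251816448_ok, V6_15235043328_ok, V6_14178078720_ok, V6_14161563648_ok, trivial⟩
  ⟨W_16225157312_ok, W_15235297280_ok, W_15218524160_ok, W_15201747008_ok, W_15184973888_ok, W_15184969856_ok, W_14178332672_ok, W_14144516288_ok, trivial⟩ C_16325824704
theorem L_16325828673 : HH 127 (nat_lit 16325828673, nat_lit 25) := top_sound R_16325828673
  ⟨V6_16325808192_ok, V6_16225165377_ok, trivial⟩
  ⟨W_15201747008_ok, W_15168200768_ok, W_14144782400_ok, trivial⟩ C_16325828673
theorem L_16325828736 : HH 127 (nat_lit 16325828736, nat_lit 64) := top_sound R_16325828736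
  ⟨V6_16325812224_ok, V6_14144790528_ok, trivial⟩
  ⟨W_16225165376_ok, W_16208388224_ok, W_15218524160_ok, W_15201747008_ok, W_15184973888_ok, W_15184969856_ok, W_15151423616_ok, W_14161559552_ok, W_14111232128_ok, trivial⟩ C_16325828736
theorem L_16326078594 : HH 127 (nat_lit 16326078594, nat_lit 15) := top_sound R_16326078594
  ⟨V6_16308248706_ok, V6_16291475586_ok, V6_15235031169_ok, V6_14177546370_ok, trivial⟩
  ⟨W_16308510848_ok, W_16242192512_ok, W_15251546240_ok, W_15202001024_ok, trivial⟩ C_16326078594
theorem L_16326078657 : HH 127 (nat_lit 16326078657, nat_lit 28) := top_sound R_16326078657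
  ⟨V6_16274960577_ok, V6_16225415361_ok, V6_15251288256_ok, V6_15234773184_ok, V6_14177808576_ok, V6_14161293504_ok, trivial⟩
  ⟨W_16325029952_ok, W_16308514880_ok, W_16225415360_ok, W_15251550272_ok, W_14178070592_ok, W_14177546432_ok, W_14161555520_ok, W_14111486144_ok, trivial⟩ C_16326078657
theorem L_16326082689 : HH 127 (nat_lit 16326082689, nat_lit 70) := top_sound R_16326082689
  ⟨V6_15235293312_ok, V6_15234777216_ok, V6_14177812608_ok, trivial⟩
  ⟨W_16308514880_ok, W_16291741760_ok, W_16242196544_ok, W_15201747008_ok, W_15185231936_ok, W_14178328640_ok, W_14178070592_ok, W_14161813568_ok, W_14161555520_ok, W_14144782400_ok, trivial⟩ C_16326082689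
theorem L_16326082752 : HH 127 (nat_lit 16326082752, nat_lit 100) := top_sound R_16326082752
  ⟨V6_16325296128_ok, V6_16308781056_ok, V6_16308518976_ok, trivial⟩
  ⟨W_16242196544_ok, W_15235297280_ok, W_15218524160_ok, W_15202009088_ok, W_15185231936_ok, W_15151677632_ok, W_14178332672_ok, W_14161817600_ok, W_14145044480_ok, W_14094713024_ok, trivial⟩ C_16326082752
theorem L_16326086721 : HH 127 (nat_lit 16326086721, nat_lit 52) := top_sound R_16326086721
  ⟨V6_16309293120_ok, V6_15252328512_ok, trivial⟩
  ⟨W_16258453568_ok, W_16242196544_ok, W_15218262080_ok, W_15201747008_ok, W_15201488960_ok, W_15185231936_ok, W_14144782400_ok, W_14144524352_ok, trivial⟩ C_16326086721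
theorem L_16326086784 : HH 127 (nat_lit 16326086784, nat_lit 136) := top_sound R_16326086784
  ⟨V6_16325812224_ok, V6_16309297152_ok, V6_15252332544_ok, trivial⟩
  ⟨W_16258453568_ok, W_16242196544_ok, W_16241676416_ok, W_16225423424_ok, W_15202009088_ok, W_15201747008_ok, W_15201484928_ok, W_15185231936_ok, W_15184973888_ok, W_15184969856_ok, W_15168458816_ok, W_15168454784_ok, W_15168196736_ok, W_14145044480_ok, W_14144782400_ok, W_14144524352_ok, W_14128267328_ok, W_14128263296_ok, W_14111494208_ok, W_14111232128_ok, W_14094717056_ok, trivial⟩ C_16326086784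
theorem L_16326090816 : HH 127 (nat_lit 16326090816, nat_lit 111) := top_sound R_16326090816
  ⟨V6_16325812224_ok, V6_16242204672_ok, V6_15252332544_ok, trivial⟩
  ⟨W_16242196544_ok, W_16225427456_ok, W_16225423424_ok, W_16225165376_ok, W_15202009088_ok, W_15201747008_ok, W_15184973888_ok, W_15168462848_ok, W_15168458816_ok, W_14178586688_ok, W_14145044480_ok, W_14144782400_ok, W_14128267328_ok, W_14128013312_ok, W_14111494208_ok, W_14111236160_ok, W_14094721088_ok, trivial⟩ C_16326090816
theorem L_16326094848 : HH 127 (nat_lit 16326094848, nat_lit 36) := top_sound R_16326094848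
  ⟨V6_15252332544_ok, trivial⟩
  ⟨W_15202009088_ok, W_14161817600_ok, W_14145044480_ok, trivial⟩ C_16326094848
theorem L_16326336642 : HH 127 (nat_lit 16326336642, nat_lit 8) := top_sound R_16326336642
  ⟨V6_16242450561_ok, trivial⟩
  ⟨W_16242450560_ok, W_15251546240_ok, W_14128521344_ok, trivial⟩ C_16326336642
theorem L_16326340737 : HH 127 (nat_lit 16326340737, nat_lit 57) := top_sound R_16326340737
  ⟨V6_16259231808_ok, trivial⟩
  ⟨W_16325029952_ok, W_16325025920_ok, W_16308514880_ok, W_16308252800_ok, W_16242450560_ok, W_15251808320_ok, W_15251550272_ok, W_15251546240_ok, W_15202001024_ok, W_15185485952_ok, W_14178328640_ok, W_14178070592_ok, W_14177808512_ok, W_14161813568_ok, W_14161555520_ok, trivial⟩ C_16326340737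
theorem L_16326340800 : HH 127 (nat_lit 16326340800, nat_lit 63) := top_sound R_16326340800
  ⟨V6_16276008960_ok, V6_14177808576_ok, trivial⟩
  ⟨W_16325292032_ok, W_16325029952_ok, W_16308514880_ok, W_16308252800_ok, W_16242454592_ok, W_15251812352_ok, W_15235297280_ok, W_15168712832_ok, W_14178332672_ok, W_14178070592_ok, trivial⟩ C_16326340800
theorem L_16326344769 : HH 127 (nat_lit 16326344769, nat_lit 67) := top_sound R_16326344769
  ⟨V6_16308518976_ok, V6_15252328512_ok, V6_14178848832_ok, trivial⟩
  ⟨W_16242454592_ok, W_16242196544_ok, W_15201747008_ok, W_15185489984_ok, W_15185231936_ok, W_15168716864_ok, W_14178070592_ok, W_14128525376_ok, W_14128267328_ok, trivial⟩ C_16326344769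
theorem L_16326344832 : HH 127 (nat_lit 16326344832, nat_lit 163) := top_sound R_16326344832
  ⟨V6_16325296128_ok, V6_16292782080_ok, V6_16291741824_ok, V6_15235817472_ok, trivial⟩
  ⟨W_16325292032_ok, W_16242458624_ok, W_16242454592_ok, W_16242450560_ok, W_16242196544_ok, W_15235297280_ok, W_15218524160_ok, W_15202009088_ok, W_15201747008_ok, W_15185494016_ok, W_15185231936_ok, W_15168716864_ok, W_15168712832_ok, W_15168454784_ok, W_14178332672_ok, W_14178328640_ok, W_14161559552_ok, W_14128267328_ok, trivial⟩ C_16326344832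
theorem L_16326348864 : HH 127 (nat_lit 16326348864, nat_lit 171) := top_sound R_16326348864
  ⟨V6_16292782080_ok, V6_15252328512_ok, V6_15235817472_ok, V6_15235813440_ok, V6_14178848832_ok, trivial⟩
  ⟨W_16258453568_ok, W_16242458624_ok, W_16242196544_ok, W_15235297280_ok, W_15235039232_ok, W_15218524160_ok, W_15202009088_ok, W_15201747008_ok, W_15185494016_ok, W_15185231936_ok, W_15168720896_ok, W_15168716864_ok, W_15168458816_ok, W_14178070592_ok, W_14161559552_ok, W_14161301504_ok, W_14144524352_ok, W_14128267328_ok, W_14111494208_ok, W_14094979136_ok, trivial⟩ C_16326348864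
theorem L_16326352896 : HH 127 (nat_lit 16326352896, nat_lit 99) := top_sound R_16326352896
  ⟨V6_16326328320_ok, V6_15235817472_ok, V6_15168724992_ok, V6_14144790528_ok, trivial⟩
  ⟨W_16242458624_ok, W_15235297280_ok, W_15218524160_ok, W_15202009088_ok, W_15185494016_ok, W_15168720896_ok, W_14178848768_ok, W_14178590720_ok, W_14178332672_ok, W_14094983168_ok, trivial⟩ C_16326352896
theorem L_16326598785 : HH 127 (nat_lit 16326598785, nat_lit 27) := top_sound R_16326598785
  ⟨V6_15235031169_ok, V6_15185748096_ok, V6_15185748033_ok, V6_14112006273_ok, trivial⟩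
  ⟨W_16325288000_ok, W_15251808320_ok, W_15251546240_ok, W_14178328640_ok, W_14161813568_ok, W_14128783424_ok, trivial⟩ C_16326598785
theorem L_16326602817 : HH 127 (nat_lit 16326602817, nat_lit 49) := top_sound R_16326602817
  ⟨V6_16276262976_ok, V6_15252328512_ok, V6_14178848832_ok, trivial⟩
  ⟨W_16325546048_ok, W_16325029952_ok, W_16308514880_ok, W_15251550272_ok, W_15185489984_ok, W_14178070592_ok, W_14161555520_ok, W_14128525376_ok, W_14112010304_ok, trivial⟩ C_16326602817
theorem L_16326602880 : HH 127 (nat_lit 16326602880, nat_lit 114) := top_sound R_16326602880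
  ⟨V6_16325812224_ok, V6_15252332544_ok, V6_15219302400_ok, trivial⟩
  ⟨W_16325292032_ok, W_16325029952_ok, W_16308514880_ok, W_15235297280_ok, W_15185752064_ok, W_15185489984_ok, W_15185485952_ok, W_14178070592_ok, W_14161817600_ok, W_14161555520_ok, W_14145302528_ok, W_14128787456_ok, W_14128525376_ok, W_14128263296_ok, W_14112010304_ok, W_14111748224_ok, trivial⟩ C_16326602880
theorem L_16326606912 : HH 127 (nat_lit 16326606912, nat_lit 167) := top_sound R_16326606912
  ⟨V6_16325296128_ok, V6_16308518976_ok, V6_15252328512_ok, V6_15235817472_ok, V6_15235813440_ok, V6_14179110912_ok, V6_14178848832_ok, trivial⟩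
  ⟨W_16325292032_ok, W_16276262912_ok, W_15235297280_ok, W_15218524160_ok, W_15202525184_ok, W_15202009088_ok, W_15201747008_ok, W_15185494016_ok, W_15185231936_ok, W_14161559552_ok, W_14145302528_ok, W_14145044480_ok, W_14128787456_ok, W_14128267328_ok, W_14112014336_ok, trivial⟩ C_16326606912

theorem H_12 : AllH 127 tb12 :=
  ⟨L_16293056640, L_16293060672, L_16293064704, L_16293306498, L_16293310593, L_16293310656, L_16293314625, L_16293314688, L_16293318720, L_16293322752, L_16293568641, L_16293572673, L_16293572736, L_16293576768, L_16293580800, L_16308519171, L_16308781251, L_16308781314, L_16308785346, L_16308785409, L_16308785472, L_16309039299, L_16309043394, L_16309043457, L_16309047426, L_16309047489, L_16309047552, L_16309051521, L_16309051584, L_16309301442, L_16309305474, L_16309305537, L_16309305600, L_16309309569, L_16309309632, L_16309313601, L_16309313664, L_16309317696, L_16309563522, L_16309563585, L_16309567617, L_16309567680, L_16309571649, L_16309571712, L_16309575744, L_16309579776, L_16309821570, L_16309825665,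 L_16309825728, L_16309829697, L_16309829760, L_16309833792, L_16309837824, L_16310083713, L_16310087745, L_16310087808, L_16310091840, L_16310095872, L_16310345793, L_16310345856, L_16310349888, L_16310353920, L_16310603841, L_16310607936, L_16310611968, L_16325296323, L_16325296386, L_16325554371, L_16325558466, L_16325558529, L_16325562498, L_16325562561, L_16325562624, L_16325816514, L_16325820546, L_16325820609, L_16325820672, L_16325824641, L_16325824704, L_16325828673, L_16325828736, L_16326078594, L_16326078657, L_16326082689, L_16326082752, L_16326086721, L_16326086784, L_16326090816, L_16326094848, L_16326336642, L_16326340737, L_16326340800, L_16326344769, L_16326344832, L_16326348864, L_16326352896, L_16326598785, L_16326602817, L_16326602880, L_16326606912, trivial⟩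

theorem L_16326610944 : HH 127 (nat_lit 16326610944, nat_lit 116) := top_sound R_16326610944
  ⟨V6_16325812224_ok, V6_16292007936_ok, V6_15252332544_ok, trivial⟩
  ⟨W_16276262912_ok, W_15219298304_ok, W_15218524160_ok, W_15202525184_ok, W_15202009088_ok, W_15185752064_ok, W_15185494016_ok, W_14162333696_ok, W_14161817600_ok, W_14145044480_ok, W_14128787456_ok, W_14112014336_ok, trivial⟩ C_16326610944
theorem L_16326860865 : HH 127 (nat_lit 16326860865, nat_lit 29) := top_sound R_16326860865
  ⟨V6_15252328512_ok, V6_14178848832_ok, trivial⟩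
  ⟨W_16325546048_ok, W_16292515904_ok, W_14161813568_ok, W_14145556544_ok, W_14128783424_ok, trivial⟩ C_16326860865
theorem L_16326860928 : HH 127 (nat_lit 16326860928, nat_lit 50) := top_sound R_16326860928
  ⟨V6_15252332544_ok, V6_14145298560_ok, trivial⟩
  ⟨W_16325550080_ok, W_16325025920_ok, W_15202525184_ok, W_14178590720_ok, W_14178328640_ok, W_14161813568_ok, W_14145560576_ok, W_14129045504_ok, trivial⟩ C_16326860928
theorem L_16326864960 : HH 127 (nat_lit 16326864960, nat_lit 120) := top_sound R_16326864960
  ⟨V6_16325812224_ok, V6_15252332544_ok, V6_15252328512_ok, V6_14178848832_ok, trivial⟩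
  ⟨W_16325292032_ok, W_16325029952_ok, W_16308514880_ok, W_16276262912_ok, W_15235297280_ok, W_15219298304_ok, W_15202783232_ok, W_15202525184_ok, W_14161817600_ok, W_14145818624_ok, W_14145302528_ok, W_14129045504_ok, W_14128787456_ok, W_14128783424_ok, W_14128525376_ok, trivial⟩ C_16326864960
theorem L_16326868992 : HH 127 (nat_lit 16326868992, nat_lit 103) := top_sound R_16326868992
  ⟨V6_16326328320_ok, V6_16325296128_ok, V6_16308781056_ok, V6_15236333568_ok, V6_14179110912_ok, trivial⟩
  ⟨W_16276520960_ok, W_16276262912_ok, W_15219298304_ok, W_15218524160_ok, W_15202783232_ok, W_15202525184_ok, W_15202009088_ok, W_14145818624_ok, W_14145560576_ok, W_14145044480_ok, W_14129045504_ok, W_14128787456_ok, trivial⟩ C_16326868992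
theorem L_16327118913 : HH 127 (nat_lit 16327118913, nat_lit 8) := top_sound R_16327118913
  ⟨V6_14178848832_ok, trivial⟩
  ⟨W_16292515904_ok, trivial⟩ C_16327118913
theorem L_16327123008 : HH 127 (nat_lit 16327123008, nat_lit 60) := top_sound R_16327123008
  ⟨V6_16325812224_ok, V6_14178848832_ok, trivial⟩
  ⟨W_16325546048_ok, W_16292515904_ok, W_15219298304_ok, W_14178848768_ok, W_14162333696_ok, W_14162071616_ok, W_14161813568_ok, W_14145818624_ok, W_14145560576_ok, W_14145556544_ok, trivial⟩ C_16327123008
theorem L_16327127040 : HH 127 (nat_lit 16327127040, nat_lit 66) := top_sound R_16327127040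
  ⟨V6_16325812224_ok, V6_14179110912_ok, trivial⟩
  ⟨W_15252586496_ok, W_15235297280_ok, W_15219556352_ok, W_15219298304_ok, W_14179106816_ok, W_14162591744_ok, W_14161817600_ok, W_14145818624_ok, W_14145302528_ok, trivial⟩ C_16327127040
theorem L_16327381056 : HH 127 (nat_lit 16327381056, nat_lit 18) := top_sound R_16327381056
  ⟨V6_14179110912_ok, V6_14178848832_ok, trivial⟩
  ⟨W_16325546048_ok, W_15235551296_ok, W_14162333696_ok, trivial⟩ C_16327381056
theorem L_16327385088 : HH 127 (nat_lit 16327385088, nat_lit 31) := top_sound R_16327385088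
  ⟨V6_15252332544_ok, trivial⟩
  ⟨W_16325550080_ok, W_15252586496_ok, W_15236071424_ok, W_14162591744_ok, trivial⟩ C_16327385088
theorem L_16327643136 : HH 127 (nat_lit 16327643136, nat_lit 8) := top_sound R_16327643136
  ⟨V6_14179110912_ok, trivial⟩
  ⟨W_15252586496_ok, W_14178848768_ok, trivial⟩ C_16327643136
theorem L_16342073538 : HH 127 (nat_lit 16342073538, nat_lit 4) := top_sound R_16342073538
  ⟨V6_16274960577_ok, trivial⟩
  ⟨W_16291737728_ok, trivial⟩ C_16342073538
theorem L_16342073601 : HH 127 (nat_lit 16342073601, nat_lit 4) := top_sound R_16342073601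
  ⟨V6_15201222912_ok, trivial⟩
  ⟨W_15234777152_ok, trivial⟩ C_16342073601
theorem L_16342331586 : HH 127 (nat_lit 16342331586, nat_lit 3) := top_sound R_16342331586
  ⟨V6_16241668290_ok, V6_15234511041_ok, V6_15201218754_ok, trivial⟩
  ⟨W_16291737728_ok, trivial⟩ C_16342331586
theorem L_16342335618 : HH 127 (nat_lit 16342335618, nat_lit 8) := top_sound R_16342335618
  ⟨V6_15235031169_ok, trivial⟩
  ⟨W_16291737728_ok, W_16274964608_ok, trivial⟩ C_16342335618
theorem L_16342335681 : HH 127 (nat_lit 16342335681, nat_lit 17) := top_sound R_16342335681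
  ⟨V6_16274960577_ok, V6_15218000064_ok, trivial⟩
  ⟨W_16308514880_ok, W_15251550272_ok, W_15218262080_ok, trivial⟩ C_16342335681
theorem L_16342335744 : HH 127 (nat_lit 16342335744, nat_lit 16) := top_sound R_16342335744
  ⟨V6_15268331520_ok, V6_15201222912_ok, trivial⟩
  ⟨W_16308518912_ok, W_15235039232_ok, W_15167930624_ok, trivial⟩ C_16342335744
theorem L_16342339713 : HH 127 (nat_lit 16342339713, nat_lit 13) := top_sound R_16342339713
  ⟨V6_16291995777_ok, trivial⟩
  ⟨W_16258453568_ok, W_15218262080_ok, W_15201488960_ok, trivial⟩ C_16342339713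
theorem L_16342339776 : HH 127 (nat_lit 16342339776, nat_lit 19) := top_sound R_16342339776
  ⟨V6_15268589568_ok, V6_15235043328_ok, trivial⟩
  ⟨W_16241676416_ok, W_15235039232_ok, W_15218262080_ok, trivial⟩ C_16342339776
theorem L_16342593666 : HH 127 (nat_lit 16342593666, nat_lit 10) := top_sound R_16342593666
  ⟨V6_15235031169_ok, trivial⟩
  ⟨W_16308510848_ok, W_16291737728_ok, W_15251546240_ok, trivial⟩ C_16342593666
theorem L_16342593729 : HH 127 (nat_lit 16342593729, nat_lit 15) := top_sound R_16342593729
  ⟨V6_16274960577_ok, V6_15268065345_ok, V6_15251288256_ok, V6_15234773184_ok, V6_15234511041_ok, trivial⟩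
  ⟨W_16325029952_ok, W_16308514880_ok, W_16241930432_ok, W_15251550272_ok, trivial⟩ C_16342593729
theorem L_16342597761 : HH 127 (nat_lit 16342597761, nat_lit 42) := top_sound R_16342597761
  ⟨V6_15235293312_ok, V6_15235031169_ok, trivial⟩
  ⟨W_16308514880_ok, W_16291741760_ok, W_15251550272_ok, W_15234777152_ok, W_15218262080_ok, W_15201747008_ok, trivial⟩ C_16342597761
theorem L_16342597824 : HH 127 (nat_lit 16342597824, nat_lit 58) := top_sound R_16342597824
  ⟨V6_16325296128_ok, V6_15268331520_ok, V6_15251816448_ok, trivial⟩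
  ⟨W_16241930432_ok, W_15268327424_ok, W_15235297280_ok, W_15218524160_ok, W_15201747008_ok, W_15184969856_ok, trivial⟩ C_16342597824
theorem L_16342601793 : HH 127 (nat_lit 16342601793, nat_lit 28) := top_sound R_16342601793
  ⟨V6_16325808192_ok, trivial⟩
  ⟨W_16258453568_ok, W_15218262080_ok, W_15201747008_ok, W_15184973888_ok, trivial⟩ C_16342601793
theorem L_16342601856 : HH 127 (nat_lit 16342601856, nat_lit 73) := top_sound R_16342601856
  ⟨V6_16292007936_ok, V6_15235293312_ok, V6_15235043328_ok, trivial⟩
  ⟨W_15268585472_ok, W_15251812352_ok, W_15235297280_ok, W_15235039232_ok, W_15218524160_ok, W_15201747008_ok, trivial⟩ C_16342601856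
theorem L_16342605888 : HH 127 (nat_lit 16342605888, nat_lit 49) := top_sound R_16342605888
  ⟨V6_16258719744_ok, V6_15201755136_ok, trivial⟩
  ⟨W_15268843520_ok, W_15235297280_ok, W_15218524160_ok, W_15201747008_ok, trivial⟩ C_16342605888
theorem L_16342851714 : HH 127 (nat_lit 16342851714, nat_lit 6) := top_sound R_16342851714
  ⟨V6_16341540993_ok, V6_16308248706_ok, V6_16291733634_ok, trivial⟩
  ⟨W_15268061312_ok, W_15202001024_ok, trivial⟩ C_16342851714
theorem L_16342855809 : HH 127 (nat_lit 16342855809, nat_lit 40) := top_sound R_16342855809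
  ⟨V6_15235293312_ok, trivial⟩
  ⟨W_16341803072_ok, W_16325288000_ok, W_16325029952_ok, W_16308514880_ok, W_16308252800_ok, W_15268323392_ok, W_15268061312_ok, W_15251808320_ok, W_15251550272_ok, W_15202001024_ok, trivial⟩ C_16342855809
theorem L_16342855872 : HH 127 (nat_lit 16342855872, nat_lit 39) := top_sound R_16342855872
  ⟨V6_16342069248_ok, V6_15268589568_ok, V6_15234773184_ok, trivial⟩
  ⟨W_16325292032_ok, W_16242192512_ok, W_16241930432_ok, W_15251812352_ok, W_15235297280_ok, W_15168450752_ok, trivial⟩ C_16342855872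
theorem L_16342859841 : HH 127 (nat_lit 16342859841, nat_lit 43) := top_sound R_16342859841
  ⟨V6_16291741761_ok, V6_15268843584_ok, V6_15268581441_ok, V6_15252328512_ok, trivial⟩
  ⟨W_16292515904_ok, W_16242196544_ok, W_15234777152_ok, W_15201747008_ok, W_15185231936_ok, trivial⟩ C_16342859841
theorem L_16342859904 : HH 127 (nat_lit 16342859904, nat_lit 112) := top_sound R_16342859904
  ⟨V6_16308518976_ok, V6_16291741824_ok, V6_15268331520_ok, V6_15252332544_ok, trivial⟩
  ⟨W_16342065152_ok, W_16242196544_ok, W_15268585472_ok, W_15268327424_ok, W_15235297280_ok, W_15218524160_ok, W_15202009088_ok, W_15202001024_ok, W_15201747008_ok, W_15185231936_ok, W_15168454784_ok, trivial⟩ C_16342859904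
theorem L_16342863936 : HH 127 (nat_lit 16342863936, nat_lit 109) := top_sound R_16342863936
  ⟨V6_16292007936_ok, V6_15269105664_ok, V6_15268843584_ok, V6_15252332544_ok, V6_15252328512_ok, trivial⟩
  ⟨W_16242196544_ok, W_16225423424_ok, W_15268585472_ok, W_15251812352_ok, W_15235297280_ok, W_15235039232_ok, W_15218524160_ok, W_15202009088_ok, W_15201747008_ok, W_15185231936_ok, trivial⟩ C_16342863936
theorem L_16342867968 : HH 127 (nat_lit 16342867968, nat_lit 59) := top_sound R_16342867968
  ⟨V6_16242204672_ok, V6_15269105664_ok, V6_15201755136_ok, trivial⟩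
  ⟨W_15269101568_ok, W_15268843520_ok, W_15235297280_ok, W_15218524160_ok, W_15202009088_ok, trivial⟩ C_16342867968
theorem L_16343113857 : HH 127 (nat_lit 16343113857, nat_lit 24) := top_sound R_16343113857
  ⟨V6_15202263168_ok, trivial⟩
  ⟨W_16341803072_ok, W_16341540992_ok, W_16325288000_ok, W_16242450560_ok, W_15268323392_ok, W_15251808320_ok, trivial⟩ C_16343113857
theorem L_16343117889 : HH 127 (nat_lit 16343117889, nat_lit 40) := top_sound R_16343117889
  ⟨V6_16259231808_ok, trivial⟩
  ⟨W_16342061120_ok, W_16341803072_ok, W_16325546048_ok, W_16325029952_ok, W_16292515904_ok, W_15268581440_ok, W_15268323392_ok, W_15251808320_ok, W_15235551296_ok, trivial⟩ C_16343117889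
theorem L_16343117952 : HH 127 (nat_lit 16343117952, nat_lit 96) := top_sound R_16343117952
  ⟨V6_16276008960_ok, V6_15235817472_ok, trivial⟩
  ⟨W_16342065152_ok, W_16341807104_ok, W_16341803072_ok, W_16325292032_ok, W_16325029952_ok, W_16325025920_ok, W_16308514880_ok, W_16308252800_ok, W_16242454592_ok, W_16242450560_ok, W_15268585472_ok, W_15268327424_ok, W_15268061312_ok, W_15251812352_ok, W_15251546240_ok, W_15235297280_ok, W_15202001024_ok, W_15185485952_ok, W_15168712832_ok, trivial⟩ C_16343117952
theorem L_16343121984 : HH 127 (nat_lit 16343121984, nat_lit 139) := top_sound R_16343121984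
  ⟨V6_16325296128_ok, V6_16308518976_ok, V6_15268331520_ok, V6_15235817472_ok, V6_15235813440_ok, trivial⟩
  ⟨W_16342065152_ok, W_16276000832_ok, W_16242458624_ok, W_16242454592_ok, W_16242196544_ok, W_15268843520_ok, W_15268585472_ok, W_15268327424_ok, W_15235297280_ok, W_15218524160_ok, W_15202009088_ok, W_15201747008_ok, W_15185494016_ok, W_15185231936_ok, W_15168716864_ok, trivial⟩ C_16343121984
theorem L_16343126016 : HH 127 (nat_lit 16343126016, nat_lit 96) := top_sound R_16343126016
  ⟨V6_16242462720_ok, V6_15269105664_ok, V6_15235817472_ok, trivial⟩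
  ⟨W_16275230720_ok, W_16242458624_ok, W_15269101568_ok, W_15268585472_ok, W_15251812352_ok, W_15235297280_ok, W_15235039232_ok, W_15218524160_ok, W_15202009088_ok, trivial⟩ C_16343126016
theorem L_16343375937 : HH 127 (nat_lit 16343375937, nat_lit 26) := top_sound R_16343375937
  ⟨V6_16276262976_ok, V6_15185748033_ok, trivial⟩
  ⟨W_16342061120_ok, W_16341803072_ok, W_16325546048_ok, W_16292515904_ok, W_15268323392_ok, W_15185748032_ok, trivial⟩ C_16343375937
theorem L_16343376000 : HH 127 (nat_lit 16343376000, nat_lit 51) := top_sound R_16343376000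
  ⟨V6_15219302400_ok, V6_15202263168_ok, trivial⟩
  ⟨W_16342065152_ok, W_16341803072_ok, W_16341540992_ok, W_16325550080_ok, W_16325025920_ok, W_16259489792_ok, W_15268585472_ok, W_15268061312_ok, W_15202525184_ok, trivial⟩ C_16343376000
theorem L_16343380032 : HH 127 (nat_lit 16343380032, nat_lit 111) := top_sound R_16343380032
  ⟨V6_16276267008_ok, V6_16276008960_ok, trivial⟩
  ⟨W_16342065152_ok, W_16342061120_ok, W_16341807104_ok, W_16341803072_ok, W_16325546048_ok, W_16325292032_ok, W_16325029952_ok, W_16308514880_ok, W_16259485760_ok, W_15268843520_ok, W_15268585472_ok, W_15268581440_ok, W_15268327424_ok, W_15268323392_ok, W_15251812352_ok, W_15235551296_ok, W_15235297280_ok, W_15219298304_ok, W_15202521152_ok, trivial⟩ C_16343380032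
theorem L_16343384064 : HH 127 (nat_lit 16343384064, nat_lit 99) := top_sound R_16343384064
  ⟨V6_16326328320_ok, V6_16325296128_ok, V6_16308781056_ok, V6_15269105664_ok, V6_15268331520_ok, trivial⟩
  ⟨W_16276262912_ok, W_16259489792_ok, W_15235297280_ok, W_15219298304_ok, W_15218524160_ok, W_15202525184_ok, W_15202009088_ok, W_15185752064_ok, W_15185494016_ok, trivial⟩ C_16343384064
theorem L_16343633985 : HH 127 (nat_lit 16343633985, nat_lit 8) := top_sound R_16343633985
  ⟨V6_15268581441_ok, V6_15202783296_ok, trivial⟩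
  ⟨W_16342061120_ok, W_16325546048_ok, trivial⟩ C_16343633985
theorem L_16343638080 : HH 127 (nat_lit 16343638080, nat_lit 71) := top_sound R_16343638080
  ⟨V6_16276267008_ok, V6_15268843584_ok, V6_15202787328_ok, trivial⟩
  ⟨W_16342065152_ok, W_16342061120_ok, W_16341803072_ok, W_16325546048_ok, W_16276262912_ok, W_16276000832_ok, W_15268843520_ok, W_15268585472_ok, W_15235551296_ok, W_15219298304_ok, W_15202783232_ok, trivial⟩ C_16343638080
theorem L_16343642112 : HH 127 (nat_lit 16343642112, nat_lit 77) := top_sound R_16343642112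
  ⟨V6_15269105664_ok, V6_15236333568_ok, V6_15202787328_ok, V6_15202529280_ok, trivial⟩
  ⟨W_16342065152_ok, W_16341807104_ok, W_16325292032_ok, W_16276520960_ok, W_16276262912_ok, W_15269101568_ok, W_15268585472_ok, W_15268327424_ok, W_15251812352_ok, W_15235297280_ok, trivial⟩ C_16343642112
theorem L_16343896128 : HH 127 (nat_lit 16343896128, nat_lit 24) := top_sound R_16343896128
  ⟨V6_15268843584_ok, V6_15252328512_ok, trivial⟩
  ⟨W_16292515904_ok, W_15268843520_ok, W_15219298304_ok, trivial⟩ C_16343896128
theorem L_16343900160 : HH 127 (nat_lit 16343900160, nat_lit 47) := top_sound R_16343900160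
  ⟨V6_15269105664_ok, V6_15252332544_ok, trivial⟩
  ⟨W_16342065152_ok, W_16325550080_ok, W_15269101568_ok, W_15252586496_ok, W_15219556352_ok, W_15219298304_ok, trivial⟩ C_16343900160
theorem L_16344158208 : HH 127 (nat_lit 16344158208, nat_lit 20) := top_sound R_16344158208
  ⟨V6_15269105664_ok, V6_15236333568_ok, trivial⟩
  ⟨W_16342581248_ok, W_15269101568_ok, W_15268843520_ok, W_15252586496_ok, trivial⟩ C_16344158208
theorem L_16344416256 : HH 127 (nat_lit 16344416256, nat_lit 3) := top_sound R_16344416256
  ⟨V6_15269363712_ok, trivial⟩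
  ⟨W_16342581248_ok, trivial⟩ C_16344416256
theorem L_16358846658 : HH 127 (nat_lit 16358846658, nat_lit 1) := top_sound R_16358846658
  ⟨V6_16291475586_ok, trivial⟩
  ⟨W_16274960576_ok, trivial⟩ C_16358846658
theorem L_16358850690 : HH 127 (nat_lit 16358850690, nat_lit 1) := top_sound R_16358850690
  ⟨V6_16291733634_ok, trivial⟩
  ⟨W_16274964608_ok, trivial⟩ C_16358850690
theorem L_16358850753 : HH 127 (nat_lit 16358850753, nat_lit 5) := top_sound R_16358850753
  ⟨V6_16291741761_ok, trivial⟩
  ⟨W_16308514880_ok, trivial⟩ C_16358850753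
theorem L_16358850816 : HH 127 (nat_lit 16358850816, nat_lit 3) := top_sound R_16358850816
  ⟨V6_16325296128_ok, trivial⟩
  ⟨W_16308518912_ok, trivial⟩ C_16358850816
theorem L_16359108738 : HH 127 (nat_lit 16359108738, nat_lit 4) := top_sound R_16359108738
  ⟨V6_16291733634_ok, V6_16291475586_ok, trivial⟩
  ⟨W_16308510848_ok, trivial⟩ C_16359108738
theorem L_16359108801 : HH 127 (nat_lit 16359108801, nat_lit 5) := top_sound R_16359108801
  ⟨V6_16308252864_ok, V6_16274960577_ok, trivial⟩
  ⟨W_16308514880_ok, trivial⟩ C_16359108801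
theorem L_16359112833 : HH 127 (nat_lit 16359112833, nat_lit 13) := top_sound R_16359112833
  ⟨V6_16291741761_ok, trivial⟩
  ⟨W_16308514880_ok, W_16308510848_ok, W_16291995776_ok, trivial⟩ C_16359112833
theorem L_16359112896 : HH 127 (nat_lit 16359112896, nat_lit 17) := top_sound R_16359112896
  ⟨V6_16274964672_ok, trivial⟩
  ⟨W_16325292032_ok, W_16308514880_ok, trivial⟩ C_16359112896
theorem L_16359116865 : HH 127 (nat_lit 16359116865, nat_lit 5) := top_sound R_16359116865
  ⟨V6_16342323264_ok, trivial⟩
  ⟨W_16325546048_ok, trivial⟩ C_16359116865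
theorem L_16359116928 : HH 127 (nat_lit 16359116928, nat_lit 18) := top_sound R_16359116928
  ⟨V6_16292007936_ok, trivial⟩
  ⟨W_16325550080_ok, W_16275230720_ok, W_16258453568_ok, trivial⟩ C_16359116928
theorem L_16359366786 : HH 127 (nat_lit 16359366786, nat_lit 2) := top_sound R_16359366786
  ⟨V6_16358318208_ok, V6_16308248706_ok, trivial⟩
  ⟨W_16308510848_ok, trivial⟩ C_16359366786
theorem L_16359370881 : HH 127 (nat_lit 16359370881, nat_lit 17) := top_sound R_16359370881
  ⟨V6_16341803073_ok, V6_16291995777_ok, trivial⟩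
  ⟨W_16341803072_ok, W_16325029952_ok, W_16308514880_ok, W_16308510848_ok, trivial⟩ C_16359370881
theorem L_16359370944 : HH 127 (nat_lit 16359370944, nat_lit 20) := top_sound R_16359370944
  ⟨V6_16342069248_ok, trivial⟩
  ⟨W_16325292032_ok, W_16325029952_ok, W_16308514880_ok, trivial⟩ C_16359370944
theorem L_16359374913 : HH 127 (nat_lit 16359374913, nat_lit 21) := top_sound R_16359374913
  ⟨V6_16308518976_ok, trivial⟩
  ⟨W_16342061120_ok, W_16325546048_ok, W_16308514880_ok, W_16291741760_ok, trivial⟩ C_16359374913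
theorem L_16359374976 : HH 127 (nat_lit 16359374976, nat_lit 45) := top_sound R_16359374976
  ⟨V6_16325296128_ok, V6_16291741824_ok, trivial⟩
  ⟨W_16342065152_ok, W_16325292032_ok, W_16308518912_ok, W_16308514880_ok, W_16308510848_ok, W_16291741760_ok, trivial⟩ C_16359374976
theorem L_16359379008 : HH 127 (nat_lit 16359379008, nat_lit 41) := top_sound R_16359379008
  ⟨V6_16275492864_ok, trivial⟩
  ⟨W_16325808128_ok, W_16325550080_ok, W_16325546048_ok, W_16275230720_ok, trivial⟩ C_16359379008
theorem L_16359383040 : HH 127 (nat_lit 16359383040, nat_lit 16) := top_sound R_16359383040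
  ⟨V6_16258719744_ok, trivial⟩
  ⟨W_16342581248_ok, W_16325808128_ok, trivial⟩ C_16359383040
theorem L_16359628929 : HH 127 (nat_lit 16359628929, nat_lit 12) := top_sound R_16359628929
  ⟨V6_16291995777_ok, trivial⟩
  ⟨W_16341803072_ok, W_16341540992_ok, W_16325288000_ok, W_16325025920_ok, trivial⟩ C_16359628929
theorem L_16359632961 : HH 127 (nat_lit 16359632961, nat_lit 20) := top_sound R_16359632961
  ⟨V6_16309293120_ok, trivial⟩
  ⟨W_16358576192_ok, W_16341803072_ok, W_16325546048_ok, W_16325029952_ok, W_16308514880_ok, trivial⟩ C_16359632961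
theorem L_16359633024 : HH 127 (nat_lit 16359633024, nat_lit 47) := top_sound R_16359633024
  ⟨V6_16309297152_ok, trivial⟩
  ⟨W_16358580224_ok, W_16342065152_ok, W_16341807104_ok, W_16341803072_ok, W_16325292032_ok, W_16325029952_ok, W_16308514880_ok, W_16308510848_ok, W_16308252800_ok, W_16242192512_ok, trivial⟩ C_16359633024
theorem L_16359637056 : HH 127 (nat_lit 16359637056, nat_lit 67) := top_sound R_16359637056
  ⟨V6_16309293120_ok, V6_16308518976_ok, trivial⟩
  ⟨W_16358838272_ok, W_16342323200_ok, W_16342065152_ok, W_16342061120_ok, W_16325546048_ok, W_16325292032_ok, W_16308518912_ok, W_16308514880_ok, W_16242196544_ok, trivial⟩ C_16359637056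
theorem L_16359641088 : HH 127 (nat_lit 16359641088, nat_lit 45) := top_sound R_16359641088
  ⟨V6_16275492864_ok, trivial⟩
  ⟨W_16342581248_ok, W_16342323200_ok, W_16325808128_ok, W_16325550080_ok, trivial⟩ C_16359641088
theorem L_16359891009 : HH 127 (nat_lit 16359891009, nat_lit 17) := top_sound R_16359891009
  ⟨V6_16276004928_ok, trivial⟩
  ⟨W_16358576192_ok, W_16342061120_ok, W_16341803072_ok, W_16292515904_ok, trivial⟩ C_16359891009
theorem L_16359891072 : HH 127 (nat_lit 16359891072, nat_lit 27) := top_sound R_16359891072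
  ⟨V6_16276004928_ok, trivial⟩
  ⟨W_16358580224_ok, W_16342065152_ok, W_16341803072_ok, W_16308510848_ok, W_16258965632_ok, W_16242450560_ok, trivial⟩ C_16359891072
theorem L_16359895104 : HH 127 (nat_lit 16359895104, nat_lit 67) := top_sound R_16359895104
  ⟨V6_16358584320_ok, V6_16276008960_ok, trivial⟩
  ⟨W_16358838272_ok, W_16358580224_ok, W_16342065152_ok, W_16342061120_ok, W_16341807104_ok, W_16341803072_ok, W_16325546048_ok, W_16325292032_ok, W_16325029952_ok, W_16308514880_ok, W_16292515904_ok, W_16242454592_ok, trivial⟩ C_16359895104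
theorem L_16359899136 : HH 127 (nat_lit 16359899136, nat_lit 51) := top_sound R_16359899136
  ⟨V6_16359358464_ok, V6_16308781056_ok, trivial⟩
  ⟨W_16359096320_ok, W_16358838272_ok, W_16342581248_ok, W_16342065152_ok, W_16325292032_ok, W_16308518912_ok, W_16242458624_ok, trivial⟩ C_16359899136
theorem L_16360149057 : HH 127 (nat_lit 16360149057, nat_lit 7) := top_sound R_16360149057
  ⟨V6_16276262976_ok, trivial⟩
  ⟨W_16342061120_ok, W_16325546048_ok, trivial⟩ C_16360149057
theorem L_16360153152 : HH 127 (nat_lit 16360153152, nat_lit 44) := top_sound R_16360153152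
  ⟨V6_16358842368_ok, V6_16276267008_ok, trivial⟩
  ⟨W_16358838272_ok, W_16358580224_ok, W_16358576192_ok, W_16342065152_ok, W_16342061120_ok, W_16341803072_ok, W_16325546048_ok, W_16292515904_ok, W_16259485760_ok, trivial⟩ C_16360153152
theorem L_16360157184 : HH 127 (nat_lit 16360157184, nat_lit 51) := top_sound R_16360157184
  ⟨V6_16359358464_ok, V6_16358584320_ok, V6_16276267008_ok, trivial⟩
  ⟨W_16358838272_ok, W_16358580224_ok, W_16342581248_ok, W_16342065152_ok, W_16341807104_ok, W_16325292032_ok, W_16276262912_ok, W_16259489792_ok, trivial⟩ C_16360157184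
theorem L_16360411200 : HH 127 (nat_lit 16360411200, nat_lit 20) := top_sound R_16360411200
  ⟨V6_16325808192_ok, trivial⟩
  ⟨W_16358838272_ok, W_16342323200_ok, W_16325546048_ok, trivial⟩ C_16360411200
theorem L_16360415232 : HH 127 (nat_lit 16360415232, nat_lit 31) := top_sound R_16360415232
  ⟨V6_16276267008_ok, trivial⟩
  ⟨W_16359096320_ok, W_16358580224_ok, W_16342581248_ok, W_16342323200_ok, W_16342065152_ok, trivial⟩ C_16360415232
theorem L_16360673280 : HH 127 (nat_lit 16360673280, nat_lit 17) := top_sound R_16360673280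
  ⟨V6_16359358464_ok, V6_16326328320_ok, trivial⟩
  ⟨W_16358838272_ok, W_16342581248_ok, W_16293036032_ok, trivial⟩ C_16360673280
theorem L_16360931328 : HH 127 (nat_lit 16360931328, nat_lit 4) := top_sound R_16360931328
  ⟨V6_16359358464_ok, trivial⟩
  ⟨W_16342581248_ok, trivial⟩ C_16360931328
theorem L_17282130180 : HH 127 (nat_lit 17282130180, nat_lit 1) := top_sound R_17282130180
  ⟨V6_10839679236_ok, trivial⟩
  ⟨W_16208380160_ok, trivial⟩ C_17282130180
theorem L_17282130306 : HH 127 (nat_lit 17282130306, nat_lit 2) := top_sound R_17282130306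
  ⟨V6_12987162882_ok, trivial⟩
  ⟨W_16208388224_ok, trivial⟩ C_17282130306
theorem L_17298907395 : HH 127 (nat_lit 17298907395, nat_lit 2) := top_sound R_17298907395
  ⟨V6_11930194179_ok, V6_10856456451_ok, trivial⟩
  ⟨W_17282121920_ok, W_15134646464_ok, trivial⟩ C_17298907395
theorem L_17298907458 : HH 127 (nat_lit 17298907458, nat_lit 2) := top_sound R_17298907458
  ⟨V6_11930198274_ok, trivial⟩
  ⟨W_16208388224_ok, trivial⟩ C_17298907458
theorem L_17298907521 : HH 127 (nat_lit 17298907521, nat_lit 3) := top_sound R_17298907521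
  ⟨V6_16225165377_ok, trivial⟩
  ⟨W_17282129984_ok, W_11913421184_ok, trivial⟩ C_17298907521
theorem L_17299165443 : HH 127 (nat_lit 17299165443, nat_lit 1) := top_sound R_17299165443
  ⟨V6_11930194179_ok, trivial⟩
  ⟨W_17298636992_ok, trivial⟩ C_17299165443
theorem L_17299165506 : HH 127 (nat_lit 17299165506, nat_lit 1) := top_sound R_17299165506
  ⟨V6_14077939842_ok, trivial⟩
  ⟨W_16225161344_ok, trivial⟩ C_17299165506
theorem L_17299169475 : HH 127 (nat_lit 17299169475, nat_lit 2) := top_sound R_17299169475
  ⟨V6_13003940034_ok, trivial⟩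
  ⟨W_17298895040_ok, W_16225415360_ok, trivial⟩ C_17299169475
theorem L_17299169538 : HH 127 (nat_lit 17299169538, nat_lit 2) := top_sound R_17299169538
  ⟨V6_11930198274_ok, trivial⟩
  ⟨W_17298899072_ok, trivial⟩ C_17299169538
theorem L_17299169601 : HH 127 (nat_lit 17299169601, nat_lit 2) := top_sound R_17299169601
  ⟨V6_15151685697_ok, trivial⟩
  ⟨W_17298903104_ok, trivial⟩ C_17299169601
theorem L_17299169664 : HH 127 (nat_lit 17299169664, nat_lit 1) := top_sound R_17299169664
  ⟨V6_11930198400_ok, trivial⟩
  ⟨W_17298907136_ok, trivial⟩ C_17299169664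
theorem L_17299173633 : HH 127 (nat_lit 17299173633, nat_lit 1) := top_sound R_17299173633
  ⟨V6_14077948032_ok, trivial⟩
  ⟨W_16225423424_ok, trivial⟩ C_17299173633
theorem L_17299173696 : HH 127 (nat_lit 17299173696, nat_lit 1) := top_sound R_17299173696
  ⟨V6_11930460480_ok, trivial⟩
  ⟨W_17299165184_ok, trivial⟩ C_17299173696
theorem L_17315676420 : HH 127 (nat_lit 17315676420, nat_lit 2) := top_sound R_17315676420
  ⟨V6_12987154692_ok, V6_10873225476_ok, trivial⟩
  ⟨W_17298374912_ok, W_16241410304_ok, trivial⟩ C_17315676420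
theorem L_17315680515 : HH 127 (nat_lit 17315680515, nat_lit 3) := top_sound R_17315680515
  ⟨V6_15134642370_ok, V6_14060900610_ok, V6_14060896515_ok, trivial⟩
  ⟨W_15167930624_ok, W_14094450944_ok, trivial⟩ C_17315680515
theorem L_17315680578 : HH 127 (nat_lit 17315680578, nat_lit 1) := top_sound R_17315680578
  ⟨V6_14060900610_ok, trivial⟩
  ⟨W_16241676416_ok, trivial⟩ C_17315680578
theorem L_17315684547 : HH 127 (nat_lit 17315684547, nat_lit 2) := top_sound R_17315684547
  ⟨V6_14060904642_ok, trivial⟩
  ⟨W_17298895040_ok, W_16241930432_ok, trivial⟩ C_17315684547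
theorem L_17315684610 : HH 127 (nat_lit 17315684610, nat_lit 10) := top_sound R_17315684610
  ⟨V6_15134646402_ok, V6_15134638338_ok, V6_14060904642_ok, V6_14060900610_ok, trivial⟩
  ⟨W_17298899072_ok, W_16241934464_ok, W_14094450944_ok, trivial⟩ C_17315684610

theorem H_13 : AllH 127 tb13 :=
  ⟨L_16326610944, L_16326860865, L_16326860928, L_16326864960, L_16326868992, L_16327118913, L_16327123008, L_16327127040, L_16327381056, L_16327385088, L_16327643136, L_16342073538, L_16342073601, L_16342331586, L_16342335618, L_16342335681, L_16342335744, L_16342339713, L_16342339776, L_16342593666, L_16342593729, L_16342597761, L_16342597824, L_16342601793, L_16342601856, L_16342605888, L_16342851714, L_16342855809, L_16342855872, L_16342859841, L_16342859904, L_16342863936, L_16342867968, L_16343113857, L_16343117889, L_16343117952, L_16343121984, L_16343126016, L_16343375937, L_16343376000, L_16343380032, L_16343384064, L_16343633985, L_16343638080, L_16343642112, L_16343896128, L_16343900160, L_16344158208, L_16344416256, L_16358846658,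 L_16358850690, L_16358850753, L_16358850816, L_16359108738, L_16359108801, L_16359112833, L_16359112896, L_16359116865, L_16359116928, L_16359366786, L_16359370881, L_16359370944, L_16359374913, L_16359374976, L_16359379008, L_16359383040, L_16359628929, L_16359632961, L_16359633024, L_16359637056, L_16359641088, L_16359891009, L_16359891072, L_16359895104, L_16359899136, L_16360149057, L_16360153152, L_16360157184, L_16360411200, L_16360415232, L_16360673280, L_16360931328, L_17282130180, L_17282130306, L_17298907395, L_17298907458, L_17298907521, L_17299165443, L_17299165506, L_17299169475, L_17299169538, L_17299169601, L_17299169664, L_17299173633, L_17299173696, L_17315676420, L_17315680515, L_17315680578, L_17315684547, L_17315684610, trivial⟩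

theorem L_17315684673 : HH 127 (nat_lit 17315684673, nat_lit 8) := top_sound R_17315684673
  ⟨V6_15134646465_ok, V6_14060904768_ok, V6_10873233729_ok, trivial⟩
  ⟨W_17298903104_ok, W_15168200768_ok, trivial⟩ C_17315684673
theorem L_17315684736 : HH 127 (nat_lit 17315684736, nat_lit 9) := top_sound R_17315684736
  ⟨V6_17315684352_ok, V6_11930198400_ok, trivial⟩
  ⟨W_17282129984_ok, W_16208388224_ok, W_15134646464_ok, W_14077681856_ok, W_14060904704_ok, W_13003940096_ok, W_10873233728_ok, trivial⟩ C_17315684736
theorem L_17315938563 : HH 127 (nat_lit 17315938563, nat_lit 4) := top_sound R_17315938563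
  ⟨V6_15151677633_ok, trivial⟩
  ⟨W_17315152064_ok, W_16241410304_ok, W_15167930624_ok, trivial⟩ C_17315938563
theorem L_17315942595 : HH 127 (nat_lit 17315942595, nat_lit 3) := top_sound R_17315942595
  ⟨V6_14077931715_ok, V6_13004198082_ok, trivial⟩
  ⟨W_17298636992_ok, W_16241672384_ok, trivial⟩ C_17315942595
theorem L_17315942658 : HH 127 (nat_lit 17315942658, nat_lit 8) := top_sound R_17315942658
  ⟨V6_15151157442_ok, V6_14077939968_ok, V6_14077939842_ok, V6_13004198082_ok, trivial⟩
  ⟨W_17315414144_ok, W_17298899072_ok, W_14094450944_ok, trivial⟩ C_17315942658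
theorem L_17315942721 : HH 127 (nat_lit 17315942721, nat_lit 5) := top_sound R_17315942721
  ⟨V6_14077939905_ok, trivial⟩
  ⟨W_17315418176_ok, W_17298903104_ok, W_11947233536_ok, trivial⟩ C_17315942721
theorem L_17315946690 : HH 127 (nat_lit 17315946690, nat_lit 11) := top_sound R_17315946690
  ⟨V6_14077944000_ok, V6_14077939842_ok, V6_14077681794_ok, V6_13004198082_ok, trivial⟩
  ⟨W_17315672192_ok, W_17298895040_ok, W_16241930432_ok, W_16225415360_ok, W_15151423616_ok, trivial⟩ C_17315946690
theorem L_17315946753 : HH 127 (nat_lit 17315946753, nat_lit 18) := top_sound R_17315946753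
  ⟨V6_17299161153_ok, V6_15151685697_ok, V6_14077939968_ok, trivial⟩
  ⟨W_16242196544_ok, W_15168200768_ok, W_14094721088_ok, W_14094450944_ok, W_11947233536_ok, trivial⟩ C_17315946753
theorem L_17315946816 : HH 127 (nat_lit 17315946816, nat_lit 15) := top_sound R_17315946816
  ⟨V6_16242204672_ok, trivial⟩
  ⟨W_17315680256_ok, W_17298907136_ok, W_17298903104_ok, W_15151419584_ok, W_13003940096_ok, W_10873233728_ok, trivial⟩ C_17315946816
theorem L_17315950722 : HH 127 (nat_lit 17315950722, nat_lit 2) := top_sound R_17315950722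
  ⟨V6_14077939842_ok, V6_11947237506_ok, trivial⟩
  ⟨W_17315930240_ok, trivial⟩ C_17315950722
theorem L_17315950785 : HH 127 (nat_lit 17315950785, nat_lit 8) := top_sound R_17315950785
  ⟨V6_16225415361_ok, V6_13020983361_ok, V6_10873499841_ok, trivial⟩
  ⟨W_17315934272_ok, W_14094721088_ok, trivial⟩ C_17315950785
theorem L_17315950848 : HH 127 (nat_lit 17315950848, nat_lit 9) := top_sound R_17315950848
  ⟨V6_14094725184_ok, V6_14077939968_ok, trivial⟩
  ⟨W_17315938304_ok, W_17299165184_ok, W_13020971264_ok, trivial⟩ C_17315950848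
theorem L_17316200643 : HH 127 (nat_lit 17316200643, nat_lit 1) := top_sound R_17316200643
  ⟨V6_11947491522_ok, trivial⟩
  ⟨W_17315152064_ok, trivial⟩ C_17316200643
theorem L_17316200706 : HH 127 (nat_lit 17316200706, nat_lit 9) := top_sound R_17316200706
  ⟨V6_13021233408_ok, trivial⟩
  ⟨W_17315414144_ok, W_17315152064_ok, W_16241410304_ok, W_14094450944_ok, trivial⟩ C_17316200706
theorem L_17316204738 : HH 127 (nat_lit 17316204738, nat_lit 9) := top_sound R_17316204738
  ⟨V6_15168712896_ok, V6_11947491522_ok, V6_10873753794_ok, trivial⟩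
  ⟨W_17315414144_ok, W_16242192512_ok, W_16241930432_ok, trivial⟩ C_17316204738
theorem L_17316204801 : HH 127 (nat_lit 17316204801, nat_lit 17) := top_sound R_17316204801
  ⟨V6_14094979137_ok, V6_11947495680_ok, V6_10873753857_ok, trivial⟩
  ⟨W_17315676224_ok, W_17315414144_ok, W_16242196544_ok, W_15167930624_ok, trivial⟩ C_17316204801
theorem L_17316204864 : HH 127 (nat_lit 17316204864, nat_lit 8) := top_sound R_17316204864
  ⟨V6_16242462720_ok, trivial⟩
  ⟨W_17315680256_ok, W_17315418176_ok, trivial⟩ C_17316204864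
theorem L_17316208770 : HH 127 (nat_lit 17316208770, nat_lit 12) := top_sound R_17316208770
  ⟨V6_16242450561_ok, V6_15168708738_ok, trivial⟩
  ⟨W_15168454784_ok, W_15168196736_ok, W_14094459008_ok, trivial⟩ C_17316208770
theorem L_17316208833 : HH 127 (nat_lit 17316208833, nat_lit 21) := top_sound R_17316208833
  ⟨V6_15168720960_ok, trivial⟩
  ⟨W_17315934272_ok, W_16242196544_ok, W_16241930432_ok, W_15168200768_ok, trivial⟩ C_17316208833
theorem L_17316208896 : HH 127 (nat_lit 17316208896, nat_lit 34) := top_sound R_17316208896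
  ⟨V6_17315684352_ok, V6_15168724992_ok, trivial⟩
  ⟨W_17315938304_ok, W_16242458624_ok, W_16242196544_ok, W_14094450944_ok, W_13021233344_ok, W_13020971264_ok, W_11947491584_ok, trivial⟩ C_17316208896
theorem L_17316212865 : HH 127 (nat_lit 17316212865, nat_lit 15) := top_sound R_17316212865
  ⟨V6_16242450561_ok, V6_14094979137_ok, V6_13020983361_ok, trivial⟩
  ⟨W_17316192320_ok, W_17315934272_ok, W_16242450560_ok, trivial⟩ C_17316212865
theorem L_17316212928 : HH 127 (nat_lit 17316212928, nat_lit 23) := top_sound R_17316212928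
  ⟨V6_15168724992_ok, V6_14094987264_ok, trivial⟩
  ⟨W_17315938304_ok, W_17315934272_ok, W_15168712832_ok, W_15168450752_ok, W_10873761920_ok, trivial⟩ C_17316212928
theorem L_17316216897 : HH 127 (nat_lit 17316216897, nat_lit 4) := top_sound R_17316216897
  ⟨V6_14094979137_ok, trivial⟩
  ⟨W_17316192320_ok, trivial⟩ C_17316216897
theorem L_17316216960 : HH 127 (nat_lit 17316216960, nat_lit 17) := top_sound R_17316216960
  ⟨V6_17316192384_ok, V6_13021249536_ok, trivial⟩
  ⟨W_16242458624_ok, W_14094983168_ok, W_11947503680_ok, W_10873761920_ok, trivial⟩ C_17316216960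
theorem L_17332195587 : HH 127 (nat_lit 17332195587, nat_lit 1) := top_sound R_17332195587
  ⟨V6_11963486466_ok, trivial⟩
  ⟨W_17298636992_ok, trivial⟩ C_17332195587
theorem L_17332453635 : HH 127 (nat_lit 17332453635, nat_lit 5) := top_sound R_17332453635
  ⟨V6_16208380161_ok, V6_15134638338_ok, trivial⟩
  ⟨W_17315152064_ok, W_16241410304_ok, W_14094450944_ok, trivial⟩ C_17332453635
theorem L_17332457667 : HH 127 (nat_lit 17332457667, nat_lit 4) := top_sound R_17332457667
  ⟨V6_16208384193_ok, V6_13037482179_ok, trivial⟩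
  ⟨W_16258445504_ok, W_16241930432_ok, W_14110970048_ok, trivial⟩ C_17332457667
theorem L_17332457730 : HH 127 (nat_lit 17332457730, nat_lit 11) := top_sound R_17332457730
  ⟨V6_16208384256_ok, V6_15151419522_ok, V6_15134638338_ok, V6_14060900610_ok, trivial⟩
  ⟨W_17315414144_ok, W_15184969856_ok, W_14110970048_ok, trivial⟩ C_17332457730
theorem L_17332457793 : HH 127 (nat_lit 17332457793, nat_lit 6) := top_sound R_17332457793
  ⟨V6_15151157505_ok, V6_15134642433_ok, V6_14077677888_ok, V6_13037228352_ok, trivial⟩
  ⟨W_17315418176_ok, W_15184973888_ok, trivial⟩ C_17332457793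
theorem L_17332461762 : HH 127 (nat_lit 17332461762, nat_lit 13) := top_sound R_17332461762
  ⟨V6_15151419522_ok, V6_15134646465_ok, V6_15134646402_ok, V6_14077681794_ok, V6_14060904642_ok, trivial⟩
  ⟨W_16241930432_ok, W_16208388224_ok, W_15184969856_ok, W_13037494400_ok, trivial⟩ C_17332461762
theorem L_17332461825 : HH 127 (nat_lit 17332461825, nat_lit 23) := top_sound R_17332461825
  ⟨V6_16225165440_ok, V6_16225165377_ok, V6_16208380161_ok, trivial⟩
  ⟨W_16208380160_ok, W_15184973888_ok, W_15184969856_ok, W_14111236160_ok, W_13037494400_ok, W_11963748608_ok, W_10890010880_ok, trivial⟩ C_17332461825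
theorem L_17332461888 : HH 127 (nat_lit 17332461888, nat_lit 19) := top_sound R_17332461888
  ⟨V6_16258719744_ok, trivial⟩
  ⟨W_17315680256_ok, W_17298903104_ok, W_17282129984_ok, W_16208388224_ok, W_13003940096_ok, W_10890010880_ok, W_10873233728_ok, trivial⟩ C_17332461888
theorem L_17332715715 : HH 127 (nat_lit 17332715715, nat_lit 6) := top_sound R_17332715715
  ⟨V6_15151677633_ok, trivial⟩
  ⟨W_17331925184_ok, W_17315152064_ok, W_14111486144_ok, trivial⟩ C_17332715715
theorem L_17332715778 : HH 127 (nat_lit 17332715778, nat_lit 11) := top_sound R_17332715778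
  ⟨V6_16258187520_ok, V6_15151677633_ok, trivial⟩
  ⟨W_17331929216_ok, W_15184969856_ok, W_13020971264_ok, trivial⟩ C_17332715778
theorem L_17332719810 : HH 127 (nat_lit 17332719810, nat_lit 20) := top_sound R_17332719810
  ⟨V6_16225415361_ok, V6_15151681728_ok, V6_14077939905_ok, trivial⟩
  ⟨W_17332187264_ok, W_17315672192_ok, W_15184969856_ok, W_14111486144_ok, trivial⟩ C_17332719810
theorem L_17332719873 : HH 127 (nat_lit 17332719873, nat_lit 28) := top_sound R_17332719873
  ⟨V6_17299161153_ok, V6_16225423425_ok, V6_15151681665_ok, V6_14077939968_ok, V6_14077939905_ok, trivial⟩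
  ⟨W_16258453568_ok, W_16242196544_ok, W_15185231936_ok, W_15184973888_ok, W_14094450944_ok, W_13020971264_ok, trivial⟩ C_17332719873
theorem L_17332719936 : HH 127 (nat_lit 17332719936, nat_lit 18) := top_sound R_17332719936
  ⟨V6_17315942400_ok, V6_14077939968_ok, trivial⟩
  ⟨W_17332195328_ok, W_16258453568_ok, W_15184973888_ok, W_14110970048_ok, W_11964010688_ok, W_11963748608_ok, trivial⟩ C_17332719936
theorem L_17332723842 : HH 127 (nat_lit 17332723842, nat_lit 14) := top_sound R_17332723842
  ⟨V6_17315930241_ok, V6_14077939842_ok, V6_14077681794_ok, trivial⟩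
  ⟨W_17332445312_ok, W_17299157120_ok, W_15151423616_ok, W_13037494400_ok, W_13020979328_ok, W_11964014720_ok, trivial⟩ C_17332723842
theorem L_17332723905 : HH 127 (nat_lit 17332723905, nat_lit 40) := top_sound R_17332723905
  ⟨V6_17299161153_ok, V6_16225165377_ok, V6_15151685697_ok, V6_15151677633_ok, V6_14077944000_ok, V6_14077939905_ok, trivial⟩
  ⟨W_17315934272_ok, W_16242196544_ok, W_15185231936_ok, W_15168200768_ok, W_14111236160_ok, W_14094721088_ok, W_13037494400_ok, trivial⟩ C_17332723905
theorem L_17332723968 : HH 127 (nat_lit 17332723968, nat_lit 48) := top_sound R_17332723968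
  ⟨V6_17299169280_ok, V6_16258719744_ok, V6_16242204672_ok, trivial⟩
  ⟨W_17315938304_ok, W_17298899072_ok, W_15185231936_ok, W_15184973888_ok, W_15184969856_ok, W_14111232128_ok, W_14094450944_ok, W_13020971264_ok, W_11947233536_ok, trivial⟩ C_17332723968
theorem L_17332727937 : HH 127 (nat_lit 17332727937, nat_lit 16) := top_sound R_17332727937
  ⟨V6_17315930241_ok, V6_15151689792_ok, V6_15151685697_ok, trivial⟩
  ⟨W_16242196544_ok, W_15185231936_ok, trivial⟩ C_17332727937
theorem L_17332728000 : HH 127 (nat_lit 17332728000, nat_lit 28) := top_sound R_17332728000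
  ⟨V6_16242204672_ok, V6_16225431552_ok, V6_14077944000_ok, trivial⟩
  ⟨W_17315938304_ok, W_17315934272_ok, W_15185231936_ok, trivial⟩ C_17332728000
theorem L_17332973763 : HH 127 (nat_lit 17332973763, nat_lit 1) := top_sound R_17332973763
  ⟨V6_13037482179_ok, trivial⟩
  ⟨W_17331925184_ok, trivial⟩ C_17332973763
theorem L_17332977858 : HH 127 (nat_lit 17332977858, nat_lit 18) := top_sound R_17332977858
  ⟨V6_14094975168_ok, V6_11947491522_ok, trivial⟩
  ⟨W_17332187264_ok, W_17331929216_ok, W_17331925184_ok, W_17315152064_ok, W_16258707584_ok, W_16258445504_ok, trivial⟩ C_17332977858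
theorem L_17332977921 : HH 127 (nat_lit 17332977921, nat_lit 22) := top_sound R_17332977921
  ⟨V6_16258187520_ok, V6_13021233408_ok, V6_11947491585_ok, trivial⟩
  ⟨W_16242196544_ok, W_15185231936_ok, W_15168716864_ok, W_14111490176_ok, trivial⟩ C_17332977921
theorem L_17332981890 : HH 127 (nat_lit 17332981890, nat_lit 19) := top_sound R_17332981890
  ⟨V6_17316192384_ok, trivial⟩
  ⟨W_16242450560_ok, W_15185485952_ok, W_15168454784_ok, W_15168196736_ok, W_13021237376_ok, trivial⟩ C_17332981890
theorem L_17332981953 : HH 127 (nat_lit 17332981953, nat_lit 45) := top_sound R_17332981953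
  ⟨V6_16259231808_ok, trivial⟩
  ⟨W_17315934272_ok, W_17315418176_ok, W_16258453568_ok, W_16242196544_ok, W_15184973888_ok, W_15168716864_ok, W_14110970048_ok, W_14094454976_ok, W_13021237376_ok, W_13021233344_ok, W_13020975296_ok, W_11964010688_ok, trivial⟩ C_17332981953
theorem L_17332982016 : HH 127 (nat_lit 17332982016, nat_lit 53) := top_sound R_17332982016
  ⟨V6_17316200448_ok, V6_16242462720_ok, trivial⟩
  ⟨W_17332195328_ok, W_17315938304_ok, W_17315418176_ok, W_16258453568_ok, W_15185231936_ok, W_15184973888_ok, W_15184969856_ok, W_15167930624_ok, W_14110970048_ok, W_13020971264_ok, W_11964010688_ok, W_11963748608_ok, W_11947491584_ok, W_10890531008_ok, trivial⟩ C_17332982016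
theorem L_17332985985 : HH 127 (nat_lit 17332985985, nat_lit 49) := top_sound R_17332985985
  ⟨V6_16259231808_ok, trivial⟩
  ⟨W_16242196544_ok, W_15185231936_ok, W_15184973888_ok, W_15168716864_ok, W_15168200768_ok, W_14111236160_ok, W_14094721088_ok, W_13037494400_ok, W_13021237376_ok, W_11964014720_ok, W_10890535040_ok, trivial⟩ C_17332985985
theorem L_17332986048 : HH 127 (nat_lit 17332986048, nat_lit 80) := top_sound R_17332986048
  ⟨V6_17315684352_ok, V6_16258719744_ok, V6_16242462720_ok, V6_15168724992_ok, trivial⟩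
  ⟨W_17316196352_ok, W_17315938304_ok, W_17315934272_ok, W_16242458624_ok, W_15185494016_ok, W_15185489984_ok, W_15185231936_ok, W_15184969856_ok, W_15168712832_ok, W_10890531008_ok, trivial⟩ C_17332986048
theorem L_17332990017 : HH 127 (nat_lit 17332990017, nat_lit 20) := top_sound R_17332990017
  ⟨V6_17332965441_ok, V6_14094979137_ok, V6_14094725184_ok, V6_10890539073_ok, trivial⟩
  ⟨W_17332965440_ok, W_17316192320_ok, W_17315934272_ok, W_16242454592_ok, trivial⟩ C_17332990017
theorem L_17332990080 : HH 127 (nat_lit 17332990080, nat_lit 57) := top_sound R_17332990080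
  ⟨V6_17316192384_ok, V6_16242462720_ok, V6_15168724992_ok, trivial⟩
  ⟨W_17316196352_ok, W_17316192320_ok, W_17315938304_ok, W_17315934272_ok, W_15185494016_ok, W_15185231936_ok, W_13021245440_ok, trivial⟩ C_17332990080
theorem L_17332994112 : HH 127 (nat_lit 17332994112, nat_lit 26) := top_sound R_17332994112
  ⟨V6_15168724992_ok, V6_14094987264_ok, trivial⟩
  ⟨W_17332965440_ok, W_17316196352_ok, W_17316192320_ok, W_15185489984_ok, trivial⟩ C_17332994112
theorem L_17333235906 : HH 127 (nat_lit 17333235906, nat_lit 7) := top_sound R_17333235906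
  ⟨V6_13038268608_ok, trivial⟩
  ⟨W_17331925184_ok, W_16258707584_ok, trivial⟩ C_17333235906
theorem L_17333239938 : HH 127 (nat_lit 17333239938, nat_lit 7) := top_sound R_17333239938
  ⟨V6_15185748096_ok, trivial⟩
  ⟨W_17332187264_ok, W_17331929216_ok, W_13038268544_ok, trivial⟩ C_17333239938
theorem L_17333240001 : HH 127 (nat_lit 17333240001, nat_lit 23) := top_sound R_17333240001
  ⟨V6_16259231808_ok, trivial⟩
  ⟨W_15185489984_ok, W_15185231936_ok, W_14111486144_ok, W_13038268544_ok, W_11964526784_ok, W_11964268736_ok, trivial⟩ C_17333240001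
theorem L_17333240064 : HH 127 (nat_lit 17333240064, nat_lit 15) := top_sound R_17333240064
  ⟨V6_15185756160_ok, trivial⟩
  ⟨W_17331929216_ok, W_15184969856_ok, W_15184445696_ok, W_14111490176_ok, trivial⟩ C_17333240064
theorem L_17333244033 : HH 127 (nat_lit 17333244033, nat_lit 28) := top_sound R_17333244033
  ⟨V6_16259231808_ok, trivial⟩
  ⟨W_17332445312_ok, W_16258453568_ok, W_15185485952_ok, W_15185231936_ok, W_15184973888_ok, trivial⟩ C_17333244033
theorem L_17333244096 : HH 127 (nat_lit 17333244096, nat_lit 47) := top_sound R_17333244096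
  ⟨V6_16259231808_ok, trivial⟩
  ⟨W_17332195328_ok, W_16258453568_ok, W_15185752064_ok, W_15185494016_ok, W_15185231936_ok, W_15184973888_ok, W_14112014336_ok, W_14112010304_ok, W_14110970048_ok, W_11964526784_ok, W_11964010688_ok, trivial⟩ C_17333244096
theorem L_17333248065 : HH 127 (nat_lit 17333248065, nat_lit 22) := top_sound R_17333248065
  ⟨V6_16259231808_ok, trivial⟩
  ⟨W_16259485760_ok, W_15185231936_ok, W_15184973888_ok, W_14111236160_ok, trivial⟩ C_17333248065
theorem L_17333248128 : HH 127 (nat_lit 17333248128, nat_lit 48) := top_sound R_17333248128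
  ⟨V6_16258719744_ok, V6_15185748096_ok, V6_14112018432_ok, V6_13038280704_ok, trivial⟩
  ⟨W_17332445312_ok, W_16259489792_ok, W_15185494016_ok, W_15185489984_ok, W_15185485952_ok, W_15185231936_ok, W_15184973888_ok, trivial⟩ C_17333248128
theorem L_17333252160 : HH 127 (nat_lit 17333252160, nat_lit 32) := top_sound R_17333252160
  ⟨V6_15185756160_ok, V6_14112018432_ok, V6_13038280704_ok, trivial⟩
  ⟨W_17333227520_ok, W_17332965440_ok, W_16259485760_ok, W_15185748032_ok, W_15185489984_ok, W_15185231936_ok, trivial⟩ C_17333252160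
theorem L_17333256192 : HH 127 (nat_lit 17333256192, nat_lit 9) := top_sound R_17333256192
  ⟨V6_14112018432_ok, trivial⟩
  ⟨W_17333227520_ok, W_16259489792_ok, trivial⟩ C_17333256192
theorem L_17348706564 : HH 127 (nat_lit 17348706564, nat_lit 2) := top_sound R_17348706564
  ⟨V6_17248043268_ok, V6_16207855875_ok, trivial⟩
  ⟨W_17298374912_ok, W_14127481088_ok, trivial⟩ C_17348706564
theorem L_17348968707 : HH 127 (nat_lit 17348968707, nat_lit 3) := top_sound R_17348968707
  ⟨V6_14127481089_ok, trivial⟩
  ⟨W_17315152064_ok, W_17298636992_ok, trivial⟩ C_17348968707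
theorem L_17348972739 : HH 127 (nat_lit 17348972739, nat_lit 2) := top_sound R_17348972739
  ⟨V6_16224899265_ok, V6_15151157442_ok, trivial⟩
  ⟨W_16258445504_ok, trivial⟩ C_17348972739
theorem L_17348972802 : HH 127 (nat_lit 17348972802, nat_lit 3) := top_sound R_17348972802
  ⟨V6_16224899265_ok, V6_15151157442_ok, trivial⟩
  ⟨W_15201484928_ok, trivial⟩ C_17348972802
theorem L_17348972865 : HH 127 (nat_lit 17348972865, nat_lit 1) := top_sound R_17348972865
  ⟨V6_13037228352_ok, trivial⟩
  ⟨W_17315418176_ok, trivial⟩ C_17348972865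
theorem L_17349230787 : HH 127 (nat_lit 17349230787, nat_lit 5) := top_sound R_17349230787
  ⟨V6_15201218754_ok, V6_14127481026_ok, V6_13037482179_ok, trivial⟩
  ⟨W_17298895040_ok, W_17282121920_ok, W_16241930432_ok, W_16225157312_ok, trivial⟩ C_17349230787
theorem L_17349230850 : HH 127 (nat_lit 17349230850, nat_lit 17) := top_sound R_17349230850
  ⟨V6_16208380161_ok, V6_15201222912_ok, V6_14127481089_ok, trivial⟩
  ⟨W_17331929216_ok, W_17315414144_ok, W_17315152064_ok, W_17298899072_ok, W_17282121920_ok, W_16241934464_ok, trivial⟩ C_17349230850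
theorem L_17349234882 : HH 127 (nat_lit 17349234882, nat_lit 19) := top_sound R_17349234882
  ⟨V6_16225161408_ok, V6_16208384193_ok, trivial⟩
  ⟨W_17332187264_ok, W_15201484928_ok, W_15184969856_ok, W_14128001216_ok, trivial⟩ C_17349234882
theorem L_17349234945 : HH 127 (nat_lit 17349234945, nat_lit 28) := top_sound R_17349234945
  ⟨V6_17282125953_ok, V6_16225161408_ok, V6_16208384256_ok, V6_16208380161_ok, trivial⟩
  ⟨W_16258453568_ok, W_15201747008_ok, W_15184973888_ok, W_14127747200_ok, W_13054267520_ok, W_13054001408_ok, W_11980521728_ok, trivial⟩ C_17349234945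
theorem L_17349235008 : HH 127 (nat_lit 17349235008, nat_lit 13) := top_sound R_17349235008
  ⟨V6_17348972544_ok, trivial⟩
  ⟨W_16258453568_ok, W_15184973888_ok, W_13020713216_ok, W_11980525760_ok, W_11963748608_ok, trivial⟩ C_17349235008
theorem L_17349238914 : HH 127 (nat_lit 17349238914, nat_lit 18) := top_sound R_17349238914
  ⟨V6_17282125953_ok, V6_16225165440_ok, trivial⟩
  ⟨W_17332445312_ok, W_15184969856_ok, W_13054267520_ok, W_13037494400_ok, trivial⟩ C_17349238914
theorem L_17349238977 : HH 127 (nat_lit 17349238977, nat_lit 35) := top_sound R_17349238977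
  ⟨V6_16225165377_ok, V6_14128013376_ok, trivial⟩
  ⟨W_17298903104_ok, W_17298895040_ok, W_17282129984_ok, W_17282121920_ok, W_16241930432_ok, W_16208388224_ok, W_15201747008_ok, W_15184973888_ok, W_15151423616_ok, W_14128001216_ok, W_10906788032_ok, trivial⟩ C_17349238977
theorem L_17349239040 : HH 127 (nat_lit 17349239040, nat_lit 50) := top_sound R_17349239040
  ⟨V6_16258719744_ok, V6_15201755136_ok, trivial⟩
  ⟨W_17315680256_ok, W_17298907136_ok, W_17298899072_ok, W_17282129984_ok, W_17282121920_ok, W_16208388224_ok, W_16208380160_ok, W_15201747008_ok, W_15184969856_ok, W_14094450944_ok, W_13054263488_ok, W_10906788032_ok, trivial⟩ C_17349239040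
theorem L_17349488835 : HH 127 (nat_lit 17349488835, nat_lit 3) := top_sound R_17349488835
  ⟨V6_15201218754_ok, V6_13037482179_ok, V6_10907037891_ok, trivial⟩
  ⟨W_17298895040_ok, W_16258445504_ok, trivial⟩ C_17349488835
theorem L_17349492930 : HH 127 (nat_lit 17349492930, nat_lit 26) := top_sound R_17349492930
  ⟨V6_16274964672_ok, V6_15151677633_ok, trivial⟩
  ⟨W_17332187264_ok, W_17331925184_ok, W_17298895040_ok, W_16241930432_ok, W_16225415360_ok, W_14128263296_ok, W_14128001216_ok, W_14111486144_ok, W_13054525568_ok, W_11980783808_ok, trivial⟩ C_17349492930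
theorem L_17349492993 : HH 127 (nat_lit 17349492993, nat_lit 35) := top_sound R_17349492993
  ⟨V6_17348706369_ok, V6_17299161153_ok, V6_16258187520_ok, V6_15151677633_ok, trivial⟩
  ⟨W_16242196544_ok, W_15201747008_ok, W_15185231936_ok, W_13054525568_ok, W_13054001408_ok, trivial⟩ C_17349492993
theorem L_17349496962 : HH 127 (nat_lit 17349496962, nat_lit 24) := top_sound R_17349496962
  ⟨V6_17315930241_ok, V6_16225423488_ok, trivial⟩
  ⟨W_17348960384_ok, W_15201484928_ok, W_14128263296_ok, W_13054525568_ok, W_13054267520_ok, W_11980787840_ok, trivial⟩ C_17349496962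
theorem L_17349497025 : HH 127 (nat_lit 17349497025, nat_lit 60) := top_sound R_17349497025
  ⟨V6_17299165248_ok, V6_17299161153_ok, V6_16225423425_ok, V6_16225419456_ok, V6_16225415361_ok, V6_15151681728_ok, trivial⟩
  ⟨W_17315934272_ok, W_16258453568_ok, W_16242196544_ok, W_15201747008_ok, W_15201488960_ok, W_15185231936_ok, W_13054529600_ok, W_13054525568_ok, W_13054267520_ok, W_11980787840_ok, W_11980783808_ok, W_11980525760_ok, trivial⟩ C_17349497025
theorem L_17349497088 : HH 127 (nat_lit 17349497088, nat_lit 68) := top_sound R_17349497088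
  ⟨V6_17299165248_ok, V6_16275492864_ok, trivial⟩
  ⟨W_17315938304_ok, W_15202009088_ok, W_15201747008_ok, W_15185231936_ok, W_15184969856_ok, W_13054263488_ok, W_13054001408_ok, W_11980783808_ok, W_11980525760_ok, W_11947233536_ok, W_10907042048_ok, trivial⟩ C_17349497088
theorem L_17349501057 : HH 127 (nat_lit 17349501057, nat_lit 60) := top_sound R_17349501057
  ⟨V6_17315930241_ok, V6_17299161153_ok, V6_16225427520_ok, V6_16225165440_ok, V6_16225165377_ok, V6_15151685760_ok, trivial⟩
  ⟨W_17315934272_ok, W_16242196544_ok, W_15202001024_ok, W_15201747008_ok, W_15185231936_ok, W_13054529600_ok, W_13054525568_ok, W_13054267520_ok, W_11980791872_ok, W_11980787840_ok, W_10907050112_ok, trivial⟩ C_17349501057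
theorem L_17349501120 : HH 127 (nat_lit 17349501120, nat_lit 100) := top_sound R_17349501120
  ⟨V6_17315942400_ok, V6_17315684352_ok, V6_16258719744_ok, V6_16242204672_ok, trivial⟩
  ⟨W_17315938304_ok, W_16242196544_ok, W_15202009088_ok, W_15201747008_ok, W_15185231936_ok, W_15184973888_ok, W_15184969856_ok, W_14128267328_ok, W_14128013312_ok, W_14128001216_ok, W_13054521536_ok, W_13054263488_ok, W_11980783808_ok, W_11980525760_ok, W_10906788032_ok, trivial⟩ C_17349501120
theorem L_17349505089 : HH 127 (nat_lit 17349505089, nat_lit 21) := top_sound R_17349505089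
  ⟨V6_17299161153_ok, V6_15151685697_ok, V6_14094725184_ok, trivial⟩
  ⟨W_17349480512_ok, W_15185231936_ok, W_14094721088_ok, W_11980791872_ok, trivial⟩ C_17349505089
theorem L_17349505152 : HH 127 (nat_lit 17349505152, nat_lit 48) := top_sound R_17349505152
  ⟨V6_16242204672_ok, V6_16225427520_ok, V6_16225423488_ok, V6_15151685760_ok, trivial⟩
  ⟨W_17315938304_ok, W_17315934272_ok, W_15202009088_ok, W_15202001024_ok, W_14094725120_ok, W_11980795904_ok, W_11980787840_ok, W_10907050112_ok, trivial⟩ C_17349505152
theorem L_17349750978 : HH 127 (nat_lit 17349750978, nat_lit 11) := top_sound R_17349750978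
  ⟨V6_16274960577_ok, V6_16241668290_ok, V6_15168712896_ok, trivial⟩
  ⟨W_15168712832_ok, W_15168450752_ok, W_14111748224_ok, W_14111486144_ok, W_11981041856_ok, trivial⟩ C_17349750978
theorem L_17349755010 : HH 127 (nat_lit 17349755010, nat_lit 32) := top_sound R_17349755010
  ⟨V6_15202263168_ok, trivial⟩
  ⟨W_17348960384_ok, W_17332445312_ok, W_17331929216_ok, W_17315414144_ok, W_16242450560_ok, W_15202001024_ok, W_15185485952_ok, W_15168712832_ok, trivial⟩ C_17349755010
theorem L_17349755073 : HH 127 (nat_lit 17349755073, nat_lit 61) := top_sound R_17349755073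
  ⟨V6_17348706369_ok, V6_17348702400_ok, V6_17331929280_ok, V6_17315152065_ok, V6_16274964672_ok, trivial⟩
  ⟨W_16242454592_ok, W_15168716864_ok, W_15168712832_ok, W_15168450752_ok, W_14128525376_ok, W_14128267328_ok, W_14111752256_ok, W_14094975104_ok, W_13054787648_ok, W_13054783616_ok, W_13054525568_ok, W_13038010496_ok, W_13021233344_ok, W_11981045888_ok, W_11981041856_ok, W_11964268736_ok, W_10907304128_ok, trivial⟩ C_17349755073
theorem L_17349755136 : HH 127 (nat_lit 17349755136, nat_lit 66) := top_sound R_17349755136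
  ⟨V6_17331929280_ok, V6_17316200448_ok, V6_16274964672_ok, trivial⟩
  ⟨W_17315938304_ok, W_15202009088_ok, W_15201747008_ok, W_15185494016_ok, W_14128267328_ok, W_10907042048_ok, trivial⟩ C_17349755136
theorem L_17349759105 : HH 127 (nat_lit 17349759105, nat_lit 82) := top_sound R_17349759105
  ⟨V6_17315930241_ok, V6_16276004928_ok, V6_16242450561_ok, trivial⟩
  ⟨W_17316192320_ok, W_17315934272_ok, W_17315418176_ok, W_16258453568_ok, W_16242454592_ok, W_16242450560_ok, W_16242196544_ok, W_15201747008_ok, W_15201488960_ok, W_15185489984_ok, W_15185231936_ok, W_15168716864_ok, W_14127747200_ok, W_13054267520_ok, W_13021237376_ok, W_10907308160_ok, trivial⟩ C_17349759105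
theorem L_17349759168 : HH 127 (nat_lit 17349759168, nat_lit 125) := top_sound R_17349759168
  ⟨V6_17316200448_ok, V6_16276008960_ok, V6_16242462720_ok, trivial⟩
  ⟨W_17332195328_ok, W_17316196352_ok, W_17315938304_ok, W_16275230720_ok, W_16258453568_ok, W_16242458624_ok, W_16242196544_ok, W_15202009088_ok, W_15201747008_ok, W_15185494016_ok, W_15185489984_ok, W_15184973888_ok, W_14127747200_ok, W_14110970048_ok, W_13054263488_ok, W_11980787840_ok, W_11980783808_ok, W_11980525760_ok, W_11964010688_ok, W_10907308160_ok, W_10907304128_ok, W_10890531008_ok, trivial⟩ C_17349759168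
theorem L_17349763137 : HH 127 (nat_lit 17349763137, nat_lit 51) := top_sound R_17349763137
  ⟨V6_16276004928_ok, trivial⟩
  ⟨W_17315934272_ok, W_16242196544_ok, W_15184973888_ok, W_15168716864_ok, W_15168200768_ok, W_14111236160_ok, W_14094979136_ok, W_14094721088_ok, W_13054271552_ok, W_13021241408_ok, W_11980791872_ok, W_10907312192_ok, trivial⟩ C_17349763137
theorem L_17349763200 : HH 127 (nat_lit 17349763200, nat_lit 156) := top_sound R_17349763200
  ⟨V6_17349746688_ok, V6_17316192384_ok, V6_17315684352_ok, V6_15168724992_ok, V6_10907312256_ok, trivial⟩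
  ⟨W_17316196352_ok, W_17316192320_ok, W_17315938304_ok, W_17315934272_ok, W_16242458624_ok, W_16242454592_ok, W_16242450560_ok, W_16242196544_ok, W_15202009088_ok, W_15202001024_ok, W_15201747008_ok, W_15185494016_ok, W_15185489984_ok, W_15185231936_ok, W_15168720896_ok, W_15168716864_ok, W_15168462848_ok, W_14128013312_ok, W_14094983168_ok, trivial⟩ C_17349763200
theorem L_17349767232 : HH 127 (nat_lit 17349767232, nat_lit 88) := top_sound R_17349767232
  ⟨V6_17349746688_ok, V6_17349742656_ok, V6_10907316288_ok, trivial⟩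
  ⟨W_17315938304_ok, W_17315934272_ok, W_16242458624_ok, W_16242196544_ok, W_15168720896_ok, W_15168716864_ok, W_15168462848_ok, W_15168458816_ok, W_14111494208_ok, W_14094983168_ok, W_14094979136_ok, W_14094725120_ok, W_14094721088_ok, W_13037756480_ok, W_13021245440_ok, W_11980795904_ok, W_11980791872_ok, W_11964280832_ok, W_10907316224_ok, trivial⟩ C_17349767232
theorem L_17349771264 : HH 127 (nat_lit 17349771264, nat_lit 33) := top_sound R_17349771264
  ⟨V6_17349746688_ok, V6_11981058048_ok, trivial⟩
  ⟨W_17349742592_ok, W_17316196352_ok, W_16242458624_ok, trivial⟩ C_17349771264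
theorem L_17350013058 : HH 127 (nat_lit 17350013058, nat_lit 13) := top_sound R_17350013058
  ⟨V6_15202263168_ok, trivial⟩
  ⟨W_17348960384_ok, W_17348702336_ok, W_17332187264_ok, W_11981303936_ok, trivial⟩ C_17350013058
theorem L_17350013121 : HH 127 (nat_lit 17350013121, nat_lit 24) := top_sound R_17350013121
  ⟨V6_14128787520_ok, trivial⟩
  ⟨W_17348702336_ok, W_17332187264_ok, W_17331925184_ok, W_16258445504_ok, W_15185489984_ok, W_14111486144_ok, W_11964526784_ok, trivial⟩ C_17350013121
theorem L_17350017153 : HH 127 (nat_lit 17350017153, nat_lit 61) := top_sound R_17350017153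
  ⟨V6_17348706369_ok, V6_15202263168_ok, V6_15185748096_ok, V6_15185748033_ok, trivial⟩
  ⟨W_17348960384_ok, W_17348706368_ok, W_15201747008_ok, W_15185489984_ok, W_15185231936_ok, W_14128783424_ok, W_14128525376_ok, W_14112010304_ok, W_13038272576_ok, W_10907566208_ok, trivial⟩ C_17350017153
theorem L_17350017216 : HH 127 (nat_lit 17350017216, nat_lit 89) := top_sound R_17350017216
  ⟨V6_16276008960_ok, V6_16274964672_ok, trivial⟩
  ⟨W_17348706368_ok, W_15202009088_ok, W_15201747008_ok, W_15185752064_ok, W_15185494016_ok, W_15185489984_ok, W_15185231936_ok, W_14128787456_ok, W_14112010304_ok, W_13055045696_ok, W_13038268544_ok, W_11964526784_ok, W_10907566208_ok, W_10907304128_ok, trivial⟩ C_17350017216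

theorem H_14 : AllH 127 tb14 :=
  ⟨L_17315684673, L_17315684736, L_17315938563, L_17315942595, L_17315942658, L_17315942721, L_17315946690, L_17315946753, L_17315946816, L_17315950722, L_17315950785, L_17315950848, L_17316200643, L_17316200706, L_17316204738, L_17316204801, L_17316204864, L_17316208770, L_17316208833, L_17316208896, L_17316212865, L_17316212928, L_17316216897, L_17316216960, L_17332195587, L_17332453635, L_17332457667, L_17332457730, L_17332457793, L_17332461762, L_17332461825, L_17332461888, L_17332715715, L_17332715778, L_17332719810, L_17332719873, L_17332719936, L_17332723842, L_17332723905, L_17332723968, L_17332727937, L_17332728000, L_17332973763, L_17332977858, L_17332977921, L_17332981890, L_17332981953, L_17332982016, L_17332985985, L_17332986048, L_17332990017, L_17332990080, L_17332994112, L_17333235906, L_17333239938, L_17333240001, L_17333240064, L_17333244033, L_17333244096, L_17333248065, L_17333248128, L_17333252160, L_17333256192, L_17348706564, L_17348968707, L_17348972739, L_17348972802, L_17348972865,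 L_17349230787, L_17349230850, L_17349234882, L_17349234945, L_17349235008, L_17349238914, L_17349238977, L_17349239040, L_17349488835, L_17349492930, L_17349492993, L_17349496962, L_17349497025, L_17349497088, L_17349501057, L_17349501120, L_17349505089, L_17349505152, L_17349750978, L_17349755010, L_17349755073, L_17349755136, L_17349759105, L_17349759168, L_17349763137, L_17349763200, L_17349767232, L_17349771264, L_17350013058, L_17350013121, L_17350017153, L_17350017216, trivial⟩

theorem L_17350021185 : HH 127 (nat_lit 17350021185, nat_lit 46) := top_sound R_17350021185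
  ⟨V6_17349742656_ok, V6_16276262976_ok, trivial⟩
  ⟨W_16258453568_ok, W_15201747008_ok, W_15201488960_ok, W_15185489984_ok, W_15185231936_ok, W_15184973888_ok, W_11981049920_ok, W_11964534848_ok, trivial⟩ C_17350021185
theorem L_17350021248 : HH 127 (nat_lit 17350021248, nat_lit 126) := top_sound R_17350021248
  ⟨V6_17349746688_ok, V6_16276008960_ok, trivial⟩
  ⟨W_17332195328_ok, W_16275230720_ok, W_16258453568_ok, W_15202525184_ok, W_15202009088_ok, W_15202001024_ok, W_15201747008_ok, W_15185752064_ok, W_15185494016_ok, W_15185489984_ok, W_15185485952_ok, W_15185231936_ok, W_15184973888_ok, W_15184969856_ok, W_14128787456_ok, W_14127747200_ok, W_14111232128_ok, W_13038268544_ok, W_11980787840_ok, W_11964534848_ok, W_10907566208_ok, W_10907308160_ok, trivial⟩ C_17350021248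
theorem L_17350025280 : HH 127 (nat_lit 17350025280, nat_lit 114) := top_sound R_17350025280
  ⟨V6_17349742656_ok, V6_16276267008_ok, V6_16276262976_ok, V6_16258719744_ok, trivial⟩
  ⟨W_17333227520_ok, W_16276262912_ok, W_16259489792_ok, W_15202525184_ok, W_15202009088_ok, W_15201747008_ok, W_15185752064_ok, W_15185494016_ok, W_15185489984_ok, W_15185231936_ok, W_14128787456_ok, W_14128013312_ok, W_14112014336_ok, W_14112010304_ok, W_10907574272_ok, W_10907312192_ok, trivial⟩ C_17350025280
theorem L_17350029312 : HH 127 (nat_lit 17350029312, nat_lit 52) := top_sound R_17350029312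
  ⟨V6_16276267008_ok, V6_13055053824_ok, trivial⟩
  ⟨W_17350000640_ok, W_17333227520_ok, W_16276262912_ok, W_15202009088_ok, W_15185494016_ok, trivial⟩ C_17350029312
theorem L_17350271106 : HH 127 (nat_lit 17350271106, nat_lit 7) := top_sound R_17350271106
  ⟨V6_13054779522_ok, V6_11981561985_ok, V6_10907820162_ok, trivial⟩
  ⟨W_17348960384_ok, W_13055041664_ok, W_11981561984_ok, trivial⟩ C_17350271106
theorem L_17350275201 : HH 127 (nat_lit 17350275201, nat_lit 23) := top_sound R_17350275201
  ⟨V6_14128787520_ok, trivial⟩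
  ⟨W_17348960384_ok, W_17348702336_ok, W_15202001024_ok, W_14128783424_ok, W_13055303744_ok, W_11981566016_ok, W_11981561984_ok, trivial⟩ C_17350275201
theorem L_17350275264 : HH 127 (nat_lit 17350275264, nat_lit 23) := top_sound R_17350275264
  ⟨V6_15202529280_ok, trivial⟩
  ⟨W_17348702336_ok, W_16274960576_ok, W_14128787456_ok, W_14128001216_ok, W_13055307776_ok, W_13055045696_ok, W_13054521536_ok, W_11981566016_ok, W_11981041856_ok, trivial⟩ C_17350275264
theorem L_17350279233 : HH 127 (nat_lit 17350279233, nat_lit 25) := top_sound R_17350279233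
  ⟨V6_16276262976_ok, V6_15202783296_ok, trivial⟩
  ⟨W_15201747008_ok, W_14128267328_ok, W_13054787648_ok, W_11981566016_ok, trivial⟩ C_17350279233
theorem L_17350279296 : HH 127 (nat_lit 17350279296, nat_lit 80) := top_sound R_17350279296
  ⟨V6_16276267008_ok, V6_15202787328_ok, V6_15202529280_ok, trivial⟩
  ⟨W_17348706368_ok, W_15202525184_ok, W_15202009088_ok, W_15202001024_ok, W_15201747008_ok, W_14129045504_ok, W_14128787456_ok, W_14128783424_ok, W_13055307776_ok, W_13055303744_ok, W_11981570048_ok, W_10907828288_ok, W_10907566208_ok, trivial⟩ C_17350279296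
theorem L_17350283328 : HH 127 (nat_lit 17350283328, nat_lit 75) := top_sound R_17350283328
  ⟨V6_17349742656_ok, V6_15202787328_ok, V6_15202783296_ok, V6_13055053824_ok, trivial⟩
  ⟨W_17349742592_ok, W_16276262912_ok, W_16275230720_ok, W_15202525184_ok, W_15202009088_ok, W_15201747008_ok, trivial⟩ C_17350283328
theorem L_17350287360 : HH 127 (nat_lit 17350287360, nat_lit 56) := top_sound R_17350287360
  ⟨V6_15202787328_ok, V6_15201755136_ok, trivial⟩
  ⟨W_17350000640_ok, W_17349742592_ok, W_16276262912_ok, W_15202009088_ok, W_10907832320_ok, W_10907574272_ok, trivial⟩ C_17350287360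
theorem L_17365483779 : HH 127 (nat_lit 17365483779, nat_lit 2) := top_sound R_17365483779
  ⟨V6_13070516418_ok, trivial⟩
  ⟨W_17315152064_ok, trivial⟩ C_17365483779
theorem L_17365745859 : HH 127 (nat_lit 17365745859, nat_lit 4) := top_sound R_17365745859
  ⟨V6_14144254146_ok, V6_13070774466_ok, V6_13070516418_ok, trivial⟩
  ⟨W_17331925184_ok, W_17315152064_ok, W_17298636992_ok, trivial⟩ C_17365745859
theorem L_17365745922 : HH 127 (nat_lit 17365745922, nat_lit 8) := top_sound R_17365745922
  ⟨V6_14144258304_ok, V6_13070516418_ok, V6_11997036801_ok, trivial⟩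
  ⟨W_17331929216_ok, W_17315414144_ok, W_17298636992_ok, W_16241410304_ok, trivial⟩ C_17365745922
theorem L_17365749954 : HH 127 (nat_lit 17365749954, nat_lit 7) := top_sound R_17365749954
  ⟨V6_17298641088_ok, V6_11997040833_ok, trivial⟩
  ⟨W_15201484928_ok, W_13070782592_ok, W_11997040832_ok, trivial⟩ C_17365749954
theorem L_17365750017 : HH 127 (nat_lit 17365750017, nat_lit 10) := top_sound R_17365750017
  ⟨V6_15184707840_ok, trivial⟩
  ⟨W_17315418176_ok, W_15218262080_ok, W_11997040832_ok, trivial⟩ C_17365750017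
theorem L_17365750080 : HH 127 (nat_lit 17365750080, nat_lit 4) := top_sound R_17365750080
  ⟨V6_17298641088_ok, trivial⟩
  ⟨W_15218266112_ok, W_11997040832_ok, trivial⟩ C_17365750080
theorem L_17366003907 : HH 127 (nat_lit 17366003907, nat_lit 2) := top_sound R_17366003907
  ⟨V6_13070774466_ok, V6_13037482179_ok, trivial⟩
  ⟨W_17331925184_ok, W_17298895040_ok, trivial⟩ C_17366003907
theorem L_17366008002 : HH 127 (nat_lit 17366008002, nat_lit 25) := top_sound R_17366008002
  ⟨V6_16274964672_ok, V6_15218000064_ok, trivial⟩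
  ⟨W_17332187264_ok, W_17315672192_ok, W_17298899072_ok, W_17298895040_ok, W_17282121920_ok, W_16241930432_ok, W_14128001216_ok, W_13071040640_ok, W_13071036608_ok, trivial⟩ C_17366008002
theorem L_17366008065 : HH 127 (nat_lit 17366008065, nat_lit 32) := top_sound R_17366008065
  ⟨V6_16291741761_ok, V6_15218000064_ok, V6_14144258304_ok, trivial⟩
  ⟨W_17348706368_ok, W_17298374912_ok, W_17282121920_ok, W_16208380160_ok, W_15201747008_ok, W_15151415552_ok, W_14144782400_ok, W_13054001408_ok, trivial⟩ C_17366008065
theorem L_17366012034 : HH 127 (nat_lit 17366012034, nat_lit 22) := top_sound R_17366012034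
  ⟨V6_17298903168_ok, trivial⟩
  ⟨W_17348960384_ok, W_15218516096_ok, W_14144778368_ok, W_13071040640_ok, W_13070782592_ok, W_11997302912_ok, trivial⟩ C_17366012034
theorem L_17366012097 : HH 127 (nat_lit 17366012097, nat_lit 51) := top_sound R_17366012097
  ⟨V6_17298903168_ok, V6_17282126016_ok, V6_17282125953_ok, V6_16225161408_ok, V6_16224899265_ok, trivial⟩
  ⟨W_15218262080_ok, W_15201747008_ok, W_14144782400_ok, W_14144778368_ok, W_14144524352_ok, W_14144516288_ok, W_13071044672_ok, W_13071040640_ok, W_13071036608_ok, W_13070782592_ok, W_13070778560_ok, W_11997302912_ok, W_11997298880_ok, W_11997040832_ok, trivial⟩ C_17366012097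
theorem L_17366012160 : HH 127 (nat_lit 17366012160, nat_lit 58) := top_sound R_17366012160
  ⟨V6_16292007936_ok, V6_15218528256_ok, trivial⟩
  ⟨W_17315680256_ok, W_17282125952_ok, W_17282121920_ok, W_16208380160_ok, W_15218524160_ok, W_15201747008_ok, W_15184969856_ok, W_15167930624_ok, W_13054263488_ok, W_13054001408_ok, W_11997298880_ok, W_11997040832_ok, W_11980525760_ok, trivial⟩ C_17366012160
theorem L_17366016129 : HH 127 (nat_lit 17366016129, nat_lit 45) := top_sound R_17366016129
  ⟨V6_17298903168_ok, V6_16225165440_ok, V6_16225165377_ok, trivial⟩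
  ⟨W_15218516096_ok, W_15201747008_ok, W_14144782400_ok, W_14144778368_ok, W_13071044672_ok, W_13071040640_ok, W_13054271552_ok, W_13054267520_ok, trivial⟩ C_17366016129
theorem L_17366016192 : HH 127 (nat_lit 17366016192, nat_lit 72) := top_sound R_17366016192
  ⟨V6_17366003712_ok, V6_14144790528_ok, trivial⟩
  ⟨W_17298907136_ok, W_17282129984_ok, W_17282121920_ok, W_16225165376_ok, W_16208388224_ok, W_15201747008_ok, W_15184973888_ok, W_15184969856_ok, W_15151423616_ok, W_15151419584_ok, W_14128013312_ok, W_14111236160_ok, W_14111232128_ok, W_13071048704_ok, W_13071040640_ok, W_13071036608_ok, W_13054267520_ok, W_13054263488_ok, W_11997302912_ok, W_11997298880_ok, W_11980525760_ok, trivial⟩ C_17366016192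
theorem L_17366266050 : HH 127 (nat_lit 17366266050, nat_lit 14) := top_sound R_17366266050
  ⟨V6_17299157184_ok, V6_16225415361_ok, trivial⟩
  ⟨W_14144778368_ok, W_14128263296_ok, W_13071298688_ok, W_11997556928_ok, trivial⟩ C_17366266050
theorem L_17366270082 : HH 127 (nat_lit 17366270082, nat_lit 30) := top_sound R_17366270082
  ⟨V6_16291741824_ok, trivial⟩
  ⟨W_17348960384_ok, W_17332445312_ok, W_17299157120_ok, W_15202001024_ok, W_15168454784_ok, W_13071298688_ok, W_13054525568_ok, trivial⟩ C_17366270082
theorem L_17366270145 : HH 127 (nat_lit 17366270145, nat_lit 71) := top_sound R_17366270145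
  ⟨V6_17365483584_ok, V6_17348706369_ok, V6_17299161153_ok, V6_16291741761_ok, trivial⟩
  ⟨W_17315934272_ok, W_16242196544_ok, W_16225415360_ok, W_15201747008_ok, W_15185231936_ok, W_14144782400_ok, W_14111486144_ok, W_13071302720_ok, W_13071298688_ok, W_13071040640_ok, W_13054525568_ok, W_11997560960_ok, W_11997556928_ok, W_11980783808_ok, trivial⟩ C_17366270145
theorem L_17366270208 : HH 127 (nat_lit 17366270208, nat_lit 65) := top_sound R_17366270208
  ⟨V6_17365483584_ok, V6_16291741824_ok, trivial⟩
  ⟨W_17315938304_ok, W_15218524160_ok, W_15202009088_ok, W_15168454784_ok, W_14145044480_ok, W_13054525568_ok, W_13020971264_ok, W_11997560960_ok, trivial⟩ C_17366270208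
theorem L_17366274177 : HH 127 (nat_lit 17366274177, nat_lit 86) := top_sound R_17366274177
  ⟨V6_17365737600_ok, V6_17315930241_ok, V6_17299165248_ok, V6_17299161153_ok, V6_16225423425_ok, trivial⟩
  ⟨W_16242196544_ok, W_15218262080_ok, W_15202001024_ok, W_15201747008_ok, W_15201488960_ok, W_15185231936_ok, W_14144782400_ok, W_14144524352_ok, W_13071302720_ok, W_13071298688_ok, W_13071044672_ok, W_13071040640_ok, W_13054529600_ok, W_13054267520_ok, W_11997564992_ok, W_11997560960_ok, W_11997302912_ok, W_11980787840_ok, trivial⟩ C_17366274177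
theorem L_17366274240 : HH 127 (nat_lit 17366274240, nat_lit 135) := top_sound R_17366274240
  ⟨V6_17366003712_ok, V6_17315942400_ok, V6_17299165248_ok, trivial⟩
  ⟨W_17332195328_ok, W_17315938304_ok, W_17299157120_ok, W_16275230720_ok, W_16242196544_ok, W_15218524160_ok, W_15218266112_ok, W_15218262080_ok, W_15202009088_ok, W_15201747008_ok, W_14145044480_ok, W_14144516288_ok, W_14127747200_ok, W_14110970048_ok, W_13071298688_ok, W_13071040640_ok, W_13071036608_ok, W_13070782592_ok, W_13070778560_ok, W_13054521536_ok, W_13054263488_ok, W_11997564992_ok, W_11997560960_ok, W_11997556928_ok, W_11997302912_ok, W_11997298880_ok, W_11997040832_ok, W_11980787840_ok, W_11980783808_ok, W_11980525760_ok, W_11964010688_ok, trivial⟩ C_17366274240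
theorem L_17366278209 : HH 127 (nat_lit 17366278209, nat_lit 54) := top_sound R_17366278209
  ⟨V6_17299165248_ok, V6_17299161153_ok, V6_16225427520_ok, V6_16225423425_ok, V6_16225165377_ok, V6_15151685697_ok, trivial⟩
  ⟨W_17315934272_ok, W_15201747008_ok, W_15185231936_ok, W_14144782400_ok, W_13071302720_ok, W_13071044672_ok, W_13054529600_ok, W_11997564992_ok, trivial⟩ C_17366278209
theorem L_17366278272 : HH 127 (nat_lit 17366278272, nat_lit 143) := top_sound R_17366278272
  ⟨V6_17366261760_ok, V6_17315684352_ok, V6_16258719744_ok, V6_16242204672_ok, trivial⟩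
  ⟨W_17315938304_ok, W_17315934272_ok, W_17299157120_ok, W_17298907136_ok, W_17298899072_ok, W_16242196544_ok, W_16225423424_ok, W_15218524160_ok, W_15202009088_ok, W_15202001024_ok, W_15201747008_ok, W_15185231936_ok, W_15184969856_ok, W_14145044480_ok, W_14145036416_ok, W_14128013312_ok, W_13071298688_ok, W_13071048704_ok, W_13071040640_ok, W_11997564992_ok, W_11997560960_ok, W_11997302912_ok, trivial⟩ C_17366278272
theorem L_17366282304 : HH 127 (nat_lit 17366282304, nat_lit 64) := top_sound R_17366282304
  ⟨V6_17366261760_ok, V6_11997573120_ok, trivial⟩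
  ⟨W_17315938304_ok, W_16242196544_ok, W_16225423424_ok, W_15202009088_ok, W_15185231936_ok, W_15168462848_ok, W_15168458816_ok, W_15151685696_ok, W_14094725120_ok, W_14094721088_ok, trivial⟩ C_17366282304
theorem L_17366528130 : HH 127 (nat_lit 17366528130, nat_lit 23) := top_sound R_17366528130
  ⟨V6_14145298560_ok, trivial⟩
  ⟨W_17348960384_ok, W_17348702336_ok, W_17332445312_ok, W_16242192512_ok, W_15168712832_ok, trivial⟩ C_17366528130
theorem L_17366528193 : HH 127 (nat_lit 17366528193, nat_lit 38) := top_sound R_17366528193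
  ⟨V6_15202267200_ok, trivial⟩
  ⟨W_17365479488_ok, W_17365217408_ok, W_17331925184_ok, W_17315934272_ok, W_16274960576_ok, W_16242454592_ok, W_16241930432_ok, W_15185489984_ok, W_15168450752_ok, W_14111486144_ok, W_11997556928_ok, trivial⟩ C_17366528193
theorem L_17366532225 : HH 127 (nat_lit 17366532225, nat_lit 101) := top_sound R_17366532225
  ⟨V6_17365483584_ok, V6_17316192384_ok, V6_16291741824_ok, V6_16291741761_ok, trivial⟩
  ⟨W_17316192320_ok, W_16242454592_ok, W_16242196544_ok, W_15202001024_ok, W_15201747008_ok, W_15185231936_ok, W_15168716864_ok, W_14144782400_ok, W_14128525376_ok, W_14128267328_ok, W_13071560768_ok, W_13071302720_ok, W_13054787648_ok, W_11997823040_ok, W_11997819008_ok, W_11997560960_ok, W_11981045888_ok, trivial⟩ C_17366532225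
theorem L_17366532288 : HH 127 (nat_lit 17366532288, nat_lit 144) := top_sound R_17366532288
  ⟨V6_17365483584_ok, V6_17331929280_ok, V6_17316200448_ok, V6_16291741824_ok, V6_16274964672_ok, trivial⟩
  ⟨W_17365483520_ok, W_17316196352_ok, W_17315938304_ok, W_16242458624_ok, W_16242454592_ok, W_15218524160_ok, W_15202009088_ok, W_15201747008_ok, W_15185494016_ok, W_14145302528_ok, W_14145044480_ok, W_13071564800_ok, W_13071560768_ok, W_11997823040_ok, W_11997819008_ok, W_11997556928_ok, trivial⟩ C_17366532288
theorem L_17366536257 : HH 127 (nat_lit 17366536257, nat_lit 78) := top_sound R_17366536257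
  ⟨V6_17349742656_ok, V6_16276004928_ok, trivial⟩
  ⟨W_17315934272_ok, W_17315418176_ok, W_16258453568_ok, W_16242196544_ok, W_15218262080_ok, W_15201747008_ok, W_15185231936_ok, W_15168716864_ok, W_14144782400_ok, W_14144524352_ok, W_14094979136_ok, W_13071044672_ok, W_11997564992_ok, trivial⟩ C_17366536257
theorem L_17366536320 : HH 127 (nat_lit 17366536320, nat_lit 208) := top_sound R_17366536320
  ⟨V6_17366261760_ok, V6_17349746688_ok, V6_16292782080_ok, trivial⟩
  ⟨W_17316196352_ok, W_17316192320_ok, W_17315938304_ok, W_16242458624_ok, W_16242454592_ok, W_16242450560_ok, W_16242196544_ok, W_16242192512_ok, W_16241676416_ok, W_15218524160_ok, W_15218262080_ok, W_15202009088_ok, W_15201747008_ok, W_15201488960_ok, W_15185494016_ok, W_15185231936_ok, W_15168720896_ok, W_15168716864_ok, W_15168712832_ok, W_15168458816_ok, W_15168454784_ok, W_15168196736_ok, W_14144782400_ok, W_14144524352_ok, W_14111232128_ok, W_14094979136_ok, W_14094717056_ok, W_13071044672_ok, W_13070782592_ok, W_13054267520_ok, W_13037752448_ok, W_13021237376_ok,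 W_11997560960_ok, W_11997302912_ok, W_11980787840_ok, W_11964272768_ok, trivial⟩ C_17366536320
theorem L_17366540352 : HH 127 (nat_lit 17366540352, nat_lit 181) := top_sound R_17366540352
  ⟨V6_17366519808_ok, V6_17349746688_ok, V6_16292782080_ok, trivial⟩
  ⟨W_17316196352_ok, W_17315938304_ok, W_16242458624_ok, W_16242196544_ok, W_15218524160_ok, W_15202009088_ok, W_15201747008_ok, W_15185231936_ok, W_15168720896_ok, W_15168716864_ok, W_15168458816_ok, W_14145044480_ok, W_14144782400_ok, W_14128267328_ok, W_14111494208_ok, W_14111236160_ok, W_14094979136_ok, W_14094721088_ok, W_13071306752_ok, W_13071048704_ok, W_13071044672_ok, W_13021241408_ok, W_11997827072_ok, W_11997569024_ok, W_11997564992_ok, W_11964276800_ok, trivial⟩ C_17366540352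
theorem L_17366544384 : HH 127 (nat_lit 17366544384, nat_lit 78) := top_sound R_17366544384
  ⟨V6_17366519808_ok, V6_13071568896_ok, V6_11981058048_ok, trivial⟩
  ⟨W_17316196352_ok, W_17315938304_ok, W_16242458624_ok, W_15202009088_ok, W_15185494016_ok, W_15168720896_ok, W_15168462848_ok, W_14094983168_ok, W_14094725120_ok, trivial⟩ C_17366544384
theorem L_17366786178 : HH 127 (nat_lit 17366786178, nat_lit 8) := top_sound R_17366786178
  ⟨V6_15185748096_ok, V6_11998077057_ok, trivial⟩
  ⟨W_17365475456_ok, W_17348960384_ok, W_13055041664_ok, trivial⟩ C_17366786178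
theorem L_17366790273 : HH 127 (nat_lit 17366790273, nat_lit 60) := top_sound R_17366790273
  ⟨V6_16291995777_ok, V6_15185748096_ok, V6_15185748033_ok, V6_14145298560_ok, V6_14112006273_ok, V6_11998077057_ok, trivial⟩
  ⟨W_17365479488_ok, W_17365475456_ok, W_17365217408_ok, W_17348960384_ok, W_15202001024_ok, W_15185489984_ok, W_14128783424_ok, W_14128525376_ok, W_14112010304_ok, W_13071818816_ok, W_13071560768_ok, W_11998081088_ok, W_11997819008_ok, trivial⟩ C_17366790273
theorem L_17366790336 : HH 127 (nat_lit 17366790336, nat_lit 69) := top_sound R_17366790336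
  ⟨V6_16276008960_ok, trivial⟩
  ⟨W_17365217408_ok, W_17332187264_ok, W_17331925184_ok, W_15185752064_ok, W_15185489984_ok, W_14145302528_ok, W_14144516288_ok, W_14128787456_ok, W_14128001216_ok, W_14112010304_ok, W_13071822848_ok, W_13071560768_ok, W_13071298688_ok, W_13071036608_ok, W_13055045696_ok, W_13054521536_ok, W_13038268544_ok, W_11998081088_ok, W_11997819008_ok, W_11997556928_ok, W_11964526784_ok, trivial⟩ C_17366790336
theorem L_17366794305 : HH 127 (nat_lit 17366794305, nat_lit 71) := top_sound R_17366794305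
  ⟨V6_17365483584_ok, V6_16291741761_ok, V6_16276262976_ok, trivial⟩
  ⟨W_15201747008_ok, W_15185489984_ok, W_14145556544_ok, W_14128783424_ok, W_14128525376_ok, W_14128267328_ok, W_14112010304_ok, W_13071560768_ok, W_13071302720_ok, W_13054787648_ok, W_11998081088_ok, W_11997823040_ok, trivial⟩ C_17366794305
theorem L_17366794368 : HH 127 (nat_lit 17366794368, nat_lit 172) := top_sound R_17366794368
  ⟨V6_17366261760_ok, V6_16292782080_ok, V6_16291741824_ok, trivial⟩
  ⟨W_17365483520_ok, W_17348706368_ok, W_16259489792_ok, W_15218524160_ok, W_15202525184_ok, W_15202009088_ok, W_15202001024_ok, W_15201747008_ok, W_15185752064_ok, W_15185748032_ok, W_15185494016_ok, W_15185231936_ok, W_14145302528_ok, W_14145044480_ok, W_14144782400_ok, W_14128787456_ok, W_14128783424_ok, W_14128267328_ok, W_14128263296_ok, W_11998085120_ok, W_11997560960_ok, W_11981303936_ok, trivial⟩ C_17366794368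
theorem L_17366798400 : HH 127 (nat_lit 17366798400, nat_lit 185) := top_sound R_17366798400
  ⟨V6_17366519808_ok, V6_17366261760_ok, V6_16292782080_ok, trivial⟩
  ⟨W_17333227520_ok, W_16276262912_ok, W_16259485760_ok, W_16258453568_ok, W_15218524160_ok, W_15218266112_ok, W_15218262080_ok, W_15202009088_ok, W_15201747008_ok, W_15201488960_ok, W_15185748032_ok, W_15185494016_ok, W_15185489984_ok, W_15185231936_ok, W_15184973888_ok, W_14145302528_ok, W_14145044480_ok, W_14144782400_ok, W_14144524352_ok, W_14128267328_ok, W_14111494208_ok, W_13071306752_ok, W_13071044672_ok, W_11997827072_ok, W_11997564992_ok, W_11964534848_ok, trivial⟩ C_17366798400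
theorem L_17366802432 : HH 127 (nat_lit 17366802432, nat_lit 109) := top_sound R_17366802432
  ⟨V6_17366519808_ok, V6_15219302400_ok, V6_13071568896_ok, trivial⟩
  ⟨W_17350000640_ok, W_17333227520_ok, W_16276262912_ok, W_15218524160_ok, W_15202525184_ok, W_15202009088_ok, W_15185494016_ok, W_14145044480_ok, W_14128787456_ok, W_14128013312_ok, W_14112014336_ok, W_13071048704_ok, trivial⟩ C_17366802432
theorem L_17367048321 : HH 127 (nat_lit 17367048321, nat_lit 23) := top_sound R_17367048321
  ⟨V6_14145298560_ok, trivial⟩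
  ⟨W_17365475456_ok, W_17348960384_ok, W_15202001024_ok, W_14128783424_ok, W_13055303744_ok, W_11981561984_ok, trivial⟩ C_17367048321
theorem L_17367052353 : HH 127 (nat_lit 17367052353, nat_lit 40) := top_sound R_17367052353
  ⟨V6_15202267200_ok, trivial⟩
  ⟨W_17365479488_ok, W_16292515904_ok, W_16276000832_ok, W_15202521152_ok, W_14145556544_ok, W_13072076864_ok, W_13071818816_ok, W_13055303744_ok, W_11998081088_ok, trivial⟩ C_17367052353
theorem L_17367052416 : HH 127 (nat_lit 17367052416, nat_lit 95) := top_sound R_17367052416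
  ⟨V6_17366003712_ok, V6_15202787328_ok, trivial⟩
  ⟨W_17365475456_ok, W_17365217408_ok, W_15202525184_ok, W_15202001024_ok, W_14145560576_ok, W_14145302528_ok, W_14145036416_ok, W_14129045504_ok, W_14128787456_ok, W_14128783424_ok, W_14128521344_ok, W_13072080896_ok, W_13071822848_ok, W_13071818816_ok, W_13071560768_ok, W_13071556736_ok, W_13071298688_ok, W_13055307776_ok, W_13055303744_ok, W_13055045696_ok, W_13055041664_ok, W_11998081088_ok, W_11997819008_ok, W_11981566016_ok, W_11981303936_ok, trivial⟩ C_17367052416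
theorem L_17367056448 : HH 127 (nat_lit 17367056448, nat_lit 140) := top_sound R_17367056448
  ⟨V6_17366261760_ok, V6_17365483584_ok, V6_16276262976_ok, trivial⟩
  ⟨W_17365483520_ok, W_16276262912_ok, W_15218524160_ok, W_15202783232_ok, W_15202009088_ok, W_15201747008_ok, W_14145302528_ok, W_14145044480_ok, W_14144782400_ok, W_14128787456_ok, W_14128525376_ok, W_14128267328_ok, W_13071560768_ok, W_13055307776_ok, W_11998343168_ok, W_11998085120_ok, W_11981570048_ok, trivial⟩ C_17367056448
theorem L_17367060480 : HH 127 (nat_lit 17367060480, nat_lit 99) := top_sound R_17367060480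
  ⟨V6_17350262784_ok, V6_16292007936_ok, V6_15219302400_ok, V6_13071568896_ok, trivial⟩
  ⟨W_17350000640_ok, W_17349742592_ok, W_16276520960_ok, W_16276262912_ok, W_15218524160_ok, W_15202783232_ok, W_15202009088_ok, W_14145044480_ok, W_14129045504_ok, W_11998343168_ok, trivial⟩ C_17367060480
theorem L_17367310401 : HH 127 (nat_lit 17367310401, nat_lit 15) := top_sound R_17367310401
  ⟨V6_17365995585_ok, V6_13072076865_ok, V6_11998597185_ok, V6_11998339137_ok, trivial⟩
  ⟨W_16292515904_ok, W_13072076864_ok, W_13071818816_ok, W_11998597184_ok, trivial⟩ C_17367310401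
theorem L_17367310464 : HH 127 (nat_lit 17367310464, nat_lit 20) := top_sound R_17367310464
  ⟨V6_14145298560_ok, V6_13072343040_ok, trivial⟩
  ⟨W_17365999616_ok, W_14145560576_ok, trivial⟩ C_17367310464
theorem L_17367314496 : HH 127 (nat_lit 17367314496, nat_lit 58) := top_sound R_17367314496
  ⟨V6_17366003712_ok, V6_13072343040_ok, trivial⟩
  ⟨W_16292515904_ok, W_15219298304_ok, W_14145818624_ok, W_14145556544_ok, W_14145302528_ok, W_13072080896_ok, W_13072076864_ok, W_13071822848_ok, W_13071818816_ok, W_13071560768_ok, W_11998343168_ok, W_11998081088_ok, trivial⟩ C_17367314496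
theorem L_17367318528 : HH 127 (nat_lit 17367318528, nat_lit 42) := top_sound R_17367318528
  ⟨V6_15219302400_ok, V6_11998605312_ok, V6_11998347264_ok, trivial⟩
  ⟨W_17366515712_ok, W_17365483520_ok, W_15219556352_ok, W_15218524160_ok, W_13072080896_ok, trivial⟩ C_17367318528
theorem L_17382260931 : HH 127 (nat_lit 17382260931, nat_lit 1) := top_sound R_17382260931
  ⟨V6_13070516418_ok, trivial⟩
  ⟨W_17331925184_ok, trivial⟩ C_17382260931
theorem L_17382260994 : HH 127 (nat_lit 17382260994, nat_lit 6) := top_sound R_17382260994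
  ⟨V6_14127481089_ok, V6_13070516418_ok, trivial⟩
  ⟨W_17331929216_ok, W_17315152064_ok, trivial⟩ C_17382260994
theorem L_17382518979 : HH 127 (nat_lit 17382518979, nat_lit 1) := top_sound R_17382518979
  ⟨V6_13070774466_ok, trivial⟩
  ⟨W_17331925184_ok, trivial⟩ C_17382518979
theorem L_17382523074 : HH 127 (nat_lit 17382523074, nat_lit 14) := top_sound R_17382523074
  ⟨V6_14161035456_ok, V6_13087555776_ok, trivial⟩
  ⟨W_17332187264_ok, W_17331925184_ok, W_17315414144_ok, W_17315152064_ok, W_16291737728_ok, trivial⟩ C_17382523074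
theorem L_17382523137 : HH 127 (nat_lit 17382523137, nat_lit 17) := top_sound R_17382523137
  ⟨V6_14144258304_ok, V6_14127481089_ok, V6_13087555776_ok, trivial⟩
  ⟨W_17348706368_ok, W_17315414144_ok, W_15218262080_ok, trivial⟩ C_17382523137
theorem L_17382527106 : HH 127 (nat_lit 17382527106, nat_lit 6) := top_sound R_17382527106
  ⟨V6_14161289346_ok, V6_13087559808_ok, trivial⟩
  ⟨W_17332187264_ok, W_17315414144_ok, trivial⟩ C_17382527106
theorem L_17382527169 : HH 127 (nat_lit 17382527169, nat_lit 19) := top_sound R_17382527169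
  ⟨V6_14161293504_ok, V6_13087559808_ok, V6_13087555776_ok, trivial⟩
  ⟨W_17315418176_ok, W_17315414144_ok, W_17298636992_ok, W_16258453568_ok, W_16241676416_ok, W_15218262080_ok, trivial⟩ C_17382527169
theorem L_17382527232 : HH 127 (nat_lit 17382527232, nat_lit 17) := top_sound R_17382527232
  ⟨V6_15235043328_ok, V6_13087555776_ok, trivial⟩
  ⟨W_17332195328_ok, W_17315418176_ok, W_17298636992_ok, W_15235039232_ok, W_15167930624_ok, W_13054001408_ok, trivial⟩ C_17382527232
theorem L_17382781122 : HH 127 (nat_lit 17382781122, nat_lit 10) := top_sound R_17382781122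
  ⟨V6_14161293504_ok, V6_13087813824_ok, trivial⟩
  ⟨W_17348702336_ok, W_17315672192_ok, W_17298895040_ok, W_16308252800_ok, trivial⟩ C_17382781122
theorem L_17382785154 : HH 127 (nat_lit 17382785154, nat_lit 30) := top_sound R_17382785154
  ⟨V6_15235031169_ok, V6_15234777216_ok, trivial⟩
  ⟨W_17348960384_ok, W_17332445312_ok, W_17331929216_ok, W_17315414144_ok, W_17298899072_ok, W_13087813760_ok, W_13071040640_ok, trivial⟩ C_17382785154
theorem L_17382785217 : HH 127 (nat_lit 17382785217, nat_lit 57) := top_sound R_17382785217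
  ⟨V6_17315152065_ok, V6_16291741761_ok, V6_16274960577_ok, V6_15234777216_ok, V6_14161035456_ok, trivial⟩
  ⟨W_17348706368_ok, W_16308514880_ok, W_15234777152_ok, W_15201747008_ok, W_14161555520_ok, W_14144782400_ok, W_13087817792_ok, W_13087813760_ok, W_13071040640_ok, trivial⟩ C_17382785217
theorem L_17382785280 : HH 127 (nat_lit 17382785280, nat_lit 60) := top_sound R_17382785280
  ⟨V6_17382260736_ok, V6_15234777216_ok, trivial⟩
  ⟨W_17298374912_ok, W_17282121920_ok, W_16208380160_ok, W_15235039232_ok, W_15218524160_ok, W_15201747008_ok, W_15151415552_ok, W_14161559552_ok, W_13087817792_ok, W_13071040640_ok, trivial⟩ C_17382785280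
theorem L_17382789249 : HH 127 (nat_lit 17382789249, nat_lit 66) := top_sound R_17382789249
  ⟨V6_16291995777_ok, V6_15235293312_ok, V6_15235031169_ok, trivial⟩
  ⟨W_17315418176_ok, W_17298903104_ok, W_17298899072_ok, W_17282125952_ok, W_16258453568_ok, W_15218262080_ok, W_15201747008_ok, W_15201488960_ok, W_14161555520_ok, W_14144782400_ok, W_14144524352_ok, W_14127747200_ok, W_13071044672_ok, W_13071040640_ok, W_13054267520_ok, trivial⟩ C_17382789249
theorem L_17382789312 : HH 127 (nat_lit 17382789312, nat_lit 98) := top_sound R_17382789312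
  ⟨V6_16308781056_ok, V6_16292007936_ok, V6_14161563648_ok, trivial⟩
  ⟨W_17332195328_ok, W_17298895040_ok, W_17282125952_ok, W_17282121920_ok, W_16275230720_ok, W_15235297280_ok, W_15235039232_ok, W_15218524160_ok, W_15218262080_ok, W_15201747008_ok, W_15184973888_ok, W_15184969856_ok, W_14144516288_ok, W_14110970048_ok, W_13071036608_ok, W_13054263488_ok, trivial⟩ C_17382789312
theorem L_17382793281 : HH 127 (nat_lit 17382793281, nat_lit 31) := top_sound R_17382793281
  ⟨V6_17365995585_ok, V6_16225165377_ok, V6_13087821888_ok, trivial⟩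
  ⟨W_17282129984_ok, W_15201747008_ok, W_15184973888_ok, W_14161555520_ok, W_14111236160_ok, trivial⟩ C_17382793281
theorem L_17382793344 : HH 127 (nat_lit 17382793344, nat_lit 99) := top_sound R_17382793344
  ⟨V6_17382776832_ok, V6_13087825920_ok, trivial⟩
  ⟨W_17298907136_ok, W_17298903104_ok, W_17298899072_ok, W_17282129984_ok, W_16225165376_ok, W_16208388224_ok, W_15218524160_ok, W_15201747008_ok, W_15184973888_ok, W_15184969856_ok, W_15168196736_ok, W_15151423616_ok, W_14144782400_ok, W_14128013312_ok, W_14111236160_ok, W_14111232128_ok, W_13071048704_ok, W_13071040640_ok, W_13054267520_ok, trivial⟩ C_17382793344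
theorem L_17383043202 : HH 127 (nat_lit 17383043202, nat_lit 23) := top_sound R_17383043202
  ⟨V6_17315930241_ok, V6_15235031169_ok, V6_13088071809_ok, trivial⟩
  ⟨W_17381990528_ok, W_17365475456_ok, W_17365217408_ok, W_17348960384_ok, W_17299157120_ok, W_16308252800_ok, W_13088071808_ok, W_13087813760_ok, W_13071298688_ok, trivial⟩ C_17383043202
theorem L_17383043265 : HH 127 (nat_lit 17383043265, nat_lit 37) := top_sound R_17383043265
  ⟨V6_17348702400_ok, V6_17299157184_ok, V6_16274960577_ok, V6_16225415361_ok, V6_15234773184_ok, V6_13087813824_ok, trivial⟩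
  ⟨W_17315934272_ok, W_16308514880_ok, W_16308252800_ok, W_14161555520_ok, W_14145040448_ok, W_14111486144_ok, W_13088075840_ok, trivial⟩ C_17383043265
theorem L_17383047297 : HH 127 (nat_lit 17383047297, nat_lit 99) := top_sound R_17383047297
  ⟨V6_17365483584_ok, V6_16308518976_ok, V6_16291741824_ok, trivial⟩
  ⟨W_17299161152_ok, W_17299157120_ok, W_16242196544_ok, W_15202001024_ok, W_15201747008_ok, W_15185231936_ok, W_15168454784_ok, W_14161813568_ok, W_14145036416_ok, W_14144782400_ok, W_14128267328_ok, W_14128263296_ok, W_14111490176_ok, W_13088071808_ok, W_13087817792_ok, W_13071302720_ok, W_13071298688_ok, W_13071040640_ok, W_13054525568_ok, trivial⟩ C_17383047297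
theorem L_17383047360 : HH 127 (nat_lit 17383047360, nat_lit 140) := top_sound R_17383047360
  ⟨V6_17382260736_ok, V6_17365483584_ok, V6_17331929280_ok, V6_16308518976_ok, V6_16274964672_ok, trivial⟩
  ⟨W_17382256640_ok, W_17315938304_ok, W_15235297280_ok, W_15218524160_ok, W_15202009088_ok, W_14161817600_ok, W_14161559552_ok, W_14145044480_ok, W_14128267328_ok, W_14128263296_ok, W_13087817792_ok, W_13071302720_ok, W_13071298688_ok, W_13054525568_ok, trivial⟩ C_17383047360
theorem L_17383051329 : HH 127 (nat_lit 17383051329, nat_lit 73) := top_sound R_17383051329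
  ⟨V6_17382510657_ok, V6_17299165248_ok, V6_17299161153_ok, V6_16309293120_ok, V6_16225423425_ok, trivial⟩
  ⟨W_15235035200_ok, W_15218262080_ok, W_15201747008_ok, W_14161813568_ok, W_14161555520_ok, W_14161297472_ok, W_14144782400_ok, W_14144524352_ok, W_13088075840_ok, W_13087817792_ok, W_13071302720_ok, W_13071044672_ok, W_13054529600_ok, trivial⟩ C_17383051329
theorem L_17383051392 : HH 127 (nat_lit 17383051392, nat_lit 189) := top_sound R_17383051392
  ⟨V6_17382776832_ok, V6_17366261760_ok, V6_16309297152_ok, trivial⟩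
  ⟨W_17315938304_ok, W_17298903104_ok, W_16242196544_ok, W_16242192512_ok, W_16241676416_ok, W_16225423424_ok, W_15235039232_ok, W_15218524160_ok, W_15218262080_ok, W_15202009088_ok, W_15201747008_ok, W_15185231936_ok, W_15168458816_ok, W_15168454784_ok, W_15168196736_ok, W_14161559552_ok, W_14144782400_ok, W_14144524352_ok, W_14128267328_ok, W_14128263296_ok, W_14111494208_ok, W_14111232128_ok, W_14094717056_ok, W_13087817792_ok, W_13071306752_ok, W_13071044672_ok, W_13070782592_ok, W_13054267520_ok, W_13037752448_ok, trivial⟩ C_17383051392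
theorem L_17383055424 : HH 127 (nat_lit 17383055424, nat_lit 155) := top_sound R_17383055424
  ⟨V6_17383034880_ok, V6_17315684352_ok, V6_16309297152_ok, trivial⟩
  ⟨W_17315938304_ok, W_17315934272_ok, W_16242196544_ok, W_16225423424_ok, W_15235297280_ok, W_15218524160_ok, W_15202009088_ok, W_15201747008_ok, W_15185231936_ok, W_14161817600_ok, W_14161813568_ok, W_14161559552_ok, W_14161555520_ok, W_14128013312_ok, W_13087821824_ok, W_13087817792_ok, W_13071048704_ok, trivial⟩ C_17383055424
theorem L_17383059456 : HH 127 (nat_lit 17383059456, nat_lit 45) := top_sound R_17383059456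
  ⟨V6_17383034880_ok, V6_13088083968_ok, trivial⟩
  ⟨W_17315938304_ok, W_17299165184_ok, W_15202009088_ok, W_15168462848_ok, W_14145044480_ok, trivial⟩ C_17383059456
theorem L_17383301250 : HH 127 (nat_lit 17383301250, nat_lit 15) := top_sound R_17383301250
  ⟨V6_13088333952_ok, trivial⟩
  ⟨W_17381990528_ok, W_17365475456_ok, W_17348960384_ok, W_16308510848_ok, trivial⟩ C_17383301250
theorem L_17383305345 : HH 127 (nat_lit 17383305345, nat_lit 80) := top_sound R_17383305345
  ⟨V6_17316192384_ok, V6_16276004928_ok, trivial⟩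
  ⟨W_17381994560_ok, W_17381990528_ok, W_17365475456_ok, W_17365217408_ok, W_17316192320_ok, W_17315934272_ok, W_16308514880_ok, W_16308252800_ok, W_16242454592_ok, W_16242450560_ok, W_15202001024_ok, W_15185489984_ok, W_14161813568_ok, W_14161555520_ok, W_13088075840_ok, W_13088071808_ok, W_13087813760_ok, W_13071560768_ok, trivial⟩ C_17383305345
theorem L_17383305408 : HH 127 (nat_lit 17383305408, nat_lit 79) := top_sound R_17383305408
  ⟨V6_17366003712_ok, trivial⟩
  ⟨W_17382256640_ok, W_17316196352_ok, W_16308514880_ok, W_16242454592_ok, W_15235297280_ok, W_15185489984_ok, W_15168712832_ok, W_14161817600_ok, W_14144516288_ok, W_13088337920_ok, W_13071298688_ok, trivial⟩ C_17383305408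
theorem L_17383309377 : HH 127 (nat_lit 17383309377, nat_lit 83) := top_sound R_17383309377
  ⟨V6_17348706369_ok, V6_17332965441_ok, V6_16308518976_ok, V6_16291741761_ok, V6_15235813440_ok, trivial⟩
  ⟨W_17332965440_ok, W_17316192320_ok, W_17315934272_ok, W_16242454592_ok, W_16242196544_ok, W_15201747008_ok, W_15168716864_ok, W_14128525376_ok, W_14128267328_ok, W_13088333888_ok, W_13087817792_ok, W_13071560768_ok, W_13054787648_ok, trivial⟩ C_17383309377
theorem L_17383309440 : HH 127 (nat_lit 17383309440, nat_lit 239) := top_sound R_17383309440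
  ⟨V6_17382776832_ok, V6_17382260736_ok, V6_17365483584_ok, V6_16308518976_ok, V6_16291741824_ok, trivial⟩
  ⟨W_17316196352_ok, W_17316192320_ok, W_17315938304_ok, W_16242458624_ok, W_16242454592_ok, W_16242450560_ok, W_16242196544_ok, W_15235297280_ok, W_15235039232_ok, W_15218524160_ok, W_15202009088_ok, W_15202001024_ok, W_15185494016_ok, W_15185231936_ok, W_15168716864_ok, W_15168712832_ok, W_15168454784_ok, W_14161817600_ok, W_14145044480_ok, W_14145036416_ok, W_14128529408_ok, W_14128267328_ok, W_14094975104_ok, W_13088079872_ok, W_13088071808_ok, W_13087817792_ok, W_13071564800_ok, W_13071556736_ok, W_13071302720_ok, W_13054783616_ok, W_13038010496_ok, trivial⟩ C_17383309440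
theorem L_17383313472 : HH 127 (nat_lit 17383313472, nat_lit 234) := top_sound R_17383313472
  ⟨V6_17383034880_ok, V6_17382776832_ok, V6_17366519808_ok, V6_17349742656_ok, V6_15235813440_ok, trivial⟩
  ⟨W_17316196352_ok, W_17316192320_ok, W_17315938304_ok, W_16242458624_ok, W_16242454592_ok, W_16242196544_ok, W_15235039232_ok, W_15218524160_ok, W_15218262080_ok, W_15202009088_ok, W_15201747008_ok, W_15201488960_ok, W_15185494016_ok, W_15185231936_ok, W_15168716864_ok, W_15168458816_ok, W_14161297472_ok, W_14145044480_ok, W_14144782400_ok, W_14144524352_ok, W_14128529408_ok, W_14128267328_ok, W_14111494208_ok, W_14094979136_ok, W_13088079872_ok, W_13087817792_ok, W_13071564800_ok, W_13071306752_ok, W_13071044672_ok, W_13054529600_ok, trivial⟩ C_17383313472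
theorem L_17383317504 : HH 127 (nat_lit 17383317504, nat_lit 150) := top_sound R_17383317504
  ⟨V6_17383034880_ok, V6_17315684352_ok, V6_15235817472_ok, V6_15168724992_ok, trivial⟩
  ⟨W_17316196352_ok, W_17315938304_ok, W_16242458624_ok, W_15235297280_ok, W_15218524160_ok, W_15202009088_ok, W_15185494016_ok, W_15168720896_ok, W_14161817600_ok, W_14161559552_ok, W_14145302528_ok, W_14128013312_ok, W_14094983168_ok, W_13087821824_ok, W_13071048704_ok, trivial⟩ C_17383317504
theorem L_17383563393 : HH 127 (nat_lit 17383563393, nat_lit 38) := top_sound R_17383563393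
  ⟨V6_15235031169_ok, V6_15185748033_ok, V6_13088333952_ok, V6_13088071809_ok, trivial⟩
  ⟨W_17382252608_ok, W_17381990528_ok, W_17365475456_ok, W_17348960384_ok, W_14161813568_ok, W_14128783424_ok, W_13071818816_ok, trivial⟩ C_17383563393
theorem L_17383567425 : HH 127 (nat_lit 17383567425, nat_lit 64) := top_sound R_17383567425
  ⟨V6_16309293120_ok, V6_15235813440_ok, V6_15185748033_ok, trivial⟩
  ⟨W_17381994560_ok, W_17332965440_ok, W_16308514880_ok, W_16259485760_ok, W_15185489984_ok, W_14161813568_ok, W_14161555520_ok, W_14128783424_ok, W_14128525376_ok, W_14112010304_ok, W_13088333888_ok, W_13071560768_ok, W_13055045696_ok, trivial⟩ C_17383567425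
theorem L_17383567488 : HH 127 (nat_lit 17383567488, nat_lit 155) := top_sound R_17383567488
  ⟨V6_17382776832_ok, V6_16309297152_ok, trivial⟩
  ⟨W_17382256640_ok, W_17381990528_ok, W_16308514880_ok, W_16259489792_ok, W_15235297280_ok, W_15202525184_ok, W_15202001024_ok, W_15185752064_ok, W_15185748032_ok, W_15185489984_ok, W_15185485952_ok, W_14161817600_ok, W_14161813568_ok, W_14161555520_ok, W_14145560576_ok, W_14145302528_ok, W_14128787456_ok, W_14128783424_ok, W_14128263296_ok, W_14112010304_ok, W_13088595968_ok, W_13088337920_ok, W_13088071808_ok, W_13055045696_ok, trivial⟩ C_17383567488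
theorem L_17383571520 : HH 127 (nat_lit 17383571520, nat_lit 225) := top_sound R_17383571520
  ⟨V6_17382776832_ok, V6_17382260736_ok, V6_17365483584_ok, V6_16308518976_ok, V6_15235813440_ok, trivial⟩
  ⟨W_17333227520_ok, W_17332965440_ok, W_16276262912_ok, W_16259489792_ok, W_16259485760_ok, W_15235297280_ok, W_15219298304_ok, W_15218524160_ok, W_15202525184_ok, W_15202009088_ok, W_15185752064_ok, W_15185494016_ok, W_15185231936_ok, W_14162333696_ok, W_14161817600_ok, W_14161559552_ok, W_14145044480_ok, W_14128787456_ok, W_14128529408_ok, W_14128525376_ok, W_14128267328_ok, W_13088595968_ok, W_13088337920_ok, W_13088079872_ok, W_13087817792_ok, W_13071564800_ok, W_13038272576_ok, trivial⟩ C_17383571520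
theorem L_17383575552 : HH 127 (nat_lit 17383575552, nat_lit 157) := top_sound R_17383575552
  ⟨V6_17383034880_ok, V6_17382776832_ok, V6_15235817472_ok, trivial⟩
  ⟨W_17333227520_ok, W_17332195328_ok, W_16276262912_ok, W_15235039232_ok, W_15218524160_ok, W_15218266112_ok, W_15202525184_ok, W_15202009088_ok, W_15185752064_ok, W_15185494016_ok, W_14161817600_ok, W_14161559552_ok, W_14161301504_ok, W_14145302528_ok, W_14145044480_ok, W_14128787456_ok, W_14112014336_ok, W_13087821824_ok, W_13071306752_ok, trivial⟩ C_17383575552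
theorem L_17383825473 : HH 127 (nat_lit 17383825473, nat_lit 32) := top_sound R_17383825473
  ⟨V6_17382510657_ok, V6_15235813440_ok, V6_14129041473_ok, V6_13088854080_ok, trivial⟩
  ⟨W_16292515904_ok, W_14161813568_ok, W_14145556544_ok, W_14128783424_ok, W_13088333888_ok, W_13071818816_ok, W_13055303744_ok, trivial⟩ C_17383825473
theorem L_17383825536 : HH 127 (nat_lit 17383825536, nat_lit 76) := top_sound R_17383825536
  ⟨V6_15235817472_ok, V6_15202787328_ok, trivial⟩
  ⟨W_17381990528_ok, W_17365475456_ok, W_17348960384_ok, W_16308510848_ok, W_15202525184_ok, W_15202001024_ok, W_14161813568_ok, W_14145560576_ok, W_14145036416_ok, W_14129045504_ok, W_14128783424_ok, W_13088595968_ok, W_13088333888_ok, W_13088071808_ok, W_13072080896_ok, W_13071818816_ok, W_13071556736_ok, W_13055303744_ok, trivial⟩ C_17383825536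
theorem L_17383829568 : HH 127 (nat_lit 17383829568, nat_lit 150) := top_sound R_17383829568
  ⟨V6_17382776832_ok, V6_15235817472_ok, trivial⟩
  ⟨W_17382256640_ok, W_16308514880_ok, W_16276262912_ok, W_16276000832_ok, W_15235297280_ok, W_15219298304_ok, W_15202783232_ok, W_15202525184_ok, W_15202521152_ok, W_14161817600_ok, W_14145556544_ok, W_14145302528_ok, W_14128787456_ok, W_14128783424_ok, W_14128525376_ok, W_13088854016_ok, W_13088337920_ok, W_13071822848_ok, W_13071560768_ok, W_13055307776_ok, W_13055045696_ok, trivial⟩ C_17383829568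
theorem L_17383833600 : HH 127 (nat_lit 17383833600, nat_lit 147) := top_sound R_17383833600
  ⟨V6_17382776832_ok, V6_17382260736_ok, V6_15236333568_ok, trivial⟩
  ⟨W_17350000640_ok, W_16276520960_ok, W_16276262912_ok, W_15219298304_ok, W_15218524160_ok, W_15202783232_ok, W_15202525184_ok, W_15202009088_ok, W_14162591744_ok, W_14145302528_ok, W_14145044480_ok, W_14128787456_ok, W_14128529408_ok, W_13088854016_ok, W_13088337920_ok, W_13071822848_ok, W_13071564800_ok, W_13055307776_ok, trivial⟩ C_17383833600
theorem L_17384083521 : HH 127 (nat_lit 17384083521, nat_lit 8) := top_sound R_17384083521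
  ⟨V6_14145556545_ok, V6_13072339008_ok, trivial⟩
  ⟨W_17382510656_ok, W_15235551296_ok, trivial⟩ C_17384083521
theorem L_17384087616 : HH 127 (nat_lit 17384087616, nat_lit 71) := top_sound R_17384087616
  ⟨V6_15235817472_ok, V6_13089116160_ok, V6_13088858112_ok, trivial⟩
  ⟨W_17382510656_ok, W_16292515904_ok, W_15235551296_ok, W_15219298304_ok, W_14162333696_ok, W_14162071616_ok, W_14161813568_ok, W_14145818624_ok, W_14145560576_ok, W_14145556544_ok, W_13088595968_ok, W_13072080896_ok, W_13072076864_ok, W_13071818816_ok, trivial⟩ C_17384087616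

theorem H_15 : AllH 127 tb15 :=
  ⟨L_17350021185, L_17350021248, L_17350025280, L_17350029312, L_17350271106, L_17350275201, L_17350275264, L_17350279233, L_17350279296, L_17350283328, L_17350287360, L_17365483779, L_17365745859, L_17365745922, L_17365749954, L_17365750017, L_17365750080, L_17366003907, L_17366008002, L_17366008065, L_17366012034, L_17366012097, L_17366012160, L_17366016129, L_17366016192, L_17366266050, L_17366270082, L_17366270145, L_17366270208, L_17366274177, L_17366274240, L_17366278209, L_17366278272, L_17366282304, L_17366528130, L_17366528193, L_17366532225, L_17366532288, L_17366536257, L_17366536320, L_17366540352, L_17366544384, L_17366786178, L_17366790273, L_17366790336, L_17366794305, L_17366794368, L_17366798400, L_17366802432, L_17367048321, L_17367052353, L_17367052416, L_17367056448, L_17367060480, L_17367310401, L_17367310464, L_17367314496, L_17367318528, L_17382260931, L_17382260994, L_17382518979, L_17382523074, L_17382523137, L_17382527106, L_17382527169, L_17382527232, L_17382781122, L_17382785154,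 L_17382785217, L_17382785280, L_17382789249, L_17382789312, L_17382793281, L_17382793344, L_17383043202, L_17383043265, L_17383047297, L_17383047360, L_17383051329, L_17383051392, L_17383055424, L_17383059456, L_17383301250, L_17383305345, L_17383305408, L_17383309377, L_17383309440, L_17383313472, L_17383317504, L_17383563393, L_17383567425, L_17383567488, L_17383571520, L_17383575552, L_17383825473, L_17383825536, L_17383829568, L_17383833600, L_17384083521, L_17384087616, trivial⟩

theorem L_17384091648 : HH 127 (nat_lit 17384091648, nat_lit 78) := top_sound R_17384091648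
  ⟨V6_15236333568_ok, V6_15235817472_ok, V6_13088858112_ok, trivial⟩
  ⟨W_17382256640_ok, W_17366515712_ok, W_15235297280_ok, W_15219298304_ok, W_14161817600_ok, W_14145302528_ok, W_13089112064_ok, trivial⟩ C_17384091648
theorem L_17384345664 : HH 127 (nat_lit 17384345664, nat_lit 11) := top_sound R_17384345664
  ⟨V6_15235813440_ok, trivial⟩
  ⟨W_14162333696_ok, W_14162071616_ok, W_13088854016_ok, trivial⟩ C_17384345664
theorem L_17384349696 : HH 127 (nat_lit 17384349696, nat_lit 37) := top_sound R_17384349696
  ⟨V6_15235817472_ok, trivial⟩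
  ⟨W_17383030784_ok, W_15236071424_ok, W_14162591744_ok, W_14162333696_ok, W_13088595968_ok, trivial⟩ C_17384349696
theorem L_17399034051 : HH 127 (nat_lit 17399034051, nat_lit 1) := top_sound R_17399034051
  ⟨V6_14144254146_ok, trivial⟩
  ⟨W_14177546432_ok, trivial⟩ C_17399034051
theorem L_17399038146 : HH 127 (nat_lit 17399038146, nat_lit 6) := top_sound R_17399038146
  ⟨V6_14177808576_ok, V6_14127481026_ok, trivial⟩
  ⟨W_17331929216_ok, W_17331925184_ok, W_17315152064_ok, trivial⟩ C_17399038146
theorem L_17399038209 : HH 127 (nat_lit 17399038209, nat_lit 9) := top_sound R_17399038209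
  ⟨V6_14177812608_ok, V6_14127481089_ok, trivial⟩
  ⟨W_17348706368_ok, W_17298374912_ok, trivial⟩ C_17399038209
theorem L_17399296194 : HH 127 (nat_lit 17399296194, nat_lit 6) := top_sound R_17399296194
  ⟨V6_14177808576_ok, V6_14177546370_ok, V6_14144254146_ok, trivial⟩
  ⟨W_17332187264_ok, W_14177546432_ok, trivial⟩ C_17399296194
theorem L_17399300226 : HH 127 (nat_lit 17399300226, nat_lit 14) := top_sound R_17399300226
  ⟨V6_15235031169_ok, V6_14177812608_ok, trivial⟩
  ⟨W_17332187264_ok, W_17331929216_ok, W_17315414144_ok, W_15251546240_ok, trivial⟩ C_17399300226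
theorem L_17399300289 : HH 127 (nat_lit 17399300289, nat_lit 30) := top_sound R_17399300289
  ⟨V6_17315152065_ok, V6_14177812608_ok, V6_14177808576_ok, V6_14161293504_ok, V6_14161035456_ok, trivial⟩
  ⟨W_17348706368_ok, W_16308514880_ok, W_15251550272_ok, W_15218262080_ok, W_14178070592_ok, trivial⟩ C_17399300289
theorem L_17399300352 : HH 127 (nat_lit 17399300352, nat_lit 28) := top_sound R_17399300352
  ⟨V6_15251816448_ok, V6_14177812608_ok, trivial⟩
  ⟨W_17365483520_ok, W_17348706368_ok, W_17331929216_ok, W_17315152064_ok, W_17298636992_ok, W_16291741760_ok, W_15167930624_ok, trivial⟩ C_17399300352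
theorem L_17399304321 : HH 127 (nat_lit 17399304321, nat_lit 24) := top_sound R_17399304321
  ⟨V6_15235031169_ok, V6_14178074688_ok, trivial⟩
  ⟨W_17348960384_ok, W_17315418176_ok, W_17315414144_ok, W_16258453568_ok, W_16241676416_ok, W_15218262080_ok, trivial⟩ C_17399304321
theorem L_17399304384 : HH 127 (nat_lit 17399304384, nat_lit 35) := top_sound R_17399304384
  ⟨V6_15251816448_ok, V6_14178078720_ok, trivial⟩
  ⟨W_17332195328_ok, W_17332187264_ok, W_17315418176_ok, W_17298636992_ok, W_16275230720_ok, W_16258453568_ok, W_15251812352_ok, W_14178070592_ok, W_14144516288_ok, trivial⟩ C_17399304384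
theorem L_17399558274 : HH 127 (nat_lit 17399558274, nat_lit 18) := top_sound R_17399558274
  ⟨V6_15235293312_ok, trivial⟩
  ⟨W_17381990528_ok, W_17365475456_ok, W_17365217408_ok, W_17332187264_ok, W_16325025920_ok, W_16308252800_ok, W_15251546240_ok, trivial⟩ C_17399558274
theorem L_17399558337 : HH 127 (nat_lit 17399558337, nat_lit 28) := top_sound R_17399558337
  ⟨V6_17348702400_ok, V6_15234773184_ok, V6_14177808576_ok, V6_14161293504_ok, trivial⟩
  ⟨W_16325029952_ok, W_16308514880_ok, W_15251550272_ok, W_14178070592_ok, W_14177546432_ok, W_14161555520_ok, W_14128001216_ok, trivial⟩ C_17399558337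
theorem L_17399562369 : HH 127 (nat_lit 17399562369, nat_lit 75) := top_sound R_17399562369
  ⟨V6_17348706369_ok, V6_16308518976_ok, V6_16291741761_ok, V6_15234777216_ok, trivial⟩
  ⟨W_17365475456_ok, W_17348960384_ok, W_17348706368_ok, W_17332445312_ok, W_16308514880_ok, W_15251546240_ok, W_15234777152_ok, W_15201747008_ok, W_14178328640_ok, W_14178070592_ok, W_14177808512_ok, W_14161555520_ok, W_14144782400_ok, trivial⟩ C_17399562369
theorem L_17399562432 : HH 127 (nat_lit 17399562432, nat_lit 104) := top_sound R_17399562432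
  ⟨V6_17366003712_ok, V6_16325296128_ok, trivial⟩
  ⟨W_17382256640_ok, W_17365483520_ok, W_17348706368_ok, W_16308518912_ok, W_15235297280_ok, W_15235039232_ok, W_15218524160_ok, W_15201747008_ok, W_14178070592_ok, W_14144516288_ok, trivial⟩ C_17399562432
theorem L_17399566401 : HH 127 (nat_lit 17399566401, nat_lit 48) := top_sound R_17399566401
  ⟨V6_17382510657_ok, V6_17365995585_ok, V6_16325808192_ok, trivial⟩
  ⟨W_17298903104_ok, W_16258453568_ok, W_15218262080_ok, W_15201747008_ok, W_15184973888_ok, W_14161297472_ok, W_14144782400_ok, W_14144524352_ok, trivial⟩ C_17399566401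
theorem L_17399566464 : HH 127 (nat_lit 17399566464, nat_lit 130) := top_sound R_17399566464
  ⟨V6_17382776832_ok, V6_16325812224_ok, trivial⟩
  ⟨W_17332195328_ok, W_17298903104_ok, W_17298899072_ok, W_17282125952_ok, W_16275230720_ok, W_16258453568_ok, W_16241676416_ok, W_15235039232_ok, W_15218524160_ok, W_15218266112_ok, W_15218262080_ok, W_15201747008_ok, W_15201484928_ok, W_15184973888_ok, W_15184969856_ok, W_15168196736_ok, W_14178070592_ok, W_14161559552_ok, W_14161297472_ok, W_14144782400_ok, W_14144524352_ok, W_14127747200_ok, W_14111232128_ok, trivial⟩ C_17399566464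
theorem L_17399570496 : HH 127 (nat_lit 17399570496, nat_lit 87) := top_sound R_17399570496
  ⟨V6_17399549952_ok, V6_15201755136_ok, V6_14144790528_ok, trivial⟩
  ⟨W_17298907136_ok, W_17298903104_ok, W_17282129984_ok, W_16225165376_ok, W_15235297280_ok, W_15218524160_ok, W_15201747008_ok, W_15184973888_ok, W_14178332672_ok, W_14161559552_ok, W_14161555520_ok, trivial⟩ C_17399570496
theorem L_17399816322 : HH 127 (nat_lit 17399816322, nat_lit 11) := top_sound R_17399816322
  ⟨V6_17315930241_ok, trivial⟩
  ⟨W_17398505600_ok, W_17381990528_ok, W_16325025920_ok, W_16308510848_ok, W_15251546240_ok, trivial⟩ C_17399816322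
theorem L_17399820417 : HH 127 (nat_lit 17399820417, nat_lit 68) := top_sound R_17399820417
  ⟨V6_17315930241_ok, V6_16291995777_ok, V6_15235293312_ok, V6_15235031169_ok, trivial⟩
  ⟨W_17398767680_ok, W_17382252608_ok, W_17381994560_ok, W_17381990528_ok, W_17365475456_ok, W_17315934272_ok, W_17299157120_ok, W_16325029952_ok, W_16308514880_ok, W_15251550272_ok, W_14178328640_ok, W_14178070592_ok, W_14161813568_ok, W_14161555520_ok, trivial⟩ C_17399820417
theorem L_17399820480 : HH 127 (nat_lit 17399820480, nat_lit 75) := top_sound R_17399820480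
  ⟨V6_17366003712_ok, trivial⟩
  ⟨W_17382256640_ok, W_16325292032_ok, W_16325029952_ok, W_16308514880_ok, W_16225415360_ok, W_15251812352_ok, W_15235297280_ok, W_14178332672_ok, W_14178070592_ok, W_14177546432_ok, W_14161817600_ok, trivial⟩ C_17399820480
theorem L_17399824449 : HH 127 (nat_lit 17399824449, nat_lit 79) := top_sound R_17399824449
  ⟨V6_17299161153_ok, V6_16308518976_ok, V6_16291741761_ok, V6_15252328512_ok, trivial⟩
  ⟨W_17399025728_ok, W_17315934272_ok, W_16325546048_ok, W_16242196544_ok, W_15235551296_ok, W_15201747008_ok, W_15185231936_ok, W_14178586688_ok, W_14161813568_ok, W_14161555520_ok, W_14144782400_ok, trivial⟩ C_17399824449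
theorem L_17399824512 : HH 127 (nat_lit 17399824512, nat_lit 198) := top_sound R_17399824512
  ⟨V6_17382260736_ok, V6_17366261760_ok, V6_16325296128_ok, V6_16308518976_ok, V6_16291741824_ok, trivial⟩
  ⟨W_17382256640_ok, W_17315938304_ok, W_16242196544_ok, W_15235297280_ok, W_15235039232_ok, W_15218524160_ok, W_15202009088_ok, W_15202001024_ok, W_15201747008_ok, W_15185231936_ok, W_15168454784_ok, W_14178590720_ok, W_14178332672_ok, W_14178328640_ok, W_14161817600_ok, W_14161813568_ok, W_14161559552_ok, W_14145044480_ok, W_14144782400_ok, W_14128267328_ok, trivial⟩ C_17399824512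
theorem L_17399828544 : HH 127 (nat_lit 17399828544, nat_lit 194) := top_sound R_17399828544
  ⟨V6_17399549952_ok, V6_17383034880_ok, V6_17366261760_ok, trivial⟩
  ⟨W_17315938304_ok, W_17299165184_ok, W_16242196544_ok, W_16225423424_ok, W_15235297280_ok, W_15235039232_ok, W_15218524160_ok, W_15218262080_ok, W_15202009088_ok, W_15201747008_ok, W_15201488960_ok, W_15185231936_ok, W_15168458816_ok, W_14178586688_ok, W_14178332672_ok, W_14178328640_ok, W_14161817600_ok, W_14161559552_ok, W_14145044480_ok, W_14144782400_ok, W_14144524352_ok, W_14128267328_ok, W_14111494208_ok, trivial⟩ C_17399828544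
theorem L_17399832576 : HH 127 (nat_lit 17399832576, nat_lit 107) := top_sound R_17399832576
  ⟨V6_17399549952_ok, V6_16242204672_ok, V6_15252332544_ok, trivial⟩
  ⟨W_17315938304_ok, W_17299165184_ok, W_17298907136_ok, W_15235297280_ok, W_15218524160_ok, W_15202009088_ok, W_14161817600_ok, W_14161559552_ok, W_14145044480_ok, W_14128013312_ok, trivial⟩ C_17399832576
theorem L_17400078465 : HH 127 (nat_lit 17400078465, nat_lit 42) := top_sound R_17400078465
  ⟨V6_17316192384_ok, V6_16242450561_ok, V6_15235031169_ok, trivial⟩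
  ⟨W_17398767680_ok, W_17398505600_ok, W_17382252608_ok, W_17381990528_ok, W_16325288000_ok, W_15251808320_ok, W_15251546240_ok, W_14178328640_ok, W_14161813568_ok, trivial⟩ C_17400078465
theorem L_17400082497 : HH 127 (nat_lit 17400082497, nat_lit 70) := top_sound R_17400082497
  ⟨V6_16276004928_ok, V6_14178848832_ok, trivial⟩
  ⟨W_17399025728_ok, W_17398767680_ok, W_17381994560_ok, W_17332965440_ok, W_17316192320_ok, W_17315934272_ok, W_16325546048_ok, W_16325029952_ok, W_16308514880_ok, W_16242454592_ok, W_14178586688_ok, W_14178328640_ok, W_14178070592_ok, W_14161555520_ok, trivial⟩ C_17400082497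
theorem L_17400082560 : HH 127 (nat_lit 17400082560, nat_lit 170) := top_sound R_17400082560
  ⟨V6_17349746688_ok, V6_16292782080_ok, V6_15235817472_ok, trivial⟩
  ⟨W_17398771712_ok, W_17398767680_ok, W_17382256640_ok, W_17381990528_ok, W_17316196352_ok, W_17316192320_ok, W_17315934272_ok, W_16325292032_ok, W_16325029952_ok, W_16308514880_ok, W_16242454592_ok, W_16242450560_ok, W_16242192512_ok, W_15251812352_ok, W_15251546240_ok, W_15235297280_ok, W_15185489984_ok, W_15168712832_ok, W_14178332672_ok, W_14178070592_ok, W_14177808512_ok, W_14161817600_ok, W_14161555520_ok, W_14145302528_ok, W_14128263296_ok, trivial⟩ C_17400082560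
theorem L_17400086592 : HH 127 (nat_lit 17400086592, nat_lit 246) := top_sound R_17400086592
  ⟨V6_17399549952_ok, V6_17382260736_ok, V6_17366519808_ok, V6_17349742656_ok, V6_16325296128_ok, V6_16308518976_ok, V6_15252328512_ok, trivial⟩
  ⟨W_17382256640_ok, W_17316196352_ok, W_17316192320_ok, W_17315938304_ok, W_16242458624_ok, W_16242454592_ok, W_16242196544_ok, W_15235297280_ok, W_15235039232_ok, W_15218524160_ok, W_15202009088_ok, W_15185494016_ok, W_15185231936_ok, W_15168716864_ok, W_14178590720_ok, W_14178586688_ok, W_14178332672_ok, W_14178328640_ok, W_14161817600_ok, W_14161813568_ok, W_14161559552_ok, W_14145044480_ok, W_14144782400_ok, W_14128529408_ok, W_14128525376_ok, W_14128267328_ok, trivial⟩ C_17400086592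
theorem L_17400090624 : HH 127 (nat_lit 17400090624, nat_lit 170) := top_sound R_17400090624
  ⟨V6_17399549952_ok, V6_17349746688_ok, V6_15235817472_ok, trivial⟩
  ⟨W_17332195328_ok, W_17316196352_ok, W_17315938304_ok, W_16242458624_ok, W_15235297280_ok, W_15235039232_ok, W_15218524160_ok, W_15218266112_ok, W_15202009088_ok, W_15185494016_ok, W_15168720896_ok, W_14178332672_ok, W_14161817600_ok, W_14161559552_ok, W_14161301504_ok, W_14145302528_ok, W_14145044480_ok, trivial⟩ C_17400090624
theorem L_17400340545 : HH 127 (nat_lit 17400340545, nat_lit 45) := top_sound R_17400340545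
  ⟨V6_17332965441_ok, V6_15252328512_ok, V6_15185748033_ok, V6_14178848832_ok, trivial⟩
  ⟨W_17399025728_ok, W_17398767680_ok, W_16325546048_ok, W_16292515904_ok, W_16259485760_ok, W_14161813568_ok, W_14145556544_ok, W_14128783424_ok, trivial⟩ C_17400340545
theorem L_17400340608 : HH 127 (nat_lit 17400340608, nat_lit 85) := top_sound R_17400340608
  ⟨V6_15252332544_ok, V6_15235817472_ok, trivial⟩
  ⟨W_17399029760_ok, W_17398767680_ok, W_17398505600_ok, W_17381990528_ok, W_17365475456_ok, W_17332445312_ok, W_16308510848_ok, W_16259489792_ok, W_15251546240_ok, W_15202525184_ok, W_15202001024_ok, W_15185485952_ok, W_14178328640_ok, W_14161813568_ok, W_14145560576_ok, W_14128783424_ok, trivial⟩ C_17400340608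
theorem L_17400344640 : HH 127 (nat_lit 17400344640, nat_lit 196) := top_sound R_17400344640
  ⟨V6_17399549952_ok, V6_17382776832_ok, V6_15252328512_ok, V6_15235813440_ok, V6_14179110912_ok, trivial⟩
  ⟨W_17398771712_ok, W_17398767680_ok, W_17382256640_ok, W_17333227520_ok, W_17332965440_ok, W_16325029952_ok, W_16276262912_ok, W_16276000832_ok, W_16259489792_ok, W_16259485760_ok, W_15235297280_ok, W_15219298304_ok, W_15202525184_ok, W_15185752064_ok, W_15185489984_ok, W_14178848768_ok, W_14178590720_ok, W_14178586688_ok, W_14178332672_ok, W_14178328640_ok, W_14162333696_ok, W_14161817600_ok, W_14161813568_ok, W_14145560576_ok, W_14145302528_ok, W_14128787456_ok, W_14128783424_ok, W_14128525376_ok, W_14112010304_ok, trivial⟩ C_17400344640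
theorem L_17400348672 : HH 127 (nat_lit 17400348672, nat_lit 172) := top_sound R_17400348672
  ⟨V6_17399549952_ok, V6_17382260736_ok, V6_16325296128_ok, V6_15235817472_ok, trivial⟩
  ⟨W_17382256640_ok, W_17365483520_ok, W_17333227520_ok, W_16276262912_ok, W_15235297280_ok, W_15218524160_ok, W_15202525184_ok, W_15202009088_ok, W_15185752064_ok, W_15185494016_ok, W_14179106816_ok, W_14161817600_ok, W_14161559552_ok, W_14145302528_ok, W_14145044480_ok, W_14128787456_ok, W_14112014336_ok, trivial⟩ C_17400348672
theorem L_17400598593 : HH 127 (nat_lit 17400598593, nat_lit 16) := top_sound R_17400598593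
  ⟨V6_14178848832_ok, V6_14145556545_ok, trivial⟩
  ⟨W_17399025728_ok, W_16325546048_ok, W_15202521152_ok, trivial⟩ C_17400598593
theorem L_17400602688 : HH 127 (nat_lit 17400602688, nat_lit 118) := top_sound R_17400602688
  ⟨V6_16325812224_ok, V6_15252332544_ok, V6_15252328512_ok, V6_14178848832_ok, trivial⟩
  ⟨W_17399029760_ok, W_17399025728_ok, W_17398767680_ok, W_16276262912_ok, W_16276000832_ok, W_15219298304_ok, W_15202783232_ok, W_15202525184_ok, W_15202521152_ok, W_14178848768_ok, W_14178586688_ok, W_14162333696_ok, W_14162071616_ok, W_14161813568_ok, W_14145818624_ok, W_14145560576_ok, W_14145556544_ok, W_14129045504_ok, W_14128783424_ok, trivial⟩ C_17400602688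
theorem L_17400606720 : HH 127 (nat_lit 17400606720, nat_lit 136) := top_sound R_17400606720
  ⟨V6_17350262784_ok, V6_16326328320_ok, V6_16325812224_ok, V6_15252332544_ok, V6_15236333568_ok, V6_14179110912_ok, trivial⟩
  ⟨W_17398771712_ok, W_17382256640_ok, W_17350000640_ok, W_16325292032_ok, W_16276520960_ok, W_16276262912_ok, W_15235297280_ok, W_15219298304_ok, W_15202783232_ok, W_15202525184_ok, W_14179106816_ok, W_14162591744_ok, W_14161817600_ok, W_14145818624_ok, W_14145302528_ok, W_14129045504_ok, W_14128787456_ok, trivial⟩ C_17400606720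
theorem L_17400860736 : HH 127 (nat_lit 17400860736, nat_lit 42) := top_sound R_17400860736
  ⟨V6_16325808192_ok, V6_14179110912_ok, V6_14146080768_ok, trivial⟩
  ⟨W_16292515904_ok, W_15219298304_ok, W_14178848768_ok, W_14178586688_ok, W_14162333696_ok, W_14145818624_ok, W_14145556544_ok, trivial⟩ C_17400860736
theorem L_17400864768 : HH 127 (nat_lit 17400864768, nat_lit 74) := top_sound R_17400864768
  ⟨V6_16325812224_ok, V6_15236333568_ok, V6_14179110912_ok, trivial⟩
  ⟨W_17399029760_ok, W_17366515712_ok, W_15252586496_ok, W_15219298304_ok, W_14178848768_ok, W_14178590720_ok, W_14162591744_ok, W_14162333696_ok, W_14145818624_ok, W_14145560576_ok, trivial⟩ C_17400864768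
theorem L_17401122816 : HH 127 (nat_lit 17401122816, nat_lit 31) := top_sound R_17401122816
  ⟨V6_16326328320_ok, V6_15236333568_ok, V6_14179110912_ok, trivial⟩
  ⟨W_17399545856_ok, W_15252586496_ok, W_14178848768_ok, W_14162333696_ok, trivial⟩ C_17401122816
theorem L_17401380864 : HH 127 (nat_lit 17401380864, nat_lit 4) := top_sound R_17401380864
  ⟨V6_16326328320_ok, trivial⟩
  ⟨W_15252586496_ok, trivial⟩ C_17401380864
theorem L_17415811266 : HH 127 (nat_lit 17415811266, nat_lit 2) := top_sound R_17415811266
  ⟨V6_15234511041_ok, V6_15201218754_ok, trivial⟩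
  ⟨W_16291737728_ok, trivial⟩ C_17415811266
theorem L_17415815298 : HH 127 (nat_lit 17415815298, nat_lit 8) := top_sound R_17415815298
  ⟨V6_15234777216_ok, trivial⟩
  ⟨W_17365475456_ok, W_16308510848_ok, trivial⟩ C_17415815298
theorem L_17415815361 : HH 127 (nat_lit 17415815361, nat_lit 11) := top_sound R_17415815361
  ⟨V6_16291741761_ok, trivial⟩
  ⟨W_16308514880_ok, W_15234777152_ok, trivial⟩ C_17415815361
theorem L_17415815424 : HH 127 (nat_lit 17415815424, nat_lit 14) := top_sound R_17415815424
  ⟨V6_15268331520_ok, V6_15201222912_ok, trivial⟩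
  ⟨W_17365483520_ok, W_17331929216_ok, trivial⟩ C_17415815424
theorem L_17416073346 : HH 127 (nat_lit 17416073346, nat_lit 8) := top_sound R_17416073346
  ⟨V6_15235031169_ok, trivial⟩
  ⟨W_17348702336_ok, W_17332187264_ok, trivial⟩ C_17416073346
theorem L_17416073409 : HH 127 (nat_lit 17416073409, nat_lit 14) := top_sound R_17416073409
  ⟨V6_16274960577_ok, V6_15268065345_ok, V6_15234773184_ok, V6_15234511041_ok, trivial⟩
  ⟨W_17381994560_ok, W_16325029952_ok, W_16308514880_ok, W_15251550272_ok, trivial⟩ C_17416073409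
theorem L_17416077441 : HH 127 (nat_lit 17416077441, nat_lit 37) := top_sound R_17416077441
  ⟨V6_15235031169_ok, V6_15234777216_ok, trivial⟩
  ⟨W_17382252608_ok, W_17365479488_ok, W_17348960384_ok, W_16325288000_ok, W_15251808320_ok, trivial⟩ C_17416077441
theorem L_17416077504 : HH 127 (nat_lit 17416077504, nat_lit 49) := top_sound R_17416077504
  ⟨V6_16325296128_ok, V6_15268331520_ok, V6_15251816448_ok, trivial⟩
  ⟨W_17382256640_ok, W_17365483520_ok, W_17348706368_ok, W_17332187264_ok, W_17331925184_ok, W_17315152064_ok, W_17298636992_ok, W_16325292032_ok, trivial⟩ C_17416077504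
theorem L_17416081473 : HH 127 (nat_lit 17416081473, nat_lit 19) := top_sound R_17416081473
  ⟨V6_16342323264_ok, V6_15268581441_ok, trivial⟩
  ⟨W_16325546048_ok, W_16258453568_ok, W_15218262080_ok, W_15201488960_ok, trivial⟩ C_17416081473
theorem L_17416081536 : HH 127 (nat_lit 17416081536, nat_lit 41) := top_sound R_17416081536
  ⟨V6_15251816448_ok, V6_15235043328_ok, trivial⟩
  ⟨W_17348960384_ok, W_17332195328_ok, W_17332187264_ok, W_16325550080_ok, W_16275230720_ok, W_16258453568_ok, W_15268585472_ok, trivial⟩ C_17416081536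
theorem L_17416331394 : HH 127 (nat_lit 17416331394, nat_lit 11) := top_sound R_17416331394
  ⟨V6_15235031169_ok, trivial⟩
  ⟨W_17398505600_ok, W_17381990528_ok, W_17332445312_ok, W_16341540992_ok, trivial⟩ C_17416331394
theorem L_17416335489 : HH 127 (nat_lit 17416335489, nat_lit 48) := top_sound R_17416335489
  ⟨V6_15235293312_ok, V6_15235031169_ok, trivial⟩
  ⟨W_17398767680_ok, W_17382252608_ok, W_17381994560_ok, W_17381990528_ok, W_17365479488_ok, W_17365217408_ok, W_16341803072_ok, W_16325029952_ok, W_16308514880_ok, W_16308252800_ok, W_15251550272_ok, trivial⟩ C_17416335489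
theorem L_17416335552 : HH 127 (nat_lit 17416335552, nat_lit 45) := top_sound R_17416335552
  ⟨V6_17366003712_ok, trivial⟩
  ⟨W_17398771712_ok, W_17382256640_ok, W_17381994560_ok, W_16325292032_ok, W_16325029952_ok, W_16308252800_ok, W_15268327424_ok, W_15251812352_ok, trivial⟩ C_17416335552
theorem L_17416339521 : HH 127 (nat_lit 17416339521, nat_lit 48) := top_sound R_17416339521
  ⟨V6_16325808192_ok, V6_16291741761_ok, V6_15268843584_ok, trivial⟩
  ⟨W_17348706368_ok, W_16342061120_ok, W_16308514880_ok, W_16291741760_ok, W_15251550272_ok, W_15234777152_ok, W_15218262080_ok, W_15201747008_ok, trivial⟩ C_17416339521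
theorem L_17416339584 : HH 127 (nat_lit 17416339584, nat_lit 140) := top_sound R_17416339584
  ⟨V6_17382776832_ok, V6_16291741824_ok, V6_15268331520_ok, trivial⟩
  ⟨W_17382256640_ok, W_17365483520_ok, W_17365475456_ok, W_17348706368_ok, W_16325292032_ok, W_16308518912_ok, W_15268585472_ok, W_15268327424_ok, W_15251812352_ok, W_15251546240_ok, W_15235297280_ok, W_15235039232_ok, W_15234777152_ok, W_15218524160_ok, W_15201747008_ok, trivial⟩ C_17416339584
theorem L_17416343616 : HH 127 (nat_lit 17416343616, nat_lit 117) := top_sound R_17416343616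
  ⟨V6_17399549952_ok, V6_16325812224_ok, V6_15268843584_ok, trivial⟩
  ⟨W_17332195328_ok, W_17315418176_ok, W_17298903104_ok, W_16325546048_ok, W_16275230720_ok, W_16258453568_ok, W_15268585472_ok, W_15251812352_ok, W_15235297280_ok, W_15235039232_ok, W_15218524160_ok, W_15218266112_ok, W_15218262080_ok, W_15201747008_ok, W_15201488960_ok, W_15184973888_ok, trivial⟩ C_17416343616
theorem L_17416347648 : HH 127 (nat_lit 17416347648, nat_lit 60) := top_sound R_17416347648
  ⟨V6_17315684352_ok, V6_16258719744_ok, V6_15201755136_ok, trivial⟩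
  ⟨W_17399545856_ok, W_16342581248_ok, W_15268843520_ok, W_15235297280_ok, W_15218524160_ok, trivial⟩ C_17416347648
theorem L_17416593537 : HH 127 (nat_lit 17416593537, nat_lit 34) := top_sound R_17416593537
  ⟨V6_17315930241_ok, V6_16291995777_ok, V6_15235031169_ok, trivial⟩
  ⟨W_17415282752_ok, W_17398767680_ok, W_17398505600_ok, W_17382252608_ok, W_16341803072_ok, W_16341540992_ok, W_15268323392_ok, W_15268061312_ok, W_15251808320_ok, W_15251546240_ok, trivial⟩ C_17416593537
theorem L_17416597569 : HH 127 (nat_lit 17416597569, nat_lit 55) := top_sound R_17416597569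
  ⟨V6_16309293120_ok, V6_15252328512_ok, trivial⟩
  ⟨W_17415540800_ok, W_17399025728_ok, W_17398767680_ok, W_17381994560_ok, W_17315934272_ok, W_16342061120_ok, W_16341803072_ok, W_16325546048_ok, W_16325029952_ok, W_16308514880_ok, W_15251550272_ok, W_15235035200_ok, trivial⟩ C_17416597569
theorem L_17416597632 : HH 127 (nat_lit 17416597632, nat_lit 131) := top_sound R_17416597632
  ⟨V6_16325812224_ok, V6_16309297152_ok, V6_15252332544_ok, trivial⟩
  ⟨W_17415544832_ok, W_17398771712_ok, W_17398767680_ok, W_17382256640_ok, W_17381990528_ok, W_17365475456_ok, W_17365217408_ok, W_17315934272_ok, W_17299157120_ok, W_16342065152_ok, W_16341803072_ok, W_16325292032_ok, W_16325029952_ok, W_16308514880_ok, W_16242192512_ok, W_15268585472_ok, W_15268327424_ok, W_15268061312_ok, W_15251812352_ok, W_15235297280_ok, W_15202001024_ok, trivial⟩ C_17416597632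
theorem L_17416601664 : HH 127 (nat_lit 17416601664, nat_lit 189) := top_sound R_17416601664
  ⟨V6_17365483584_ok, V6_16309297152_ok, V6_16308518976_ok, V6_15268843584_ok, V6_15268331520_ok, V6_15252328512_ok, trivial⟩
  ⟨W_17382256640_ok, W_17365483520_ok, W_17348706368_ok, W_17315938304_ok, W_16325292032_ok, W_16308518912_ok, W_16242196544_ok, W_15268843520_ok, W_15268585472_ok, W_15251812352_ok, W_15251554304_ok, W_15235551296_ok, W_15235297280_ok, W_15235039232_ok, W_15218524160_ok, W_15202009088_ok, W_15201747008_ok, W_15185231936_ok, trivial⟩ C_17416601664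
theorem L_17416605696 : HH 127 (nat_lit 17416605696, nat_lit 121) := top_sound R_17416605696
  ⟨V6_17383034880_ok, V6_16292007936_ok, V6_15252332544_ok, trivial⟩
  ⟨W_17416060928_ok, W_17332195328_ok, W_17315938304_ok, W_16275230720_ok, W_15269101568_ok, W_15268843520_ok, W_15268585472_ok, W_15251812352_ok, W_15235297280_ok, W_15235039232_ok, W_15218524160_ok, W_15202009088_ok, trivial⟩ C_17416605696
theorem L_17416855617 : HH 127 (nat_lit 17416855617, nat_lit 40) := top_sound R_17416855617
  ⟨V6_16276004928_ok, trivial⟩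
  ⟨W_17415540800_ok, W_17415282752_ok, W_17399025728_ok, W_17398767680_ok, W_16342061120_ok, W_16341803072_ok, W_16325546048_ok, W_16292515904_ok, W_15268323392_ok, trivial⟩ C_17416855617
theorem L_17416855680 : HH 127 (nat_lit 17416855680, nat_lit 91) := top_sound R_17416855680
  ⟨V6_15252332544_ok, V6_15235817472_ok, trivial⟩
  ⟨W_17415544832_ok, W_17415282752_ok, W_17399029760_ok, W_17398767680_ok, W_17398505600_ok, W_17381990528_ok, W_17365475456_ok, W_17316192320_ok, W_16342065152_ok, W_16341803072_ok, W_16341540992_ok, W_16325025920_ok, W_16308510848_ok, W_16242450560_ok, W_15268585472_ok, W_15268061312_ok, W_15251546240_ok, W_15202001024_ok, W_15185485952_ok, trivial⟩ C_17416855680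
theorem L_17416859712 : HH 127 (nat_lit 17416859712, nat_lit 179) := top_sound R_17416859712
  ⟨V6_17349746688_ok, V6_15268843584_ok, V6_15252328512_ok, V6_15235817472_ok, V6_15235813440_ok, trivial⟩
  ⟨W_17415802880_ok, W_17415544832_ok, W_17415540800_ok, W_17399025728_ok, W_17398771712_ok, W_17398767680_ok, W_17382256640_ok, W_17332965440_ok, W_17316196352_ok, W_17316192320_ok, W_17315934272_ok, W_16342065152_ok, W_16341807104_ok, W_16341803072_ok, W_16325292032_ok, W_16325029952_ok, W_16308514880_ok, W_16276000832_ok, W_16242454592_ok, W_15268843520_ok, W_15268585472_ok, W_15268327424_ok, W_15251812352_ok, W_15235297280_ok, W_15185489984_ok, trivial⟩ C_17416859712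
theorem L_17416863744 : HH 127 (nat_lit 17416863744, nat_lit 172) := top_sound R_17416863744
  ⟨V6_17382260736_ok, V6_17366519808_ok, V6_16325296128_ok, V6_15268331520_ok, V6_15235817472_ok, trivial⟩
  ⟨W_17416060928_ok, W_17382256640_ok, W_17365483520_ok, W_17316196352_ok, W_17315938304_ok, W_16325292032_ok, W_16242458624_ok, W_15269101568_ok, W_15268843520_ok, W_15268585472_ok, W_15268327424_ok, W_15251812352_ok, W_15235297280_ok, W_15218524160_ok, W_15202009088_ok, W_15185494016_ok, trivial⟩ C_17416863744
theorem L_17417113665 : HH 127 (nat_lit 17417113665, nat_lit 15) := top_sound R_17417113665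
  ⟨V6_17332965441_ok, V6_15268843584_ok, V6_15268581441_ok, trivial⟩
  ⟨W_17399025728_ok, W_16292515904_ok, trivial⟩ C_17417113665
theorem L_17417117760 : HH 127 (nat_lit 17417117760, nat_lit 126) := top_sound R_17417117760
  ⟨V6_16276267008_ok, V6_15235817472_ok, V6_15219302400_ok, trivial⟩
  ⟨W_17415802880_ok, W_17415544832_ok, W_17415540800_ok, W_17415282752_ok, W_17399029760_ok, W_17399025728_ok, W_17398767680_ok, W_17333227520_ok, W_17332965440_ok, W_16342065152_ok, W_16341803072_ok, W_16276262912_ok, W_16276000832_ok, W_16259485760_ok, W_15268843520_ok, W_15268585472_ok, W_15268581440_ok, W_15235551296_ok, W_15219298304_ok, trivial⟩ C_17417117760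
theorem L_17417121792 : HH 127 (nat_lit 17417121792, nat_lit 141) := top_sound R_17417121792
  ⟨V6_16326328320_ok, V6_16276267008_ok, V6_15235817472_ok, V6_15219302400_ok, trivial⟩
  ⟨W_17416060928_ok, W_17415802880_ok, W_17415544832_ok, W_17398771712_ok, W_17382256640_ok, W_17350000640_ok, W_17333227520_ok, W_16325292032_ok, W_16276262912_ok, W_16259489792_ok, W_15269101568_ok, W_15268843520_ok, W_15268585472_ok, W_15268327424_ok, W_15251812352_ok, W_15235297280_ok, W_15185752064_ok, trivial⟩ C_17417121792
theorem L_17417375808 : HH 127 (nat_lit 17417375808, nat_lit 47) := top_sound R_17417375808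
  ⟨V6_15269105664_ok, V6_15268843584_ok, V6_15252328512_ok, V6_15202783296_ok, trivial⟩
  ⟨W_17415802880_ok, W_17415540800_ok, W_17349742592_ok, W_16342061120_ok, W_16276262912_ok, W_15202783232_ok, trivial⟩ C_17417375808
theorem L_17417379840 : HH 127 (nat_lit 17417379840, nat_lit 108) := top_sound R_17417379840
  ⟨V6_17350262784_ok, V6_16276267008_ok, V6_15235817472_ok, trivial⟩
  ⟨W_17416060928_ok, W_17415802880_ok, W_17415544832_ok, W_17399029760_ok, W_17350000640_ok, W_16342065152_ok, W_16276520960_ok, W_16276262912_ok, W_15269101568_ok, W_15268843520_ok, W_15268585472_ok, W_15202783232_ok, trivial⟩ C_17417379840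
theorem L_17417637888 : HH 127 (nat_lit 17417637888, nat_lit 48) := top_sound R_17417637888
  ⟨V6_17399549952_ok, V6_15269105664_ok, trivial⟩
  ⟨W_17416060928_ok, W_17415802880_ok, W_15268843520_ok, W_15252586496_ok, W_15219556352_ok, W_15219298304_ok, trivial⟩ C_17417637888
theorem L_17417895936 : HH 127 (nat_lit 17417895936, nat_lit 19) := top_sound R_17417895936
  ⟨V6_16326328320_ok, V6_15236333568_ok, trivial⟩
  ⟨W_17416060928_ok, W_16342581248_ok, trivial⟩ C_17417895936
theorem L_17432588418 : HH 127 (nat_lit 17432588418, nat_lit 4) := top_sound R_17432588418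
  ⟨V6_16291733634_ok, V6_16291475586_ok, trivial⟩
  ⟨W_17381990528_ok, W_16325025920_ok, trivial⟩ C_17432588418
theorem L_17432588481 : HH 127 (nat_lit 17432588481, nat_lit 5) := top_sound R_17432588481
  ⟨V6_17365217472_ok, V6_16274960577_ok, trivial⟩
  ⟨W_16308514880_ok, trivial⟩ C_17432588481
theorem L_17432592513 : HH 127 (nat_lit 17432592513, nat_lit 13) := top_sound R_17432592513
  ⟨V6_16291741761_ok, trivial⟩
  ⟨W_17382252608_ok, W_17365475456_ok, trivial⟩ C_17432592513
theorem L_17432592576 : HH 127 (nat_lit 17432592576, nat_lit 17) := top_sound R_17432592576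
  ⟨V6_16274964672_ok, trivial⟩
  ⟨W_17382256640_ok, W_16325292032_ok, trivial⟩ C_17432592576
theorem L_17432846466 : HH 127 (nat_lit 17432846466, nat_lit 4) := top_sound R_17432846466
  ⟨V6_16358318208_ok, V6_16291733634_ok, trivial⟩
  ⟨W_17348960384_ok, trivial⟩ C_17432846466
theorem L_17432850561 : HH 127 (nat_lit 17432850561, nat_lit 23) := top_sound R_17432850561
  ⟨V6_17365737600_ok, trivial⟩
  ⟨W_17398767680_ok, W_17381994560_ok, W_17381990528_ok, W_16341803072_ok, W_16325029952_ok, W_16308514880_ok, trivial⟩ C_17432850561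
theorem L_17432850624 : HH 127 (nat_lit 17432850624, nat_lit 21) := top_sound R_17432850624
  ⟨V6_16342069248_ok, trivial⟩
  ⟨W_17382256640_ok, W_17365217408_ok, W_17332187264_ok, W_17331925184_ok, trivial⟩ C_17432850624
theorem L_17432854593 : HH 127 (nat_lit 17432854593, nat_lit 22) := top_sound R_17432854593
  ⟨V6_17348706369_ok, V6_16291741761_ok, trivial⟩
  ⟨W_17399025728_ok, W_17382252608_ok, W_16342061120_ok, W_16325546048_ok, trivial⟩ C_17432854593
theorem L_17432854656 : HH 127 (nat_lit 17432854656, nat_lit 57) := top_sound R_17432854656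
  ⟨V6_16358842368_ok, V6_16308781056_ok, trivial⟩
  ⟨W_17399029760_ok, W_17382256640_ok, W_17365475456_ok, W_17348960384_ok, W_17348706368_ok, W_17332187264_ok, trivial⟩ C_17432854656
theorem L_17432858688 : HH 127 (nat_lit 17432858688, nat_lit 37) := top_sound R_17432858688
  ⟨V6_17348972544_ok, V6_16292007936_ok, trivial⟩
  ⟨W_17382510656_ok, W_16342323200_ok, W_16325550080_ok, W_16325546048_ok, trivial⟩ C_17432858688
theorem L_17433108609 : HH 127 (nat_lit 17433108609, nat_lit 21) := top_sound R_17433108609
  ⟨V6_17415282753_ok, V6_16358318208_ok, V6_16358318145_ok, V6_16341540993_ok, V6_16291995777_ok, trivial⟩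
  ⟨W_17415282752_ok, W_17398767680_ok, W_17398505600_ok, W_17381990528_ok, W_17365475456_ok, W_16341803072_ok, W_16341540992_ok, trivial⟩ C_17433108609
theorem L_17433112641 : HH 127 (nat_lit 17433112641, nat_lit 32) := top_sound R_17433112641
  ⟨V6_17365995585_ok, V6_16325808192_ok, trivial⟩
  ⟨W_17398767680_ok, W_17381994560_ok, W_16358576192_ok, W_16342061120_ok, W_16341803072_ok, W_16325546048_ok, W_16325029952_ok, W_16308514880_ok, trivial⟩ C_17433112641
theorem L_17433112704 : HH 127 (nat_lit 17433112704, nat_lit 79) := top_sound R_17433112704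
  ⟨V6_17366003712_ok, trivial⟩
  ⟨W_17415544832_ok, W_17399029760_ok, W_17398771712_ok, W_17398767680_ok, W_17381994560_ok, W_17381990528_ok, W_17365475456_ok, W_16358580224_ok, W_16342065152_ok, W_16341807104_ok, W_16341803072_ok, W_16325292032_ok, W_16325029952_ok, W_16325025920_ok, W_16308252800_ok, trivial⟩ C_17433112704
theorem L_17433116736 : HH 127 (nat_lit 17433116736, nat_lit 108) := top_sound R_17433116736
  ⟨V6_17382260736_ok, V6_17365483584_ok, V6_16308518976_ok, trivial⟩
  ⟨W_17415802880_ok, W_17399029760_ok, W_17399025728_ok, W_17382256640_ok, W_17365483520_ok, W_17348706368_ok, W_16358838272_ok, W_16342065152_ok, W_16325546048_ok, W_16325292032_ok, W_16308518912_ok, trivial⟩ C_17433116736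
theorem L_17433120768 : HH 127 (nat_lit 17433120768, nat_lit 65) := top_sound R_17433120768
  ⟨V6_16292007936_ok, V6_16275492864_ok, trivial⟩
  ⟨W_17416060928_ok, W_17399545856_ok, W_17399287808_ok, W_17332195328_ok, W_17315680256_ok, W_16342581248_ok, W_16275230720_ok, trivial⟩ C_17433120768
theorem L_17433370689 : HH 127 (nat_lit 17433370689, nat_lit 28) := top_sound R_17433370689
  ⟨V6_16309293120_ok, trivial⟩
  ⟨W_17432055872_ok, W_17415540800_ok, W_17415282752_ok, W_17399025728_ok, W_17398767680_ok, W_16358576192_ok, W_16341803072_ok, W_16325546048_ok, trivial⟩ C_17433370689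
theorem L_17433370752 : HH 127 (nat_lit 17433370752, nat_lit 57) := top_sound R_17433370752
  ⟨V6_16309297152_ok, trivial⟩
  ⟨W_17432059904_ok, W_17415544832_ok, W_17415282752_ok, W_17399029760_ok, W_17381990528_ok, W_17365475456_ok, W_17348960384_ok, W_16342065152_ok, W_16341540992_ok, trivial⟩ C_17433370752
theorem L_17433374784 : HH 127 (nat_lit 17433374784, nat_lit 122) := top_sound R_17433374784
  ⟨V6_17383034880_ok, V6_16309297152_ok, trivial⟩
  ⟨W_17432317952_ok, W_17415802880_ok, W_17415544832_ok, W_17415540800_ok, W_17399025728_ok, W_17398771712_ok, W_17398767680_ok, W_17382256640_ok, W_17381994560_ok, W_17315934272_ok, W_16358838272_ok, W_16358580224_ok, W_16358576192_ok, W_16342065152_ok, W_16341807104_ok, W_16341803072_ok, W_16325546048_ok, W_16325292032_ok, W_16325029952_ok, W_16308514880_ok, trivial⟩ C_17433374784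
theorem L_17433378816 : HH 127 (nat_lit 17433378816, nat_lit 106) := top_sound R_17433378816
  ⟨V6_17382260736_ok, V6_16325296128_ok, V6_16308781056_ok, trivial⟩
  ⟨W_17432576000_ok, W_17416060928_ok, W_17415802880_ok, W_17399029760_ok, W_17382256640_ok, W_17365483520_ok, W_17315938304_ok, W_16342065152_ok, W_16325292032_ok, trivial⟩ C_17433378816
theorem L_17433628737 : HH 127 (nat_lit 17433628737, nat_lit 11) := top_sound R_17433628737
  ⟨V6_17382510657_ok, V6_17332965441_ok, trivial⟩
  ⟨W_16358576192_ok, W_16292515904_ok, trivial⟩ C_17433628737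
theorem L_17433632832 : HH 127 (nat_lit 17433632832, nat_lit 99) := top_sound R_17433632832
  ⟨V6_17349746688_ok, V6_17349742656_ok, trivial⟩
  ⟨W_17432317952_ok, W_17432059904_ok, W_17432055872_ok, W_17415802880_ok, W_17415544832_ok, W_17415282752_ok, W_17399029760_ok, W_17399025728_ok, W_17398767680_ok, W_17316192320_ok, W_16358838272_ok, W_16358580224_ok, W_16358576192_ok, W_16342065152_ok, W_16341803072_ok, W_16325546048_ok, trivial⟩ C_17433632832
theorem L_17433636864 : HH 127 (nat_lit 17433636864, nat_lit 111) := top_sound R_17433636864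
  ⟨V6_16292782080_ok, V6_16276008960_ok, trivial⟩
  ⟨W_17432576000_ok, W_17432317952_ok, W_17416060928_ok, W_17415802880_ok, W_17415544832_ok, W_17399029760_ok, W_17398771712_ok, W_17382256640_ok, W_17316196352_ok, W_16358838272_ok, W_16358580224_ok, W_16342065152_ok, W_16341807104_ok, trivial⟩ C_17433636864
theorem L_17433890880 : HH 127 (nat_lit 17433890880, nat_lit 44) := top_sound R_17433890880
  ⟨V6_17349742656_ok, V6_16276262976_ok, trivial⟩
  ⟨W_17432317952_ok, W_17432055872_ok, W_17415802880_ok, W_17333227520_ok, W_16358838272_ok, W_16358576192_ok, W_16342323200_ok, W_16342061120_ok, trivial⟩ C_17433890880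
theorem L_17433894912 : HH 127 (nat_lit 17433894912, nat_lit 86) := top_sound R_17433894912
  ⟨V6_16292782080_ok, V6_16276267008_ok, trivial⟩
  ⟨W_17432576000_ok, W_17432317952_ok, W_17432059904_ok, W_17416060928_ok, W_17415802880_ok, W_17415544832_ok, W_17399029760_ok, W_17350000640_ok, W_16358580224_ok, W_16342065152_ok, trivial⟩ C_17433894912
theorem L_17434152960 : HH 127 (nat_lit 17434152960, nat_lit 49) := top_sound R_17434152960
  ⟨V6_17366519808_ok, trivial⟩
  ⟨W_17432317952_ok, W_17416060928_ok, W_17415802880_ok, W_16359096320_ok, W_16358838272_ok, W_16342581248_ok, W_16276520960_ok, trivial⟩ C_17434152960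

theorem H_16 : AllH 127 tb16 :=
  ⟨L_17384091648, L_17384345664, L_17384349696, L_17399034051, L_17399038146, L_17399038209, L_17399296194, L_17399300226, L_17399300289, L_17399300352, L_17399304321, L_17399304384, L_17399558274, L_17399558337, L_17399562369, L_17399562432, L_17399566401, L_17399566464, L_17399570496, L_17399816322, L_17399820417, L_17399820480, L_17399824449, L_17399824512, L_17399828544, L_17399832576, L_17400078465, L_17400082497, L_17400082560, L_17400086592, L_17400090624, L_17400340545, L_17400340608, L_17400344640, L_17400348672, L_17400598593, L_17400602688, L_17400606720, L_17400860736, L_17400864768, L_17401122816, L_17401380864, L_17415811266, L_17415815298, L_17415815361, L_17415815424, L_17416073346, L_17416073409, L_17416077441, L_17416077504, L_17416081473, L_17416081536, L_17416331394, L_17416335489, L_17416335552, L_17416339521, L_17416339584, L_17416343616, L_17416347648, L_17416593537, L_17416597569, L_17416597632, L_17416601664, L_17416605696, L_17416855617, L_17416855680, L_17416859712, L_17416863744,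 L_17417113665, L_17417117760, L_17417121792, L_17417375808, L_17417379840, L_17417637888, L_17417895936, L_17432588418, L_17432588481, L_17432592513, L_17432592576, L_17432846466, L_17432850561, L_17432850624, L_17432854593, L_17432854656, L_17432858688, L_17433108609, L_17433112641, L_17433112704, L_17433116736, L_17433120768, L_17433370689, L_17433370752, L_17433374784, L_17433378816, L_17433628737, L_17433632832, L_17433636864, L_17433890880, L_17433894912, L_17434152960, trivial⟩

theorem L_17434411008 : HH 127 (nat_lit 17434411008, nat_lit 14) := top_sound R_17434411008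
  ⟨V6_16326328320_ok, trivial⟩
  ⟨W_17432576000_ok, W_17416060928_ok, W_16359096320_ok, trivial⟩ C_17434411008
theorem L_17449103553 : HH 127 (nat_lit 17449103553, nat_lit 1) := top_sound R_17449103553
  ⟨V6_17365217472_ok, trivial⟩
  ⟨W_17381994560_ok, trivial⟩ C_17449103553
theorem L_17449361538 : HH 127 (nat_lit 17449361538, nat_lit 3) := top_sound R_17449361538
  ⟨V6_17381990529_ok, trivial⟩
  ⟨W_17365475456_ok, trivial⟩ C_17449361538
theorem L_17449365633 : HH 127 (nat_lit 17449365633, nat_lit 6) := top_sound R_17449365633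
  ⟨V6_17381990529_ok, trivial⟩
  ⟨W_17398767680_ok, W_17381994560_ok, trivial⟩ C_17449365633
theorem L_17449365696 : HH 127 (nat_lit 17449365696, nat_lit 5) := top_sound R_17449365696
  ⟨V6_17348702400_ok, trivial⟩
  ⟨W_17398771712_ok, trivial⟩ C_17449365696
theorem L_17449369665 : HH 127 (nat_lit 17449369665, nat_lit 4) := top_sound R_17449369665
  ⟨V6_17348706369_ok, trivial⟩
  ⟨W_17399025728_ok, trivial⟩ C_17449369665
theorem L_17449369728 : HH 127 (nat_lit 17449369728, nat_lit 18) := top_sound R_17449369728
  ⟨V6_17382260736_ok, trivial⟩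
  ⟨W_17399029760_ok, W_17365475456_ok, trivial⟩ C_17449369728
theorem L_17449623681 : HH 127 (nat_lit 17449623681, nat_lit 8) := top_sound R_17449623681
  ⟨V6_17365737600_ok, trivial⟩
  ⟨W_17415282752_ok, W_17398767680_ok, trivial⟩ C_17449623681
theorem L_17449627713 : HH 127 (nat_lit 17449627713, nat_lit 12) := top_sound R_17449627713
  ⟨V6_17399025729_ok, V6_17382510657_ok, trivial⟩
  ⟨W_17399025728_ok, W_17398767680_ok, W_17381994560_ok, trivial⟩ C_17449627713
theorem L_17449627776 : HH 127 (nat_lit 17449627776, nat_lit 26) := top_sound R_17449627776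
  ⟨V6_17365737600_ok, trivial⟩
  ⟨W_17415544832_ok, W_17398771712_ok, W_17382256640_ok, W_17381994560_ok, trivial⟩ C_17449627776
theorem L_17449631808 : HH 127 (nat_lit 17449631808, nat_lit 35) := top_sound R_17449631808
  ⟨V6_17365483584_ok, trivial⟩
  ⟨W_17415802880_ok, W_17399029760_ok, W_17399025728_ok, trivial⟩ C_17449631808
theorem L_17449635840 : HH 127 (nat_lit 17449635840, nat_lit 11) := top_sound R_17449635840
  ⟨V6_17348972544_ok, trivial⟩
  ⟨W_17416060928_ok, W_17332195328_ok, trivial⟩ C_17449635840
theorem L_17449885761 : HH 127 (nat_lit 17449885761, nat_lit 10) := top_sound R_17449885761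
  ⟨V6_17415282753_ok, V6_17365995585_ok, trivial⟩
  ⟨W_17415540800_ok, W_17415282752_ok, W_17398767680_ok, trivial⟩ C_17449885761
theorem L_17449885824 : HH 127 (nat_lit 17449885824, nat_lit 30) := top_sound R_17449885824
  ⟨V6_17365737600_ok, trivial⟩
  ⟨W_17415544832_ok, W_17399029760_ok, W_17398767680_ok, trivial⟩ C_17449885824
theorem L_17449889856 : HH 127 (nat_lit 17449889856, nat_lit 51) := top_sound R_17449889856
  ⟨V6_17366003712_ok, trivial⟩
  ⟨W_17432317952_ok, W_17415802880_ok, W_17415544832_ok, W_17415540800_ok, W_17399029760_ok, W_17399025728_ok, trivial⟩ C_17449889856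
theorem L_17449893888 : HH 127 (nat_lit 17449893888, nat_lit 52) := top_sound R_17449893888
  ⟨V6_17399549952_ok, trivial⟩
  ⟨W_17432576000_ok, W_17416060928_ok, W_17415802880_ok, W_17382256640_ok, W_17365483520_ok, trivial⟩ C_17449893888
theorem L_17450143809 : HH 127 (nat_lit 17450143809, nat_lit 7) := top_sound R_17450143809
  ⟨V6_17365995585_ok, trivial⟩
  ⟨W_17432055872_ok, W_17399025728_ok, trivial⟩ C_17450143809
theorem L_17450147904 : HH 127 (nat_lit 17450147904, nat_lit 48) := top_sound R_17450147904
  ⟨V6_17366261760_ok, trivial⟩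
  ⟨W_17448833024_ok, W_17432317952_ok, W_17432059904_ok, W_17432055872_ok, W_17415802880_ok, W_17415544832_ok, W_17415282752_ok, W_17399025728_ok, W_17398767680_ok, trivial⟩ C_17450147904
theorem L_17450151936 : HH 127 (nat_lit 17450151936, nat_lit 55) := top_sound R_17450151936
  ⟨V6_17383034880_ok, trivial⟩
  ⟨W_17432576000_ok, W_17432317952_ok, W_17415802880_ok, W_17415544832_ok, W_17398771712_ok, W_17382256640_ok, trivial⟩ C_17450151936
theorem L_17450405952 : HH 127 (nat_lit 17450405952, nat_lit 21) := top_sound R_17450405952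
  ⟨V6_17366519808_ok, trivial⟩
  ⟨W_17432317952_ok, W_17432055872_ok, W_17415802880_ok, W_17415540800_ok, trivial⟩ C_17450405952
theorem L_17450409984 : HH 127 (nat_lit 17450409984, nat_lit 57) := top_sound R_17450409984
  ⟨V6_17448837120_ok, V6_17349746688_ok, trivial⟩
  ⟨W_17432576000_ok, W_17432317952_ok, W_17416060928_ok, W_17415802880_ok, W_17415544832_ok, W_17399545856_ok, trivial⟩ C_17450409984
theorem L_17450668032 : HH 127 (nat_lit 17450668032, nat_lit 31) := top_sound R_17450668032
  ⟨V6_17366519808_ok, trivial⟩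
  ⟨W_17448833024_ok, W_17432317952_ok, W_17416060928_ok, W_17415802880_ok, trivial⟩ C_17450668032
theorem L_17450926080 : HH 127 (nat_lit 17450926080, nat_lit 18) := top_sound R_17450926080
  ⟨V6_17449353216_ok, V6_17350262784_ok, trivial⟩
  ⟨W_17432576000_ok, W_17416060928_ok, trivial⟩ C_17450926080
theorem L_18355872003 : HH 127 (nat_lit 18355872003, nat_lit 1) := top_sound R_18355872003
  ⟨V6_14060896515_ok, trivial⟩
  ⟨W_15134646464_ok, trivial⟩ C_18355872003
theorem L_18355872066 : HH 127 (nat_lit 18355872066, nat_lit 1) := top_sound R_18355872066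
  ⟨V6_11913421122_ok, trivial⟩
  ⟨W_17282125952_ok, trivial⟩ C_18355872066
theorem L_18355872129 : HH 127 (nat_lit 18355872129, nat_lit 2) := top_sound R_18355872129
  ⟨V6_14060904768_ok, trivial⟩
  ⟨W_17282129984_ok, trivial⟩ C_18355872129
theorem L_18372641028 : HH 127 (nat_lit 18372641028, nat_lit 1) := top_sound R_18372641028
  ⟨V6_12987154692_ok, trivial⟩
  ⟨W_18355339520_ok, trivial⟩ C_18372641028
theorem L_18372645123 : HH 127 (nat_lit 18372645123, nat_lit 1) := top_sound R_18372645123
  ⟨V6_11930194179_ok, trivial⟩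
  ⟨W_17298636992_ok, trivial⟩ C_18372645123
theorem L_18372649155 : HH 127 (nat_lit 18372649155, nat_lit 1) := top_sound R_18372649155
  ⟨V6_14060904642_ok, trivial⟩
  ⟨W_17298895040_ok, trivial⟩ C_18372649155
theorem L_18372649218 : HH 127 (nat_lit 18372649218, nat_lit 5) := top_sound R_18372649218
  ⟨V6_12987162882_ok, V6_11930198274_ok, trivial⟩
  ⟨W_18355863680_ok, W_17298899072_ok, trivial⟩ C_18372649218
theorem L_18372649281 : HH 127 (nat_lit 18372649281, nat_lit 4) := top_sound R_18372649281
  ⟨V6_14077677888_ok, V6_14060904768_ok, trivial⟩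
  ⟨W_17298903104_ok, W_17282129984_ok, trivial⟩ C_18372649281
theorem L_18372649344 : HH 127 (nat_lit 18372649344, nat_lit 4) := top_sound R_18372649344
  ⟨V6_14060904768_ok, V6_11930198400_ok, trivial⟩
  ⟨W_17298907136_ok, trivial⟩ C_18372649344
theorem L_18372903171 : HH 127 (nat_lit 18372903171, nat_lit 1) := top_sound R_18372903171
  ⟨V6_15151677633_ok, trivial⟩
  ⟨W_17298374912_ok, trivial⟩ C_18372903171
theorem L_18372907203 : HH 127 (nat_lit 18372907203, nat_lit 2) := top_sound R_18372907203
  ⟨V6_13004198082_ok, trivial⟩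
  ⟨W_18372374720_ok, W_17298636992_ok, trivial⟩ C_18372907203
theorem L_18372907266 : HH 127 (nat_lit 18372907266, nat_lit 2) := top_sound R_18372907266
  ⟨V6_13004198082_ok, trivial⟩
  ⟨W_18372378752_ok, W_17298636992_ok, trivial⟩ C_18372907266
theorem L_18372907329 : HH 127 (nat_lit 18372907329, nat_lit 1) := top_sound R_18372907329
  ⟨V6_15151157505_ok, trivial⟩
  ⟨W_18372382784_ok, trivial⟩ C_18372907329
theorem L_18372911298 : HH 127 (nat_lit 18372911298, nat_lit 3) := top_sound R_18372911298
  ⟨V6_13003940034_ok, trivial⟩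
  ⟨W_18372636800_ok, W_17298895040_ok, trivial⟩ C_18372911298
theorem L_18372911361 : HH 127 (nat_lit 18372911361, nat_lit 5) := top_sound R_18372911361
  ⟨V6_15151685697_ok, trivial⟩
  ⟨W_18372640832_ok, W_15151415552_ok, trivial⟩ C_18372911361
theorem L_18372911424 : HH 127 (nat_lit 18372911424, nat_lit 4) := top_sound R_18372911424
  ⟨V6_14077939968_ok, trivial⟩
  ⟨W_17298907136_ok, W_16225427456_ok, trivial⟩ C_18372911424
theorem L_18372915393 : HH 127 (nat_lit 18372915393, nat_lit 2) := top_sound R_18372915393
  ⟨V6_14077939905_ok, trivial⟩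
  ⟨W_18372898880_ok, trivial⟩ C_18372915393
theorem L_18372915456 : HH 127 (nat_lit 18372915456, nat_lit 1) := top_sound R_18372915456
  ⟨V6_14077948032_ok, trivial⟩
  ⟨W_18372902912_ok, trivial⟩ C_18372915456
theorem L_18389156100 : HH 127 (nat_lit 18389156100, nat_lit 1) := top_sound R_18389156100
  ⟨V6_15134114052_ok, trivial⟩
  ⟨W_15167930624_ok, trivial⟩ C_18389156100
theorem L_18389418243 : HH 127 (nat_lit 18389418243, nat_lit 4) := top_sound R_18389418243
  ⟨V6_16207855875_ok, V6_15134638338_ok, trivial⟩
  ⟨W_18372116672_ok, W_17315152064_ok, W_17298636992_ok, trivial⟩ C_18389418243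
theorem L_18389422275 : HH 127 (nat_lit 18389422275, nat_lit 2) := top_sound R_18389422275
  ⟨V6_15151157442_ok, V6_15134642370_ok, trivial⟩
  ⟨W_18372374720_ok, W_16241930432_ok, trivial⟩ C_18389422275
theorem L_18389422338 : HH 127 (nat_lit 18389422338, nat_lit 8) := top_sound R_18389422338
  ⟨V6_16208384256_ok, V6_15134638338_ok, V6_14060900610_ok, trivial⟩
  ⟨W_18355863680_ok, W_17315414144_ok, W_15167930624_ok, trivial⟩ C_18389422338
theorem L_18389422401 : HH 127 (nat_lit 18389422401, nat_lit 3) := top_sound R_18389422401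
  ⟨V6_15134642433_ok, V6_14077677888_ok, trivial⟩
  ⟨W_18372382784_ok, W_17315418176_ok, trivial⟩ C_18389422401
theorem L_18389426370 : HH 127 (nat_lit 18389426370, nat_lit 10) := top_sound R_18389426370
  ⟨V6_15134646465_ok, V6_15134646402_ok, V6_14077681794_ok, V6_14060904642_ok, trivial⟩
  ⟨W_18372636800_ok, W_17315672192_ok, W_17298895040_ok, W_16241930432_ok, trivial⟩ C_18389426370
theorem L_18389426433 : HH 127 (nat_lit 18389426433, nat_lit 16) := top_sound R_18389426433
  ⟨V6_16225165377_ok, V6_16208384256_ok, V6_16208384193_ok, V6_16208380161_ok, trivial⟩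
  ⟨W_18372640832_ok, W_18355867712_ok, W_17282129984_ok, W_16208388224_ok, W_15168200768_ok, trivial⟩ C_18389426433
theorem L_18389426496 : HH 127 (nat_lit 18389426496, nat_lit 14) := top_sound R_18389426496
  ⟨V6_17315684352_ok, trivial⟩
  ⟨W_18372644864_ok, W_18355871744_ok, W_17282129984_ok, W_16208388224_ok, W_13003940096_ok, W_10873233728_ok, trivial⟩ C_18389426496
theorem L_18389680323 : HH 127 (nat_lit 18389680323, nat_lit 3) := top_sound R_18389680323
  ⟨V6_15151677633_ok, trivial⟩
  ⟨W_18372374720_ok, W_17315152064_ok, trivial⟩ C_18389680323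
theorem L_18389680386 : HH 127 (nat_lit 18389680386, nat_lit 9) := top_sound R_18389680386
  ⟨V6_17315152065_ok, V6_15151677633_ok, trivial⟩
  ⟨W_18388893824_ok, W_17298899072_ok, W_15151415552_ok, W_13020971264_ok, trivial⟩ C_18389680386
theorem L_18389684418 : HH 127 (nat_lit 18389684418, nat_lit 11) := top_sound R_18389684418
  ⟨V6_15151419522_ok, V6_14077939905_ok, V6_14077939842_ok, V6_13004198082_ok, trivial⟩
  ⟨W_18389151872_ok, W_18372378752_ok, W_18372374720_ok, W_17315414144_ok, W_16225415360_ok, trivial⟩ C_18389684418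
theorem L_18389684481 : HH 127 (nat_lit 18389684481, nat_lit 18) := top_sound R_18389684481
  ⟨V6_16225423425_ok, V6_15151681665_ok, V6_14077939968_ok, V6_14077939905_ok, trivial⟩
  ⟨W_18389155904_ok, W_18372640832_ok, W_17315418176_ok, W_16242196544_ok, W_11947233536_ok, trivial⟩ C_18389684481
theorem L_18389684544 : HH 127 (nat_lit 18389684544, nat_lit 9) := top_sound R_18389684544
  ⟨V6_15151681728_ok, trivial⟩
  ⟨W_18372382784_ok, W_17315680256_ok, trivial⟩ C_18389684544
theorem L_18389688450 : HH 127 (nat_lit 18389688450, nat_lit 9) := top_sound R_18389688450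
  ⟨V6_15151685760_ok, V6_15151419522_ok, trivial⟩
  ⟨W_18389409920_ok, W_17298899072_ok, trivial⟩ C_18389688450
theorem L_18389688513 : HH 127 (nat_lit 18389688513, nat_lit 24) := top_sound R_18389688513
  ⟨V6_16225415361_ok, V6_15151685697_ok, V6_15151677633_ok, V6_14077944000_ok, V6_14077939905_ok, trivial⟩
  ⟨W_18389413952_ok, W_18372640832_ok, W_17315934272_ok, W_15168200768_ok, trivial⟩ C_18389688513
theorem L_18389688576 : HH 127 (nat_lit 18389688576, nat_lit 32) := top_sound R_18389688576
  ⟨V6_17315684352_ok, V6_14077939968_ok, trivial⟩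
  ⟨W_18389417984_ok, W_18372644864_ok, W_18372640832_ok, W_17315938304_ok, W_14094450944_ok, W_13020971264_ok, trivial⟩ C_18389688576
theorem L_18389692545 : HH 127 (nat_lit 18389692545, nat_lit 9) := top_sound R_18389692545
  ⟨V6_14094725184_ok, V6_13020983361_ok, trivial⟩
  ⟨W_18372898880_ok, W_17315934272_ok, trivial⟩ C_18389692545
theorem L_18389692608 : HH 127 (nat_lit 18389692608, nat_lit 15) := top_sound R_18389692608
  ⟨V6_17299157184_ok, V6_14077944000_ok, trivial⟩
  ⟨W_18389676032_ok, W_18372902912_ok, W_17315938304_ok, trivial⟩ C_18389692608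
theorem L_18389942466 : HH 127 (nat_lit 18389942466, nat_lit 9) := top_sound R_18389942466
  ⟨V6_14094975168_ok, trivial⟩
  ⟨W_18389151872_ok, W_18388893824_ok, W_17315414144_ok, trivial⟩ C_18389942466
theorem L_18389942529 : HH 127 (nat_lit 18389942529, nat_lit 14) := top_sound R_18389942529
  ⟨V6_14094975168_ok, trivial⟩
  ⟨W_18389155904_ok, W_17315414144_ok, W_17315152064_ok, W_16241410304_ok, trivial⟩ C_18389942529
theorem L_18389946498 : HH 127 (nat_lit 18389946498, nat_lit 12) := top_sound R_18389946498
  ⟨V6_16242450561_ok, V6_15168708738_ok, trivial⟩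
  ⟨W_18389409920_ok, W_15168196736_ok, W_13021237376_ok, trivial⟩ C_18389946498
theorem L_18389946561 : HH 127 (nat_lit 18389946561, nat_lit 22) := top_sound R_18389946561
  ⟨V6_15168720960_ok, trivial⟩
  ⟨W_18389413952_ok, W_18389151872_ok, W_17315934272_ok, W_17315414144_ok, W_16241930432_ok, trivial⟩ C_18389946561
theorem L_18389946624 : HH 127 (nat_lit 18389946624, nat_lit 30) := top_sound R_18389946624
  ⟨V6_16242462720_ok, V6_15168720960_ok, trivial⟩
  ⟨W_18389417984_ok, W_17315680256_ok, W_17315418176_ok, W_15167930624_ok, W_14094450944_ok, W_13020971264_ok, W_11947491584_ok, trivial⟩ C_18389946624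
theorem L_18389950593 : HH 127 (nat_lit 18389950593, nat_lit 27) := top_sound R_18389950593
  ⟨V6_17316192384_ok, V6_13021241409_ok, trivial⟩
  ⟨W_18389413952_ok, W_16242196544_ok, W_15168200768_ok, W_14094979136_ok, trivial⟩ C_18389950593
theorem L_18389950656 : HH 127 (nat_lit 18389950656, nat_lit 43) := top_sound R_18389950656
  ⟨V6_17315684352_ok, V6_15168724992_ok, trivial⟩
  ⟨W_18389676032_ok, W_18389417984_ok, W_17316196352_ok, W_16242458624_ok, W_15168712832_ok, W_13021233344_ok, trivial⟩ C_18389950656
theorem L_18389954625 : HH 127 (nat_lit 18389954625, nat_lit 10) := top_sound R_18389954625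
  ⟨V6_18389930049_ok, V6_14094979137_ok, trivial⟩
  ⟨W_18389672000_ok, W_17316192320_ok, trivial⟩ C_18389954625
theorem L_18389954688 : HH 127 (nat_lit 18389954688, nat_lit 32) := top_sound R_18389954688
  ⟨V6_17316192384_ok, V6_15168724992_ok, trivial⟩
  ⟨W_18389934080_ok, W_18389676032_ok, W_17315938304_ok, W_14094721088_ok, trivial⟩ C_18389954688
theorem L_18389958720 : HH 127 (nat_lit 18389958720, nat_lit 14) := top_sound R_18389958720
  ⟨V6_15168724992_ok, trivial⟩
  ⟨W_18389934080_ok, W_17316192320_ok, trivial⟩ C_18389958720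
theorem L_18405671172 : HH 127 (nat_lit 18405671172, nat_lit 1) := top_sound R_18405671172
  ⟨V6_17248043268_ok, trivial⟩
  ⟨W_18355339520_ok, trivial⟩ C_18405671172
theorem L_18405933315 : HH 127 (nat_lit 18405933315, nat_lit 3) := top_sound R_18405933315
  ⟨V6_15184707840_ok, trivial⟩
  ⟨W_18372116672_ok, W_17315152064_ok, trivial⟩ C_18405933315
theorem L_18405937347 : HH 127 (nat_lit 18405937347, nat_lit 1) := top_sound R_18405937347
  ⟨V6_15151157442_ok, trivial⟩
  ⟨W_18372374720_ok, trivial⟩ C_18405937347
theorem L_18405937410 : HH 127 (nat_lit 18405937410, nat_lit 2) := top_sound R_18405937410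
  ⟨V6_15151157442_ok, V6_11963486466_ok, trivial⟩
  ⟨W_18372378752_ok, W_15167930624_ok, trivial⟩ C_18405937410
theorem L_18405937473 : HH 127 (nat_lit 18405937473, nat_lit 1) := top_sound R_18405937473
  ⟨V6_13037228352_ok, trivial⟩
  ⟨W_18372382784_ok, trivial⟩ C_18405937473
theorem L_18406195395 : HH 127 (nat_lit 18406195395, nat_lit 4) := top_sound R_18406195395
  ⟨V6_17315152065_ok, trivial⟩
  ⟨W_18372374720_ok, W_17331925184_ok, W_17282121920_ok, W_16241930432_ok, trivial⟩ C_18406195395
theorem L_18406195458 : HH 127 (nat_lit 18406195458, nat_lit 12) := top_sound R_18406195458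
  ⟨V6_16258187520_ok, V6_16208380161_ok, trivial⟩
  ⟨W_18355339520_ok, W_17298899072_ok, W_15184969856_ok, trivial⟩ C_18406195458
theorem L_18406199490 : HH 127 (nat_lit 18406199490, nat_lit 16) := top_sound R_18406199490
  ⟨V6_16225161408_ok, trivial⟩
  ⟨W_18389151872_ok, W_17332187264_ok, W_15184969856_ok, trivial⟩ C_18406199490
theorem L_18406199553 : HH 127 (nat_lit 18406199553, nat_lit 23) := top_sound R_18406199553
  ⟨V6_16225161408_ok, V6_16208384256_ok, V6_16208380161_ok, trivial⟩
  ⟨W_18372640832_ok, W_16258453568_ok, W_15184973888_ok, W_15184969856_ok, trivial⟩ C_18406199553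
theorem L_18406199616 : HH 127 (nat_lit 18406199616, nat_lit 11) := top_sound R_18406199616
  ⟨V6_18405937152_ok, trivial⟩
  ⟨W_18372644864_ok, W_15184973888_ok, trivial⟩ C_18406199616
theorem L_18406203522 : HH 127 (nat_lit 18406203522, nat_lit 13) := top_sound R_18406203522
  ⟨V6_17282125953_ok, V6_15151419522_ok, V6_15134646402_ok, V6_14077681794_ok, trivial⟩
  ⟨W_17332445312_ok, W_15184969856_ok, W_13037494400_ok, trivial⟩ C_18406203522
theorem L_18406203585 : HH 127 (nat_lit 18406203585, nat_lit 29) := top_sound R_18406203585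
  ⟨V6_17282125953_ok, V6_16225165440_ok, V6_16225165377_ok, V6_16208384193_ok, trivial⟩
  ⟨W_18389413952_ok, W_18372640832_ok, W_17282129984_ok, W_15184973888_ok, W_14111236160_ok, W_13037494400_ok, trivial⟩ C_18406203585
theorem L_18406203648 : HH 127 (nat_lit 18406203648, nat_lit 40) := top_sound R_18406203648
  ⟨V6_17315684352_ok, V6_16258719744_ok, trivial⟩
  ⟨W_18389417984_ok, W_18372640832_ok, W_18355871744_ok, W_18355863680_ok, W_16208388224_ok, W_16208380160_ok, W_15184969856_ok, W_14094450944_ok, trivial⟩ C_18406203648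
theorem L_18406453443 : HH 127 (nat_lit 18406453443, nat_lit 2) := top_sound R_18406453443
  ⟨V6_14077931715_ok, V6_13037482179_ok, trivial⟩
  ⟨W_18372374720_ok, W_17331925184_ok, trivial⟩ C_18406453443
theorem L_18406457538 : HH 127 (nat_lit 18406457538, nat_lit 20) := top_sound R_18406457538
  ⟨V6_16225419456_ok, V6_15151677633_ok, trivial⟩
  ⟨W_18405666944_ok, W_18389151872_ok, W_18388893824_ok, W_18372374720_ok, W_18372116672_ok, W_17332187264_ok, W_17331925184_ok, W_14111486144_ok, trivial⟩ C_18406457538
theorem L_18406457601 : HH 127 (nat_lit 18406457601, nat_lit 25) := top_sound R_18406457601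
  ⟨V6_18405670977_ok, V6_17299161153_ok, V6_15151677633_ok, trivial⟩
  ⟨W_18372640832_ok, W_17298374912_ok, W_16242196544_ok, W_15185231936_ok, W_15151415552_ok, W_13020971264_ok, trivial⟩ C_18406457601
theorem L_18406461570 : HH 127 (nat_lit 18406461570, nat_lit 18) := top_sound R_18406461570
  ⟨V6_16225423488_ok, V6_15151681665_ok, trivial⟩
  ⟨W_18405924992_ok, W_18389409920_ok, W_18389151872_ok, W_15184969856_ok, trivial⟩ C_18406461570
theorem L_18406461633 : HH 127 (nat_lit 18406461633, nat_lit 46) := top_sound R_18406461633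
  ⟨V6_17299161153_ok, V6_16225423425_ok, V6_16225415361_ok, V6_15151681728_ok, V6_15151681665_ok, V6_15151677633_ok, V6_14077939905_ok, trivial⟩
  ⟨W_18405929024_ok, W_18372640832_ok, W_18372382784_ok, W_18372374720_ok, W_17315934272_ok, W_16258453568_ok, W_16242196544_ok, W_15185231936_ok, trivial⟩ C_18406461633
theorem L_18406461696 : HH 127 (nat_lit 18406461696, nat_lit 52) := top_sound R_18406461696
  ⟨V6_18405937152_ok, V6_17315942400_ok, trivial⟩
  ⟨W_18389417984_ok, W_18372640832_ok, W_15185231936_ok, W_15184973888_ok, W_15184969856_ok, W_15167930624_ok, W_13020971264_ok, W_11964010688_ok, W_11963748608_ok, W_11947233536_ok, trivial⟩ C_18406461696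
theorem L_18406465665 : HH 127 (nat_lit 18406465665, nat_lit 46) := top_sound R_18406465665
  ⟨V6_18406187136_ok, V6_15151685697_ok, trivial⟩
  ⟨W_16242196544_ok, W_15185231936_ok, W_15184973888_ok, W_15168200768_ok, W_15151685696_ok, W_15151423616_ok, W_14111236160_ok, W_14094721088_ok, W_14094459008_ok, W_13037494400_ok, W_13020979328_ok, W_11964014720_ok, trivial⟩ C_18406465665
theorem L_18406465728 : HH 127 (nat_lit 18406465728, nat_lit 76) := top_sound R_18406465728
  ⟨V6_17315684352_ok, V6_17299169280_ok, V6_16258719744_ok, V6_16242204672_ok, trivial⟩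
  ⟨W_18389676032_ok, W_18389417984_ok, W_18372898880_ok, W_18372640832_ok, W_17315938304_ok, W_17315934272_ok, W_16225415360_ok, W_15185231936_ok, W_15184969856_ok, trivial⟩ C_18406465728
theorem L_18406469697 : HH 127 (nat_lit 18406469697, nat_lit 15) := top_sound R_18406469697
  ⟨V6_16225423425_ok, V6_14094725184_ok, V6_13020983361_ok, trivial⟩
  ⟨W_18406445120_ok, W_18389672000_ok, W_18372898880_ok, W_11964018752_ok, trivial⟩ C_18406469697
theorem L_18406469760 : HH 127 (nat_lit 18406469760, nat_lit 35) := top_sound R_18406469760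
  ⟨V6_18389672064_ok, V6_16225431552_ok, V6_15151689792_ok, V6_15151685760_ok, V6_14077948032_ok, trivial⟩
  ⟨W_18389676032_ok, W_18372902912_ok, W_17315938304_ok, W_15185231936_ok, W_14094725120_ok, W_11964018752_ok, trivial⟩ C_18406469760
theorem L_18406715586 : HH 127 (nat_lit 18406715586, nat_lit 8) := top_sound R_18406715586
  ⟨V6_18405404802_ok, V6_16241668290_ok, V6_15168712896_ok, trivial⟩
  ⟨W_17331925184_ok, W_14111748224_ok, W_14111486144_ok, trivial⟩ C_18406715586
theorem L_18406719618 : HH 127 (nat_lit 18406719618, nat_lit 20) := top_sound R_18406719618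
  ⟨V6_17316192384_ok, trivial⟩
  ⟨W_18405924992_ok, W_18389409920_ok, W_18388893824_ok, W_15185485952_ok, W_15168454784_ok, trivial⟩ C_18406719618
theorem L_18406719681 : HH 127 (nat_lit 18406719681, nat_lit 44) := top_sound R_18406719681
  ⟨V6_16259231808_ok, trivial⟩
  ⟨W_18389413952_ok, W_18388893824_ok, W_17315934272_ok, W_17315152064_ok, W_16242196544_ok, W_15168716864_ok, W_14111486144_ok, W_13021233344_ok, W_11964268736_ok, trivial⟩ C_18406719681
theorem L_18406719744 : HH 127 (nat_lit 18406719744, nat_lit 42) := top_sound R_18406719744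
  ⟨V6_17316200448_ok, V6_16258187520_ok, trivial⟩
  ⟨W_18389417984_ok, W_15185494016_ok, W_15185231936_ok, W_13021233344_ok, W_13020971264_ok, W_11964268736_ok, W_11947491584_ok, trivial⟩ C_18406719744
theorem L_18406723713 : HH 127 (nat_lit 18406723713, nat_lit 58) := top_sound R_18406723713
  ⟨V6_16259231808_ok, trivial⟩
  ⟨W_18406187072_ok, W_18405924992_ok, W_18389413952_ok, W_18389409920_ok, W_17316192320_ok, W_17315418176_ok, W_16258453568_ok, W_16242450560_ok, W_16242196544_ok, W_16241676416_ok, W_13021237376_ok, trivial⟩ C_18406723713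
theorem L_18406723776 : HH 127 (nat_lit 18406723776, nat_lit 90) := top_sound R_18406723776
  ⟨V6_17316200448_ok, V6_17315942400_ok, V6_16242462720_ok, trivial⟩
  ⟨W_18389676032_ok, W_18389417984_ok, W_17316196352_ok, W_15185494016_ok, W_15185489984_ok, W_15185231936_ok, W_15184973888_ok, W_15184969856_ok, W_15168712832_ok, W_14110970048_ok, W_11964010688_ok, W_10890531008_ok, trivial⟩ C_18406723776
theorem L_18406727745 : HH 127 (nat_lit 18406727745, nat_lit 38) := top_sound R_18406727745
  ⟨V6_16259231808_ok, trivial⟩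
  ⟨W_17315934272_ok, W_16242196544_ok, W_15184973888_ok, W_15168716864_ok, W_15168200768_ok, W_14111236160_ok, W_14094721088_ok, trivial⟩ C_18406727745
theorem L_18406727808 : HH 127 (nat_lit 18406727808, nat_lit 106) := top_sound R_18406727808
  ⟨V6_18406711296_ok, V6_17316192384_ok, V6_16258719744_ok, V6_15168724992_ok, trivial⟩
  ⟨W_18389934080_ok, W_18389676032_ok, W_18389417984_ok, W_17316196352_ok, W_17315938304_ok, W_16242458624_ok, W_16242196544_ok, W_15185494016_ok, W_15185231936_ok, W_14094983168_ok, trivial⟩ C_18406727808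

theorem H_17 : AllH 127 tb17 :=
  ⟨L_17434411008, L_17449103553, L_17449361538, L_17449365633, L_17449365696, L_17449369665, L_17449369728, L_17449623681, L_17449627713, L_17449627776, L_17449631808, L_17449635840, L_17449885761, L_17449885824, L_17449889856, L_17449893888, L_17450143809, L_17450147904, L_17450151936, L_17450405952, L_17450409984, L_17450668032, L_17450926080, L_18355872003, L_18355872066, L_18355872129, L_18372641028, L_18372645123, L_18372649155, L_18372649218, L_18372649281, L_18372649344, L_18372903171, L_18372907203, L_18372907266, L_18372907329, L_18372911298, L_18372911361, L_18372911424, L_18372915393, L_18372915456, L_18389156100, L_18389418243, L_18389422275, L_18389422338, L_18389422401, L_18389426370, L_18389426433, L_18389426496, L_18389680323, L_18389680386, L_18389684418, L_18389684481, L_18389684544, L_18389688450, L_18389688513, L_18389688576, L_18389692545, L_18389692608, L_18389942466, L_18389942529, L_18389946498, L_18389946561, L_18389946624, L_18389950593, L_18389950656, L_18389954625, L_18389954688,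 L_18389958720, L_18405671172, L_18405933315, L_18405937347, L_18405937410, L_18405937473, L_18406195395, L_18406195458, L_18406199490, L_18406199553, L_18406199616, L_18406203522, L_18406203585, L_18406203648, L_18406453443, L_18406457538, L_18406457601, L_18406461570, L_18406461633, L_18406461696, L_18406465665, L_18406465728, L_18406469697, L_18406469760, L_18406715586, L_18406719618, L_18406719681, L_18406719744, L_18406723713, L_18406723776, L_18406727745, L_18406727808, trivial⟩

theorem L_18406731840 : HH 127 (nat_lit 18406731840, nat_lit 61) := top_sound R_18406731840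
  ⟨V6_18406711296_ok, V6_18406707264_ok, V6_14094987264_ok, trivial⟩
  ⟨W_17315938304_ok, W_16242196544_ok, W_15168720896_ok, W_15168716864_ok, W_15168462848_ok, W_15168458816_ok, W_14111494208_ok, W_14094983168_ok, W_14094725120_ok, W_14094721088_ok, W_13021245440_ok, W_11964280832_ok, trivial⟩ C_18406731840
theorem L_18406735872 : HH 127 (nat_lit 18406735872, nat_lit 20) := top_sound R_18406735872
  ⟨V6_15168724992_ok, trivial⟩
  ⟨W_18406707200_ok, W_18389934080_ok, W_11964280832_ok, trivial⟩ C_18406735872
theorem L_18406977666 : HH 127 (nat_lit 18406977666, nat_lit 7) := top_sound R_18406977666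
  ⟨V6_15185748096_ok, trivial⟩
  ⟨W_17332445312_ok, W_13038268544_ok, trivial⟩ C_18406977666
theorem L_18406977729 : HH 127 (nat_lit 18406977729, nat_lit 14) := top_sound R_18406977729
  ⟨V6_15185752128_ok, trivial⟩
  ⟨W_18405929024_ok, W_18405666944_ok, W_14111486144_ok, trivial⟩ C_18406977729
theorem L_18406981761 : HH 127 (nat_lit 18406981761, nat_lit 30) := top_sound R_18406981761
  ⟨V6_18405670977_ok, V6_15185748096_ok, V6_15185748033_ok, V6_14112006273_ok, trivial⟩
  ⟨W_18406187072_ok, W_18405924992_ok, W_17332445312_ok, W_15185231936_ok, W_13038272576_ok, W_13038268544_ok, trivial⟩ C_18406981761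
theorem L_18406981824 : HH 127 (nat_lit 18406981824, nat_lit 45) := top_sound R_18406981824
  ⟨V6_16259231808_ok, trivial⟩
  ⟨W_15185752064_ok, W_15185494016_ok, W_15185489984_ok, W_14112014336_ok, W_14112010304_ok, W_14111748224_ok, W_14111490176_ok, W_14111486144_ok, W_13038272576_ok, W_13038268544_ok, W_13038010496_ok, W_11964526784_ok, W_11964268736_ok, trivial⟩ C_18406981824
theorem L_18406985793 : HH 127 (nat_lit 18406985793, nat_lit 26) := top_sound R_18406985793
  ⟨V6_18406707264_ok, V6_15185748033_ok, trivial⟩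
  ⟨W_16258453568_ok, W_15185489984_ok, W_15185231936_ok, W_15184973888_ok, trivial⟩ C_18406985793
theorem L_18406985856 : HH 127 (nat_lit 18406985856, nat_lit 63) := top_sound R_18406985856
  ⟨V6_18406187136_ok, V6_18405937152_ok, trivial⟩
  ⟨W_17332195328_ok, W_16259489792_ok, W_16258453568_ok, W_15185752064_ok, W_15185748032_ok, W_15185494016_ok, W_15185489984_ok, W_15185485952_ok, W_15185231936_ok, W_15184973888_ok, W_14112014336_ok, W_14112010304_ok, W_13038272576_ok, W_13038268544_ok, W_11964534848_ok, trivial⟩ C_18406985856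
theorem L_18406989888 : HH 127 (nat_lit 18406989888, nat_lit 57) := top_sound R_18406989888
  ⟨V6_18406707264_ok, V6_16258719744_ok, V6_14112018432_ok, trivial⟩
  ⟨W_18406707200_ok, W_17333227520_ok, W_16259489792_ok, W_16259485760_ok, W_15185752064_ok, W_15185494016_ok, W_15185489984_ok, W_15185231936_ok, trivial⟩ C_18406989888
theorem L_18406993920 : HH 127 (nat_lit 18406993920, nat_lit 23) := top_sound R_18406993920
  ⟨V6_15185756160_ok, V6_14112018432_ok, trivial⟩
  ⟨W_18406707200_ok, W_18406449152_ok, W_16259489792_ok, trivial⟩ C_18406993920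
theorem L_18422448387 : HH 127 (nat_lit 18422448387, nat_lit 2) := top_sound R_18422448387
  ⟨V6_14127481026_ok, trivial⟩
  ⟨W_17315152064_ok, trivial⟩ C_18422448387
theorem L_18422710467 : HH 127 (nat_lit 18422710467, nat_lit 3) := top_sound R_18422710467
  ⟨V6_15201218754_ok, V6_14127481026_ok, trivial⟩
  ⟨W_18372116672_ok, W_16258445504_ok, trivial⟩ C_18422710467
theorem L_18422710530 : HH 127 (nat_lit 18422710530, nat_lit 9) := top_sound R_18422710530
  ⟨V6_15201222912_ok, trivial⟩
  ⟨W_18388893824_ok, W_18372116672_ok, W_18355339520_ok, W_17315414144_ok, trivial⟩ C_18422710530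
theorem L_18422714562 : HH 127 (nat_lit 18422714562, nat_lit 6) := top_sound R_18422714562
  ⟨V6_17298641088_ok, trivial⟩
  ⟨W_15201484928_ok, W_15201480896_ok, trivial⟩ C_18422714562
theorem L_18422714625 : HH 127 (nat_lit 18422714625, nat_lit 8) := top_sound R_18422714625
  ⟨V6_15184707840_ok, trivial⟩
  ⟨W_18389155904_ok, W_16258453568_ok, trivial⟩ C_18422714625
theorem L_18422714688 : HH 127 (nat_lit 18422714688, nat_lit 2) := top_sound R_18422714688
  ⟨V6_17298641088_ok, trivial⟩
  ⟨W_16275230720_ok, trivial⟩ C_18422714688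
theorem L_18422968515 : HH 127 (nat_lit 18422968515, nat_lit 1) := top_sound R_18422968515
  ⟨V6_13037482179_ok, trivial⟩
  ⟨W_18372374720_ok, trivial⟩ C_18422968515
theorem L_18422972610 : HH 127 (nat_lit 18422972610, nat_lit 24) := top_sound R_18422972610
  ⟨V6_16274964672_ok, V6_16274960577_ok, V6_15201218754_ok, trivial⟩
  ⟨W_18405666944_ok, W_18372636800_ok, W_18372374720_ok, W_18372116672_ok, W_18355863680_ok, W_17315672192_ok, W_17298899072_ok, W_17298895040_ok, W_17282121920_ok, trivial⟩ C_18422972610
theorem L_18422972673 : HH 127 (nat_lit 18422972673, nat_lit 32) := top_sound R_18422972673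
  ⟨V6_17348706369_ok, V6_16274964672_ok, V6_16258187520_ok, trivial⟩
  ⟨W_18372640832_ok, W_18355863680_ok, W_18355339520_ok, W_17348706368_ok, W_17282121920_ok, W_16208380160_ok, W_15201747008_ok, W_15151415552_ok, trivial⟩ C_18422972673
theorem L_18422976642 : HH 127 (nat_lit 18422976642, nat_lit 21) := top_sound R_18422976642
  ⟨V6_17298903168_ok, trivial⟩
  ⟨W_18405924992_ok, W_18389151872_ok, W_17348960384_ok, W_15201484928_ok, W_13054267520_ok, trivial⟩ C_18422976642
theorem L_18422976705 : HH 127 (nat_lit 18422976705, nat_lit 47) := top_sound R_18422976705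
  ⟨V6_17298903168_ok, V6_17282126016_ok, V6_16225161408_ok, V6_16224899265_ok, trivial⟩
  ⟨W_18405929024_ok, W_18389151872_ok, W_18372640832_ok, W_18372374720_ok, W_16258453568_ok, W_15201747008_ok, W_15201488960_ok, W_14128001216_ok, W_14127747200_ok, W_13054267520_ok, W_11980525760_ok, trivial⟩ C_18422976705
theorem L_18422976768 : HH 127 (nat_lit 18422976768, nat_lit 55) := top_sound R_18422976768
  ⟨V6_16275492864_ok, trivial⟩
  ⟨W_18389417984_ok, W_18389159936_ok, W_18372644864_ok, W_18372640832_ok, W_18372378752_ok, W_18355867712_ok, W_18355863680_ok, W_17315680256_ok, W_17282121920_ok, W_16208380160_ok, W_15184969856_ok, W_15167930624_ok, W_13054263488_ok, W_13054001408_ok, trivial⟩ C_18422976768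
theorem L_18422980737 : HH 127 (nat_lit 18422980737, nat_lit 44) := top_sound R_18422980737
  ⟨V6_18406187136_ok, V6_17282129985_ok, trivial⟩
  ⟨W_17282129984_ok, W_15201747008_ok, W_15184973888_ok, W_15168200768_ok, W_15151423616_ok, W_14111236160_ok, W_14094459008_ok, W_13054271552_ok, W_13054267520_ok, W_13037494400_ok, W_11980529792_ok, trivial⟩ C_18422980737
theorem L_18422980800 : HH 127 (nat_lit 18422980800, nat_lit 71) := top_sound R_18422980800
  ⟨V6_17315684352_ok, V6_16258719744_ok, V6_15201755136_ok, trivial⟩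
  ⟨W_18389417984_ok, W_18372644864_ok, W_18372640832_ok, W_18355871744_ok, W_18355863680_ok, W_17298899072_ok, W_17282129984_ok, W_16208388224_ok, W_15201747008_ok, W_15184969856_ok, W_14128001216_ok, W_13054267520_ok, W_13054263488_ok, trivial⟩ C_18422980800
theorem L_18423230658 : HH 127 (nat_lit 18423230658, nat_lit 12) := top_sound R_18423230658
  ⟨V6_17299157184_ok, V6_16241668290_ok, V6_15201218754_ok, trivial⟩
  ⟨W_18422182016_ok, W_18405666944_ok, W_14128263296_ok, W_14128001216_ok, trivial⟩ C_18423230658
theorem L_18423234690 : HH 127 (nat_lit 18423234690, nat_lit 30) := top_sound R_18423234690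
  ⟨V6_18405671040_ok, trivial⟩
  ⟨W_18389409920_ok, W_17348960384_ok, W_15202001024_ok, W_15168454784_ok, W_14128263296_ok, W_13054525568_ok, trivial⟩ C_18423234690
theorem L_18423234753 : HH 127 (nat_lit 18423234753, nat_lit 65) := top_sound R_18423234753
  ⟨V6_18422448192_ok, V6_16274964672_ok, V6_16274960577_ok, trivial⟩
  ⟨W_18372898880_ok, W_17315934272_ok, W_16242196544_ok, W_16225415360_ok, W_15201747008_ok, W_15185231936_ok, W_15168454784_ok, W_15168450752_ok, W_14128267328_ok, W_14111486144_ok, W_13054525568_ok, trivial⟩ C_18423234753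
theorem L_18423234816 : HH 127 (nat_lit 18423234816, nat_lit 65) := top_sound R_18423234816
  ⟨V6_18422448192_ok, V6_17331929280_ok, V6_16274964672_ok, trivial⟩
  ⟨W_18372902912_ok, W_17315938304_ok, W_17299161152_ok, W_15202009088_ok, W_15185231936_ok, W_15168454784_ok, W_14128267328_ok, W_14111490176_ok, W_13054525568_ok, W_13020971264_ok, W_10907042048_ok, trivial⟩ C_18423234816
theorem L_18423238785 : HH 127 (nat_lit 18423238785, nat_lit 79) := top_sound R_18423238785
  ⟨V6_18389672064_ok, V6_18372898881_ok, V6_17315930241_ok, V6_17299165248_ok, V6_17299161153_ok, V6_16225423425_ok, trivial⟩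
  ⟨W_18406187072_ok, W_18372898880_ok, W_18372640832_ok, W_17315934272_ok, W_16242196544_ok, W_15202001024_ok, W_15201747008_ok, W_15201488960_ok, W_15185231936_ok, W_14127747200_ok, W_13054529600_ok, W_13054267520_ok, W_11980787840_ok, trivial⟩ C_18423238785
theorem L_18423238848 : HH 127 (nat_lit 18423238848, nat_lit 123) := top_sound R_18423238848
  ⟨V6_18405937152_ok, V6_18389422080_ok, V6_18372907008_ok, V6_17315942400_ok, V6_17299165248_ok, trivial⟩
  ⟨W_18389676032_ok, W_18389417984_ok, W_18372898880_ok, W_18372374720_ok, W_17315938304_ok, W_16275230720_ok, W_16242196544_ok, W_15202009088_ok, W_15201747008_ok, W_15185231936_ok, W_15184969856_ok, W_14128001216_ok, W_14110970048_ok, W_13054521536_ok, W_13054263488_ok, W_11980787840_ok, W_11980783808_ok, W_11980525760_ok, W_11964010688_ok, trivial⟩ C_18423238848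
theorem L_18423242817 : HH 127 (nat_lit 18423242817, nat_lit 49) := top_sound R_18423242817
  ⟨V6_18423222336_ok, V6_16225165377_ok, V6_15151685697_ok, trivial⟩
  ⟨W_18372640832_ok, W_17315934272_ok, W_16242196544_ok, W_15201747008_ok, W_15185231936_ok, W_13054529600_ok, W_11980791872_ok, trivial⟩ C_18423242817
theorem L_18423242880 : HH 127 (nat_lit 18423242880, nat_lit 136) := top_sound R_18423242880
  ⟨V6_18423226368_ok, V6_17299169280_ok, V6_16258719744_ok, V6_16242204672_ok, trivial⟩
  ⟨W_18389676032_ok, W_18389417984_ok, W_18372898880_ok, W_18372640832_ok, W_17315938304_ok, W_17315934272_ok, W_17298907136_ok, W_17298899072_ok, W_16242196544_ok, W_15202009088_ok, W_15202001024_ok, W_15201747008_ok, W_15185231936_ok, W_15184969856_ok, W_14128013312_ok, trivial⟩ C_18423242880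
theorem L_18423246912 : HH 127 (nat_lit 18423246912, nat_lit 57) := top_sound R_18423246912
  ⟨V6_18423222336_ok, V6_17299169280_ok, V6_16225427520_ok, trivial⟩
  ⟨W_18389676032_ok, W_17315938304_ok, W_15202009088_ok, W_15185231936_ok, W_11980795904_ok, W_11980791872_ok, trivial⟩ C_18423246912
theorem L_18423492738 : HH 127 (nat_lit 18423492738, nat_lit 22) := top_sound R_18423492738
  ⟨V6_15202263168_ok, trivial⟩
  ⟨W_18422440064_ok, W_18405924992_ok, W_18405666944_ok, W_18389409920_ok, W_18389151872_ok, W_16242192512_ok, trivial⟩ C_18423492738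
theorem L_18423492801 : HH 127 (nat_lit 18423492801, nat_lit 32) := top_sound R_18423492801
  ⟨V6_15202267200_ok, trivial⟩
  ⟨W_18405666944_ok, W_18389413952_ok, W_18389151872_ok, W_17331925184_ok, W_17315934272_ok, W_16241930432_ok, W_15168450752_ok, W_14111486144_ok, trivial⟩ C_18423492801
theorem L_18423496833 : HH 127 (nat_lit 18423496833, nat_lit 92) := top_sound R_18423496833
  ⟨V6_18422448192_ok, V6_18405671040_ok, V6_17316192384_ok, trivial⟩
  ⟨W_17316192320_ok, W_17315934272_ok, W_16242454592_ok, W_16242450560_ok, W_16242196544_ok, W_15202001024_ok, W_15201747008_ok, W_15185231936_ok, W_15168716864_ok, W_14128525376_ok, W_14128267328_ok, W_13054787648_ok, W_11981045888_ok, trivial⟩ C_18423496833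
theorem L_18423496896 : HH 127 (nat_lit 18423496896, nat_lit 131) := top_sound R_18423496896
  ⟨V6_17331929280_ok, V6_17316200448_ok, V6_16276008960_ok, V6_16274964672_ok, trivial⟩
  ⟨W_18422448128_ok, W_18389676032_ok, W_18389417984_ok, W_17348706368_ok, W_17316196352_ok, W_17315938304_ok, W_16242458624_ok, W_15202009088_ok, W_15201747008_ok, W_15185494016_ok, W_15168716864_ok, W_10907304128_ok, trivial⟩ C_18423496896
theorem L_18423500865 : HH 127 (nat_lit 18423500865, nat_lit 67) := top_sound R_18423500865
  ⟨V6_17332965441_ok, V6_16276004928_ok, trivial⟩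
  ⟨W_18406187072_ok, W_18389930048_ok, W_18389413952_ok, W_17315934272_ok, W_17315418176_ok, W_16242196544_ok, W_15201747008_ok, W_15201488960_ok, W_15168716864_ok, W_14094979136_ok, trivial⟩ C_18423500865
theorem L_18423500928 : HH 127 (nat_lit 18423500928, nat_lit 189) := top_sound R_18423500928
  ⟨V6_18423226368_ok, V6_18406711296_ok, V6_17349746688_ok, trivial⟩
  ⟨W_18389934080_ok, W_18389676032_ok, W_18389159936_ok, W_17315938304_ok, W_16242458624_ok, W_16242450560_ok, W_16242196544_ok, W_16242192512_ok, W_16241676416_ok, W_15202009088_ok, W_15201747008_ok, W_15201488960_ok, W_15185485952_ok, W_15185231936_ok, W_15168720896_ok, W_15168716864_ok, W_15168712832_ok, W_15168458816_ok, W_15168454784_ok, W_15168196736_ok, W_14128267328_ok, W_14128263296_ok, W_14127747200_ok, W_14111494208_ok, W_14111232128_ok, W_14094979136_ok, W_14094717056_ok, W_13054267520_ok, W_13037752448_ok, W_13021237376_ok, W_11980787840_ok, W_11964272768_ok, W_10907308160_ok, trivial⟩ C_18423500928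
theorem L_18423504960 : HH 127 (nat_lit 18423504960, nat_lit 165) := top_sound R_18423504960
  ⟨V6_18406711296_ok, V6_18406707264_ok, V6_17349746688_ok, V6_17349742656_ok, trivial⟩
  ⟨W_18389676032_ok, W_17316196352_ok, W_17315938304_ok, W_17315934272_ok, W_16242458624_ok, W_16242454592_ok, W_16242196544_ok, W_15201747008_ok, W_15185231936_ok, W_15168720896_ok, W_15168716864_ok, W_15168462848_ok, W_15168458816_ok, W_15168200768_ok, W_14128267328_ok, W_14111494208_ok, W_14111236160_ok, W_14094983168_ok, W_14094979136_ok, W_14094721088_ok, W_13054271552_ok, W_13021241408_ok, W_11981053952_ok, W_11981049920_ok, W_11980791872_ok, W_11964276800_ok, W_10907312192_ok, trivial⟩ C_18423504960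
theorem L_18423508992 : HH 127 (nat_lit 18423508992, nat_lit 72) := top_sound R_18423508992
  ⟨V6_18423484416_ok, V6_15168724992_ok, trivial⟩
  ⟨W_18406707200_ok, W_18389934080_ok, W_18389676032_ok, W_17315938304_ok, W_15202009088_ok, trivial⟩ C_18423508992
theorem L_18423750786 : HH 127 (nat_lit 18423750786, nat_lit 7) := top_sound R_18423750786
  ⟨V6_14112006273_ok, V6_13054779522_ok, trivial⟩
  ⟨W_18422440064_ok, W_18405924992_ok, trivial⟩ C_18423750786
theorem L_18423754881 : HH 127 (nat_lit 18423754881, nat_lit 49) := top_sound R_18423754881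
  ⟨V6_15202263168_ok, V6_15185748033_ok, V6_14112006273_ok, trivial⟩
  ⟨W_18422444096_ok, W_18422440064_ok, W_18406187072_ok, W_18405929024_ok, W_18405924992_ok, W_18405666944_ok, W_15185489984_ok, W_14112010304_ok, trivial⟩ C_18423754881
theorem L_18423754944 : HH 127 (nat_lit 18423754944, nat_lit 53) := top_sound R_18423754944
  ⟨V6_16276008960_ok, trivial⟩
  ⟨W_18422444096_ok, W_18422182016_ok, W_18405666944_ok, W_17332187264_ok, W_15185752064_ok, W_15185489984_ok, W_14128787456_ok, W_14128001216_ok, W_14112010304_ok, W_14111486144_ok, W_13055045696_ok, W_13054521536_ok, W_13038268544_ok, W_11964526784_ok, trivial⟩ C_18423754944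
theorem L_18423758913 : HH 127 (nat_lit 18423758913, nat_lit 54) := top_sound R_18423758913
  ⟨V6_18422448192_ok, V6_17348706369_ok, V6_15185748033_ok, trivial⟩
  ⟨W_17332965440_ok, W_16276000832_ok, W_16259485760_ok, W_15202521152_ok, W_15185748032_ok, W_15185489984_ok, W_15185231936_ok, W_14128783424_ok, W_14128525376_ok, W_14112010304_ok, W_13055045696_ok, trivial⟩ C_18423758913
theorem L_18423758976 : HH 127 (nat_lit 18423758976, nat_lit 145) := top_sound R_18423758976
  ⟨V6_18422448192_ok, V6_18405671040_ok, V6_17349746688_ok, trivial⟩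
  ⟨W_18422448128_ok, W_16259489792_ok, W_15202525184_ok, W_15202009088_ok, W_15202001024_ok, W_15201747008_ok, W_15185752064_ok, W_15185748032_ok, W_15185494016_ok, W_15185231936_ok, W_14128787456_ok, W_14128783424_ok, W_14128525376_ok, W_14128267328_ok, W_14128263296_ok, W_14112014336_ok, W_14112010304_ok, W_14111748224_ok, W_13055045696_ok, W_13054525568_ok, W_13038272576_ok, W_13038268544_ok, W_11981303936_ok, W_10907566208_ok, trivial⟩ C_18423758976
theorem L_18423763008 : HH 127 (nat_lit 18423763008, nat_lit 149) := top_sound R_18423763008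
  ⟨V6_18423484416_ok, V6_17349746688_ok, V6_16276262976_ok, trivial⟩
  ⟨W_18406707200_ok, W_17332195328_ok, W_16275230720_ok, W_16258453568_ok, W_15202525184_ok, W_15202009088_ok, W_15201747008_ok, W_15201488960_ok, W_15185752064_ok, W_15185494016_ok, W_15185489984_ok, W_15185231936_ok, W_15184973888_ok, W_14128787456_ok, W_14128525376_ok, W_14128267328_ok, W_14112014336_ok, W_14112010304_ok, W_14111494208_ok, W_11981049920_ok, W_11964534848_ok, trivial⟩ C_18423763008
theorem L_18423767040 : HH 127 (nat_lit 18423767040, nat_lit 93) := top_sound R_18423767040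
  ⟨V6_16276267008_ok, V6_16258719744_ok, V6_15201755136_ok, trivial⟩
  ⟨W_18406965248_ok, W_18406707200_ok, W_17350000640_ok, W_17333227520_ok, W_16276262912_ok, W_15202525184_ok, W_15202009088_ok, W_15185752064_ok, W_15185494016_ok, W_14128787456_ok, W_14112014336_ok, W_10907574272_ok, trivial⟩ C_18423767040
theorem L_18424012929 : HH 127 (nat_lit 18424012929, nat_lit 16) := top_sound R_18424012929
  ⟨V6_15202263168_ok, trivial⟩
  ⟨W_18422440064_ok, W_17348960384_ok, W_13055303744_ok, W_13055041664_ok, W_11981561984_ok, trivial⟩ C_18424012929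
theorem L_18424016961 : HH 127 (nat_lit 18424016961, nat_lit 23) := top_sound R_18424016961
  ⟨V6_14128787520_ok, trivial⟩
  ⟨W_18422960192_ok, W_18422444096_ok, W_16276000832_ok, W_13055303744_ok, trivial⟩ C_18424016961
theorem L_18424017024 : HH 127 (nat_lit 18424017024, nat_lit 62) := top_sound R_18424017024
  ⟨V6_16276267008_ok, V6_15202529280_ok, trivial⟩
  ⟨W_18422444096_ok, W_18422440064_ok, W_18422182016_ok, W_17348960384_ok, W_15202525184_ok, W_15202001024_ok, W_14129045504_ok, W_14128787456_ok, W_14128783424_ok, W_13055307776_ok, W_13055303744_ok, W_13055045696_ok, W_11981566016_ok, trivial⟩ C_18424017024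
theorem L_18424021056 : HH 127 (nat_lit 18424021056, nat_lit 91) := top_sound R_18424021056
  ⟨V6_18422448192_ok, V6_17349742656_ok, V6_15202787328_ok, trivial⟩
  ⟨W_18422448128_ok, W_15202525184_ok, W_15202009088_ok, W_15201747008_ok, W_14129045504_ok, W_14128787456_ok, W_14128529408_ok, W_14128267328_ok, W_11981570048_ok, W_10907828288_ok, trivial⟩ C_18424021056
theorem L_18424025088 : HH 127 (nat_lit 18424025088, nat_lit 68) := top_sound R_18424025088
  ⟨V6_16275492864_ok, V6_13055053824_ok, trivial⟩
  ⟨W_17350000640_ok, W_16276520960_ok, W_16276262912_ok, W_15202525184_ok, W_15202009088_ok, W_14129045504_ok, W_14128787456_ok, W_13055307776_ok, W_10907832320_ok, trivial⟩ C_18424025088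
theorem L_18439225539 : HH 127 (nat_lit 18439225539, nat_lit 2) := top_sound R_18439225539
  ⟨V6_13070516418_ok, trivial⟩
  ⟨W_18372116672_ok, W_17331925184_ok, trivial⟩ C_18439225539
theorem L_18439225602 : HH 127 (nat_lit 18439225602, nat_lit 6) := top_sound R_18439225602
  ⟨V6_14144258304_ok, V6_13070516418_ok, trivial⟩
  ⟨W_18388893824_ok, W_18372116672_ok, W_18355339520_ok, trivial⟩ C_18439225602
theorem L_18439483587 : HH 127 (nat_lit 18439483587, nat_lit 1) := top_sound R_18439483587
  ⟨V6_13070774466_ok, trivial⟩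
  ⟨W_18372374720_ok, trivial⟩ C_18439483587
theorem L_18439487682 : HH 127 (nat_lit 18439487682, nat_lit 14) := top_sound R_18439487682
  ⟨V6_15218000064_ok, trivial⟩
  ⟨W_18405666944_ok, W_18389151872_ok, W_18372378752_ok, W_18372374720_ok, W_18372116672_ok, W_17332187264_ok, trivial⟩ C_18439487682
theorem L_18439487745 : HH 127 (nat_lit 18439487745, nat_lit 19) := top_sound R_18439487745
  ⟨V6_16291741761_ok, V6_14144258304_ok, V6_14127481089_ok, trivial⟩
  ⟨W_18372378752_ok, W_18355339520_ok, W_17348706368_ok, W_17298374912_ok, W_15218262080_ok, trivial⟩ C_18439487745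
theorem L_18439491714 : HH 127 (nat_lit 18439491714, nat_lit 9) := top_sound R_18439491714
  ⟨V6_16291995777_ok, trivial⟩
  ⟨W_18372378752_ok, W_15201484928_ok, W_14127747200_ok, W_13070782592_ok, trivial⟩ C_18439491714
theorem L_18439491777 : HH 127 (nat_lit 18439491777, nat_lit 20) := top_sound R_18439491777
  ⟨V6_18372382848_ok, V6_18372382785_ok, V6_17298641088_ok, V6_16224899265_ok, trivial⟩
  ⟨W_15218262080_ok, W_15201484928_ok, W_15201480896_ok, W_14144524352_ok, W_14144516288_ok, W_13070778560_ok, W_11997040832_ok, trivial⟩ C_18439491777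
theorem L_18439491840 : HH 127 (nat_lit 18439491840, nat_lit 20) := top_sound R_18439491840
  ⟨V6_16292007936_ok, trivial⟩
  ⟨W_18389159936_ok, W_18372382784_ok, W_18372378752_ok, W_17298636992_ok, W_15218262080_ok, W_15167930624_ok, W_14110970048_ok, W_13070778560_ok, W_13054001408_ok, W_11997040832_ok, trivial⟩ C_18439491840
theorem L_18439745730 : HH 127 (nat_lit 18439745730, nat_lit 12) := top_sound R_18439745730
  ⟨V6_17348702400_ok, V6_14144254146_ok, V6_13070774466_ok, trivial⟩
  ⟨W_18405666944_ok, W_18372636800_ok, W_18372374720_ok, W_16241930432_ok, W_14128001216_ok, W_13071036608_ok, trivial⟩ C_18439745730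
theorem L_18439749762 : HH 127 (nat_lit 18439749762, nat_lit 30) := top_sound R_18439749762
  ⟨V6_16291741824_ok, trivial⟩
  ⟨W_18422440064_ok, W_18405924992_ok, W_18389409920_ok, W_18355863680_ok, W_17348960384_ok, W_17332445312_ok, W_13071040640_ok, trivial⟩ C_18439749762
theorem L_18439749825 : HH 127 (nat_lit 18439749825, nat_lit 63) := top_sound R_18439749825
  ⟨V6_17365483584_ok, V6_17348706369_ok, V6_16291741761_ok, trivial⟩
  ⟨W_18389413952_ok, W_18372640832_ok, W_18372636800_ok, W_18372374720_ok, W_18355863680_ok, W_17348706368_ok, W_17282121920_ok, W_16291741760_ok, W_15201747008_ok, W_14144782400_ok, W_13071040640_ok, W_11997298880_ok, trivial⟩ C_18439749825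
theorem L_18439749888 : HH 127 (nat_lit 18439749888, nat_lit 62) := top_sound R_18439749888
  ⟨V6_18439225344_ok, V6_16291741824_ok, trivial⟩
  ⟨W_18389417984_ok, W_18372640832_ok, W_18355863680_ok, W_16208380160_ok, W_15218524160_ok, W_15201747008_ok, W_13071040640_ok, trivial⟩ C_18439749888
theorem L_18439753857 : HH 127 (nat_lit 18439753857, nat_lit 71) := top_sound R_18439753857
  ⟨V6_18389409921_ok, V6_17365737600_ok, V6_16291995777_ok, trivial⟩
  ⟨W_18406187072_ok, W_18372640832_ok, W_18372382784_ok, W_18355867712_ok, W_16258453568_ok, W_15218262080_ok, W_15201747008_ok, W_15201488960_ok, W_14144782400_ok, W_14144524352_ok, W_13071044672_ok, W_13071040640_ok, W_13054267520_ok, W_11997302912_ok, trivial⟩ C_18439753857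
theorem L_18439753920 : HH 127 (nat_lit 18439753920, nat_lit 108) := top_sound R_18439753920
  ⟨V6_17366003712_ok, V6_16292007936_ok, trivial⟩
  ⟨W_18389417984_ok, W_18389159936_ok, W_18372644864_ok, W_18372640832_ok, W_18372374720_ok, W_18355867712_ok, W_18355863680_ok, W_17332195328_ok, W_16275230720_ok, W_15218524160_ok, W_15218262080_ok, W_15201747008_ok, W_15184973888_ok, W_15184969856_ok, W_14144516288_ok, W_14110970048_ok, W_13071036608_ok, W_13054263488_ok, W_11997298880_ok, W_11997040832_ok, W_11980525760_ok, trivial⟩ C_18439753920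
theorem L_18439757889 : HH 127 (nat_lit 18439757889, nat_lit 36) := top_sound R_18439757889
  ⟨V6_16225165377_ok, V6_14128013376_ok, trivial⟩
  ⟨W_18422960192_ok, W_18406187072_ok, W_18372640832_ok, W_17365995584_ok, W_17298903104_ok, W_17282129984_ok, trivial⟩ C_18439757889
theorem L_18439757952 : HH 127 (nat_lit 18439757952, nat_lit 102) := top_sound R_18439757952
  ⟨V6_18439741440_ok, V6_17315684352_ok, trivial⟩
  ⟨W_18389417984_ok, W_18355871744_ok, W_18355863680_ok, W_17298899072_ok, W_17282129984_ok, W_16208388224_ok, W_15218524160_ok, W_15201747008_ok, W_15184973888_ok, W_15184969856_ok, W_14144782400_ok, W_14128013312_ok, W_14111236160_ok, W_13071048704_ok, W_13071040640_ok, W_11997302912_ok, trivial⟩ C_18439757952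
theorem L_18440007810 : HH 127 (nat_lit 18440007810, nat_lit 23) := top_sound R_18440007810
  ⟨V6_17315930241_ok, V6_16291995777_ok, trivial⟩
  ⟨W_18438955136_ok, W_18422440064_ok, W_18422182016_ok, W_17365475456_ok, W_17365217408_ok, W_17299157120_ok, W_15202001024_ok, W_13071298688_ok, trivial⟩ C_18440007810
theorem L_18440007873 : HH 127 (nat_lit 18440007873, nat_lit 40) := top_sound R_18440007873
  ⟨V6_18388889793_ok, V6_18372898881_ok, V6_17365217472_ok, V6_17348702400_ok, V6_17299157184_ok, V6_16274960577_ok, V6_16225415361_ok, trivial⟩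
  ⟨W_18438959168_ok, W_18422182016_ok, W_18372898880_ok, W_17315934272_ok, W_14145040448_ok, W_14128263296_ok, W_14128001216_ok, W_14111486144_ok, W_13071298688_ok, W_11997556928_ok, trivial⟩ C_18440007873
theorem L_18440011905 : HH 127 (nat_lit 18440011905, nat_lit 105) := top_sound R_18440011905
  ⟨V6_18422448192_ok, V6_17365483584_ok, V6_16291741824_ok, trivial⟩
  ⟨W_18405924992_ok, W_18372898880_ok, W_18372640832_ok, W_17365475456_ok, W_17299161152_ok, W_17299157120_ok, W_16242196544_ok, W_15202001024_ok, W_15201747008_ok, W_15185231936_ok, W_15168454784_ok, W_14145036416_ok, W_14144782400_ok, W_14128267328_ok, W_14128263296_ok, W_14111490176_ok, W_13071302720_ok, W_13071298688_ok, W_13071040640_ok, W_13054525568_ok, trivial⟩ C_18440011905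
theorem L_18440011968 : HH 127 (nat_lit 18440011968, nat_lit 150) := top_sound R_18440011968
  ⟨V6_18439225344_ok, V6_18422448192_ok, V6_17365483584_ok, V6_16291741824_ok, trivial⟩
  ⟨W_18439221248_ok, W_18389676032_ok, W_18372902912_ok, W_18372898880_ok, W_17315938304_ok, W_17299157120_ok, W_16242196544_ok, W_15218524160_ok, W_15202009088_ok, W_15185231936_ok, W_15168454784_ok, W_14145044480_ok, W_14128267328_ok, W_14128263296_ok, W_13071302720_ok, W_13071298688_ok, W_13054525568_ok, W_11997556928_ok, trivial⟩ C_18440011968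
theorem L_18440015937 : HH 127 (nat_lit 18440015937, nat_lit 78) := top_sound R_18440015937
  ⟨V6_18423222336_ok, V6_18372898881_ok, V6_17299165248_ok, V6_17299161153_ok, trivial⟩
  ⟨W_18372640832_ok, W_17315934272_ok, W_16242196544_ok, W_15218262080_ok, W_15201747008_ok, W_15185231936_ok, W_14144782400_ok, W_14144524352_ok, W_13071302720_ok, W_13071044672_ok, W_13054529600_ok, W_11997564992_ok, trivial⟩ C_18440015937
theorem L_18440016000 : HH 127 (nat_lit 18440016000, nat_lit 203) := top_sound R_18440016000
  ⟨V6_18439741440_ok, V6_18423226368_ok, V6_17366261760_ok, trivial⟩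
  ⟨W_18389676032_ok, W_18372902912_ok, W_18372898880_ok, W_18372640832_ok, W_17315938304_ok, W_17299157120_ok, W_16242196544_ok, W_16242192512_ok, W_16241676416_ok, W_15218524160_ok, W_15218262080_ok, W_15202009088_ok, W_15202001024_ok, W_15201747008_ok, W_15201488960_ok, W_15185231936_ok, W_15168458816_ok, W_15168454784_ok, W_15168196736_ok, W_14145044480_ok, W_14144782400_ok, W_14144524352_ok, W_14128267328_ok, W_14111232128_ok, W_14094717056_ok, W_13071306752_ok, W_13071044672_ok, W_13070782592_ok, W_13054267520_ok, W_13037752448_ok, W_11997564992_ok, W_11997560960_ok, W_11997302912_ok, W_11980787840_ok, trivial⟩ C_18440016000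
theorem L_18440020032 : HH 127 (nat_lit 18440020032, nat_lit 166) := top_sound R_18440020032
  ⟨V6_18439741440_ok, V6_17366261760_ok, trivial⟩
  ⟨W_18389676032_ok, W_18372902912_ok, W_18372898880_ok, W_18372644864_ok, W_18372640832_ok, W_17315938304_ok, W_17299165184_ok, W_17298907136_ok, W_17298903104_ok, W_16242196544_ok, W_16225423424_ok, W_15202009088_ok, W_15201747008_ok, W_15185231936_ok, W_15168458816_ok, W_15151685696_ok, W_14144782400_ok, W_14128267328_ok, W_14111494208_ok, W_14111236160_ok, W_14094721088_ok, W_13071306752_ok, W_13071048704_ok, W_13071044672_ok, W_13054271552_ok, W_13037756480_ok, W_11997569024_ok, W_11997564992_ok, W_11980791872_ok, trivial⟩ C_18440020032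
theorem L_18440024064 : HH 127 (nat_lit 18440024064, nat_lit 50) := top_sound R_18440024064
  ⟨V6_18439999488_ok, V6_11997573120_ok, trivial⟩
  ⟨W_18389676032_ok, W_18372902912_ok, W_17315938304_ok, W_17299165184_ok, W_15202009088_ok, W_14094725120_ok, trivial⟩ C_18440024064
theorem L_18440265858 : HH 127 (nat_lit 18440265858, nat_lit 14) := top_sound R_18440265858
  ⟨V6_15168708738_ok, V6_14145298560_ok, trivial⟩
  ⟨W_18422440064_ok, W_18405924992_ok, W_17365475456_ok, trivial⟩ C_18440265858
theorem L_18440269953 : HH 127 (nat_lit 18440269953, nat_lit 82) := top_sound R_18440269953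
  ⟨V6_16291995777_ok, V6_16276004928_ok, V6_16242450561_ok, trivial⟩
  ⟨W_18438959168_ok, W_18438955136_ok, W_18422440064_ok, W_18406187072_ok, W_18405924992_ok, W_18389672000_ok, W_18389413952_ok, W_18389409920_ok, W_17365475456_ok, W_17365217408_ok, W_17316192320_ok, W_17315934272_ok, W_16242454592_ok, W_16242450560_ok, W_11997819008_ok, trivial⟩ C_18440269953
theorem L_18440270016 : HH 127 (nat_lit 18440270016, nat_lit 88) := top_sound R_18440270016
  ⟨V6_17366003712_ok, trivial⟩
  ⟨W_18439221248_ok, W_18438959168_ok, W_18422182016_ok, W_18405666944_ok, W_18389676032_ok, W_17316196352_ok, W_16242454592_ok, W_15185489984_ok, W_15168712832_ok, W_14145302528_ok, W_14144516288_ok, W_13071560768_ok, W_13071298688_ok, W_13071036608_ok, W_11997556928_ok, trivial⟩ C_18440270016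
theorem L_18440273985 : HH 127 (nat_lit 18440273985, nat_lit 94) := top_sound R_18440273985
  ⟨V6_18422448192_ok, V6_17365483584_ok, V6_16291741761_ok, trivial⟩
  ⟨W_17332965440_ok, W_17316192320_ok, W_17315934272_ok, W_16242454592_ok, W_15201747008_ok, W_15185231936_ok, W_15168716864_ok, W_14144782400_ok, W_14128525376_ok, W_14128267328_ok, W_13071560768_ok, W_13071302720_ok, W_13054787648_ok, W_11997823040_ok, trivial⟩ C_18440273985
theorem L_18440274048 : HH 127 (nat_lit 18440274048, nat_lit 242) := top_sound R_18440274048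
  ⟨V6_18439741440_ok, V6_18439225344_ok, V6_18422448192_ok, V6_17365483584_ok, V6_16291741824_ok, trivial⟩
  ⟨W_18422448128_ok, W_18389934080_ok, W_18389676032_ok, W_17365483520_ok, W_17316196352_ok, W_17316192320_ok, W_17315938304_ok, W_16242458624_ok, W_16242454592_ok, W_16242450560_ok, W_16242196544_ok, W_15218524160_ok, W_15202009088_ok, W_15202001024_ok, W_15185494016_ok, W_15185231936_ok, W_15168716864_ok, W_15168712832_ok, W_15168454784_ok, W_14145044480_ok, W_14128529408_ok, W_14128267328_ok, W_14094975104_ok, W_13071564800_ok, W_13071556736_ok, W_13071302720_ok, W_13054783616_ok, W_13038010496_ok, W_11997823040_ok, W_11997819008_ok, W_11997560960_ok, W_11981045888_ok, trivial⟩ C_18440274048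
theorem L_18440278080 : HH 127 (nat_lit 18440278080, nat_lit 246) := top_sound R_18440278080
  ⟨V6_18439999488_ok, V6_18423484416_ok, V6_18423222336_ok, V6_18406707264_ok, V6_17366519808_ok, V6_17349742656_ok, trivial⟩
  ⟨W_18389934080_ok, W_18389676032_ok, W_17316196352_ok, W_17316192320_ok, W_17315938304_ok, W_16242458624_ok, W_16242454592_ok, W_16242196544_ok, W_15218524160_ok, W_15218262080_ok, W_15202009088_ok, W_15201747008_ok, W_15185494016_ok, W_15185231936_ok, W_15168716864_ok, W_14145044480_ok, W_14144782400_ok, W_14144524352_ok, W_14128529408_ok, W_14128525376_ok, W_14128267328_ok, W_14094979136_ok, W_13071564800_ok, W_13071560768_ok, W_13071044672_ok, W_13054787648_ok, W_11997827072_ok, W_11997564992_ok, W_11981049920_ok, trivial⟩ C_18440278080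
theorem L_18440282112 : HH 127 (nat_lit 18440282112, nat_lit 148) := top_sound R_18440282112
  ⟨V6_17366519808_ok, V6_17315684352_ok, V6_16292782080_ok, V6_15168724992_ok, trivial⟩
  ⟨W_18406707200_ok, W_18389934080_ok, W_18389676032_ok, W_18389417984_ok, W_17316196352_ok, W_17315938304_ok, W_16242458624_ok, W_15218524160_ok, W_15202009088_ok, W_15185494016_ok, W_14128013312_ok, W_13071048704_ok, W_11997569024_ok, trivial⟩ C_18440282112
theorem L_18440528001 : HH 127 (nat_lit 18440528001, nat_lit 36) := top_sound R_18440528001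
  ⟨V6_15185748033_ok, V6_14145298560_ok, V6_14112006273_ok, V6_11998077057_ok, trivial⟩
  ⟨W_18439217216_ok, W_18422440064_ok, W_18406187072_ok, W_18405924992_ok, W_17365475456_ok, W_13071818816_ok, trivial⟩ C_18440528001
theorem L_18440532033 : HH 127 (nat_lit 18440532033, nat_lit 65) := top_sound R_18440532033
  ⟨V6_18439217217_ok, V6_18406707264_ok, V6_16276262976_ok, V6_15185748033_ok, trivial⟩
  ⟨W_18438959168_ok, W_17332965440_ok, W_16292515904_ok, W_16259485760_ok, W_15202521152_ok, W_15185489984_ok, W_14145556544_ok, W_14128783424_ok, W_14128525376_ok, W_14112010304_ok, W_13071818816_ok, W_13071560768_ok, W_13055045696_ok, W_11998081088_ok, trivial⟩ C_18440532033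
theorem L_18440532096 : HH 127 (nat_lit 18440532096, nat_lit 153) := top_sound R_18440532096
  ⟨V6_18406711296_ok, V6_17366261760_ok, V6_16292782080_ok, trivial⟩
  ⟨W_18439221248_ok, W_18438959168_ok, W_18438955136_ok, W_18422440064_ok, W_18422182016_ok, W_18405924992_ok, W_18405666944_ok, W_17365475456_ok, W_17365217408_ok, W_16259489792_ok, W_15202525184_ok, W_15202001024_ok, W_15185752064_ok, W_15185748032_ok, W_15185489984_ok, W_15185485952_ok, W_14145560576_ok, W_14145302528_ok, W_14145036416_ok, W_14128787456_ok, W_14128783424_ok, W_14128525376_ok, W_14128263296_ok, W_14112010304_ok, W_14111748224_ok, W_13071822848_ok, W_13071560768_ok, W_13071556736_ok, W_13071298688_ok, W_13055045696_ok, W_11998081088_ok, W_11997819008_ok, W_11981303936_ok, trivial⟩ C_18440532096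
theorem L_18440536128 : HH 127 (nat_lit 18440536128, nat_lit 224) := top_sound R_18440536128
  ⟨V6_18439999488_ok, V6_18439225344_ok, V6_18422448192_ok, V6_17366519808_ok, V6_17365483584_ok, trivial⟩
  ⟨W_18422448128_ok, W_18406707200_ok, W_17365483520_ok, W_17333227520_ok, W_17332965440_ok, W_16276262912_ok, W_16259489792_ok, W_16259485760_ok, W_15218524160_ok, W_15202009088_ok, W_15185752064_ok, W_15185748032_ok, W_15185494016_ok, W_15185231936_ok, W_14145044480_ok, W_14144782400_ok, W_14128787456_ok, W_14128529408_ok, W_14128525376_ok, W_14128267328_ok, W_14112014336_ok, W_14111752256_ok, W_13071564800_ok, W_13071560768_ok, W_13071302720_ok, W_13055049728_ok, W_13054787648_ok, W_13038272576_ok, W_11998085120_ok, W_11998081088_ok, W_11997823040_ok, trivial⟩ C_18440536128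
theorem L_18440540160 : HH 127 (nat_lit 18440540160, nat_lit 154) := top_sound R_18440540160
  ⟨V6_18439741440_ok, V6_18423742464_ok, V6_17366519808_ok, trivial⟩
  ⟨W_18406707200_ok, W_17350000640_ok, W_17332195328_ok, W_15218524160_ok, W_15218266112_ok, W_15202525184_ok, W_15202009088_ok, W_15185752064_ok, W_15185494016_ok, W_14145302528_ok, W_14145044480_ok, W_14128787456_ok, W_14128529408_ok, W_14112014336_ok, W_13071564800_ok, W_13071306752_ok, W_13038276608_ok, W_11998085120_ok, W_11997827072_ok, W_11981312000_ok, trivial⟩ C_18440540160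
theorem L_18440790081 : HH 127 (nat_lit 18440790081, nat_lit 32) := top_sound R_18440790081
  ⟨V6_18439217217_ok, V6_17365995585_ok, V6_15202783296_ok, trivial⟩
  ⟨W_16292515904_ok, W_16276000832_ok, W_15202521152_ok, W_14145556544_ok, W_14128783424_ok, W_13071818816_ok, W_13055303744_ok, trivial⟩ C_18440790081
theorem L_18440790144 : HH 127 (nat_lit 18440790144, nat_lit 62) := top_sound R_18440790144
  ⟨V6_17365737600_ok, V6_15202787328_ok, trivial⟩
  ⟨W_18439217216_ok, W_18438955136_ok, W_18422440064_ok, W_17365475456_ok, W_15202525184_ok, W_15202001024_ok, W_14145560576_ok, W_14129045504_ok, W_14128783424_ok, W_13072080896_ok, W_13071818816_ok, W_13055303744_ok, trivial⟩ C_18440790144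
theorem L_18440794176 : HH 127 (nat_lit 18440794176, nat_lit 139) := top_sound R_18440794176
  ⟨V6_18439741440_ok, V6_16276262976_ok, V6_15219302400_ok, trivial⟩
  ⟨W_18439221248_ok, W_18438959168_ok, W_16276262912_ok, W_16276000832_ok, W_15219298304_ok, W_15202783232_ok, W_15202525184_ok, W_15202521152_ok, W_14145818624_ok, W_14145560576_ok, W_14145556544_ok, W_14145302528_ok, W_14129045504_ok, W_14128787456_ok, W_14128783424_ok, W_14128525376_ok, W_13072080896_ok, W_13072076864_ok, W_13071822848_ok, W_13071818816_ok, W_13071560768_ok, W_13055307776_ok, W_13055045696_ok, W_11998081088_ok, W_11981566016_ok, trivial⟩ C_18440794176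
theorem L_18440798208 : HH 127 (nat_lit 18440798208, nat_lit 124) := top_sound R_18440798208
  ⟨V6_18439225344_ok, V6_17366003712_ok, trivial⟩
  ⟨W_17350000640_ok, W_16276520960_ok, W_16276262912_ok, W_15219556352_ok, W_15219298304_ok, W_15218524160_ok, W_15202783232_ok, W_15202525184_ok, W_15202009088_ok, W_14145818624_ok, W_14145560576_ok, W_14145044480_ok, W_14129045504_ok, W_14128787456_ok, W_13072080896_ok, W_13055307776_ok, W_11981570048_ok, trivial⟩ C_18440798208
theorem L_18441048129 : HH 127 (nat_lit 18441048129, nat_lit 9) := top_sound R_18441048129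
  ⟨V6_18439475265_ok, V6_11998597185_ok, trivial⟩
  ⟨W_18439475264_ok, W_11998597184_ok, trivial⟩ C_18441048129
theorem L_18441052224 : HH 127 (nat_lit 18441052224, nat_lit 47) := top_sound R_18441052224
  ⟨V6_15219302400_ok, V6_14146080768_ok, V6_13072343040_ok, V6_13072339008_ok, trivial⟩
  ⟨W_18439475264_ok, W_18439217216_ok, W_16292515904_ok, W_15219298304_ok, W_14145556544_ok, W_13072076864_ok, W_11998597184_ok, trivial⟩ C_18441052224
theorem L_18441056256 : HH 127 (nat_lit 18441056256, nat_lit 51) := top_sound R_18441056256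
  ⟨V6_17366003712_ok, trivial⟩
  ⟨W_18439221248_ok, W_15219556352_ok, W_15219298304_ok, W_14145818624_ok, W_14145302528_ok, W_13072080896_ok, W_13071822848_ok, trivial⟩ C_18441056256
theorem L_18456002754 : HH 127 (nat_lit 18456002754, nat_lit 8) := top_sound R_18456002754
  ⟨V6_14161035456_ok, trivial⟩
  ⟨W_18405666944_ok, W_18388893824_ok, W_18372116672_ok, trivial⟩ C_18456002754
theorem L_18456002817 : HH 127 (nat_lit 18456002817, nat_lit 11) := top_sound R_18456002817
  ⟨V6_14144258241_ok, V6_14127481089_ok, trivial⟩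
  ⟨W_17348706368_ok, W_15234777152_ok, trivial⟩ C_18456002817
theorem L_18456260802 : HH 127 (nat_lit 18456260802, nat_lit 7) := top_sound R_18456260802
  ⟨V6_14161293504_ok, trivial⟩
  ⟨W_18405666944_ok, W_18389151872_ok, W_18372374720_ok, trivial⟩ C_18456260802
theorem L_18456264834 : HH 127 (nat_lit 18456264834, nat_lit 18) := top_sound R_18456264834
  ⟨V6_15234777216_ok, trivial⟩
  ⟨W_18405924992_ok, W_18389151872_ok, W_17348960384_ok, W_17332187264_ok, trivial⟩ C_18456264834

theorem H_18 : AllH 127 tb18 :=
  ⟨L_18406731840, L_18406735872, L_18406977666, L_18406977729, L_18406981761, L_18406981824, L_18406985793, L_18406985856, L_18406989888, L_18406993920, L_18422448387, L_18422710467, L_18422710530, L_18422714562, L_18422714625, L_18422714688, L_18422968515, L_18422972610, L_18422972673, L_18422976642, L_18422976705, L_18422976768, L_18422980737, L_18422980800, L_18423230658, L_18423234690, L_18423234753, L_18423234816, L_18423238785, L_18423238848, L_18423242817, L_18423242880, L_18423246912, L_18423492738, L_18423492801,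 L_18423496833, L_18423496896, L_18423500865, L_18423500928, L_18423504960, L_18423508992, L_18423750786, L_18423754881, L_18423754944, L_18423758913, L_18423758976, L_18423763008, L_18423767040, L_18424012929, L_18424016961, L_18424017024, L_18424021056, L_18424025088, L_18439225539, L_18439225602, L_18439483587, L_18439487682, L_18439487745, L_18439491714, L_18439491777, L_18439491840, L_18439745730, L_18439749762, L_18439749825, L_18439749888, L_18439753857, L_18439753920, L_18439757889, L_18439757952, L_18440007810, L_18440007873, L_18440011905, L_18440011968, L_18440015937, L_18440016000, L_18440020032, L_18440024064, L_18440265858, L_18440269953, L_18440270016, L_18440273985, L_18440274048, L_18440278080, L_18440282112, L_18440528001, L_18440532033, L_18440532096, L_18440536128, L_18440540160, L_18440790081, L_18440790144, L_18440794176, L_18440798208, L_18441048129, L_18441052224, L_18441056256, L_18456002754, L_18456002817, L_18456260802, L_18456264834, trivial⟩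

theorem L_18456264897 : HH 127 (nat_lit 18456264897, nat_lit 37) := top_sound R_18456264897
  ⟨V6_15234777216_ok, V6_15234773184_ok, V6_14161035456_ok, trivial⟩
  ⟨W_18405929024_ok, W_18405666944_ok, W_18389155904_ok, W_18389151872_ok, W_18388893824_ok, W_18372378752_ok, W_18372374720_ok, W_17348706368_ok, trivial⟩ C_18456264897
theorem L_18456264960 : HH 127 (nat_lit 18456264960, nat_lit 36) := top_sound R_18456264960
  ⟨V6_16308781056_ok, V6_14144258304_ok, trivial⟩
  ⟨W_18422448128_ok, W_18388893824_ok, W_18372378752_ok, W_18372116672_ok, W_17348706368_ok, W_17315152064_ok, W_17298636992_ok, W_15234777152_ok, W_15167930624_ok, trivial⟩ C_18456264960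
theorem L_18456268929 : HH 127 (nat_lit 18456268929, nat_lit 29) := top_sound R_18456268929
  ⟨V6_17365737600_ok, trivial⟩
  ⟨W_18405929024_ok, W_18372382784_ok, W_18372378752_ok, W_17315418176_ok, W_16258453568_ok, W_15218262080_ok, W_15201488960_ok, trivial⟩ C_18456268929
theorem L_18456268992 : HH 127 (nat_lit 18456268992, nat_lit 41) := top_sound R_18456268992
  ⟨V6_16308781056_ok, trivial⟩
  ⟨W_18389159936_ok, W_18389151872_ok, W_18372382784_ok, W_18372378752_ok, W_18372374720_ok, W_17332195328_ok, W_17332187264_ok, W_15235039232_ok, W_15218262080_ok, W_14144516288_ok, W_14110970048_ok, trivial⟩ C_18456268992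
theorem L_18456522882 : HH 127 (nat_lit 18456522882, nat_lit 23) := top_sound R_18456522882
  ⟨V6_15235293312_ok, trivial⟩
  ⟨W_18422440064_ok, W_18405924992_ok, W_18405666944_ok, W_18389151872_ok, W_18372636800_ok, W_17381990528_ok, W_17365217408_ok, W_16308252800_ok, trivial⟩ C_18456522882
theorem L_18456522945 : HH 127 (nat_lit 18456522945, nat_lit 33) := top_sound R_18456522945
  ⟨V6_17348702400_ok, V6_16274960577_ok, V6_15234773184_ok, V6_14161293504_ok, V6_13087813824_ok, trivial⟩
  ⟨W_18438959168_ok, W_18389413952_ok, W_18372636800_ok, W_17381994560_ok, W_16308514880_ok, W_14161555520_ok, trivial⟩ C_18456522945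
theorem L_18456526977 : HH 127 (nat_lit 18456526977, nat_lit 94) := top_sound R_18456526977
  ⟨V6_18405671040_ok, V6_16308518976_ok, V6_16291741824_ok, trivial⟩
  ⟨W_18422440064_ok, W_18406187072_ok, W_18405924992_ok, W_18389409920_ok, W_18372640832_ok, W_18355863680_ok, W_17365475456_ok, W_17348706368_ok, W_15234777152_ok, W_15201747008_ok, W_14161555520_ok, W_14144782400_ok, W_13087817792_ok, W_13087813760_ok, W_13071040640_ok, trivial⟩ C_18456526977
theorem L_18456527040 : HH 127 (nat_lit 18456527040, nat_lit 130) := top_sound R_18456527040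
  ⟨V6_17382260736_ok, V6_17366003712_ok, trivial⟩
  ⟨W_18439221248_ok, W_18422448128_ok, W_18389417984_ok, W_17382256640_ok, W_17348706368_ok, W_16308518912_ok, W_15234777152_ok, W_15218524160_ok, W_15218262080_ok, W_15201747008_ok, W_14144516288_ok, W_13071040640_ok, W_13054263488_ok, trivial⟩ C_18456527040
theorem L_18456531009 : HH 127 (nat_lit 18456531009, nat_lit 59) := top_sound R_18456531009
  ⟨V6_18439737408_ok, V6_17382510657_ok, V6_17365995585_ok, trivial⟩
  ⟨W_18372640832_ok, W_16258453568_ok, W_15218262080_ok, W_15201747008_ok, W_15184973888_ok, W_14161297472_ok, W_14144782400_ok, W_14144524352_ok, W_13087817792_ok, W_13071044672_ok, trivial⟩ C_18456531009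
theorem L_18456531072 : HH 127 (nat_lit 18456531072, nat_lit 163) := top_sound R_18456531072
  ⟨V6_18456256512_ok, V6_17382776832_ok, trivial⟩
  ⟨W_18372644864_ok, W_18372640832_ok, W_18355863680_ok, W_17298903104_ok, W_17298899072_ok, W_16258453568_ok, W_16241676416_ok, W_15235297280_ok, W_15235039232_ok, W_15218524160_ok, W_15218266112_ok, W_15218262080_ok, W_15201747008_ok, W_15184973888_ok, W_15184969856_ok, W_15168196736_ok, W_14161559552_ok, W_14161555520_ok, W_14144782400_ok, W_14144524352_ok, W_14127747200_ok, W_14111232128_ok, W_13087821824_ok, W_13087817792_ok, W_13071044672_ok, W_13071040640_ok, W_13070782592_ok, W_13054267520_ok, trivial⟩ C_18456531072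
theorem L_18456535104 : HH 127 (nat_lit 18456535104, nat_lit 109) := top_sound R_18456535104
  ⟨V6_18456514560_ok, V6_17315684352_ok, V6_14161563648_ok, trivial⟩
  ⟨W_18389417984_ok, W_18372644864_ok, W_18372640832_ok, W_18355871744_ok, W_18355867712_ok, W_17298907136_ok, W_17298903104_ok, W_17282129984_ok, W_15235297280_ok, W_15218524160_ok, W_15201747008_ok, W_15184973888_ok, W_14128013312_ok, W_14111236160_ok, W_13071048704_ok, trivial⟩ C_18456535104
theorem L_18456780930 : HH 127 (nat_lit 18456780930, nat_lit 15) := top_sound R_18456780930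
  ⟨V6_15235031169_ok, V6_13088071809_ok, trivial⟩
  ⟨W_18455470208_ok, W_18438955136_ok, W_18422440064_ok, W_18405924992_ok, W_18389409920_ok, trivial⟩ C_18456780930
theorem L_18456785025 : HH 127 (nat_lit 18456785025, nat_lit 85) := top_sound R_18456785025
  ⟨V6_18389672064_ok, V6_18372894849_ok, V6_17365737600_ok, V6_17315930241_ok, trivial⟩
  ⟨W_18455732288_ok, W_18438959168_ok, W_18422182016_ok, W_18406187072_ok, W_18372898880_ok, W_17381994560_ok, W_17381990528_ok, W_17365475456_ok, W_17365217408_ok, W_17315934272_ok, W_16308514880_ok, W_16308252800_ok, W_15202001024_ok, W_14161813568_ok, W_14161555520_ok, W_13088075840_ok, W_13088071808_ok, W_13087813760_ok, W_13071298688_ok, trivial⟩ C_18456785025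
theorem L_18456785088 : HH 127 (nat_lit 18456785088, nat_lit 88) := top_sound R_18456785088
  ⟨V6_17366003712_ok, trivial⟩
  ⟨W_18439221248_ok, W_18438959168_ok, W_18389676032_ok, W_18372898880_ok, W_18372374720_ok, W_17382256640_ok, W_17299157120_ok, W_16225415360_ok, W_15235297280_ok, W_14161817600_ok, W_14144516288_ok, W_13088075840_ok, W_13071298688_ok, W_13071036608_ok, W_13054521536_ok, trivial⟩ C_18456785088
theorem L_18456789057 : HH 127 (nat_lit 18456789057, nat_lit 94) := top_sound R_18456789057
  ⟨V6_18456252480_ok, V6_17365483584_ok, V6_16308518976_ok, trivial⟩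
  ⟨W_18372898880_ok, W_18372640832_ok, W_17348706368_ok, W_17315934272_ok, W_17299161152_ok, W_16242196544_ok, W_15235551296_ok, W_15234777152_ok, W_15201747008_ok, W_15185231936_ok, W_14161813568_ok, W_14144782400_ok, W_14128267328_ok, W_13087817792_ok, W_13071302720_ok, trivial⟩ C_18456789057
theorem L_18456789120 : HH 127 (nat_lit 18456789120, nat_lit 248) := top_sound R_18456789120
  ⟨V6_18456256512_ok, V6_18455998464_ok, V6_18439225344_ok, V6_17382260736_ok, V6_16308518976_ok, trivial⟩
  ⟨W_18422448128_ok, W_18389676032_ok, W_18372902912_ok, W_18372898880_ok, W_18372640832_ok, W_17365483520_ok, W_17348706368_ok, W_17315938304_ok, W_16308518912_ok, W_16242196544_ok, W_15235297280_ok, W_15235039232_ok, W_15218524160_ok, W_15202009088_ok, W_15185231936_ok, W_15168454784_ok, W_14161817600_ok, W_14161813568_ok, W_14161559552_ok, W_14145044480_ok, W_14144782400_ok, W_14128267328_ok, W_14111490176_ok, W_13088079872_ok, W_13088071808_ok, W_13087817792_ok, W_13071302720_ok, W_13054525568_ok, trivial⟩ C_18456789120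
theorem L_18456793152 : HH 127 (nat_lit 18456793152, nat_lit 237) := top_sound R_18456793152
  ⟨V6_18456514560_ok, V6_18456252480_ok, V6_17383034880_ok, V6_17382776832_ok, trivial⟩
  ⟨W_18389676032_ok, W_18372902912_ok, W_18372898880_ok, W_18372640832_ok, W_17315938304_ok, W_17299165184_ok, W_16242196544_ok, W_16225423424_ok, W_15235297280_ok, W_15235039232_ok, W_15218524160_ok, W_15218262080_ok, W_15202009088_ok, W_15201747008_ok, W_15201488960_ok, W_15185231936_ok, W_15168458816_ok, W_14161817600_ok, W_14161813568_ok, W_14161297472_ok, W_14145044480_ok, W_14144782400_ok, W_14144524352_ok, W_14128267328_ok, W_14111494208_ok, W_13088079872_ok, W_13087817792_ok, W_13071306752_ok, W_13071302720_ok, W_13071044672_ok, W_13054529600_ok, trivial⟩ C_18456793152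
theorem L_18456797184 : HH 127 (nat_lit 18456797184, nat_lit 133) := top_sound R_18456797184
  ⟨V6_18456772608_ok, V6_17315684352_ok, V6_16309297152_ok, trivial⟩
  ⟨W_18389676032_ok, W_18389417984_ok, W_18372902912_ok, W_17315938304_ok, W_15235297280_ok, W_15218524160_ok, W_15202009088_ok, W_14161817600_ok, W_14161559552_ok, W_14145044480_ok, W_13071048704_ok, trivial⟩ C_18456797184
theorem L_18457043073 : HH 127 (nat_lit 18457043073, nat_lit 53) := top_sound R_18457043073
  ⟨V6_17315930241_ok, V6_14145298560_ok, V6_13088333952_ok, V6_13088071809_ok, trivial⟩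
  ⟨W_18455470208_ok, W_18439217216_ok, W_18422440064_ok, W_18406187072_ok, W_18389672000_ok, W_17382252608_ok, W_17316192320_ok, trivial⟩ C_18457043073
theorem L_18457047105 : HH 127 (nat_lit 18457047105, nat_lit 83) := top_sound R_18457047105
  ⟨V6_16276004928_ok, V6_15235813440_ok, trivial⟩
  ⟨W_18455990336_ok, W_18455732288_ok, W_18438959168_ok, W_18389930048_ok, W_18389413952_ok, W_17381994560_ok, W_17332965440_ok, W_17316192320_ok, W_17315934272_ok, W_16308514880_ok, W_16276000832_ok, W_16242454592_ok, W_14161813568_ok, W_14161555520_ok, W_13088075840_ok, trivial⟩ C_18457047105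
theorem L_18457047168 : HH 127 (nat_lit 18457047168, nat_lit 209) := top_sound R_18457047168
  ⟨V6_18456256512_ok, V6_18455998464_ok, V6_17382776832_ok, trivial⟩
  ⟨W_18455736320_ok, W_18439221248_ok, W_18438959168_ok, W_18422182016_ok, W_18389934080_ok, W_18389676032_ok, W_17382256640_ok, W_17316196352_ok, W_17316192320_ok, W_16242454592_ok, W_16242450560_ok, W_16242192512_ok, W_15235297280_ok, W_15202001024_ok, W_15185489984_ok, W_15185485952_ok, W_15168712832_ok, W_14161817600_ok, W_14161813568_ok, W_14145302528_ok, W_14145036416_ok, W_14128525376_ok, W_14128521344_ok, W_14128263296_ok, W_14111748224_ok, W_13088337920_ok, W_13088333888_ok, W_13088075840_ok, W_13088071808_ok, W_13071560768_ok, W_13071556736_ok, W_13071298688_ok, W_13054783616_ok, trivial⟩ C_18457047168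
theorem L_18457051200 : HH 127 (nat_lit 18457051200, nat_lit 300) := top_sound R_18457051200
  ⟨V6_18456252480_ok, V6_18439999488_ok, V6_18439225344_ok, V6_18423484416_ok, V6_17383034880_ok, V6_17366519808_ok, trivial⟩
  ⟨W_18422448128_ok, W_17382256640_ok, W_17365483520_ok, W_17348706368_ok, W_17315938304_ok, W_16308518912_ok, W_16308514880_ok, W_16291741760_ok, W_16242458624_ok, W_16242196544_ok, W_15235551296_ok, W_15235297280_ok, W_15235039232_ok, W_15235035200_ok, W_15234777152_ok, W_15218524160_ok, W_15218262080_ok, W_15202009088_ok, W_15201747008_ok, W_15185231936_ok, W_15168716864_ok, W_14161817600_ok, W_14161813568_ok, W_14161559552_ok, W_14161555520_ok, W_14161297472_ok, W_14145044480_ok, W_14144782400_ok, W_14128267328_ok, W_14111752256_ok, W_13088337920_ok, W_13088079872_ok, W_13088075840_ok, W_13087817792_ok, W_13071302720_ok, W_13054787648_ok, trivial⟩ C_18457051200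
theorem L_18457055232 : HH 127 (nat_lit 18457055232, nat_lit 209) := top_sound R_18457055232
  ⟨V6_18456772608_ok, V6_18456256512_ok, V6_17382776832_ok, trivial⟩
  ⟨W_18406707200_ok, W_18389934080_ok, W_18389676032_ok, W_17316196352_ok, W_17315938304_ok, W_16242458624_ok, W_15218524160_ok, W_15202009088_ok, W_15185494016_ok, W_15168720896_ok, W_14161817600_ok, W_14161559552_ok, W_14145302528_ok, W_14145044480_ok, W_14128529408_ok, W_13088337920_ok, W_13088079872_ok, W_13071564800_ok, W_13071306752_ok, W_13054791680_ok, trivial⟩ C_18457055232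
theorem L_18457305153 : HH 127 (nat_lit 18457305153, nat_lit 52) := top_sound R_18457305153
  ⟨V6_18439217217_ok, V6_17382510657_ok, V6_15235813440_ok, V6_15185748033_ok, trivial⟩
  ⟨W_18406187072_ok, W_17332965440_ok, W_16292515904_ok, W_16259485760_ok, W_15202521152_ok, W_14161813568_ok, W_14145556544_ok, W_14128783424_ok, W_13088333888_ok, trivial⟩ C_18457305153
theorem L_18457305216 : HH 127 (nat_lit 18457305216, nat_lit 106) := top_sound R_18457305216
  ⟨V6_16276267008_ok, V6_15235817472_ok, V6_15219302400_ok, trivial⟩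
  ⟨W_18455994368_ok, W_18455732288_ok, W_18455470208_ok, W_18438955136_ok, W_18422440064_ok, W_18406449152_ok, W_18405924992_ok, W_17381990528_ok, W_17365475456_ok, W_15202525184_ok, W_15202001024_ok, W_15185485952_ok, W_14161813568_ok, W_14145036416_ok, W_13088595968_ok, W_13088071808_ok, W_13071556736_ok, trivial⟩ C_18457305216
theorem L_18457309248 : HH 127 (nat_lit 18457309248, nat_lit 229) := top_sound R_18457309248
  ⟨V6_18456256512_ok, V6_18455998464_ok, V6_17382776832_ok, trivial⟩
  ⟨W_18455736320_ok, W_18438959168_ok, W_18406707200_ok, W_17382256640_ok, W_17333227520_ok, W_17332965440_ok, W_16276262912_ok, W_16276000832_ok, W_16259489792_ok, W_16259485760_ok, W_15235551296_ok, W_15235297280_ok, W_15219298304_ok, W_15202525184_ok, W_15202521152_ok, W_15185752064_ok, W_15185748032_ok, W_15185489984_ok, W_14162333696_ok, W_14162071616_ok, W_14161817600_ok, W_14161813568_ok, W_14145560576_ok, W_14145556544_ok, W_14145302528_ok, W_14128787456_ok, W_14128783424_ok, W_14128525376_ok, W_14112010304_ok, W_13088595968_ok, W_13088337920_ok,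 W_13088333888_ok, W_13088075840_ok, W_13071822848_ok, W_13071818816_ok, W_13071560768_ok, W_13055045696_ok, trivial⟩ C_18457309248
theorem L_18457313280 : HH 127 (nat_lit 18457313280, nat_lit 208) := top_sound R_18457313280
  ⟨V6_18456256512_ok, V6_18455998464_ok, V6_18439225344_ok, V6_17382260736_ok, trivial⟩
  ⟨W_18406965248_ok, W_18406707200_ok, W_17333227520_ok, W_16276262912_ok, W_15219298304_ok, W_15218524160_ok, W_15202525184_ok, W_15202009088_ok, W_15185752064_ok, W_15185494016_ok, W_14162333696_ok, W_14161817600_ok, W_14161559552_ok, W_14145560576_ok, W_14145302528_ok, W_14145044480_ok, W_14128787456_ok, W_14128529408_ok, W_14112014336_ok, W_13088595968_ok, W_13088337920_ok, W_13088079872_ok, W_13071822848_ok, W_13071564800_ok, W_13055049728_ok, trivial⟩ C_18457313280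
theorem L_18457563201 : HH 127 (nat_lit 18457563201, nat_lit 15) := top_sound R_18457563201
  ⟨V6_15202783296_ok, V6_14145556545_ok, V6_14129041473_ok, V6_13088854080_ok, trivial⟩
  ⟨W_18455990336_ok, W_16292515904_ok, trivial⟩ C_18457563201
theorem L_18457567296 : HH 127 (nat_lit 18457567296, nat_lit 135) := top_sound R_18457567296
  ⟨V6_16309297152_ok, V6_15235817472_ok, V6_13088858112_ok, trivial⟩
  ⟨W_18456252416_ok, W_18455990336_ok, W_18455732288_ok, W_16276262912_ok, W_16276000832_ok, W_15235551296_ok, W_15219298304_ok, W_15202783232_ok, W_15202525184_ok, W_15202521152_ok, W_14162333696_ok, W_14162071616_ok, W_14161813568_ok, W_14145818624_ok, W_14145560576_ok, W_14145556544_ok, W_14129045504_ok, W_14128783424_ok, W_13088854016_ok, W_13088595968_ok, W_13072080896_ok, W_13071818816_ok, trivial⟩ C_18457567296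
theorem L_18457571328 : HH 127 (nat_lit 18457571328, nat_lit 155) := top_sound R_18457571328
  ⟨V6_18456772608_ok, V6_18455998464_ok, V6_15236333568_ok, V6_15235817472_ok, trivial⟩
  ⟨W_18455736320_ok, W_18439221248_ok, W_17382256640_ok, W_16276520960_ok, W_16276262912_ok, W_15235297280_ok, W_15219298304_ok, W_15202783232_ok, W_15202525184_ok, W_14162591744_ok, W_14162333696_ok, W_14161817600_ok, W_14145560576_ok, W_14145302528_ok, W_14128787456_ok, W_13088595968_ok, W_13088337920_ok, W_13071822848_ok, W_13055307776_ok, trivial⟩ C_18457571328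
theorem L_18457825344 : HH 127 (nat_lit 18457825344, nat_lit 39) := top_sound R_18457825344
  ⟨V6_16309293120_ok, V6_13072339008_ok, trivial⟩
  ⟨W_18456252416_ok, W_15219298304_ok, W_14162333696_ok, W_13088854016_ok, trivial⟩ C_18457825344
theorem L_18457829376 : HH 127 (nat_lit 18457829376, nat_lit 80) := top_sound R_18457829376
  ⟨V6_15236333568_ok, V6_15235817472_ok, V6_13088858112_ok, trivial⟩
  ⟨W_18456510464_ok, W_18456252416_ok, W_18455994368_ok, W_15219298304_ok, W_14145818624_ok, W_13072080896_ok, trivial⟩ C_18457829376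
theorem L_18458087424 : HH 127 (nat_lit 18458087424, nat_lit 26) := top_sound R_18458087424
  ⟨V6_18456772608_ok, trivial⟩
  ⟨W_18456510464_ok, W_14162333696_ok, trivial⟩ C_18458087424
theorem L_18472775874 : HH 127 (nat_lit 18472775874, nat_lit 3) := top_sound R_18472775874
  ⟨V6_14177808576_ok, trivial⟩
  ⟨W_18405666944_ok, trivial⟩ C_18472775874
theorem L_18472779906 : HH 127 (nat_lit 18472779906, nat_lit 9) := top_sound R_18472779906
  ⟨V6_15234777216_ok, trivial⟩
  ⟨W_18422440064_ok, W_18405666944_ok, trivial⟩ C_18472779906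
theorem L_18472779969 : HH 127 (nat_lit 18472779969, nat_lit 18) := top_sound R_18472779969
  ⟨V6_14177812608_ok, V6_14177808576_ok, V6_14161035456_ok, trivial⟩
  ⟨W_18422444096_ok, W_18405666944_ok, W_18388893824_ok, W_18372116672_ok, W_17315152064_ok, trivial⟩ C_18472779969
theorem L_18472780032 : HH 127 (nat_lit 18472780032, nat_lit 17) := top_sound R_18472780032
  ⟨V6_16325296128_ok, V6_14144258304_ok, trivial⟩
  ⟨W_18422448128_ok, W_18388893824_ok, trivial⟩ C_18472780032
theorem L_18473037954 : HH 127 (nat_lit 18473037954, nat_lit 14) := top_sound R_18473037954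
  ⟨V6_16308248706_ok, V6_15235031169_ok, V6_14177546370_ok, trivial⟩
  ⟨W_18422440064_ok, W_18405924992_ok, W_18405666944_ok, W_18389151872_ok, trivial⟩ C_18473037954
theorem L_18473038017 : HH 127 (nat_lit 18473038017, nat_lit 20) := top_sound R_18473038017
  ⟨V6_15251288256_ok, V6_15234773184_ok, V6_14177808576_ok, V6_14161293504_ok, trivial⟩
  ⟨W_18438959168_ok, W_18405929024_ok, W_18389151872_ok, W_18372374720_ok, W_16325029952_ok, trivial⟩ C_18473038017
theorem L_18473042049 : HH 127 (nat_lit 18473042049, nat_lit 53) := top_sound R_18473042049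
  ⟨V6_16291741761_ok, V6_15235031169_ok, V6_15234777216_ok, V6_14177812608_ok, trivial⟩
  ⟨W_18439217216_ok, W_18422440064_ok, W_18405924992_ok, W_18372378752_ok, W_17382252608_ok, W_17365475456_ok, W_17348960384_ok, W_17348706368_ok, W_14178070592_ok, trivial⟩ C_18473042049
theorem L_18473042112 : HH 127 (nat_lit 18473042112, nat_lit 72) := top_sound R_18473042112
  ⟨V6_16308781056_ok, V6_15251816448_ok, trivial⟩
  ⟨W_18439221248_ok, W_18422448128_ok, W_18405666944_ok, W_18388893824_ok, W_18372374720_ok, W_18372116672_ok, W_17382256640_ok, W_17348706368_ok, W_16325292032_ok, W_14144516288_ok, trivial⟩ C_18473042112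
theorem L_18473046081 : HH 127 (nat_lit 18473046081, nat_lit 25) := top_sound R_18473046081
  ⟨V6_18456252480_ok, trivial⟩
  ⟨W_18372382784_ok, W_16258453568_ok, W_15235035200_ok, W_15218262080_ok, W_14178070592_ok, W_14144524352_ok, trivial⟩ C_18473046081
theorem L_18473046144 : HH 127 (nat_lit 18473046144, nat_lit 64) := top_sound R_18473046144
  ⟨V6_16292007936_ok, V6_15251816448_ok, V6_14178078720_ok, trivial⟩
  ⟨W_18405924992_ok, W_18389159936_ok, W_18389151872_ok, W_18372378752_ok, W_17348960384_ok, W_17332195328_ok, W_17332187264_ok, W_16275230720_ok, W_15251812352_ok, W_15235039232_ok, W_15218262080_ok, W_14178070592_ok, trivial⟩ C_18473046144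
theorem L_18473296002 : HH 127 (nat_lit 18473296002, nat_lit 11) := top_sound R_18473296002
  ⟨V6_15235031169_ok, trivial⟩
  ⟨W_18455470208_ok, W_18438955136_ok, W_18389409920_ok, W_17398505600_ok, W_16325025920_ok, trivial⟩ C_18473296002
theorem L_18473300097 : HH 127 (nat_lit 18473300097, nat_lit 70) := top_sound R_18473300097
  ⟨V6_18389409921_ok, V6_16291995777_ok, V6_15235293312_ok, trivial⟩
  ⟨W_18455732288_ok, W_18438959168_ok, W_18422182016_ok, W_18406187072_ok, W_17398767680_ok, W_17381994560_ok, W_17381990528_ok, W_17365475456_ok, W_17365217408_ok, W_16325029952_ok, W_16308514880_ok, W_15251550272_ok, W_14178328640_ok, W_14178070592_ok, W_14161555520_ok, trivial⟩ C_18473300097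
theorem L_18473300160 : HH 127 (nat_lit 18473300160, nat_lit 71) := top_sound R_18473300160
  ⟨V6_17366003712_ok, trivial⟩
  ⟨W_18455736320_ok, W_18439221248_ok, W_18405666944_ok, W_17398771712_ok, W_17382256640_ok, W_16325292032_ok, W_16325029952_ok, W_15251812352_ok, W_14178332672_ok, W_14178070592_ok, W_14177546432_ok, trivial⟩ C_18473300160
theorem L_18473304129 : HH 127 (nat_lit 18473304129, nat_lit 75) := top_sound R_18473304129
  ⟨V6_18439217217_ok, V6_18405670977_ok, V6_16308518976_ok, V6_16291741761_ok, trivial⟩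
  ⟨W_18455990336_ok, W_18406187072_ok, W_18372640832_ok, W_17399025728_ok, W_16325546048_ok, W_15234777152_ok, W_15201747008_ok, W_14178328640_ok, W_14161555520_ok, W_14144782400_ok, trivial⟩ C_18473304129
theorem L_18473304192 : HH 127 (nat_lit 18473304192, nat_lit 196) := top_sound R_18473304192
  ⟨V6_18439741440_ok, V6_17382776832_ok, V6_16325296128_ok, trivial⟩
  ⟨W_18439221248_ok, W_18422448128_ok, W_18388893824_ok, W_18372640832_ok, W_18355863680_ok, W_17382256640_ok, W_17365483520_ok, W_17348706368_ok, W_16308518912_ok, W_16291741760_ok, W_15251554304_ok, W_15251546240_ok, W_15235297280_ok, W_15235039232_ok, W_15234777152_ok, W_15218524160_ok, W_15218262080_ok, W_15201747008_ok, W_14178332672_ok, W_14178328640_ok, W_14161559552_ok, W_14161297472_ok, W_14144782400_ok, trivial⟩ C_18473304192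
theorem L_18473308224 : HH 127 (nat_lit 18473308224, nat_lit 171) := top_sound R_18473308224
  ⟨V6_18456252480_ok, V6_17399549952_ok, V6_17382776832_ok, trivial⟩
  ⟨W_18389417984_ok, W_18389159936_ok, W_18372644864_ok, W_18372640832_ok, W_18372382784_ok, W_18355867712_ok, W_17298903104_ok, W_16258453568_ok, W_15251812352_ok, W_15235297280_ok, W_15235039232_ok, W_15218524160_ok, W_15218266112_ok, W_15218262080_ok, W_15201747008_ok, W_15201488960_ok, W_15184973888_ok, W_14178332672_ok, W_14178070592_ok, W_14161559552_ok, W_14161555520_ok, W_14161301504_ok, W_14161297472_ok, W_14144782400_ok, W_14144524352_ok, trivial⟩ C_18473308224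
theorem L_18473312256 : HH 127 (nat_lit 18473312256, nat_lit 77) := top_sound R_18473312256
  ⟨V6_17399549952_ok, V6_17315684352_ok, trivial⟩
  ⟨W_18456510464_ok, W_18389417984_ok, W_15235297280_ok, W_15218524160_ok, W_14178332672_ok, trivial⟩ C_18473312256
theorem L_18473558145 : HH 127 (nat_lit 18473558145, nat_lit 48) := top_sound R_18473558145
  ⟨V6_17315930241_ok, V6_15235293312_ok, trivial⟩
  ⟨W_18455732288_ok, W_18455470208_ok, W_18406187072_ok, W_17398767680_ok, W_17398505600_ok, W_17382252608_ok, W_14178328640_ok, W_14161813568_ok, trivial⟩ C_18473558145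
theorem L_18473562177 : HH 127 (nat_lit 18473562177, nat_lit 80) := top_sound R_18473562177
  ⟨V6_18456252480_ok, V6_18423222336_ok, V6_15252328512_ok, trivial⟩
  ⟨W_18472505408_ok, W_18438959168_ok, W_18372898880_ok, W_17398767680_ok, W_17381994560_ok, W_17315934272_ok, W_16325546048_ok, W_16325029952_ok, W_16308514880_ok, W_15251550272_ok, W_15235551296_ok, W_15235035200_ok, W_14178328640_ok, W_14178070592_ok, W_14161813568_ok, W_14161555520_ok, trivial⟩ C_18473562177
theorem L_18473562240 : HH 127 (nat_lit 18473562240, nat_lit 191) := top_sound R_18473562240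
  ⟨V6_18455998464_ok, V6_18423226368_ok, V6_17366261760_ok, trivial⟩
  ⟨W_18472509440_ok, W_18455736320_ok, W_18439221248_ok, W_18438959168_ok, W_18422182016_ok, W_18389676032_ok, W_18372898880_ok, W_17398771712_ok, W_17398767680_ok, W_17382256640_ok, W_17381990528_ok, W_17299157120_ok, W_16325292032_ok, W_16325029952_ok, W_16308514880_ok, W_16242192512_ok, W_15251812352_ok, W_15251546240_ok, W_15235297280_ok, W_15202001024_ok, W_14178590720_ok, W_14178332672_ok, W_14178328640_ok, W_14178070592_ok, W_14161817600_ok, W_14161813568_ok, W_14161555520_ok, W_14145036416_ok, W_14128263296_ok, trivial⟩ C_18473562240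
theorem L_18473566272 : HH 127 (nat_lit 18473566272, nat_lit 274) := top_sound R_18473566272
  ⟨V6_18456252480_ok, V6_18439999488_ok, V6_18439225344_ok, V6_17383034880_ok, V6_17382260736_ok, V6_16325296128_ok, V6_15252328512_ok, trivial⟩
  ⟨W_18422448128_ok, W_18389676032_ok, W_18372902912_ok, W_18372898880_ok, W_18372640832_ok, W_17382256640_ok, W_17365483520_ok, W_17348706368_ok, W_17315938304_ok, W_16308518912_ok, W_16242196544_ok, W_15235297280_ok, W_15235039232_ok, W_15234777152_ok, W_15218524160_ok, W_15218262080_ok, W_15202009088_ok, W_15201747008_ok, W_15185231936_ok, W_14178590720_ok, W_14178586688_ok, W_14178328640_ok, W_14161817600_ok, W_14161813568_ok, W_14161559552_ok, W_14161555520_ok, W_14161297472_ok, W_14145044480_ok, W_14144782400_ok, W_14128267328_ok, trivial⟩ C_18473566272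
theorem L_18473570304 : HH 127 (nat_lit 18473570304, nat_lit 179) := top_sound R_18473570304
  ⟨V6_17399549952_ok, V6_17383034880_ok, V6_16309297152_ok, trivial⟩
  ⟨W_18389676032_ok, W_18389417984_ok, W_18389159936_ok, W_18372902912_ok, W_18372644864_ok, W_17332195328_ok, W_17315938304_ok, W_17299165184_ok, W_15251812352_ok, W_15235297280_ok, W_15235039232_ok, W_15218524160_ok, W_15218266112_ok, W_15202009088_ok, W_14178590720_ok, W_14178332672_ok, W_14161817600_ok, W_14161559552_ok, W_14145044480_ok, trivial⟩ C_18473570304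
theorem L_18473820225 : HH 127 (nat_lit 18473820225, nat_lit 61) := top_sound R_18473820225
  ⟨V6_16276004928_ok, V6_14178848832_ok, trivial⟩
  ⟨W_18472505408_ok, W_18472247360_ok, W_18455990336_ok, W_18455732288_ok, W_18406187072_ok, W_18389672000_ok, W_17399025728_ok, W_17398767680_ok, W_16325546048_ok, trivial⟩ C_18473820225
theorem L_18473820288 : HH 127 (nat_lit 18473820288, nat_lit 120) := top_sound R_18473820288
  ⟨V6_17316192384_ok, V6_15252332544_ok, V6_15235817472_ok, trivial⟩
  ⟨W_18472509440_ok, W_18472247360_ok, W_18455994368_ok, W_18455732288_ok, W_18455470208_ok, W_18438955136_ok, W_18389934080_ok, W_17399029760_ok, W_17398767680_ok, W_17398505600_ok, W_17381990528_ok, W_17316192320_ok, W_16242450560_ok, W_15251546240_ok, W_15202001024_ok, W_14178590720_ok, W_14178328640_ok, W_14161813568_ok, trivial⟩ C_18473820288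
theorem L_18473824320 : HH 127 (nat_lit 18473824320, nat_lit 264) := top_sound R_18473824320
  ⟨V6_18456252480_ok, V6_18439999488_ok, V6_18423484416_ok, V6_17383034880_ok, V6_17366519808_ok, trivial⟩
  ⟨W_18472767488_ok, W_18472509440_ok, W_18472505408_ok, W_18455736320_ok, W_18438959168_ok, W_18389934080_ok, W_18389930048_ok, W_18389676032_ok, W_17398771712_ok, W_17398767680_ok, W_17382256640_ok, W_17381994560_ok, W_17332965440_ok, W_17316196352_ok, W_17316192320_ok, W_17315934272_ok, W_16325292032_ok, W_16325029952_ok, W_16308514880_ok, W_16242454592_ok, W_15251812352_ok, W_15251550272_ok, W_15235551296_ok, W_15235297280_ok, W_15235035200_ok, W_15185489984_ok, W_14178848768_ok, W_14178590720_ok, W_14178586688_ok, W_14178332672_ok, W_14178328640_ok, W_14178070592_ok, W_14161817600_ok, W_14161813568_ok, W_14161555520_ok, W_14128525376_ok, trivial⟩ C_18473824320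
theorem L_18473828352 : HH 127 (nat_lit 18473828352, nat_lit 233) := top_sound R_18473828352
  ⟨V6_18456772608_ok, V6_18439225344_ok, V6_17399549952_ok, V6_17382260736_ok, V6_17366519808_ok, V6_16325296128_ok, trivial⟩
  ⟨W_18472767488_ok, W_18422448128_ok, W_18389934080_ok, W_18389676032_ok, W_17365483520_ok, W_17316196352_ok, W_17315938304_ok, W_16308518912_ok, W_16242458624_ok, W_15235297280_ok, W_15235039232_ok, W_15218524160_ok, W_15202009088_ok, W_15185494016_ok, W_14178848768_ok, W_14178332672_ok, W_14161817600_ok, W_14161559552_ok, W_14145044480_ok, W_14128529408_ok, trivial⟩ C_18473828352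
theorem L_18474078273 : HH 127 (nat_lit 18474078273, nat_lit 23) := top_sound R_18474078273
  ⟨V6_15252328512_ok, V6_14178848832_ok, trivial⟩
  ⟨W_18472505408_ok, W_18455990336_ok, W_17332965440_ok, W_16259485760_ok, W_14145556544_ok, trivial⟩ C_18474078273
theorem L_18474082368 : HH 127 (nat_lit 18474082368, nat_lit 179) := top_sound R_18474082368
  ⟨V6_17349746688_ok, V6_15252328512_ok, V6_15235817472_ok, V6_15235813440_ok, V6_14179110912_ok, trivial⟩
  ⟨W_18472767488_ok, W_18472509440_ok, W_18472505408_ok, W_18472247360_ok, W_18456252416_ok, W_18455990336_ok, W_18406707200_ok, W_17399025728_ok, W_17398767680_ok, W_17333227520_ok, W_17332965440_ok, W_16276262912_ok, W_16276000832_ok, W_16259489792_ok, W_16259485760_ok, W_15219298304_ok, W_15202525184_ok, W_15185748032_ok, W_14178848768_ok, W_14178590720_ok, W_14178586688_ok, W_14162333696_ok, W_14161813568_ok, W_14145556544_ok, trivial⟩ C_18474082368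
theorem L_18474086400 : HH 127 (nat_lit 18474086400, nat_lit 200) := top_sound R_18474086400
  ⟨V6_18455998464_ok, V6_17399549952_ok, V6_17382776832_ok, trivial⟩
  ⟨W_18472767488_ok, W_18472509440_ok, W_18455736320_ok, W_18439221248_ok, W_18406965248_ok, W_18406707200_ok, W_17398771712_ok, W_17382256640_ok, W_17333227520_ok, W_16276262912_ok, W_15235297280_ok, W_15219298304_ok, W_15202525184_ok, W_15185752064_ok, W_14179106816_ok, W_14178848768_ok, W_14178590720_ok, W_14162333696_ok, W_14161817600_ok, W_14145560576_ok, W_14145302528_ok, W_14128787456_ok, trivial⟩ C_18474086400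
theorem L_18474340416 : HH 127 (nat_lit 18474340416, nat_lit 71) := top_sound R_18474340416
  ⟨V6_16276262976_ok, V6_15252328512_ok, V6_15235813440_ok, V6_14178848832_ok, trivial⟩
  ⟨W_18472767488_ok, W_18472505408_ok, W_18456252416_ok, W_17349742592_ok, W_15202783232_ok, W_14145818624_ok, trivial⟩ C_18474340416
theorem L_18474344448 : HH 127 (nat_lit 18474344448, nat_lit 137) := top_sound R_18474344448
  ⟨V6_17349746688_ok, V6_15236333568_ok, V6_15235817472_ok, V6_14179110912_ok, trivial⟩
  ⟨W_18473025536_ok, W_18472767488_ok, W_18472509440_ok, W_18456510464_ok, W_18456252416_ok, W_17350000640_ok, W_16276520960_ok, W_16276262912_ok, W_15202783232_ok, W_14178848768_ok, W_14178590720_ok, W_14162591744_ok, W_14145818624_ok, W_14129045504_ok, trivial⟩ C_18474344448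
theorem L_18474602496 : HH 127 (nat_lit 18474602496, nat_lit 63) := top_sound R_18474602496
  ⟨V6_17399549952_ok, V6_14179110912_ok, trivial⟩
  ⟨W_18472767488_ok, W_18456510464_ok, W_15252586496_ok, W_15219556352_ok, W_15219298304_ok, W_14162591744_ok, W_14145818624_ok, trivial⟩ C_18474602496
theorem L_18474860544 : HH 127 (nat_lit 18474860544, nat_lit 15) := top_sound R_18474860544
  ⟨V6_16326328320_ok, trivial⟩
  ⟨W_18473025536_ok, W_14179106816_ok, trivial⟩ C_18474860544
theorem L_18489553026 : HH 127 (nat_lit 18489553026, nat_lit 7) := top_sound R_18489553026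
  ⟨V6_16308248706_ok, V6_16291733634_ok, V6_16291475586_ok, V6_15268061313_ok, trivial⟩
  ⟨W_18422440064_ok, W_15251546240_ok, trivial⟩ C_18489553026
theorem L_18489553089 : HH 127 (nat_lit 18489553089, nat_lit 9) := top_sound R_18489553089
  ⟨V6_15268065345_ok, V6_15234773184_ok, trivial⟩
  ⟨W_18438959168_ok, W_17381994560_ok, W_16325029952_ok, trivial⟩ C_18489553089
theorem L_18489557121 : HH 127 (nat_lit 18489557121, nat_lit 24) := top_sound R_18489557121
  ⟨V6_15234777216_ok, trivial⟩
  ⟨W_18439217216_ok, W_17382252608_ok, W_16325288000_ok, W_15268323392_ok, trivial⟩ C_18489557121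
theorem L_18489557184 : HH 127 (nat_lit 18489557184, nat_lit 31) := top_sound R_18489557184
  ⟨V6_15268331520_ok, V6_15234773184_ok, V6_15218000064_ok, trivial⟩
  ⟨W_18439221248_ok, W_18422448128_ok, W_18405666944_ok, W_18372116672_ok, trivial⟩ C_18489557184
theorem L_18489811074 : HH 127 (nat_lit 18489811074, nat_lit 9) := top_sound R_18489811074
  ⟨V6_15235031169_ok, trivial⟩
  ⟨W_18455470208_ok, W_18422440064_ok, W_17398505600_ok, W_16341540992_ok, trivial⟩ C_18489811074
theorem L_18489815169 : HH 127 (nat_lit 18489815169, nat_lit 40) := top_sound R_18489815169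
  ⟨V6_18439217217_ok, V6_16291995777_ok, V6_15235031169_ok, trivial⟩
  ⟨W_18455732288_ok, W_18438959168_ok, W_18422182016_ok, W_17398767680_ok, W_16341803072_ok, W_16325029952_ok, W_16308514880_ok, W_15251808320_ok, W_15251550272_ok, trivial⟩ C_18489815169
theorem L_18489815232 : HH 127 (nat_lit 18489815232, nat_lit 38) := top_sound R_18489815232
  ⟨V6_16342069248_ok, V6_15268589568_ok, V6_15234773184_ok, trivial⟩
  ⟨W_18455736320_ok, W_18439221248_ok, W_18389151872_ok, W_18372374720_ok, W_17382256640_ok, W_16341807104_ok, trivial⟩ C_18489815232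
theorem L_18489819201 : HH 127 (nat_lit 18489819201, nat_lit 41) := top_sound R_18489819201
  ⟨V6_16308518976_ok, V6_16291741761_ok, trivial⟩
  ⟨W_18455990336_ok, W_18439217216_ok, W_17399025728_ok, W_16342061120_ok, W_16325546048_ok, W_15218262080_ok, trivial⟩ C_18489819201
theorem L_18489819264 : HH 127 (nat_lit 18489819264, nat_lit 106) := top_sound R_18489819264
  ⟨V6_17382260736_ok, V6_16325296128_ok, V6_16308781056_ok, trivial⟩
  ⟨W_18439221248_ok, W_18422448128_ok, W_18422440064_ok, W_18405924992_ok, W_17399029760_ok, W_17382256640_ok, W_17365475456_ok, W_16342065152_ok, W_15268585472_ok, W_15268327424_ok, W_15251812352_ok, W_15251546240_ok, trivial⟩ C_18489819264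
theorem L_18489823296 : HH 127 (nat_lit 18489823296, nat_lit 65) := top_sound R_18489823296
  ⟨V6_16292007936_ok, V6_15251816448_ok, V6_15235043328_ok, trivial⟩
  ⟨W_18456252416_ok, W_18372382784_ok, W_17399287808_ok, W_17382510656_ok, W_16325546048_ok, W_15268585472_ok, W_15268581440_ok, W_15251812352_ok, trivial⟩ C_18489823296
theorem L_18490073217 : HH 127 (nat_lit 18490073217, nat_lit 39) := top_sound R_18490073217
  ⟨V6_15235293312_ok, trivial⟩
  ⟨W_18472247360_ok, W_18439217216_ok, W_18406187072_ok, W_17415282752_ok, W_17398767680_ok, W_16341540992_ok, W_15268323392_ok, trivial⟩ C_18490073217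
theorem L_18490077249 : HH 127 (nat_lit 18490077249, nat_lit 58) := top_sound R_18490077249
  ⟨V6_18439737408_ok, V6_17365995585_ok, V6_15268843584_ok, trivial⟩
  ⟨W_18472505408_ok, W_18438959168_ok, W_17415540800_ok, W_17399025728_ok, W_17398767680_ok, W_17381994560_ok, W_16342061120_ok, W_16341803072_ok, W_16325546048_ok, W_16325029952_ok, W_16308514880_ok, W_15268581440_ok, W_15251550272_ok, W_15235035200_ok, trivial⟩ C_18490077249
theorem L_18490077312 : HH 127 (nat_lit 18490077312, nat_lit 144) := top_sound R_18490077312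
  ⟨V6_18455998464_ok, V6_17382776832_ok, trivial⟩
  ⟨W_18472509440_ok, W_18455736320_ok, W_18439221248_ok, W_18438959168_ok, W_18422440064_ok, W_18405924992_ok, W_17415544832_ok, W_17398771712_ok, W_17398767680_ok, W_17382256640_ok, W_17381990528_ok, W_17365475456_ok, W_16341803072_ok, W_16325292032_ok, W_16325029952_ok, W_15268585472_ok, W_15268327424_ok, W_15268061312_ok, W_15251812352_ok, W_15235297280_ok, trivial⟩ C_18490077312
theorem L_18490081344 : HH 127 (nat_lit 18490081344, nat_lit 199) := top_sound R_18490081344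
  ⟨V6_17399549952_ok, V6_17382776832_ok, V6_16325296128_ok, V6_16308518976_ok, trivial⟩
  ⟨W_18472767488_ok, W_18439221248_ok, W_18422448128_ok, W_18389417984_ok, W_18372640832_ok, W_17382256640_ok, W_17365483520_ok, W_17348706368_ok, W_16308518912_ok, W_16291741760_ok, W_15268843520_ok, W_15268585472_ok, W_15268327424_ok, W_15235297280_ok, W_15235039232_ok, W_15234777152_ok, W_15218524160_ok, W_15201747008_ok, trivial⟩ C_18490081344
theorem L_18490085376 : HH 127 (nat_lit 18490085376, nat_lit 119) := top_sound R_18490085376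
  ⟨V6_18389422080_ok, V6_16325812224_ok, V6_16292007936_ok, trivial⟩
  ⟨W_18473025536_ok, W_18456510464_ok, W_18389417984_ok, W_17416060928_ok, W_17332195328_ok, W_15268843520_ok, W_15268585472_ok, W_15251812352_ok, W_15235297280_ok, W_15218524160_ok, trivial⟩ C_18490085376
theorem L_18490335297 : HH 127 (nat_lit 18490335297, nat_lit 52) := top_sound R_18490335297
  ⟨V6_16309293120_ok, V6_15252328512_ok, trivial⟩
  ⟨W_18489020480_ok, W_18472505408_ok, W_18472247360_ok, W_18455732288_ok, W_18406187072_ok, W_18389672000_ok, W_17415540800_ok, W_17415282752_ok, W_17398767680_ok, W_16341803072_ok, trivial⟩ C_18490335297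
theorem L_18490335360 : HH 127 (nat_lit 18490335360, nat_lit 106) := top_sound R_18490335360
  ⟨V6_16309297152_ok, V6_15252332544_ok, trivial⟩
  ⟨W_18489024512_ok, W_18472509440_ok, W_18472247360_ok, W_18455732288_ok, W_18455470208_ok, W_18438955136_ok, W_18422440064_ok, W_18405924992_ok, W_17415544832_ok, W_17415282752_ok, W_17399029760_ok, W_17398767680_ok, W_17381990528_ok, W_17365475456_ok, W_16342065152_ok, W_16341803072_ok, W_15268585472_ok, W_15268061312_ok, trivial⟩ C_18490335360
theorem L_18490339392 : HH 127 (nat_lit 18490339392, nat_lit 221) := top_sound R_18490339392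
  ⟨V6_18439999488_ok, V6_18423222336_ok, V6_17399549952_ok, V6_17383034880_ok, V6_15252328512_ok, trivial⟩
  ⟨W_18489282560_ok, W_18472767488_ok, W_18472509440_ok, W_18472505408_ok, W_18455736320_ok, W_18439221248_ok, W_18438959168_ok, W_18389676032_ok, W_18372898880_ok, W_17415544832_ok, W_17398771712_ok, W_17398767680_ok, W_17382256640_ok, W_17381994560_ok, W_17315934272_ok, W_16341807104_ok, W_16341803072_ok, W_16325292032_ok, W_16325029952_ok, W_16308514880_ok, W_15268843520_ok, W_15268585472_ok, W_15268581440_ok, W_15268327424_ok, W_15251812352_ok, W_15251550272_ok, W_15235551296_ok, W_15235297280_ok, W_15235035200_ok, trivial⟩ C_18490339392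
theorem L_18490343424 : HH 127 (nat_lit 18490343424, nat_lit 196) := top_sound R_18490343424
  ⟨V6_18423226368_ok, V6_17383034880_ok, V6_17382260736_ok, V6_16325296128_ok, trivial⟩
  ⟨W_18489540608_ok, W_18472767488_ok, W_18439221248_ok, W_18422448128_ok, W_18389676032_ok, W_17416060928_ok, W_17382256640_ok, W_17315938304_ok, W_15269101568_ok, W_15268843520_ok, W_15268585472_ok, W_15235297280_ok, W_15235039232_ok, W_15218524160_ok, W_15202009088_ok, trivial⟩ C_18490343424
theorem L_18490593345 : HH 127 (nat_lit 18490593345, nat_lit 22) := top_sound R_18490593345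
  ⟨V6_15268843584_ok, V6_15235813440_ok, trivial⟩
  ⟨W_18472505408_ok, W_18455990336_ok, W_17399025728_ok, W_16342061120_ok, trivial⟩ C_18490593345
theorem L_18490597440 : HH 127 (nat_lit 18490597440, nat_lit 180) := top_sound R_18490597440
  ⟨V6_18406711296_ok, V6_17349746688_ok, V6_15268843584_ok, V6_15235817472_ok, trivial⟩
  ⟨W_18489282560_ok, W_18489024512_ok, W_18472767488_ok, W_18472509440_ok, W_18472505408_ok, W_18472247360_ok, W_18455990336_ok, W_18406707200_ok, W_18389934080_ok, W_18389930048_ok, W_17415802880_ok, W_17415544832_ok, W_17415540800_ok, W_17415282752_ok, W_17399025728_ok, W_17398767680_ok, W_17332965440_ok, W_17316192320_ok, W_16342065152_ok, W_16341803072_ok, W_16276000832_ok, W_15268843520_ok, W_15268585472_ok, W_15235551296_ok, trivial⟩ C_18490597440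
theorem L_18490601472 : HH 127 (nat_lit 18490601472, nat_lit 204) := top_sound R_18490601472
  ⟨V6_18455998464_ok, V6_17349746688_ok, V6_16326328320_ok, V6_16292782080_ok, trivial⟩
  ⟨W_18489540608_ok, W_18489282560_ok, W_18472767488_ok, W_18472509440_ok, W_18455736320_ok, W_18439221248_ok, W_18406707200_ok, W_18389934080_ok, W_18389676032_ok, W_17416060928_ok, W_17415544832_ok, W_17398771712_ok, W_17382256640_ok, W_17316196352_ok, W_15269101568_ok, W_15268843520_ok, W_15268585472_ok, W_15235297280_ok, trivial⟩ C_18490601472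
theorem L_18490855488 : HH 127 (nat_lit 18490855488, nat_lit 78) := top_sound R_18490855488
  ⟨V6_16276262976_ok, V6_15269105664_ok, V6_15268843584_ok, V6_15252328512_ok, V6_15235813440_ok, trivial⟩
  ⟨W_18472767488_ok, W_18472505408_ok, W_18456252416_ok, W_18406707200_ok, W_17415802880_ok, W_17415540800_ok, W_17333227520_ok, trivial⟩ C_18490855488
theorem L_18490859520 : HH 127 (nat_lit 18490859520, nat_lit 158) := top_sound R_18490859520
  ⟨V6_18406711296_ok, V6_17349746688_ok, V6_15235817472_ok, trivial⟩
  ⟨W_18489540608_ok, W_18489282560_ok, W_18489024512_ok, W_18472767488_ok, W_18472509440_ok, W_18406965248_ok, W_18406707200_ok, W_17416060928_ok, W_17415802880_ok, W_17415544832_ok, W_16342065152_ok, W_16276262912_ok, W_15269101568_ok, W_15268843520_ok, W_15268585472_ok, W_15219298304_ok, trivial⟩ C_18490859520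
theorem L_18491117568 : HH 127 (nat_lit 18491117568, nat_lit 88) := top_sound R_18491117568
  ⟨V6_17399549952_ok, V6_17350262784_ok, V6_15269105664_ok, V6_15236333568_ok, trivial⟩
  ⟨W_18489540608_ok, W_18489282560_ok, W_18472767488_ok, W_17416060928_ok, W_17415802880_ok, W_17350000640_ok, W_16276520960_ok, W_16276262912_ok, trivial⟩ C_18491117568
theorem L_18491375616 : HH 127 (nat_lit 18491375616, nat_lit 30) := top_sound R_18491375616
  ⟨V6_18456772608_ok, trivial⟩
  ⟨W_18456510464_ok, W_17416060928_ok, trivial⟩ C_18491375616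
theorem L_18506068098 : HH 127 (nat_lit 18506068098, nat_lit 2) := top_sound R_18506068098
  ⟨V6_16308248706_ok, trivial⟩
  ⟨W_18438955136_ok, trivial⟩ C_18506068098
theorem L_18506068161 : HH 127 (nat_lit 18506068161, nat_lit 1) := top_sound R_18506068161
  ⟨V6_16308252864_ok, trivial⟩
  ⟨W_18422182016_ok, trivial⟩ C_18506068161
theorem L_18506326146 : HH 127 (nat_lit 18506326146, nat_lit 4) := top_sound R_18506326146
  ⟨V6_16358318208_ok, V6_16291733634_ok, trivial⟩
  ⟨W_18422440064_ok, trivial⟩ C_18506326146
theorem L_18506330241 : HH 127 (nat_lit 18506330241, nat_lit 19) := top_sound R_18506330241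
  ⟨V6_18455732352_ok, trivial⟩
  ⟨W_18438959168_ok, W_17381994560_ok, W_17365217408_ok, W_16341803072_ok, W_16325029952_ok, W_16308514880_ok, trivial⟩ C_18506330241
theorem L_18506330304 : HH 127 (nat_lit 18506330304, nat_lit 17) := top_sound R_18506330304
  ⟨V6_16342069248_ok, trivial⟩
  ⟨W_18455736320_ok, W_18439221248_ok, W_16308252800_ok, trivial⟩ C_18506330304
theorem L_18506334273 : HH 127 (nat_lit 18506334273, nat_lit 17) := top_sound R_18506334273
  ⟨V6_18405670977_ok, V6_16291741761_ok, trivial⟩
  ⟨W_17399025728_ok, W_17382252608_ok, trivial⟩ C_18506334273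
theorem L_18506334336 : HH 127 (nat_lit 18506334336, nat_lit 41) := top_sound R_18506334336
  ⟨V6_16325296128_ok, V6_16291741824_ok, trivial⟩
  ⟨W_18439221248_ok, W_18422440064_ok, W_17399029760_ok, trivial⟩ C_18506334336
theorem L_18506588289 : HH 127 (nat_lit 18506588289, nat_lit 22) := top_sound R_18506588289
  ⟨V6_18439217217_ok, V6_16291995777_ok, trivial⟩
  ⟨W_18472247360_ok, W_18455732288_ok, W_17415282752_ok, W_17398767680_ok, W_16341803072_ok, W_16341540992_ok, trivial⟩ C_18506588289

theorem H_19 : AllH 127 tb19 :=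
  ⟨L_18456264897, L_18456264960, L_18456268929, L_18456268992, L_18456522882, L_18456522945, L_18456526977, L_18456527040, L_18456531009, L_18456531072, L_18456535104, L_18456780930, L_18456785025, L_18456785088, L_18456789057, L_18456789120, L_18456793152, L_18456797184, L_18457043073, L_18457047105, L_18457047168, L_18457051200, L_18457055232, L_18457305153, L_18457305216, L_18457309248, L_18457313280, L_18457563201, L_18457567296, L_18457571328, L_18457825344, L_18457829376, L_18458087424, L_18472775874, L_18472779906, L_18472779969, L_18472780032, L_18473037954, L_18473038017, L_18473042049, L_18473042112, L_18473046081, L_18473046144, L_18473296002, L_18473300097, L_18473300160, L_18473304129, L_18473304192, L_18473308224, L_18473312256, L_18473558145, L_18473562177, L_18473562240, L_18473566272, L_18473570304, L_18473820225, L_18473820288, L_18473824320, L_18473828352, L_18474078273, L_18474082368, L_18474086400, L_18474340416, L_18474344448, L_18474602496, L_18474860544, L_18489553026, L_18489553089, L_18489557121, L_18489557184,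 L_18489811074, L_18489815169, L_18489815232, L_18489819201, L_18489819264, L_18489823296, L_18490073217, L_18490077249, L_18490077312, L_18490081344, L_18490085376, L_18490335297, L_18490335360, L_18490339392, L_18490343424, L_18490593345, L_18490597440, L_18490601472, L_18490855488, L_18490859520, L_18491117568, L_18491375616, L_18506068098, L_18506068161, L_18506326146, L_18506330241, L_18506330304, L_18506334273, L_18506334336, L_18506588289, trivial⟩

end Crest.Agent.R187.SN.Top
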