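import Crest.Agent.R187.SN.TD.WO7_Mg
import Crest.Agent.R187.SN.TD.FO6
import Crest.Agent.R187.SN.TD.C_10
import Crest.Agent.R187.SN.TD.C_11
import Crest.Agent.R187.SN.TD.C_12
import Crest.Agent.R187.SN.TD.C_13
import Crest.Agent.R187.SN.TD.C_14

/-!
# Row 187, PLAN S, generated certificate data (mod 127): rank bounds, glue, part 2

Written by a C++ program (helper824).  The tables are only data: every property is checked by
the kernel.
-/

set_option autoImplicit false
set_option maxRecDepth 100000
set_option Elab.async false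

namespace Crest.Agent.R187.SN.Top

theorem L_18506592321 : HH 127 (nat_lit 18506592321, nat_lit 32) := top_sound R_18506592321
  ⟨V6_18456252480_ok, trivial⟩
  ⟨W_18438959168_ok, W_17398767680_ok, W_17381994560_ok, W_16358576192_ok, W_16341803072_ok, W_16325546048_ok, W_16325029952_ok, W_16308514880_ok, trivial⟩ C_18506592321
theorem L_18506592384 : HH 127 (nat_lit 18506592384, nat_lit 79) := top_sound R_18506592384
  ⟨V6_18455998464_ok, V6_17365737600_ok, trivial⟩
  ⟨W_18472509440_ok, W_18439221248_ok, W_18438959168_ok, W_17415544832_ok, W_17399029760_ok, W_16342065152_ok, W_16341807104_ok, W_16325292032_ok, W_16308252800_ok, trivial⟩ C_18506592384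
theorem L_18506596416 : HH 127 (nat_lit 18506596416, nat_lit 99) := top_sound R_18506596416
  ⟨V6_16325296128_ok, V6_16308781056_ok, V6_16308518976_ok, trivial⟩
  ⟨W_18456252416_ok, W_18455990336_ok, W_18422448128_ok, W_17415802880_ok, W_17399029760_ok, W_17399025728_ok, W_16358838272_ok, W_16342065152_ok, W_16325546048_ok, trivial⟩ C_18506596416
theorem L_18506600448 : HH 127 (nat_lit 18506600448, nat_lit 44) := top_sound R_18506600448
  ⟨V6_18405937152_ok, V6_16292007936_ok, trivial⟩
  ⟨W_18473025536_ok, W_18389159936_ok, W_17416060928_ok, W_16342323200_ok, W_16325550080_ok, trivial⟩ C_18506600448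
theorem L_18506850369 : HH 127 (nat_lit 18506850369, nat_lit 37) := top_sound R_18506850369
  ⟨V6_17365995585_ok, V6_16325808192_ok, trivial⟩
  ⟨W_18472505408_ok, W_18472247360_ok, W_18455732288_ok, W_18406187072_ok, W_17432055872_ok, W_17415282752_ok, W_16358576192_ok, W_16341803072_ok, trivial⟩ C_18506850369
theorem L_18506850432 : HH 127 (nat_lit 18506850432, nat_lit 72) := top_sound R_18506850432
  ⟨V6_18455732352_ok, V6_16325812224_ok, trivial⟩
  ⟨W_18489024512_ok, W_18472509440_ok, W_18406187072_ok, W_17432059904_ok, W_17415544832_ok, W_17399029760_ok, W_16358580224_ok, W_16342065152_ok, W_16341540992_ok, trivial⟩ C_18506850432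
theorem L_18506854464 : HH 127 (nat_lit 18506854464, nat_lit 150) := top_sound R_18506854464
  ⟨V6_17399549952_ok, V6_17382776832_ok, trivial⟩
  ⟨W_18489282560_ok, W_18472767488_ok, W_18472509440_ok, W_18472505408_ok, W_18455990336_ok, W_18455736320_ok, W_18439221248_ok, W_18438959168_ok, W_17415544832_ok, W_17398771712_ok, W_17398767680_ok, W_17382256640_ok, W_16358838272_ok, W_16358580224_ok, W_16358576192_ok, W_16341807104_ok, W_16341803072_ok, W_16325292032_ok, W_16325029952_ok, W_16308514880_ok, trivial⟩ C_18506854464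
theorem L_18506858496 : HH 127 (nat_lit 18506858496, nat_lit 126) := top_sound R_18506858496
  ⟨V6_17366003712_ok, V6_16359358464_ok, V6_16358842368_ok, V6_16325296128_ok, trivial⟩
  ⟨W_18489540608_ok, W_18472767488_ok, W_18456252416_ok, W_18439221248_ok, W_18422448128_ok, W_18389417984_ok, W_17432576000_ok, W_17416060928_ok, W_16359096320_ok, W_16358838272_ok, trivial⟩ C_18506858496
theorem L_18507108417 : HH 127 (nat_lit 18507108417, nat_lit 17) := top_sound R_18507108417
  ⟨V6_18505797696_ok, V6_16342323264_ok, trivial⟩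
  ⟨W_16325546048_ok, W_16292515904_ok, trivial⟩ C_18507108417
theorem L_18507112512 : HH 127 (nat_lit 18507112512, nat_lit 139) := top_sound R_18507112512
  ⟨V6_18423226368_ok, V6_16309297152_ok, trivial⟩
  ⟨W_18505797632_ok, W_18489282560_ok, W_18489024512_ok, W_18489020480_ok, W_18472767488_ok, W_18472509440_ok, W_18472505408_ok, W_18472247360_ok, W_18455990336_ok, W_17432317952_ok, W_17432059904_ok, W_17415802880_ok, W_17415544832_ok, W_17415282752_ok, W_17399025728_ok, W_17398767680_ok, W_16358838272_ok, W_16358580224_ok, W_16358576192_ok, W_16342065152_ok, W_16341803072_ok, trivial⟩ C_18507112512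
theorem L_18507116544 : HH 127 (nat_lit 18507116544, nat_lit 154) := top_sound R_18507116544
  ⟨V6_18423226368_ok, V6_16309297152_ok, trivial⟩
  ⟨W_18506055680_ok, W_18489540608_ok, W_18489282560_ok, W_18472767488_ok, W_18472509440_ok, W_18439221248_ok, W_18389676032_ok, W_17432576000_ok, W_17416060928_ok, W_17415544832_ok, W_17398771712_ok, W_17382256640_ok, W_16358580224_ok, W_16341807104_ok, W_16325292032_ok, trivial⟩ C_18507116544
theorem L_18507370560 : HH 127 (nat_lit 18507370560, nat_lit 71) := top_sound R_18507370560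
  ⟨V6_18505797696_ok, V6_18406707264_ok, V6_17349742656_ok, V6_16309293120_ok, trivial⟩
  ⟨W_18505797632_ok, W_18489282560_ok, W_18472767488_ok, W_18472505408_ok, W_17432317952_ok, W_17415802880_ok, W_16358838272_ok, W_16358576192_ok, W_16325546048_ok, trivial⟩ C_18507370560
theorem L_18507374592 : HH 127 (nat_lit 18507374592, nat_lit 137) := top_sound R_18507374592
  ⟨V6_18423484416_ok, V6_16359358464_ok, V6_16326328320_ok, V6_16292782080_ok, trivial⟩
  ⟨W_18506055680_ok, W_18505797632_ok, W_18489540608_ok, W_18489282560_ok, W_18489024512_ok, W_18472767488_ok, W_18472509440_ok, W_18389934080_ok, W_17432576000_ok, W_17432317952_ok, W_17432059904_ok, W_17416060928_ok, W_17415802880_ok, W_17415544832_ok, W_16358580224_ok, trivial⟩ C_18507374592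
theorem L_18507632640 : HH 127 (nat_lit 18507632640, nat_lit 84) := top_sound R_18507632640
  ⟨V6_18423742464_ok, V6_18423484416_ok, V6_16359358464_ok, V6_16326328320_ok, trivial⟩
  ⟨W_18506055680_ok, W_18505797632_ok, W_18489540608_ok, W_18489282560_ok, W_18472767488_ok, W_17432576000_ok, W_17432317952_ok, W_17415802880_ok, W_16359096320_ok, W_16358838272_ok, trivial⟩ C_18507632640
theorem L_18507890688 : HH 127 (nat_lit 18507890688, nat_lit 31) := top_sound R_18507890688
  ⟨V6_18423742464_ok, V6_17350262784_ok, V6_16359358464_ok, trivial⟩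
  ⟨W_18506055680_ok, W_18489540608_ok, W_17432576000_ok, W_17416060928_ok, trivial⟩ C_18507890688
theorem L_18522841218 : HH 127 (nat_lit 18522841218, nat_lit 1) := top_sound R_18522841218
  ⟨V6_17381990529_ok, trivial⟩
  ⟨W_17398505600_ok, trivial⟩ C_18522841218
theorem L_18522845313 : HH 127 (nat_lit 18522845313, nat_lit 4) := top_sound R_18522845313
  ⟨V6_17381990529_ok, trivial⟩
  ⟨W_18438959168_ok, trivial⟩ C_18522845313
theorem L_18522845376 : HH 127 (nat_lit 18522845376, nat_lit 2) := top_sound R_18522845376
  ⟨V6_17365217472_ok, trivial⟩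
  ⟨W_18455736320_ok, trivial⟩ C_18522845376
theorem L_18523103361 : HH 127 (nat_lit 18523103361, nat_lit 11) := top_sound R_18523103361
  ⟨V6_18439217217_ok, trivial⟩
  ⟨W_18472247360_ok, W_18455470208_ok, W_17415282752_ok, W_17381990528_ok, trivial⟩ C_18523103361
theorem L_18523107393 : HH 127 (nat_lit 18523107393, nat_lit 13) := top_sound R_18523107393
  ⟨V6_18439217217_ok, trivial⟩
  ⟨W_18472505408_ok, W_17399025728_ok, W_17381994560_ok, trivial⟩ C_18523107393
theorem L_18523107456 : HH 127 (nat_lit 18523107456, nat_lit 32) := top_sound R_18523107456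
  ⟨V6_18455998464_ok, trivial⟩
  ⟨W_18472509440_ok, W_18438955136_ok, W_18422440064_ok, W_17415544832_ok, W_17381990528_ok, trivial⟩ C_18523107456
theorem L_18523111488 : HH 127 (nat_lit 18523111488, nat_lit 34) := top_sound R_18523111488
  ⟨V6_17365483584_ok, trivial⟩
  ⟨W_18472767488_ok, W_18455990336_ok, W_17415802880_ok, W_17399025728_ok, trivial⟩ C_18523111488
theorem L_18523365441 : HH 127 (nat_lit 18523365441, nat_lit 18) := top_sound R_18523365441
  ⟨V6_18439217217_ok, V6_17382510657_ok, trivial⟩
  ⟨W_18472505408_ok, W_18472247360_ok, W_17432055872_ok, W_17415282752_ok, W_17398767680_ok, trivial⟩ C_18523365441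
theorem L_18523365504 : HH 127 (nat_lit 18523365504, nat_lit 38) := top_sound R_18523365504
  ⟨V6_17365737600_ok, trivial⟩
  ⟨W_18489024512_ok, W_18472509440_ok, W_18472247360_ok, W_17432059904_ok, W_17399029760_ok, trivial⟩ C_18523365504
theorem L_18523369536 : HH 127 (nat_lit 18523369536, nat_lit 72) := top_sound R_18523369536
  ⟨V6_18456256512_ok, trivial⟩
  ⟨W_18489282560_ok, W_18472767488_ok, W_18472505408_ok, W_18439221248_ok, W_18438959168_ok, W_17432317952_ok, W_17415802880_ok, W_17399025728_ok, trivial⟩ C_18523369536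
theorem L_18523373568 : HH 127 (nat_lit 18523373568, nat_lit 58) := top_sound R_18523373568
  ⟨V6_18439225344_ok, V6_17382260736_ok, trivial⟩
  ⟨W_18489540608_ok, W_18472767488_ok, W_17416060928_ok, W_17382256640_ok, trivial⟩ C_18523373568
theorem L_18523623489 : HH 127 (nat_lit 18523623489, nat_lit 9) := top_sound R_18523623489
  ⟨V6_17365995585_ok, trivial⟩
  ⟨W_18505535552_ok, W_18489020480_ok, W_18472505408_ok, W_17432055872_ok, trivial⟩ C_18523623489
theorem L_18523627584 : HH 127 (nat_lit 18523627584, nat_lit 85) := top_sound R_18523627584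
  ⟨V6_17382776832_ok, trivial⟩
  ⟨W_18505797632_ok, W_18489024512_ok, W_18489020480_ok, W_18472767488_ok, W_18472509440_ok, W_18472505408_ok, W_18472247360_ok, W_18455990336_ok, W_17448833024_ok, W_17415802880_ok, W_17415540800_ok, W_17399025728_ok, trivial⟩ C_18523627584
theorem L_18523631616 : HH 127 (nat_lit 18523631616, nat_lit 92) := top_sound R_18523631616
  ⟨V6_17449353216_ok, V6_17366003712_ok, trivial⟩
  ⟨W_18489540608_ok, W_18489282560_ok, W_18472767488_ok, W_18472509440_ok, W_17449091072_ok, W_17432576000_ok, W_17432317952_ok, W_17416060928_ok, W_17415544832_ok, trivial⟩ C_18523631616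
theorem L_18523885632 : HH 127 (nat_lit 18523885632, nat_lit 46) := top_sound R_18523885632
  ⟨V6_18522574848_ok, V6_18423222336_ok, trivial⟩
  ⟨W_18472767488_ok, W_17432317952_ok, W_17432055872_ok, W_17415802880_ok, W_17399025728_ok, trivial⟩ C_18523885632
theorem L_18523889664 : HH 127 (nat_lit 18523889664, nat_lit 95) := top_sound R_18523889664
  ⟨V6_18423226368_ok, V6_17449353216_ok, trivial⟩
  ⟨W_18506055680_ok, W_18505797632_ok, W_18489540608_ok, W_18489282560_ok, W_18489024512_ok, W_18472767488_ok, W_17449091072_ok, W_17448833024_ok, W_17432317952_ok, W_17416060928_ok, W_17415802880_ok, trivial⟩ C_18523889664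
theorem L_18524147712 : HH 127 (nat_lit 18524147712, nat_lit 66) := top_sound R_18524147712
  ⟨V6_18522574848_ok, V6_18423484416_ok, V6_17449353216_ok, trivial⟩
  ⟨W_18472767488_ok, W_18456510464_ok, W_17416060928_ok, W_17415802880_ok, trivial⟩ C_18524147712
theorem L_18524405760 : HH 127 (nat_lit 18524405760, nat_lit 27) := top_sound R_18524405760
  ⟨V6_18522832896_ok, V6_18423742464_ok, V6_17449353216_ok, trivial⟩
  ⟨W_18456510464_ok, W_17432576000_ok, trivial⟩ C_18524405760
theorem L_18539618433 : HH 127 (nat_lit 18539618433, nat_lit 3) := top_sound R_18539618433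
  ⟨V6_18472247424_ok, trivial⟩
  ⟨W_18472247360_ok, trivial⟩ C_18539618433
theorem L_18539622465 : HH 127 (nat_lit 18539622465, nat_lit 1) := top_sound R_18539622465
  ⟨V6_18472505409_ok, trivial⟩
  ⟨W_18438959168_ok, trivial⟩ C_18539622465
theorem L_18539622528 : HH 127 (nat_lit 18539622528, nat_lit 6) := top_sound R_18539622528
  ⟨V6_18455732352_ok, trivial⟩
  ⟨W_18455736320_ok, trivial⟩ C_18539622528
theorem L_18539880513 : HH 127 (nat_lit 18539880513, nat_lit 7) := top_sound R_18539880513
  ⟨V6_18439217217_ok, trivial⟩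
  ⟨W_18489020480_ok, W_18472505408_ok, trivial⟩ C_18539880513
theorem L_18539880576 : HH 127 (nat_lit 18539880576, nat_lit 11) := top_sound R_18539880576
  ⟨V6_18472247424_ok, V6_18455732352_ok, trivial⟩
  ⟨W_18472509440_ok, trivial⟩ C_18539880576
theorem L_18539884608 : HH 127 (nat_lit 18539884608, nat_lit 24) := top_sound R_18539884608
  ⟨V6_18455998464_ok, trivial⟩
  ⟨W_18489282560_ok, W_18472505408_ok, W_18455990336_ok, W_18438959168_ok, trivial⟩ C_18539884608
theorem L_18539888640 : HH 127 (nat_lit 18539888640, nat_lit 11) := top_sound R_18539888640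
  ⟨V6_18439225344_ok, trivial⟩
  ⟨W_18472767488_ok, trivial⟩ C_18539888640
theorem L_18540138561 : HH 127 (nat_lit 18540138561, nat_lit 5) := top_sound R_18540138561
  ⟨V6_18439475265_ok, trivial⟩
  ⟨W_18472505408_ok, trivial⟩ C_18540138561
theorem L_18540142656 : HH 127 (nat_lit 18540142656, nat_lit 32) := top_sound R_18540142656
  ⟨V6_18456252480_ok, trivial⟩
  ⟨W_18505797632_ok, W_18489282560_ok, W_18489024512_ok, W_18472509440_ok, trivial⟩ C_18540142656
theorem L_18540146688 : HH 127 (nat_lit 18540146688, nat_lit 35) := top_sound R_18540146688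
  ⟨V6_18455998464_ok, trivial⟩
  ⟨W_18489540608_ok, W_18489282560_ok, W_18472509440_ok, trivial⟩ C_18540146688
theorem L_18540400704 : HH 127 (nat_lit 18540400704, nat_lit 22) := top_sound R_18540400704
  ⟨V6_18439737408_ok, trivial⟩
  ⟨W_18505797632_ok, W_18472767488_ok, trivial⟩ C_18540400704
theorem L_18540404736 : HH 127 (nat_lit 18540404736, nat_lit 38) := top_sound R_18540404736
  ⟨V6_18439741440_ok, trivial⟩
  ⟨W_18489282560_ok, W_18489024512_ok, W_18456510464_ok, trivial⟩ C_18540404736
theorem L_18540662784 : HH 127 (nat_lit 18540662784, nat_lit 32) := top_sound R_18540662784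
  ⟨V6_18439999488_ok, trivial⟩
  ⟨W_18489282560_ok, W_18456510464_ok, trivial⟩ C_18540662784
theorem L_18540920832 : HH 127 (nat_lit 18540920832, nat_lit 12) := top_sound R_18540920832
  ⟨V6_18456772608_ok, trivial⟩
  ⟨W_18456510464_ok, trivial⟩ C_18540920832
theorem L_19429605636 : HH 127 (nat_lit 19429605636, nat_lit 1) := top_sound R_19429605636
  ⟨V6_12987154692_ok, trivial⟩
  ⟨W_18355339520_ok, trivial⟩ C_19429605636
theorem L_19429613826 : HH 127 (nat_lit 19429613826, nat_lit 3) := top_sound R_19429613826
  ⟨V6_12987162882_ok, trivial⟩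
  ⟨W_18355863680_ok, trivial⟩ C_19429613826
theorem L_19429613889 : HH 127 (nat_lit 19429613889, nat_lit 1) := top_sound R_19429613889
  ⟨V6_14060904768_ok, trivial⟩
  ⟨W_18355867712_ok, trivial⟩ C_19429613889
theorem L_19429613952 : HH 127 (nat_lit 19429613952, nat_lit 4) := top_sound R_19429613952
  ⟨V6_19429613568_ok, V6_14060904768_ok, trivial⟩
  ⟨W_18355871744_ok, W_11913421184_ok, trivial⟩ C_19429613952
theorem L_19446382851 : HH 127 (nat_lit 19446382851, nat_lit 2) := top_sound R_19446382851
  ⟨V6_16207855875_ok, V6_14060896515_ok, trivial⟩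
  ⟨W_16225157312_ok, trivial⟩ C_19446382851
theorem L_19446386883 : HH 127 (nat_lit 19446386883, nat_lit 1) := top_sound R_19446386883
  ⟨V6_15134642370_ok, trivial⟩
  ⟨W_18372374720_ok, trivial⟩ C_19446386883
theorem L_19446386946 : HH 127 (nat_lit 19446386946, nat_lit 3) := top_sound R_19446386946
  ⟨V6_15134638338_ok, trivial⟩
  ⟨W_18372378752_ok, W_17298636992_ok, trivial⟩ C_19446386946
theorem L_19446387009 : HH 127 (nat_lit 19446387009, nat_lit 1) := top_sound R_19446387009
  ⟨V6_15151157505_ok, trivial⟩
  ⟨W_18355867712_ok, trivial⟩ C_19446387009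
theorem L_19446390978 : HH 127 (nat_lit 19446390978, nat_lit 5) := top_sound R_19446390978
  ⟨V6_14060904642_ok, V6_13003940034_ok, trivial⟩
  ⟨W_19429601408_ok, W_18372636800_ok, W_17298895040_ok, trivial⟩ C_19446390978
theorem L_19446391041 : HH 127 (nat_lit 19446391041, nat_lit 8) := top_sound R_19446391041
  ⟨V6_16225165377_ok, V6_15134646465_ok, trivial⟩
  ⟨W_19429605440_ok, W_18372640832_ok, W_16208380160_ok, trivial⟩ C_19446391041
theorem L_19446391104 : HH 127 (nat_lit 19446391104, nat_lit 6) := top_sound R_19446391104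
  ⟨V6_15134646528_ok, trivial⟩
  ⟨W_19429609472_ok, W_18372644864_ok, trivial⟩ C_19446391104
theorem L_19446644931 : HH 127 (nat_lit 19446644931, nat_lit 2) := top_sound R_19446644931
  ⟨V6_15151677633_ok, trivial⟩
  ⟨W_18372374720_ok, W_18372116672_ok, trivial⟩ C_19446644931
theorem L_19446644994 : HH 127 (nat_lit 19446644994, nat_lit 2) := top_sound R_19446644994
  ⟨V6_15151677633_ok, trivial⟩
  ⟨W_19445858432_ok, trivial⟩ C_19446644994
theorem L_19446649026 : HH 127 (nat_lit 19446649026, nat_lit 4) := top_sound R_19446649026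
  ⟨V6_14077939905_ok, trivial⟩
  ⟨W_18372636800_ok, W_18372374720_ok, trivial⟩ C_19446649026
theorem L_19446649089 : HH 127 (nat_lit 19446649089, nat_lit 5) := top_sound R_19446649089
  ⟨V6_14077939905_ok, trivial⟩
  ⟨W_19446120512_ok, W_18372382784_ok, W_18372378752_ok, trivial⟩ C_19446649089
theorem L_19446649152 : HH 127 (nat_lit 19446649152, nat_lit 3) := top_sound R_19446649152
  ⟨V6_14077939968_ok, trivial⟩
  ⟨W_18372644864_ok, trivial⟩ C_19446649152
theorem L_19446653058 : HH 127 (nat_lit 19446653058, nat_lit 1) := top_sound R_19446653058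
  ⟨V6_14077939842_ok, trivial⟩
  ⟨W_19446374528_ok, trivial⟩ C_19446653058
theorem L_19446653121 : HH 127 (nat_lit 19446653121, nat_lit 8) := top_sound R_19446653121
  ⟨V6_15151685697_ok, V6_14077939905_ok, trivial⟩
  ⟨W_19446378560_ok, W_18372640832_ok, trivial⟩ C_19446653121
theorem L_19446653184 : HH 127 (nat_lit 19446653184, nat_lit 8) := top_sound R_19446653184
  ⟨V6_17299169280_ok, V6_14077939968_ok, trivial⟩
  ⟨W_19446382592_ok, W_18372902912_ok, W_15151415552_ok, trivial⟩ C_19446653184
theorem L_19446657153 : HH 127 (nat_lit 19446657153, nat_lit 1) := top_sound R_19446657153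
  ⟨V6_14077948032_ok, trivial⟩
  ⟨W_19446636608_ok, trivial⟩ C_19446657153
theorem L_19446657216 : HH 127 (nat_lit 19446657216, nat_lit 4) := top_sound R_19446657216
  ⟨V6_14077944000_ok, trivial⟩
  ⟨W_19446640640_ok, W_18372902912_ok, trivial⟩ C_19446657216
theorem L_19462635780 : HH 127 (nat_lit 19462635780, nat_lit 1) := top_sound R_19462635780
  ⟨V6_17248043268_ok, trivial⟩
  ⟨W_18355339520_ok, trivial⟩ C_19462635780
theorem L_19462897923 : HH 127 (nat_lit 19462897923, nat_lit 2) := top_sound R_19462897923
  ⟨V6_19412304129_ok, V6_16207855875_ok, trivial⟩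
  ⟨W_16241672384_ok, trivial⟩ C_19462897923
theorem L_19462901955 : HH 127 (nat_lit 19462901955, nat_lit 1) := top_sound R_19462901955
  ⟨V6_14094192834_ok, trivial⟩
  ⟨W_18372374720_ok, trivial⟩ C_19462901955
theorem L_19462902018 : HH 127 (nat_lit 19462902018, nat_lit 1) := top_sound R_19462902018
  ⟨V6_14094192834_ok, trivial⟩
  ⟨W_19429343360_ok, trivial⟩ C_19462902018
theorem L_19463160003 : HH 127 (nat_lit 19463160003, nat_lit 2) := top_sound R_19463160003
  ⟨V6_18355859649_ok, V6_16241668290_ok, trivial⟩
  ⟨W_19429081280_ok, W_18372374720_ok, trivial⟩ C_19463160003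
theorem L_19463160066 : HH 127 (nat_lit 19463160066, nat_lit 11) := top_sound R_19463160066
  ⟨V6_17315152065_ok, V6_16208380161_ok, V6_15134638338_ok, trivial⟩
  ⟨W_19445858432_ok, W_19429081280_ok, W_18355863680_ok, W_18355339520_ok, W_17298899072_ok, trivial⟩ C_19463160066
theorem L_19463164098 : HH 127 (nat_lit 19463164098, nat_lit 9) := top_sound R_19463164098
  ⟨V6_17282126016_ok, V6_15151419522_ok, trivial⟩
  ⟨W_19446116480_ok, W_19429601408_ok, W_18389151872_ok, W_18372374720_ok, W_16241930432_ok, trivial⟩ C_19463164098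
theorem L_19463164161 : HH 127 (nat_lit 19463164161, nat_lit 15) := top_sound R_19463164161
  ⟨V6_17282125953_ok, V6_16208384256_ok, V6_16208384193_ok, V6_16208380161_ok, trivial⟩
  ⟨W_19446120512_ok, W_19429343360_ok, W_18372640832_ok, W_18372382784_ok, W_17315418176_ok, W_15167930624_ok, trivial⟩ C_19463164161
theorem L_19463164224 : HH 127 (nat_lit 19463164224, nat_lit 6) := top_sound R_19463164224
  ⟨V6_16208384256_ok, V6_14077677888_ok, trivial⟩
  ⟨W_19429609472_ok, W_18389159936_ok, W_18372382784_ok, trivial⟩ C_19463164224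
theorem L_19463168130 : HH 127 (nat_lit 19463168130, nat_lit 11) := top_sound R_19463168130
  ⟨V6_17282125953_ok, V6_15134646402_ok, V6_14077681794_ok, trivial⟩
  ⟨W_19446374528_ok, W_19429601408_ok, W_18389409920_ok, W_16208388224_ok, trivial⟩ C_19463168130
theorem L_19463168193 : HH 127 (nat_lit 19463168193, nat_lit 19) := top_sound R_19463168193
  ⟨V6_16225165440_ok, V6_16208384193_ok, trivial⟩
  ⟨W_19429601408_ok, W_18389413952_ok, W_18372640832_ok, W_17282129984_ok, trivial⟩ C_19463168193
theorem L_19463168256 : HH 127 (nat_lit 19463168256, nat_lit 30) := top_sound R_19463168256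
  ⟨V6_19429613568_ok, V6_17315684352_ok, trivial⟩
  ⟨W_19446382592_ok, W_18389417984_ok, W_17282121920_ok, W_16208380160_ok, W_15151415552_ok, W_15134646464_ok, W_14094450944_ok, trivial⟩ C_19463168256
theorem L_19463422146 : HH 127 (nat_lit 19463422146, nat_lit 12) := top_sound R_19463422146
  ⟨V6_16241668290_ok, V6_16225415361_ok, V6_15151677633_ok, trivial⟩
  ⟨W_19445858432_ok, W_18389151872_ok, W_18388893824_ok, W_18372374720_ok, trivial⟩ C_19463422146
theorem L_19463422209 : HH 127 (nat_lit 19463422209, nat_lit 17) := top_sound R_19463422209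
  ⟨V6_17299161153_ok, V6_15151677633_ok, trivial⟩
  ⟨W_19462635584_ok, W_18372116672_ok, W_17298374912_ok, W_16242196544_ok, W_13020971264_ok, trivial⟩ C_19463422209
theorem L_19463426178 : HH 127 (nat_lit 19463426178, nat_lit 11) := top_sound R_19463426178
  ⟨V6_17315930241_ok, trivial⟩
  ⟨W_19462889600_ok, W_19446374528_ok, W_19446116480_ok, W_18372378752_ok, W_17299157120_ok, W_16241676416_ok, trivial⟩ C_19463426178
theorem L_19463426241 : HH 127 (nat_lit 19463426241, nat_lit 27) := top_sound R_19463426241
  ⟨V6_16225415361_ok, V6_15151681728_ok, V6_15151677633_ok, V6_14077939905_ok, trivial⟩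
  ⟨W_19462893632_ok, W_19446378560_ok, W_19446120512_ok, W_19446116480_ok, W_18372898880_ok, W_18372382784_ok, W_18372374720_ok, W_17315934272_ok, W_16225415360_ok, trivial⟩ C_19463426241
theorem L_19463426304 : HH 127 (nat_lit 19463426304, nat_lit 32) := top_sound R_19463426304
  ⟨V6_17315942400_ok, trivial⟩
  ⟨W_19462897664_ok, W_19446382592_ok, W_19446120512_ok, W_18372644864_ok, W_18372640832_ok, W_18372382784_ok, W_14094450944_ok, trivial⟩ C_19463426304
theorem L_19463430273 : HH 127 (nat_lit 19463430273, nat_lit 28) := top_sound R_19463430273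
  ⟨V6_18389409921_ok, V6_17315930241_ok, V6_15151685697_ok, trivial⟩
  ⟨W_19463151680_ok, W_19446378560_ok, W_18372640832_ok, W_15168200768_ok, W_13020979328_ok, trivial⟩ C_19463430273
theorem L_19463430336 : HH 127 (nat_lit 19463430336, nat_lit 45) := top_sound R_19463430336
  ⟨V6_17315684352_ok, V6_16242204672_ok, trivial⟩
  ⟨W_19463155712_ok, W_19446640640_ok, W_19446382592_ok, W_19446378560_ok, W_18389417984_ok, W_18372640832_ok, W_16225415360_ok, trivial⟩ C_19463430336
theorem L_19463434305 : HH 127 (nat_lit 19463434305, nat_lit 9) := top_sound R_19463434305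
  ⟨V6_15151685697_ok, V6_14094725184_ok, trivial⟩
  ⟨W_18389672000_ok, trivial⟩ C_19463434305
theorem L_19463434368 : HH 127 (nat_lit 19463434368, nat_lit 19) := top_sound R_19463434368
  ⟨V6_18389672064_ok, trivial⟩
  ⟨W_19463413760_ok, W_16225427456_ok, W_15168462848_ok, W_14094725120_ok, W_13020979328_ok, trivial⟩ C_19463434368
theorem L_19463680194 : HH 127 (nat_lit 19463680194, nat_lit 2) := top_sound R_19463680194
  ⟨V6_15168712896_ok, trivial⟩
  ⟨W_19462631552_ok, trivial⟩ C_19463680194
theorem L_19463684226 : HH 127 (nat_lit 19463684226, nat_lit 14) := top_sound R_19463684226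
  ⟨V6_17316192384_ok, trivial⟩
  ⟨W_19462889600_ok, W_18388893824_ok, W_15168454784_ok, trivial⟩ C_19463684226
theorem L_19463684289 : HH 127 (nat_lit 19463684289, nat_lit 20) := top_sound R_19463684289
  ⟨V6_19462635585_ok, V6_18388889793_ok, V6_17315152065_ok, V6_15168712896_ok, trivial⟩
  ⟨W_17315934272_ok, W_16242454592_ok, W_15168716864_ok, W_15168712832_ok, W_13021233344_ok, trivial⟩ C_19463684289
theorem L_19463684352 : HH 127 (nat_lit 19463684352, nat_lit 28) := top_sound R_19463684352
  ⟨V6_17316200448_ok, trivial⟩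
  ⟨W_19462635584_ok, W_18389417984_ok, W_17315152064_ok, W_16241410304_ok, W_15167930624_ok, trivial⟩ C_19463684352
theorem L_19463688321 : HH 127 (nat_lit 19463688321, nat_lit 30) := top_sound R_19463688321
  ⟨V6_16242450561_ok, V6_15168720960_ok, trivial⟩
  ⟨W_19463151680_ok, W_19462889600_ok, W_18389413952_ok, W_18389409920_ok, W_17315418176_ok, trivial⟩ C_19463688321
theorem L_19463688384 : HH 127 (nat_lit 19463688384, nat_lit 43) := top_sound R_19463688384
  ⟨V6_17316200448_ok, V6_16242462720_ok, trivial⟩
  ⟨W_19463155712_ok, W_19462897664_ok, W_18389417984_ok, W_17315934272_ok, trivial⟩ C_19463688384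
theorem L_19463692353 : HH 127 (nat_lit 19463692353, nat_lit 16) := top_sound R_19463692353
  ⟨V6_15168720960_ok, trivial⟩
  ⟨W_19463409728_ok, W_19463151680_ok, W_15168200768_ok, trivial⟩ C_19463692353
theorem L_19463692416 : HH 127 (nat_lit 19463692416, nat_lit 60) := top_sound R_19463692416
  ⟨V6_17315684352_ok, V6_16242204672_ok, V6_15168724992_ok, trivial⟩
  ⟨W_19463413760_ok, W_19463155712_ok, W_19463151680_ok, W_18389934080_ok, W_17316192320_ok, W_16242450560_ok, W_14094983168_ok, trivial⟩ C_19463692416
theorem L_19463696448 : HH 127 (nat_lit 19463696448, nat_lit 30) := top_sound R_19463696448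
  ⟨V6_16242462720_ok, V6_14094987264_ok, trivial⟩
  ⟨W_19463671808_ok, W_19463409728_ok, W_18389934080_ok, W_18389672000_ok, trivial⟩ C_19463696448
theorem L_19463700480 : HH 127 (nat_lit 19463700480, nat_lit 14) := top_sound R_19463700480
  ⟨V6_16242462720_ok, trivial⟩
  ⟨W_19463671808_ok, W_18389934080_ok, trivial⟩ C_19463700480
theorem L_19479412995 : HH 127 (nat_lit 19479412995, nat_lit 2) := top_sound R_19479412995
  ⟨V6_19395526914_ok, V6_16207855875_ok, trivial⟩
  ⟨W_19429081280_ok, W_16258187456_ok, trivial⟩ C_19479412995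

theorem H_20 : AllH 127 tb20 :=
  ⟨L_18506592321, L_18506592384, L_18506596416, L_18506600448, L_18506850369, L_18506850432, L_18506854464, L_18506858496, L_18507108417, L_18507112512, L_18507116544, L_18507370560, L_18507374592, L_18507632640, L_18507890688, L_18522841218, L_18522845313, L_18522845376, L_18523103361, L_18523107393, L_18523107456, L_18523111488, L_18523365441, L_18523365504, L_18523369536, L_18523373568, L_18523623489, L_18523627584, L_18523631616, L_18523885632, L_18523889664, L_18524147712, L_18524405760, L_18539618433, L_18539622465, L_18539622528, L_18539880513, L_18539880576, L_18539884608, L_18539888640, L_18540138561, L_18540142656, L_18540146688, L_18540400704, L_18540404736, L_18540662784, L_18540920832, L_19429605636, L_19429613826, L_19429613889, L_19429613952, L_19446382851, L_19446386883, L_19446386946, L_19446387009, L_19446390978, L_19446391041, L_19446391104, L_19446644931, L_19446644994, L_19446649026, L_19446649089, L_19446649152, L_19446653058, L_19446653121, L_19446653184, L_19446657153, L_19446657216,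 L_19462635780, L_19462897923, L_19462901955, L_19462902018, L_19463160003, L_19463160066, L_19463164098, L_19463164161, L_19463164224, L_19463168130, L_19463168193, L_19463168256, L_19463422146, L_19463422209, L_19463426178, L_19463426241, L_19463426304, L_19463430273, L_19463430336, L_19463434305, L_19463434368, L_19463680194, L_19463684226, L_19463684289, L_19463684352, L_19463688321, L_19463688384, L_19463692353, L_19463692416, L_19463696448, L_19463700480, L_19479412995, trivial⟩

theorem L_19479675075 : HH 127 (nat_lit 19479675075, nat_lit 2) := top_sound R_19479675075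
  ⟨V6_18388889793_ok, trivial⟩
  ⟨W_19429081280_ok, W_18372116672_ok, trivial⟩ C_19479675075
theorem L_19479675138 : HH 127 (nat_lit 19479675138, nat_lit 6) := top_sound R_19479675138
  ⟨V6_15184707840_ok, trivial⟩
  ⟨W_19429081280_ok, W_18388893824_ok, W_18355339520_ok, trivial⟩ C_19479675138
theorem L_19479679170 : HH 127 (nat_lit 19479679170, nat_lit 5) := top_sound R_19479679170
  ⟨V6_17298641088_ok, trivial⟩
  ⟨W_18389151872_ok, W_18372374720_ok, trivial⟩ C_19479679170
theorem L_19479679233 : HH 127 (nat_lit 19479679233, nat_lit 6) := top_sound R_19479679233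
  ⟨V6_15184707840_ok, trivial⟩
  ⟨W_19446120512_ok, W_19429343360_ok, W_17315418176_ok, trivial⟩ C_19479679233
theorem L_19479679296 : HH 127 (nat_lit 19479679296, nat_lit 2) := top_sound R_19479679296
  ⟨V6_19429347456_ok, trivial⟩
  ⟨W_17332195328_ok, trivial⟩ C_19479679296
theorem L_19479933123 : HH 127 (nat_lit 19479933123, nat_lit 1) := top_sound R_19479933123
  ⟨V6_13037482179_ok, trivial⟩
  ⟨W_18372374720_ok, trivial⟩ C_19479933123
theorem L_19479937218 : HH 127 (nat_lit 19479937218, nat_lit 18) := top_sound R_19479937218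
  ⟨V6_17331929280_ok, V6_16241668290_ok, trivial⟩
  ⟨W_19462631552_ok, W_19446116480_ok, W_19429601408_ok, W_18405666944_ok, W_18372636800_ok, W_18372374720_ok, W_18355863680_ok, W_17282121920_ok, W_16241930432_ok, trivial⟩ C_19479937218
theorem L_19479937281 : HH 127 (nat_lit 19479937281, nat_lit 25) := top_sound R_19479937281
  ⟨V6_19429081344_ok, V6_18405670977_ok, V6_16258187520_ok, trivial⟩
  ⟨W_19462635584_ok, W_19446120512_ok, W_19429605440_ok, W_19429343360_ok, W_18372640832_ok, W_18355863680_ok, W_17282121920_ok, W_16208380160_ok, W_15167930624_ok, W_15151415552_ok, W_13037486336_ok, trivial⟩ C_19479937281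
theorem L_19479941250 : HH 127 (nat_lit 19479941250, nat_lit 17) := top_sound R_19479941250
  ⟨V6_17298903168_ok, trivial⟩
  ⟨W_19462889600_ok, W_19429343360_ok, W_18405924992_ok, W_15184969856_ok, trivial⟩ C_19479941250
theorem L_19479941313 : HH 127 (nat_lit 19479941313, nat_lit 36) := top_sound R_19479941313
  ⟨V6_17298903168_ok, V6_16225161408_ok, trivial⟩
  ⟨W_19446120512_ok, W_19446116480_ok, W_19429605440_ok, W_19429601408_ok, W_18405929024_ok, W_18389151872_ok, W_18372640832_ok, W_18372374720_ok, W_16258453568_ok, trivial⟩ C_19479941313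
theorem L_19479941376 : HH 127 (nat_lit 19479941376, nat_lit 42) := top_sound R_19479941376
  ⟨V6_18389422080_ok, V6_17282126016_ok, trivial⟩
  ⟨W_19462897664_ok, W_19446382592_ok, W_19429609472_ok, W_18389417984_ok, W_17332195328_ok, W_16258453568_ok, W_15167930624_ok, W_14110970048_ok, W_13037486336_ok, W_11963748608_ok, trivial⟩ C_19479941376
theorem L_19479945345 : HH 127 (nat_lit 19479945345, nat_lit 34) := top_sound R_19479945345
  ⟨V6_18406187136_ok, trivial⟩
  ⟨W_19429605440_ok, W_18372640832_ok, W_17282129984_ok, W_16225165376_ok, W_16208388224_ok, W_15184973888_ok, W_15168200768_ok, W_15151423616_ok, W_14111236160_ok, W_14094459008_ok, W_13037494400_ok, trivial⟩ C_19479945345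
theorem L_19479945408 : HH 127 (nat_lit 19479945408, nat_lit 56) := top_sound R_19479945408
  ⟨V6_19429613568_ok, V6_17315684352_ok, V6_16258719744_ok, trivial⟩
  ⟨W_19463155712_ok, W_19446382592_ok, W_19429601408_ok, W_18389417984_ok, W_18372640832_ok, W_18355863680_ok, W_15184969856_ok, trivial⟩ C_19479945408
theorem L_19480195266 : HH 127 (nat_lit 19480195266, nat_lit 10) := top_sound R_19480195266
  ⟨V6_17299157184_ok, trivial⟩
  ⟨W_19462631552_ok, W_18405666944_ok, W_14111486144_ok, trivial⟩ C_19480195266
theorem L_19480199298 : HH 127 (nat_lit 19480199298, nat_lit 20) := top_sound R_19480199298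
  ⟨V6_18405671040_ok, trivial⟩
  ⟨W_19462889600_ok, W_18389409920_ok, W_17299157120_ok, W_15168454784_ok, W_14111490176_ok, trivial⟩ C_19480199298
theorem L_19480199361 : HH 127 (nat_lit 19480199361, nat_lit 48) := top_sound R_19480199361
  ⟨V6_17331929280_ok, V6_17315152065_ok, V6_17299161153_ok, V6_16225419456_ok, V6_16225415361_ok, trivial⟩
  ⟨W_19479408704_ok, W_19462635584_ok, W_19462631552_ok, W_19446378560_ok, W_18372898880_ok, W_18372374720_ok, W_17315934272_ok, W_16242196544_ok, W_15185231936_ok, trivial⟩ C_19480199361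
theorem L_19480199424 : HH 127 (nat_lit 19480199424, nat_lit 45) := top_sound R_19480199424
  ⟨V6_18405671040_ok, V6_16225419456_ok, trivial⟩
  ⟨W_19479412736_ok, W_18389417984_ok, W_17315938304_ok, W_15185231936_ok, trivial⟩ C_19480199424
theorem L_19480203393 : HH 127 (nat_lit 19480203393, nat_lit 58) := top_sound R_19480203393
  ⟨V6_18406187136_ok, V6_17315930241_ok, trivial⟩
  ⟨W_19463151680_ok, W_19446636608_ok, W_19446378560_ok, W_18372898880_ok, W_18372640832_ok, W_18372382784_ok, W_17299157120_ok, W_16258453568_ok, W_16242196544_ok, W_15185231936_ok, W_15184973888_ok, trivial⟩ C_19480203393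
theorem L_19480203456 : HH 127 (nat_lit 19480203456, nat_lit 92) := top_sound R_19480203456
  ⟨V6_18405937152_ok, V6_18389422080_ok, V6_17315942400_ok, trivial⟩
  ⟨W_19463155712_ok, W_19446640640_ok, W_19446382592_ok, W_19446116480_ok, W_18389676032_ok, W_18389417984_ok, W_18372898880_ok, W_18372374720_ok, W_15185231936_ok, W_15184973888_ok, W_15184969856_ok, W_14110970048_ok, W_11964010688_ok, trivial⟩ C_19480203456
theorem L_19480207425 : HH 127 (nat_lit 19480207425, nat_lit 38) := top_sound R_19480207425
  ⟨V6_19480186944_ok, V6_15151685697_ok, trivial⟩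
  ⟨W_18372640832_ok, W_17298903104_ok, W_15185231936_ok, W_15184973888_ok, W_15168200768_ok, W_15151685696_ok, W_14111236160_ok, W_14094721088_ok, trivial⟩ C_19480207425
theorem L_19480207488 : HH 127 (nat_lit 19480207488, nat_lit 97) := top_sound R_19480207488
  ⟨V6_17315942400_ok, V6_17315684352_ok, V6_16258719744_ok, V6_16242204672_ok, trivial⟩
  ⟨W_19463413760_ok, W_19463155712_ok, W_19463151680_ok, W_19446640640_ok, W_19446636608_ok, W_19446382592_ok, W_19446374528_ok, W_18389676032_ok, W_18389417984_ok, W_18372640832_ok, W_17299157120_ok, W_16225165376_ok, W_15184969856_ok, trivial⟩ C_19480207488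
theorem L_19480211520 : HH 127 (nat_lit 19480211520, nat_lit 40) := top_sound R_19480211520
  ⟨V6_19480186944_ok, V6_16225427520_ok, trivial⟩
  ⟨W_19463413760_ok, W_18389676032_ok, W_17315938304_ok, W_14094725120_ok, W_11964018752_ok, trivial⟩ C_19480211520
theorem L_19480457346 : HH 127 (nat_lit 19480457346, nat_lit 15) := top_sound R_19480457346
  ⟨V6_16242450561_ok, V6_15168708738_ok, V6_14111744130_ok, trivial⟩
  ⟨W_19479404672_ok, W_19479146624_ok, W_19462631552_ok, W_18405924992_ok, W_15168712832_ok, trivial⟩ C_19480457346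
theorem L_19480457409 : HH 127 (nat_lit 19480457409, nat_lit 22) := top_sound R_19480457409
  ⟨V6_16259231808_ok, trivial⟩
  ⟨W_19462893632_ok, W_19462631552_ok, W_18389413952_ok, W_14111486144_ok, trivial⟩ C_19480457409
theorem L_19480461441 : HH 127 (nat_lit 19480461441, nat_lit 62) := top_sound R_19480461441
  ⟨V6_18405671040_ok, V6_17316192384_ok, V6_16242450561_ok, trivial⟩
  ⟨W_19463151680_ok, W_18406187072_ok, W_16242454592_ok, W_16242196544_ok, W_15185489984_ok, W_15185231936_ok, W_15168716864_ok, trivial⟩ C_19480461441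
theorem L_19480461504 : HH 127 (nat_lit 19480461504, nat_lit 87) := top_sound R_19480461504
  ⟨V6_18405671040_ok, V6_17331929280_ok, V6_17316200448_ok, trivial⟩
  ⟨W_19479412736_ok, W_19463155712_ok, W_18389676032_ok, W_17316196352_ok, W_17315938304_ok, W_16242458624_ok, W_15185494016_ok, W_15185231936_ok, W_15168712832_ok, trivial⟩ C_19480461504
theorem L_19480465473 : HH 127 (nat_lit 19480465473, nat_lit 46) := top_sound R_19480465473
  ⟨V6_16259231808_ok, trivial⟩
  ⟨W_19479924800_ok, W_19463409728_ok, W_19463151680_ok, W_19462893632_ok, W_18389672000_ok, W_17316192320_ok, W_17315418176_ok, W_16258453568_ok, trivial⟩ C_19480465473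
theorem L_19480465536 : HH 127 (nat_lit 19480465536, nat_lit 128) := top_sound R_19480465536
  ⟨V6_18406711296_ok, V6_17316192384_ok, V6_17315942400_ok, V6_16242462720_ok, trivial⟩
  ⟨W_19463413760_ok, W_19463155712_ok, W_19463151680_ok, W_19462897664_ok, W_19462889600_ok, W_18389934080_ok, W_18389676032_ok, W_18389417984_ok, W_17332195328_ok, W_17315938304_ok, W_16242450560_ok, W_15185494016_ok, trivial⟩ C_19480465536
theorem L_19480469568 : HH 127 (nat_lit 19480469568, nat_lit 111) := top_sound R_19480469568
  ⟨V6_18406711296_ok, V6_16258719744_ok, V6_16242204672_ok, V6_15168724992_ok, trivial⟩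
  ⟨W_19463671808_ok, W_19463413760_ok, W_19463409728_ok, W_19463155712_ok, W_19463151680_ok, W_18389930048_ok, W_18389676032_ok, W_18389417984_ok, W_17315938304_ok, W_14094983168_ok, W_14094721088_ok, trivial⟩ C_19480469568
theorem L_19480473600 : HH 127 (nat_lit 19480473600, nat_lit 45) := top_sound R_19480473600
  ⟨V6_18406711296_ok, trivial⟩
  ⟨W_19463413760_ok, W_17315938304_ok, W_15168720896_ok, W_14094983168_ok, W_14094725120_ok, W_13021245440_ok, W_11964280832_ok, trivial⟩ C_19480473600
theorem L_19480715394 : HH 127 (nat_lit 19480715394, nat_lit 2) := top_sound R_19480715394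
  ⟨V6_14111744130_ok, trivial⟩
  ⟨W_19479404672_ok, trivial⟩ C_19480715394
theorem L_19480719489 : HH 127 (nat_lit 19480719489, nat_lit 24) := top_sound R_19480719489
  ⟨V6_16259231808_ok, trivial⟩
  ⟨W_19479408704_ok, W_19479404672_ok, W_19479146624_ok, W_18406187072_ok, trivial⟩ C_19480719489
theorem L_19480719552 : HH 127 (nat_lit 19480719552, nat_lit 32) := top_sound R_19480719552
  ⟨V6_16259231808_ok, trivial⟩
  ⟨W_19479670784_ok, W_19479408704_ok, W_19479146624_ok, W_17331925184_ok, W_15185752064_ok, W_14111486144_ok, W_11964526784_ok, trivial⟩ C_19480719552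
theorem L_19480723521 : HH 127 (nat_lit 19480723521, nat_lit 31) := top_sound R_19480723521
  ⟨V6_19479924801_ok, V6_18405670977_ok, V6_17332965441_ok, V6_15185748033_ok, trivial⟩
  ⟨W_19479408704_ok, W_16259485760_ok, W_15185489984_ok, W_15185231936_ok, W_14112010304_ok, trivial⟩ C_19480723521
theorem L_19480723584 : HH 127 (nat_lit 19480723584, nat_lit 66) := top_sound R_19480723584
  ⟨V6_18406711296_ok, V6_18405671040_ok, trivial⟩
  ⟨W_19479412736_ok, W_19479408704_ok, W_19479404672_ok, W_15185752064_ok, W_15185748032_ok, W_15185494016_ok, W_15185489984_ok, W_15185231936_ok, W_14112014336_ok, W_14112010304_ok, W_14111748224_ok, W_13038268544_ok, trivial⟩ C_19480723584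
theorem L_19480727616 : HH 127 (nat_lit 19480727616, nat_lit 73) := top_sound R_19480727616
  ⟨V6_19480186944_ok, V6_18406707264_ok, V6_18405937152_ok, trivial⟩
  ⟨W_19480186880_ok, W_18406707200_ok, W_17333227520_ok, W_16259489792_ok, W_15185752064_ok, W_15185494016_ok, W_15185231936_ok, W_15184973888_ok, W_14112014336_ok, W_14112010304_ok, trivial⟩ C_19480727616
theorem L_19480731648 : HH 127 (nat_lit 19480731648, nat_lit 40) := top_sound R_19480731648
  ⟨V6_19480707072_ok, V6_16258719744_ok, V6_14112018432_ok, trivial⟩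
  ⟨W_19480186880_ok, W_18406965248_ok, W_18406707200_ok, W_17333227520_ok, W_16259489792_ok, trivial⟩ C_19480731648
theorem L_19496190147 : HH 127 (nat_lit 19496190147, nat_lit 1) := top_sound R_19496190147
  ⟨V6_14127481026_ok, trivial⟩
  ⟨W_19429081280_ok, trivial⟩ C_19496190147
theorem L_19496190210 : HH 127 (nat_lit 19496190210, nat_lit 7) := top_sound R_19496190210
  ⟨V6_19395526914_ok, V6_14127481089_ok, V6_14127481026_ok, trivial⟩
  ⟨W_19445858432_ok, W_19429081280_ok, W_18388893824_ok, trivial⟩ C_19496190210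
theorem L_19496448195 : HH 127 (nat_lit 19496448195, nat_lit 1) := top_sound R_19496448195
  ⟨V6_15201218754_ok, trivial⟩
  ⟨W_18372374720_ok, trivial⟩ C_19496448195
theorem L_19496452290 : HH 127 (nat_lit 19496452290, nat_lit 13) := top_sound R_19496452290
  ⟨V6_16274964672_ok, trivial⟩
  ⟨W_19446116480_ok, W_19429343360_ok, W_18389151872_ok, W_18372374720_ok, W_17332187264_ok, trivial⟩ C_19496452290
theorem L_19496452353 : HH 127 (nat_lit 19496452353, nat_lit 18) := top_sound R_19496452353
  ⟨V6_17348706369_ok, V6_15201222912_ok, trivial⟩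
  ⟨W_19462635584_ok, W_19446120512_ok, W_19429343360_ok, W_18355339520_ok, W_17348706368_ok, trivial⟩ C_19496452353
theorem L_19496456322 : HH 127 (nat_lit 19496456322, nat_lit 6) := top_sound R_19496456322
  ⟨V6_18372382848_ok, trivial⟩
  ⟨W_19462889600_ok, W_17348960384_ok, W_14127747200_ok, trivial⟩ C_19496456322
theorem L_19496456385 : HH 127 (nat_lit 19496456385, nat_lit 17) := top_sound R_19496456385
  ⟨V6_19429347456_ok, V6_19429347393_ok, V6_18372382785_ok, V6_17298641088_ok, V6_16224899265_ok, trivial⟩
  ⟨W_18389151872_ok, W_16258453568_ok, W_15201488960_ok, W_15201484928_ok, W_15201480896_ok, W_14127747200_ok, W_14110970048_ok, trivial⟩ C_19496456385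
theorem L_19496456448 : HH 127 (nat_lit 19496456448, nat_lit 16) := top_sound R_19496456448
  ⟨V6_17348972544_ok, trivial⟩
  ⟨W_19462897664_ok, W_19446124544_ok, W_19446120512_ok, W_19429343360_ok, W_15167930624_ok, W_14110970048_ok, W_13054001408_ok, trivial⟩ C_19496456448
theorem L_19496710338 : HH 127 (nat_lit 19496710338, nat_lit 9) := top_sound R_19496710338
  ⟨V6_17348702400_ok, trivial⟩
  ⟨W_19446116480_ok, W_19429601408_ok, W_18372636800_ok, W_14128001216_ok, trivial⟩ C_19496710338
theorem L_19496714370 : HH 127 (nat_lit 19496714370, nat_lit 31) := top_sound R_19496714370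
  ⟨V6_18405671040_ok, trivial⟩
  ⟨W_19479404672_ok, W_19462889600_ok, W_19462631552_ok, W_19446374528_ok, W_19429601408_ok, W_19429343360_ok, W_18389409920_ok, W_18355863680_ok, W_17348960384_ok, trivial⟩ C_19496714370
theorem L_19496714433 : HH 127 (nat_lit 19496714433, nat_lit 55) := top_sound R_19496714433
  ⟨V6_18422448192_ok, V6_16274964672_ok, trivial⟩
  ⟨W_19479408704_ok, W_19446378560_ok, W_19446116480_ok, W_19429605440_ok, W_19429601408_ok, W_18372640832_ok, W_18372374720_ok, W_18355863680_ok, W_17348706368_ok, W_17282121920_ok, W_15201747008_ok, W_14128001216_ok, trivial⟩ C_19496714433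
theorem L_19496714496 : HH 127 (nat_lit 19496714496, nat_lit 62) := top_sound R_19496714496
  ⟨V6_19496189952_ok, V6_16274964672_ok, trivial⟩
  ⟨W_19479412736_ok, W_19446382592_ok, W_19429605440_ok, W_18389417984_ok, W_18372640832_ok, W_18355863680_ok, W_15201747008_ok, trivial⟩ C_19496714496
theorem L_19496718465 : HH 127 (nat_lit 19496718465, nat_lit 64) := top_sound R_19496718465
  ⟨V6_19446374529_ok, V6_18406187136_ok, V6_18389409921_ok, trivial⟩
  ⟨W_19463151680_ok, W_19446378560_ok, W_19429605440_ok, W_18406187072_ok, W_18372640832_ok, W_18372382784_ok, W_16258453568_ok, W_15201747008_ok, W_15201488960_ok, W_14127747200_ok, W_13054267520_ok, trivial⟩ C_19496718465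
theorem L_19496718528 : HH 127 (nat_lit 19496718528, nat_lit 95) := top_sound R_19496718528
  ⟨V6_19462901760_ok, V6_19446386688_ok, V6_18405937152_ok, V6_18389422080_ok, trivial⟩
  ⟨W_19463155712_ok, W_19446382592_ok, W_19429609472_ok, W_18389417984_ok, W_18372640832_ok, W_18372374720_ok, W_18355863680_ok, W_16275230720_ok, W_15201747008_ok, W_15184973888_ok, W_15184969856_ok, W_14128001216_ok, W_13054263488_ok, W_11980525760_ok, trivial⟩ C_19496718528
theorem L_19496722497 : HH 127 (nat_lit 19496722497, nat_lit 29) := top_sound R_19496722497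
  ⟨V6_19479924801_ok, V6_14128013376_ok, trivial⟩
  ⟨W_19479924800_ok, W_19463151680_ok, W_19446378560_ok, W_18372640832_ok, W_17282129984_ok, trivial⟩ C_19496722497
theorem L_19496722560 : HH 127 (nat_lit 19496722560, nat_lit 100) := top_sound R_19496722560
  ⟨V6_19496706048_ok, V6_16258719744_ok, trivial⟩
  ⟨W_19446382592_ok, W_18389417984_ok, W_18372640832_ok, W_18355871744_ok, W_18355863680_ok, W_17298907136_ok, W_17298903104_ok, W_17298899072_ok, W_17282129984_ok, W_17282125952_ok, W_16225165376_ok, W_15201747008_ok, W_15184973888_ok, W_15184969856_ok, W_14128013312_ok, W_14111236160_ok, W_14111232128_ok, W_13054267520_ok, trivial⟩ C_19496722560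
theorem L_19496972418 : HH 127 (nat_lit 19496972418, nat_lit 21) := top_sound R_19496972418
  ⟨V6_19446374529_ok, V6_18372894849_ok, V6_17315930241_ok, trivial⟩
  ⟨W_19479404672_ok, W_17348960384_ok, W_15202001024_ok, W_14128263296_ok, trivial⟩ C_19496972418
theorem L_19496972481 : HH 127 (nat_lit 19496972481, nat_lit 33) := top_sound R_19496972481
  ⟨V6_18372898881_ok, V6_17348702400_ok, V6_17299157184_ok, V6_16274960577_ok, V6_16225415361_ok, trivial⟩
  ⟨W_19495923776_ok, W_19479408704_ok, W_19479146624_ok, W_19446378560_ok, W_18422182016_ok, W_17315934272_ok, W_14128263296_ok, W_14111486144_ok, trivial⟩ C_19496972481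
theorem L_19496976513 : HH 127 (nat_lit 19496976513, nat_lit 94) := top_sound R_19496976513
  ⟨V6_18422448192_ok, V6_18405671040_ok, V6_18405670977_ok, V6_17348706369_ok, trivial⟩
  ⟨W_19463151680_ok, W_19446636608_ok, W_19446374528_ok, W_18389409920_ok, W_18372898880_ok, W_17315934272_ok, W_16242196544_ok, W_15202001024_ok, W_15201747008_ok, W_15185231936_ok, W_15168454784_ok, W_14128267328_ok, W_14128263296_ok, W_13054525568_ok, trivial⟩ C_19496976513
theorem L_19496976576 : HH 127 (nat_lit 19496976576, nat_lit 134) := top_sound R_19496976576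
  ⟨V6_19496189952_ok, V6_19446644736_ok, V6_18422448192_ok, V6_17331929280_ok, V6_16274964672_ok, trivial⟩
  ⟨W_19496185856_ok, W_19463155712_ok, W_19446382592_ok, W_18389676032_ok, W_18372898880_ok, W_17315938304_ok, W_15202009088_ok, W_15201747008_ok, W_15185231936_ok, W_14128267328_ok, W_14128263296_ok, W_13054525568_ok, trivial⟩ C_19496976576
theorem L_19496980545 : HH 127 (nat_lit 19496980545, nat_lit 67) := top_sound R_19496980545
  ⟨V6_19446636609_ok, V6_18423222336_ok, V6_18372898881_ok, V6_17299161153_ok, trivial⟩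
  ⟨W_19463409728_ok, W_19463151680_ok, W_18372640832_ok, W_17315934272_ok, W_16242196544_ok, W_15201747008_ok, W_15201488960_ok, W_15185231936_ok, W_13054529600_ok, trivial⟩ C_19496980545
theorem L_19496980608 : HH 127 (nat_lit 19496980608, nat_lit 178) := top_sound R_19496980608
  ⟨V6_19496706048_ok, V6_18423226368_ok, trivial⟩
  ⟨W_19463155712_ok, W_19446382592_ok, W_18372898880_ok, W_18372644864_ok, W_18372640832_ok, W_17315938304_ok, W_17299157120_ok, W_17298903104_ok, W_16258453568_ok, W_16242196544_ok, W_16242192512_ok, W_16241676416_ok, W_16225423424_ok, W_15202009088_ok, W_15201747008_ok, W_15201488960_ok, W_15185231936_ok, W_15184973888_ok, W_15168458816_ok, W_15168454784_ok, W_15168196736_ok, W_14128267328_ok, W_14128263296_ok, W_14127747200_ok, W_14111494208_ok, W_14111232128_ok, W_14094717056_ok, W_13054267520_ok, W_13037752448_ok, W_11980787840_ok, trivial⟩ C_19496980608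
theorem L_19496984640 : HH 127 (nat_lit 19496984640, nat_lit 147) := top_sound R_19496984640
  ⟨V6_19496964096_ok, V6_19480186944_ok, V6_18423222336_ok, V6_16242204672_ok, trivial⟩
  ⟨W_19463413760_ok, W_19463155712_ok, W_19446382592_ok, W_18389676032_ok, W_18389417984_ok, W_18372902912_ok, W_18372644864_ok, W_18372640832_ok, W_17315938304_ok, W_17299165184_ok, W_17298907136_ok, W_15202009088_ok, W_15201747008_ok, W_14128013312_ok, trivial⟩ C_19496984640
theorem L_19496988672 : HH 127 (nat_lit 19496988672, nat_lit 42) := top_sound R_19496988672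
  ⟨V6_19496964096_ok, V6_17299169280_ok, trivial⟩
  ⟨W_19446640640_ok, W_18372902912_ok, W_17315938304_ok, W_16225427456_ok, W_15202009088_ok, W_15168462848_ok, trivial⟩ C_19496988672
theorem L_19497230466 : HH 127 (nat_lit 19497230466, nat_lit 15) := top_sound R_19497230466
  ⟨V6_15202263168_ok, trivial⟩
  ⟨W_19495919744_ok, W_19462889600_ok, W_18422440064_ok, W_18405924992_ok, trivial⟩ C_19497230466
theorem L_19497234561 : HH 127 (nat_lit 19497234561, nat_lit 70) := top_sound R_19497234561
  ⟨V6_16276004928_ok, V6_16242450561_ok, trivial⟩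
  ⟨W_19496181824_ok, W_19495923776_ok, W_19495919744_ok, W_19479408704_ok, W_19479404672_ok, W_19479146624_ok, W_19463151680_ok, W_19462889600_ok, W_18422182016_ok, W_18389672000_ok, W_18389413952_ok, W_17316192320_ok, W_16242454592_ok, trivial⟩ C_19497234561
theorem L_19497234624 : HH 127 (nat_lit 19497234624, nat_lit 69) := top_sound R_19497234624
  ⟨V6_17348702400_ok, V6_16276008960_ok, trivial⟩
  ⟨W_19496185856_ok, W_19495923776_ok, W_19479408704_ok, W_19479146624_ok, W_19463155712_ok, W_19462631552_ok, W_18405666944_ok, W_18389676032_ok, W_17315934272_ok, W_15168712832_ok, trivial⟩ C_19497234624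
theorem L_19497238593 : HH 127 (nat_lit 19497238593, nat_lit 73) := top_sound R_19497238593
  ⟨V6_17348706369_ok, V6_16276004928_ok, trivial⟩
  ⟨W_19496439872_ok, W_19496181824_ok, W_19479924800_ok, W_19463151680_ok, W_19462635584_ok, W_18406187072_ok, W_16242454592_ok, W_16242196544_ok, W_15168716864_ok, trivial⟩ C_19497238593
theorem L_19497238656 : HH 127 (nat_lit 19497238656, nat_lit 217) := top_sound R_19497238656
  ⟨V6_19496706048_ok, V6_19496189952_ok, V6_18422448192_ok, V6_18405671040_ok, trivial⟩
  ⟨W_19463413760_ok, W_18422448128_ok, W_18389934080_ok, W_18389676032_ok, W_17316196352_ok, W_17316192320_ok, W_17315938304_ok, W_16242458624_ok, W_16242454592_ok, W_16242450560_ok, W_16242196544_ok, W_15202009088_ok, W_15202001024_ok, W_15185494016_ok, W_15185231936_ok, W_15168712832_ok, W_15168454784_ok, W_14128529408_ok, W_14128525376_ok, W_14128521344_ok, W_14128267328_ok, W_14111748224_ok, W_13054787648_ok, W_13054783616_ok, W_13054525568_ok, W_13038010496_ok, W_11981045888_ok, trivial⟩ C_19497238656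
theorem L_19497242688 : HH 127 (nat_lit 19497242688, nat_lit 208) := top_sound R_19497242688
  ⟨V6_18423484416_ok, V6_18423222336_ok, V6_18406707264_ok, V6_17349746688_ok, V6_17349742656_ok, trivial⟩
  ⟨W_19480186880_ok, W_19463671808_ok, W_19463413760_ok, W_19463155712_ok, W_18389934080_ok, W_18389676032_ok, W_17316196352_ok, W_17315938304_ok, W_16242458624_ok, W_16242454592_ok, W_16242196544_ok, W_15202009088_ok, W_15201747008_ok, W_15201488960_ok, W_15185494016_ok, W_15185231936_ok, W_15168720896_ok, W_15168716864_ok, W_15168458816_ok, W_14094979136_ok, trivial⟩ C_19497242688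
theorem L_19497246720 : HH 127 (nat_lit 19497246720, nat_lit 136) := top_sound R_19497246720
  ⟨V6_18423484416_ok, V6_17349746688_ok, V6_15168724992_ok, trivial⟩
  ⟨W_19480444928_ok, W_19480186880_ok, W_19463413760_ok, W_19463155712_ok, W_18389676032_ok, W_18389417984_ok, W_17315938304_ok, W_15202009088_ok, W_15168462848_ok, W_14128013312_ok, trivial⟩ C_19497246720
theorem L_19497492609 : HH 127 (nat_lit 19497492609, nat_lit 29) := top_sound R_19497492609
  ⟨V6_15202263168_ok, trivial⟩
  ⟨W_19496181824_ok, W_19495919744_ok, W_19479404672_ok, W_18406187072_ok, trivial⟩ C_19497492609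
theorem L_19497496641 : HH 127 (nat_lit 19497496641, nat_lit 47) := top_sound R_19497496641
  ⟨V6_15202267200_ok, trivial⟩
  ⟨W_19496439872_ok, W_19496181824_ok, W_19495923776_ok, W_19479924800_ok, W_19479408704_ok, W_18406187072_ok, W_16259485760_ok, trivial⟩ C_19497496641
theorem L_19497496704 : HH 127 (nat_lit 19497496704, nat_lit 118) := top_sound R_19497496704
  ⟨V6_17349746688_ok, V6_16276008960_ok, trivial⟩
  ⟨W_19496185856_ok, W_19496181824_ok, W_19495923776_ok, W_19495919744_ok, W_19479408704_ok, W_19479404672_ok, W_19479146624_ok, W_18422440064_ok, W_18422182016_ok, W_18405924992_ok, W_18405666944_ok, W_16259489792_ok, W_15202525184_ok, W_15202001024_ok, W_15185752064_ok, W_15185748032_ok, W_15185489984_ok, W_15185485952_ok, W_14128787456_ok, W_14128783424_ok, W_14112010304_ok, W_13055045696_ok, W_13038268544_ok, trivial⟩ C_19497496704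
theorem L_19497500736 : HH 127 (nat_lit 19497500736, nat_lit 173) := top_sound R_19497500736
  ⟨V6_19496189952_ok, V6_18422448192_ok, V6_17349746688_ok, V6_17349742656_ok, trivial⟩
  ⟨W_19496185856_ok, W_19480186880_ok, W_19479412736_ok, W_18422448128_ok, W_18406707200_ok, W_17333227520_ok, W_16276262912_ok, W_16259489792_ok, W_16259485760_ok, W_15202525184_ok, W_15202009088_ok, W_15201747008_ok, W_15185752064_ok, W_15185748032_ok, W_15185494016_ok, W_15185231936_ok, W_14128267328_ok, trivial⟩ C_19497500736
theorem L_19497504768 : HH 127 (nat_lit 19497504768, nat_lit 121) := top_sound R_19497504768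
  ⟨V6_18423742464_ok, V6_17349746688_ok, V6_16276267008_ok, trivial⟩
  ⟨W_19496960000_ok, W_19480444928_ok, W_19480186880_ok, W_18406965248_ok, W_18406707200_ok, W_17350000640_ok, W_17333227520_ok, W_17332195328_ok, W_16275230720_ok, W_15202009088_ok, W_15185752064_ok, W_15185494016_ok, W_14128787456_ok, W_14112014336_ok, trivial⟩ C_19497504768
theorem L_19497754689 : HH 127 (nat_lit 19497754689, nat_lit 15) := top_sound R_19497754689
  ⟨V6_19496439873_ok, V6_15202783296_ok, V6_14129041473_ok, trivial⟩
  ⟨W_19496181824_ok, W_14128783424_ok, W_13055303744_ok, trivial⟩ C_19497754689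
theorem L_19497754752 : HH 127 (nat_lit 19497754752, nat_lit 45) := top_sound R_19497754752
  ⟨V6_15202787328_ok, V6_15202263168_ok, trivial⟩
  ⟨W_19496443904_ok, W_19496181824_ok, W_18422440064_ok, W_14128783424_ok, W_13055303744_ok, trivial⟩ C_19497754752
theorem L_19497758784 : HH 127 (nat_lit 19497758784, nat_lit 81) := top_sound R_19497758784
  ⟨V6_17349742656_ok, V6_15202787328_ok, V6_15202529280_ok, trivial⟩
  ⟨W_19496701952_ok, W_19496439872_ok, W_19496185856_ok, W_19496181824_ok, W_19495923776_ok, W_17349742592_ok, W_14129045504_ok, trivial⟩ C_19497758784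
theorem L_19497762816 : HH 127 (nat_lit 19497762816, nat_lit 87) := top_sound R_19497762816
  ⟨V6_19496189952_ok, V6_18423742464_ok, V6_17350262784_ok, V6_15202787328_ok, trivial⟩
  ⟨W_19496185856_ok, W_18422448128_ok, W_16276262912_ok, W_15202009088_ok, W_14129045504_ok, W_14128787456_ok, W_14128529408_ok, W_11981570048_ok, trivial⟩ C_19497762816
theorem L_19512967362 : HH 127 (nat_lit 19512967362, nat_lit 8) := top_sound R_19512967362
  ⟨V6_15218000064_ok, trivial⟩
  ⟨W_19445858432_ok, W_19429081280_ok, W_18405666944_ok, trivial⟩ C_19512967362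
theorem L_19512967425 : HH 127 (nat_lit 19512967425, nat_lit 11) := top_sound R_19512967425
  ⟨V6_16291741761_ok, V6_14127481089_ok, trivial⟩
  ⟨W_19462635584_ok, W_19429081280_ok, W_18388893824_ok, trivial⟩ C_19512967425
theorem L_19513225410 : HH 127 (nat_lit 19513225410, nat_lit 7) := top_sound R_19513225410
  ⟨V6_16291475586_ok, V6_16274960577_ok, V6_14144254146_ok, V6_13070774466_ok, trivial⟩
  ⟨W_19479146624_ok, W_19462631552_ok, W_19446116480_ok, W_18372374720_ok, trivial⟩ C_19513225410
theorem L_19513229442 : HH 127 (nat_lit 19513229442, nat_lit 18) := top_sound R_19513229442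
  ⟨V6_16291741824_ok, trivial⟩
  ⟨W_19462889600_ok, W_19462631552_ok, W_19446116480_ok, W_19429343360_ok, W_18422440064_ok, W_18372378752_ok, trivial⟩ C_19513229442
theorem L_19513229505 : HH 127 (nat_lit 19513229505, nat_lit 38) := top_sound R_19513229505
  ⟨V6_16291741824_ok, V6_16291741761_ok, trivial⟩
  ⟨W_19479408704_ok, W_19462893632_ok, W_19462635584_ok, W_19462631552_ok, W_19446120512_ok, W_19446116480_ok, W_19429343360_ok, W_19429081280_ok, W_18372374720_ok, W_18372116672_ok, W_15218262080_ok, trivial⟩ C_19513229505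
theorem L_19513229568 : HH 127 (nat_lit 19513229568, nat_lit 36) := top_sound R_19513229568
  ⟨V6_18439225344_ok, V6_14144258304_ok, trivial⟩
  ⟨W_19479412736_ok, W_19429343360_ok, W_19429081280_ok, W_18422448128_ok, W_18355339520_ok, W_17298374912_ok, W_15218262080_ok, W_15167930624_ok, W_13054001408_ok, trivial⟩ C_19513229568
theorem L_19513233537 : HH 127 (nat_lit 19513233537, nat_lit 29) := top_sound R_19513233537
  ⟨V6_17365737600_ok, trivial⟩
  ⟨W_19446120512_ok, W_18405929024_ok, W_16258453568_ok, W_15218262080_ok, W_14144524352_ok, trivial⟩ C_19513233537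
theorem L_19513233600 : HH 127 (nat_lit 19513233600, nat_lit 43) := top_sound R_19513233600
  ⟨V6_17348972544_ok, V6_16292007936_ok, trivial⟩
  ⟨W_19462897664_ok, W_19462893632_ok, W_19446124544_ok, W_19446120512_ok, W_19446116480_ok, W_19429343360_ok, W_18389151872_ok, W_18372374720_ok, W_15218262080_ok, W_14144516288_ok, W_14110970048_ok, W_11997040832_ok, trivial⟩ C_19513233600
theorem L_19513487490 : HH 127 (nat_lit 19513487490, nat_lit 23) := top_sound R_19513487490
  ⟨V6_19446374529_ok, V6_16291995777_ok, trivial⟩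
  ⟨W_19495919744_ok, W_19479404672_ok, W_19429601408_ok, W_18422182016_ok, W_17365475456_ok, W_17365217408_ok, W_17348960384_ok, trivial⟩ C_19513487490
theorem L_19513487553 : HH 127 (nat_lit 19513487553, nat_lit 33) := top_sound R_19513487553
  ⟨V6_19495923777_ok, V6_19462631616_ok, V6_19429601472_ok, V6_18388889793_ok, V6_18355859649_ok, V6_17365217472_ok, V6_17348702400_ok, V6_16274960577_ok, trivial⟩
  ⟨W_19479408704_ok, W_19446378560_ok, W_19446116480_ok, W_19429601408_ok, W_18438959168_ok, W_18389413952_ok, W_14128001216_ok, W_13071036608_ok, trivial⟩ C_19513487553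
theorem L_19513491585 : HH 127 (nat_lit 19513491585, nat_lit 95) := top_sound R_19513491585
  ⟨V6_18405671040_ok, V6_17365483584_ok, V6_16291741824_ok, trivial⟩
  ⟨W_19496181824_ok, W_19479404672_ok, W_19463151680_ok, W_19462889600_ok, W_19446378560_ok, W_19446374528_ok, W_19446116480_ok, W_19429605440_ok, W_19429601408_ok, W_18405924992_ok, W_18372640832_ok, W_18355863680_ok, W_17365475456_ok, W_16291741760_ok, W_15201747008_ok, W_14144782400_ok, W_13071040640_ok, trivial⟩ C_19513491585
theorem L_19513491648 : HH 127 (nat_lit 19513491648, nat_lit 132) := top_sound R_19513491648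
  ⟨V6_18439225344_ok, V6_17366003712_ok, trivial⟩
  ⟨W_19496185856_ok, W_19479412736_ok, W_19463155712_ok, W_19462635584_ok, W_19446382592_ok, W_19429605440_ok, W_19429601408_ok, W_18439221248_ok, W_18422448128_ok, W_15218524160_ok, W_15218262080_ok, W_15201747008_ok, W_13071040640_ok, W_11997298880_ok, trivial⟩ C_19513491648
theorem L_19513495617 : HH 127 (nat_lit 19513495617, nat_lit 60) := top_sound R_19513495617
  ⟨V6_19479924801_ok, V6_18439737408_ok, V6_17365995585_ok, trivial⟩
  ⟨W_19446378560_ok, W_18372640832_ok, W_16258453568_ok, W_15218262080_ok, W_15201747008_ok, W_15201488960_ok, W_15184973888_ok, W_14144782400_ok, W_14144524352_ok, W_13071044672_ok, trivial⟩ C_19513495617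
theorem L_19513495680 : HH 127 (nat_lit 19513495680, nat_lit 165) := top_sound R_19513495680
  ⟨V6_19513221120_ok, V6_18439741440_ok, trivial⟩
  ⟨W_19463155712_ok, W_19462889600_ok, W_19446382592_ok, W_19446374528_ok, W_19429609472_ok, W_19429605440_ok, W_19429343360_ok, W_18389159936_ok, W_18372644864_ok, W_18372640832_ok, W_18355863680_ok, W_17332195328_ok, W_17298903104_ok, W_17298899072_ok, W_16258453568_ok, W_16241676416_ok, W_15218524160_ok, W_15218266112_ok, W_15218262080_ok, W_15201747008_ok, W_15201488960_ok, W_15184973888_ok, W_15184969856_ok, W_15168196736_ok, W_14144782400_ok, W_14144524352_ok, W_14127747200_ok, W_14111232128_ok, W_13071044672_ok, W_13071040640_ok, W_13070782592_ok, W_13054267520_ok, trivial⟩ C_19513495680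
theorem L_19513499712 : HH 127 (nat_lit 19513499712, nat_lit 110) := top_sound R_19513499712
  ⟨V6_19513479168_ok, V6_17315684352_ok, V6_16258719744_ok, trivial⟩
  ⟨W_19463155712_ok, W_19446382592_ok, W_19429609472_ok, W_19429605440_ok, W_18389417984_ok, W_18372640832_ok, W_18355871744_ok, W_17298907136_ok, W_15218524160_ok, W_15201747008_ok, W_14144782400_ok, W_14128013312_ok, W_13071048704_ok, trivial⟩ C_19513499712
theorem L_19513745538 : HH 127 (nat_lit 19513745538, nat_lit 13) := top_sound R_19513745538
  ⟨V6_17315930241_ok, V6_13071294594_ok, trivial⟩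
  ⟨W_19495919744_ok, W_19446374528_ok, W_18438955136_ok, W_18422440064_ok, trivial⟩ C_19513745538
theorem L_19513749633 : HH 127 (nat_lit 19513749633, nat_lit 85) := top_sound R_19513749633
  ⟨V6_19446636609_ok, V6_18389672064_ok, V6_17365737600_ok, V6_17315930241_ok, trivial⟩
  ⟨W_19512696896_ok, W_19496181824_ok, W_19495923776_ok, W_19495919744_ok, W_19479408704_ok, W_19479404672_ok, W_19479146624_ok, W_19463151680_ok, W_19462889600_ok, W_19446636608_ok, W_19446378560_ok, W_19446374528_ok, W_18438959168_ok, W_18372898880_ok, W_17365475456_ok, W_17365217408_ok, W_17315934272_ok, W_15202001024_ok, W_13071298688_ok, trivial⟩ C_19513749633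
theorem L_19513749696 : HH 127 (nat_lit 19513749696, nat_lit 89) := top_sound R_19513749696
  ⟨V6_17366003712_ok, trivial⟩
  ⟨W_19512700928_ok, W_19496185856_ok, W_19479408704_ok, W_19463155712_ok, W_19446640640_ok, W_19446116480_ok, W_18439221248_ok, W_18438959168_ok, W_18389676032_ok, W_18372898880_ok, W_18372374720_ok, W_17299157120_ok, W_16225415360_ok, W_14144516288_ok, W_13071298688_ok, W_13071036608_ok, W_13054521536_ok, W_11997556928_ok, trivial⟩ C_19513749696
theorem L_19513753665 : HH 127 (nat_lit 19513753665, nat_lit 95) := top_sound R_19513753665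
  ⟨V6_18422448192_ok, V6_17365483584_ok, V6_16291741761_ok, trivial⟩
  ⟨W_19512954944_ok, W_19479924800_ok, W_19463409728_ok, W_19463151680_ok, W_18372898880_ok, W_18372640832_ok, W_17299161152_ok, W_16242196544_ok, W_15201747008_ok, W_15185231936_ok, W_14144782400_ok, W_14128267328_ok, W_13071302720_ok, trivial⟩ C_19513753665
theorem L_19513753728 : HH 127 (nat_lit 19513753728, nat_lit 245) := top_sound R_19513753728
  ⟨V6_19513221120_ok, V6_19512963072_ok, V6_19496189952_ok, V6_18439225344_ok, V6_17365483584_ok, trivial⟩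
  ⟨W_19479412736_ok, W_19463413760_ok, W_19446640640_ok, W_19446636608_ok, W_19446382592_ok, W_19446374528_ok, W_18422448128_ok, W_18389676032_ok, W_18372902912_ok, W_18372898880_ok, W_18372640832_ok, W_17365483520_ok, W_17348706368_ok, W_17315938304_ok, W_17299157120_ok, W_16291741760_ok, W_16242196544_ok, W_15218524160_ok, W_15202009088_ok, W_15202001024_ok, W_15185231936_ok, W_15168454784_ok, W_14145044480_ok, W_14145036416_ok, W_14144782400_ok, W_14128267328_ok, W_14128263296_ok, W_14111490176_ok, W_13071302720_ok, W_13071298688_ok, W_13071040640_ok, W_13054525568_ok, trivial⟩ C_19513753728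
theorem L_19513757760 : HH 127 (nat_lit 19513757760, nat_lit 239) := top_sound R_19513757760
  ⟨V6_19513479168_ok, V6_19446644736_ok, V6_18439999488_ok, V6_18439741440_ok, trivial⟩
  ⟨W_19463413760_ok, W_19463409728_ok, W_19463155712_ok, W_19446640640_ok, W_19446636608_ok, W_19446382592_ok, W_18389676032_ok, W_18372902912_ok, W_18372898880_ok, W_18372640832_ok, W_17315938304_ok, W_16242196544_ok, W_15218524160_ok, W_15218262080_ok, W_15202009088_ok, W_15201747008_ok, W_15201488960_ok, W_15185231936_ok, W_15168458816_ok, W_14145044480_ok, W_14144782400_ok, W_14144524352_ok, W_14128267328_ok, W_14111494208_ok, W_13071306752_ok, W_13071302720_ok, W_13071044672_ok, W_13054529600_ok, W_11997564992_ok, trivial⟩ C_19513757760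
theorem L_19513761792 : HH 127 (nat_lit 19513761792, nat_lit 129) := top_sound R_19513761792
  ⟨V6_18439999488_ok, V6_17366261760_ok, trivial⟩
  ⟨W_19463413760_ok, W_19463155712_ok, W_19446640640_ok, W_19446382592_ok, W_18389417984_ok, W_18372644864_ok, W_17299165184_ok, W_17298907136_ok, W_16225427456_ok, W_15218524160_ok, W_15202009088_ok, W_15168462848_ok, W_14128013312_ok, W_13071048704_ok, W_11997569024_ok, trivial⟩ C_19513761792
theorem L_19514007681 : HH 127 (nat_lit 19514007681, nat_lit 51) := top_sound R_19514007681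
  ⟨V6_17316192384_ok, V6_16291995777_ok, V6_14145298560_ok, trivial⟩
  ⟨W_19512696896_ok, W_19496181824_ok, W_19495919744_ok, W_18439217216_ok, W_18422440064_ok, W_18406187072_ok, trivial⟩ C_19514007681

theorem H_21 : AllH 127 tb21 :=
  ⟨L_19479675075, L_19479675138, L_19479679170, L_19479679233, L_19479679296, L_19479933123, L_19479937218, L_19479937281, L_19479941250, L_19479941313, L_19479941376, L_19479945345, L_19479945408, L_19480195266, L_19480199298, L_19480199361, L_19480199424, L_19480203393, L_19480203456, L_19480207425, L_19480207488, L_19480211520, L_19480457346, L_19480457409, L_19480461441, L_19480461504, L_19480465473, L_19480465536, L_19480469568, L_19480473600, L_19480715394, L_19480719489, L_19480719552, L_19480723521, L_19480723584, L_19480727616, L_19480731648, L_19496190147, L_19496190210, L_19496448195, L_19496452290, L_19496452353, L_19496456322, L_19496456385, L_19496456448, L_19496710338, L_19496714370, L_19496714433, L_19496714496, L_19496718465, L_19496718528, L_19496722497, L_19496722560, L_19496972418,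 L_19496972481, L_19496976513, L_19496976576, L_19496980545, L_19496980608, L_19496984640, L_19496988672, L_19497230466, L_19497234561, L_19497234624, L_19497238593, L_19497238656, L_19497242688, L_19497246720, L_19497492609, L_19497496641, L_19497496704, L_19497500736, L_19497504768, L_19497754689, L_19497754752, L_19497758784, L_19497762816, L_19512967362, L_19512967425, L_19513225410, L_19513229442, L_19513229505, L_19513229568, L_19513233537, L_19513233600, L_19513487490, L_19513487553, L_19513491585, L_19513491648, L_19513495617, L_19513495680, L_19513499712, L_19513745538, L_19513749633, L_19513749696, L_19513753665, L_19513753728, L_19513757760, L_19513761792, L_19514007681, trivial⟩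

theorem L_19514011713 : HH 127 (nat_lit 19514011713, nat_lit 82) := top_sound R_19514011713
  ⟨V6_17349742656_ok, V6_16276004928_ok, trivial⟩
  ⟨W_19512954944_ok, W_19512696896_ok, W_19496181824_ok, W_19479924800_ok, W_19479408704_ok, W_19463409728_ok, W_19463151680_ok, W_19462893632_ok, W_18438959168_ok, W_17316192320_ok, W_17315934272_ok, W_16242454592_ok, trivial⟩ C_19514011713
theorem L_19514011776 : HH 127 (nat_lit 19514011776, nat_lit 203) := top_sound R_19514011776
  ⟨V6_17366261760_ok, V6_17349746688_ok, V6_16292782080_ok, trivial⟩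
  ⟨W_19512700928_ok, W_19512696896_ok, W_19496185856_ok, W_19495923776_ok, W_19495919744_ok, W_19479404672_ok, W_19479146624_ok, W_19463413760_ok, W_19463155712_ok, W_19463151680_ok, W_19462889600_ok, W_18439221248_ok, W_18438959168_ok, W_18422182016_ok, W_18389934080_ok, W_18389676032_ok, W_17316196352_ok, W_17316192320_ok, W_16242454592_ok, W_16242450560_ok, W_16242192512_ok, W_15202001024_ok, W_15185489984_ok, W_15185485952_ok, W_15168712832_ok, W_14145302528_ok, trivial⟩ C_19514011776
theorem L_19514015808 : HH 127 (nat_lit 19514015808, nat_lit 293) := top_sound R_19514015808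
  ⟨V6_19513479168_ok, V6_19480186944_ok, V6_18439999488_ok, V6_18439225344_ok, V6_18423484416_ok, V6_17366519808_ok, trivial⟩
  ⟨W_19479412736_ok, W_19463671808_ok, W_19463413760_ok, W_19463409728_ok, W_19462635584_ok, W_18422448128_ok, W_18389934080_ok, W_17365483520_ok, W_17348706368_ok, W_17332965440_ok, W_17316196352_ok, W_17316192320_ok, W_17315938304_ok, W_16291741760_ok, W_16242458624_ok, W_16242454592_ok, W_16242196544_ok, W_15218524160_ok, W_15218262080_ok, W_15202009088_ok, W_15201747008_ok, W_15185494016_ok, W_15185231936_ok, W_14145044480_ok, W_14144782400_ok, W_14128529408_ok, W_14128525376_ok, W_14128267328_ok, W_13071564800_ok, W_13071560768_ok, W_13071302720_ok, W_13054787648_ok, W_11997823040_ok, trivial⟩ C_19514015808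
theorem L_19514019840 : HH 127 (nat_lit 19514019840, nat_lit 203) := top_sound R_19514019840
  ⟨V6_18423484416_ok, V6_17366519808_ok, V6_17349746688_ok, V6_16292782080_ok, trivial⟩
  ⟨W_19480444928_ok, W_19480186880_ok, W_19463671808_ok, W_19463413760_ok, W_19463155712_ok, W_18389934080_ok, W_18389676032_ok, W_18389159936_ok, W_17316196352_ok, W_17315938304_ok, W_16242458624_ok, W_15218524160_ok, W_15202009088_ok, W_15185494016_ok, W_15168720896_ok, W_14145302528_ok, W_11997827072_ok, trivial⟩ C_19514019840
theorem L_19514269761 : HH 127 (nat_lit 19514269761, nat_lit 51) := top_sound R_19514269761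
  ⟨V6_18439217217_ok, V6_17365995585_ok, V6_16276262976_ok, V6_15185748033_ok, trivial⟩
  ⟨W_19512954944_ok, W_19512696896_ok, W_19496181824_ok, W_19479924800_ok, W_18406187072_ok, W_14128783424_ok, trivial⟩ C_19514269761
theorem L_19514269824 : HH 127 (nat_lit 19514269824, nat_lit 93) := top_sound R_19514269824
  ⟨V6_16292782080_ok, V6_15219302400_ok, trivial⟩
  ⟨W_19512958976_ok, W_19512696896_ok, W_19496181824_ok, W_19479404672_ok, W_18438955136_ok, W_18422440064_ok, W_18406449152_ok, W_18405924992_ok, W_17365475456_ok, W_15202001024_ok, W_15185485952_ok, trivial⟩ C_19514269824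
theorem L_19514273856 : HH 127 (nat_lit 19514273856, nat_lit 215) := top_sound R_19514273856
  ⟨V6_19512963072_ok, V6_18439741440_ok, V6_18406707264_ok, V6_17366519808_ok, trivial⟩
  ⟨W_19512700928_ok, W_19512696896_ok, W_19496185856_ok, W_19495923776_ok, W_19480186880_ok, W_18439221248_ok, W_18438959168_ok, W_18406707200_ok, W_17333227520_ok, W_17332965440_ok, W_16276262912_ok, W_16276000832_ok, W_16259489792_ok, W_16259485760_ok, W_15219298304_ok, W_15202525184_ok, W_15202521152_ok, W_15185752064_ok, W_15185748032_ok, W_15185489984_ok, W_14145560576_ok, W_14145556544_ok, W_14145302528_ok, W_14128787456_ok, W_14128783424_ok, W_14128525376_ok, W_14112010304_ok, W_13071822848_ok, W_13071560768_ok, W_13055045696_ok, W_11998081088_ok, trivial⟩ C_19514273856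
theorem L_19514277888 : HH 127 (nat_lit 19514277888, nat_lit 186) := top_sound R_19514277888
  ⟨V6_19512963072_ok, V6_19496189952_ok, V6_18439225344_ok, V6_17366519808_ok, trivial⟩
  ⟨W_19480444928_ok, W_19480186880_ok, W_18406707200_ok, W_16276262912_ok, W_16259489792_ok, W_15218524160_ok, W_15202525184_ok, W_15202009088_ok, W_15185752064_ok, W_15185494016_ok, W_14145560576_ok, W_14145302528_ok, W_14145044480_ok, W_14128787456_ok, W_14128529408_ok, W_14112014336_ok, W_13071822848_ok, W_13071564800_ok, W_13055049728_ok, W_11998085120_ok, trivial⟩ C_19514277888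
theorem L_19514527809 : HH 127 (nat_lit 19514527809, nat_lit 13) := top_sound R_19514527809
  ⟨V6_19512954945_ok, V6_14145556545_ok, V6_14129041473_ok, V6_13072076865_ok, trivial⟩
  ⟨W_19512954944_ok, W_19496439872_ok, W_13072076864_ok, trivial⟩ C_19514527809
theorem L_19514531904 : HH 127 (nat_lit 19514531904, nat_lit 114) := top_sound R_19514531904
  ⟨V6_19513221120_ok, V6_15219302400_ok, trivial⟩
  ⟨W_19512954944_ok, W_19512696896_ok, W_17349742592_ok, W_16292515904_ok, W_16276262912_ok, W_16276000832_ok, W_15219298304_ok, W_15202783232_ok, W_15202525184_ok, W_15202521152_ok, W_14145818624_ok, W_14145560576_ok, W_14145556544_ok, W_14129045504_ok, W_14128783424_ok, W_13072080896_ok, W_13071818816_ok, trivial⟩ C_19514531904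
theorem L_19514535936 : HH 127 (nat_lit 19514535936, nat_lit 127) := top_sound R_19514535936
  ⟨V6_17366003712_ok, V6_15219302400_ok, trivial⟩
  ⟨W_19513475072_ok, W_19512700928_ok, W_19496960000_ok, W_19496185856_ok, W_18439221248_ok, W_17350000640_ok, W_16276520960_ok, W_16276262912_ok, W_15219298304_ok, W_15202783232_ok, W_14145818624_ok, W_14129045504_ok, W_13072080896_ok, W_13055307776_ok, trivial⟩ C_19514535936
theorem L_19514789952 : HH 127 (nat_lit 19514789952, nat_lit 29) := top_sound R_19514789952
  ⟨V6_18439737408_ok, trivial⟩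
  ⟨W_16292515904_ok, W_15219298304_ok, W_14145818624_ok, W_14145556544_ok, W_13072076864_ok, W_11998597184_ok, trivial⟩ C_19514789952
theorem L_19514793984 : HH 127 (nat_lit 19514793984, nat_lit 43) := top_sound R_19514793984
  ⟨V6_16292782080_ok, V6_15219302400_ok, trivial⟩
  ⟨W_19513475072_ok, W_19513217024_ok, W_19512958976_ok, W_15219556352_ok, trivial⟩ C_19514793984
theorem L_19529740482 : HH 127 (nat_lit 19529740482, nat_lit 3) := top_sound R_19529740482
  ⟨V6_15234511041_ok, V6_15201218754_ok, V6_14144254146_ok, trivial⟩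
  ⟨W_19479146624_ok, W_19462631552_ok, trivial⟩ C_19529740482
theorem L_19529744514 : HH 127 (nat_lit 19529744514, nat_lit 13) := top_sound R_19529744514
  ⟨V6_15234777216_ok, trivial⟩
  ⟨W_19479404672_ok, W_19445858432_ok, W_18422440064_ok, trivial⟩ C_19529744514
theorem L_19529744577 : HH 127 (nat_lit 19529744577, nat_lit 19) := top_sound R_19529744577
  ⟨V6_16291741761_ok, V6_14161035456_ok, trivial⟩
  ⟨W_19479408704_ok, W_19462635584_ok, W_19462631552_ok, W_19445858432_ok, W_19429081280_ok, W_18372116672_ok, trivial⟩ C_19529744577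
theorem L_19529744640 : HH 127 (nat_lit 19529744640, nat_lit 24) := top_sound R_19529744640
  ⟨V6_15234777216_ok, trivial⟩
  ⟨W_19479412736_ok, W_19462635584_ok, W_18422448128_ok, W_18355339520_ok, trivial⟩ C_19529744640
theorem L_19530002562 : HH 127 (nat_lit 19530002562, nat_lit 15) := top_sound R_19530002562
  ⟨V6_16291995777_ok, trivial⟩
  ⟨W_19479404672_ok, W_19479146624_ok, W_19462889600_ok, W_19462631552_ok, W_19446116480_ok, W_18422182016_ok, W_17365217408_ok, trivial⟩ C_19530002562
theorem L_19530002625 : HH 127 (nat_lit 19530002625, nat_lit 22) := top_sound R_19530002625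
  ⟨V6_18388889793_ok, V6_17365217472_ok, V6_16274960577_ok, V6_15234773184_ok, V6_14161293504_ok, trivial⟩
  ⟨W_19479408704_ok, W_19462893632_ok, W_19446116480_ok, W_16308514880_ok, trivial⟩ C_19530002625
theorem L_19530006657 : HH 127 (nat_lit 19530006657, nat_lit 61) := top_sound R_19530006657
  ⟨V6_16291995777_ok, V6_16291741761_ok, V6_15235031169_ok, V6_15234777216_ok, trivial⟩
  ⟨W_19496181824_ok, W_19479408704_ok, W_19479404672_ok, W_19462893632_ok, W_19462889600_ok, W_19462635584_ok, W_19446120512_ok, W_19446116480_ok, W_19429343360_ok, W_18439217216_ok, W_17348706368_ok, trivial⟩ C_19530006657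
theorem L_19530006720 : HH 127 (nat_lit 19530006720, nat_lit 81) := top_sound R_19530006720
  ⟨V6_16308781056_ok, V6_16274964672_ok, V6_15234777216_ok, trivial⟩
  ⟨W_19496185856_ok, W_19479412736_ok, W_19462897664_ok, W_19462635584_ok, W_19446120512_ok, W_19446116480_ok, W_19429343360_ok, W_18439221248_ok, W_18422448128_ok, W_18372374720_ok, W_18372116672_ok, W_17382256640_ok, trivial⟩ C_19530006720
theorem L_19530010689 : HH 127 (nat_lit 19530010689, nat_lit 30) := top_sound R_19530010689
  ⟨V6_18456252480_ok, trivial⟩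
  ⟨W_19446120512_ok, W_18372382784_ok, W_16258453568_ok, W_15235035200_ok, W_15218262080_ok, W_15201488960_ok, W_14161297472_ok, W_14144524352_ok, trivial⟩ C_19530010689
theorem L_19530010752 : HH 127 (nat_lit 19530010752, nat_lit 69) := top_sound R_19530010752
  ⟨V6_16308781056_ok, V6_16292007936_ok, trivial⟩
  ⟨W_19479666752_ok, W_19462897664_ok, W_19462893632_ok, W_19462889600_ok, W_19446120512_ok, W_19446116480_ok, W_19429343360_ok, W_18405924992_ok, W_18389159936_ok, W_17332195328_ok, W_15235039232_ok, W_15218262080_ok, trivial⟩ C_19530010752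
theorem L_19530260610 : HH 127 (nat_lit 19530260610, nat_lit 18) := top_sound R_19530260610
  ⟨V6_15235293312_ok, trivial⟩
  ⟨W_19495919744_ok, W_19479404672_ok, W_19462889600_ok, W_18455470208_ok, W_18422440064_ok, trivial⟩ C_19530260610
theorem L_19530264705 : HH 127 (nat_lit 19530264705, nat_lit 79) := top_sound R_19530264705
  ⟨V6_18455732352_ok, V6_17365737600_ok, V6_16291995777_ok, trivial⟩
  ⟨W_19512696896_ok, W_19496181824_ok, W_19479408704_ok, W_19463151680_ok, W_19446378560_ok, W_19446374528_ok, W_19429601408_ok, W_18438959168_ok, W_18406187072_ok, W_16308514880_ok, W_14161555520_ok, W_13087813760_ok, trivial⟩ C_19530264705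
theorem L_19530264768 : HH 127 (nat_lit 19530264768, nat_lit 76) := top_sound R_19530264768
  ⟨V6_17366003712_ok, trivial⟩
  ⟨W_19496185856_ok, W_19479408704_ok, W_19463155712_ok, W_19446116480_ok, W_19429601408_ok, W_18455736320_ok, W_18439221248_ok, W_18372374720_ok, W_17382256640_ok, W_14144516288_ok, trivial⟩ C_19530264768
theorem L_19530268737 : HH 127 (nat_lit 19530268737, nat_lit 80) := top_sound R_19530268737
  ⟨V6_17365483584_ok, V6_16308518976_ok, V6_16291741761_ok, trivial⟩
  ⟨W_19512954944_ok, W_19496439872_ok, W_19496181824_ok, W_19479924800_ok, W_19463151680_ok, W_19446378560_ok, W_19429605440_ok, W_18455990336_ok, W_18372640832_ok, W_14161555520_ok, W_14144782400_ok, W_13087817792_ok, trivial⟩ C_19530268737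
theorem L_19530268800 : HH 127 (nat_lit 19530268800, nat_lit 232) := top_sound R_19530268800
  ⟨V6_18439225344_ok, V6_17382776832_ok, V6_17382260736_ok, V6_16308518976_ok, V6_16291741824_ok, trivial⟩
  ⟨W_19496185856_ok, W_19479412736_ok, W_19479404672_ok, W_19463155712_ok, W_19463151680_ok, W_19462889600_ok, W_19462635584_ok, W_19446382592_ok, W_19446378560_ok, W_19446374528_ok, W_19429605440_ok, W_19429601408_ok, W_19429343360_ok, W_18422448128_ok, W_18372640832_ok, W_18355863680_ok, W_17382256640_ok, W_17365483520_ok, W_17348706368_ok, W_16308518912_ok, W_15235297280_ok, W_15235039232_ok, W_15218524160_ok, W_14161559552_ok, W_14144782400_ok, W_13087817792_ok, trivial⟩ C_19530268800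
theorem L_19530272832 : HH 127 (nat_lit 19530272832, nat_lit 192) := top_sound R_19530272832
  ⟨V6_18456514560_ok, V6_18456252480_ok, V6_17382776832_ok, trivial⟩
  ⟨W_19463155712_ok, W_19463151680_ok, W_19462897664_ok, W_19446382592_ok, W_19446378560_ok, W_19446124544_ok, W_19446120512_ok, W_19429609472_ok, W_19429605440_ok, W_18389159936_ok, W_18372644864_ok, W_18372640832_ok, W_17298903104_ok, W_15235297280_ok, W_15235039232_ok, W_15218524160_ok, W_15218262080_ok, W_15201747008_ok, W_15201488960_ok, W_14161559552_ok, W_14161301504_ok, W_14161297472_ok, W_14144782400_ok, W_14144524352_ok, W_13087821824_ok, W_13087817792_ok, W_13071044672_ok, trivial⟩ C_19530272832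
theorem L_19530276864 : HH 127 (nat_lit 19530276864, nat_lit 99) := top_sound R_19530276864
  ⟨V6_18456514560_ok, V6_14161563648_ok, V6_13087825920_ok, trivial⟩
  ⟨W_19463155712_ok, W_19446382592_ok, W_19429609472_ok, W_18389417984_ok, W_18372644864_ok, W_18355871744_ok, W_17298907136_ok, W_15235297280_ok, W_15218524160_ok, W_13071048704_ok, trivial⟩ C_19530276864
theorem L_19530522753 : HH 127 (nat_lit 19530522753, nat_lit 56) := top_sound R_19530522753
  ⟨V6_17315930241_ok, V6_15235293312_ok, V6_13088071809_ok, trivial⟩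
  ⟨W_19512434816_ok, W_19496181824_ok, W_19463151680_ok, W_18455732288_ok, W_18455470208_ok, W_18439217216_ok, W_18389672000_ok, W_17381990528_ok, trivial⟩ C_19530522753
theorem L_19530526785 : HH 127 (nat_lit 19530526785, nat_lit 88) := top_sound R_19530526785
  ⟨V6_19529732160_ok, V6_18456252480_ok, V6_18423222336_ok, trivial⟩
  ⟨W_19529470016_ok, W_19512696896_ok, W_19463409728_ok, W_19463151680_ok, W_19446636608_ok, W_19446378560_ok, W_18438959168_ok, W_18372898880_ok, W_17381994560_ok, W_17315934272_ok, W_16308514880_ok, W_15235551296_ok, W_15235035200_ok, W_14161813568_ok, W_14161555520_ok, W_13088075840_ok, trivial⟩ C_19530526785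
theorem L_19530526848 : HH 127 (nat_lit 19530526848, nat_lit 216) := top_sound R_19530526848
  ⟨V6_18456256512_ok, V6_18455998464_ok, V6_17382776832_ok, trivial⟩
  ⟨W_19529474048_ok, W_19512700928_ok, W_19496185856_ok, W_19495923776_ok, W_19495919744_ok, W_19479404672_ok, W_19463413760_ok, W_19463155712_ok, W_19463151680_ok, W_19462889600_ok, W_19446640640_ok, W_19446636608_ok, W_19446378560_ok, W_19446374528_ok, W_19446116480_ok, W_18455736320_ok, W_18438959168_ok, W_18389676032_ok, W_18372898880_ok, W_17382256640_ok, W_17299157120_ok, W_15235297280_ok, W_15202001024_ok, W_14161817600_ok, W_14161813568_ok, W_14145036416_ok, W_14128263296_ok, W_13088075840_ok, W_13088071808_ok, W_13071298688_ok, trivial⟩ C_19530526848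
theorem L_19530530880 : HH 127 (nat_lit 19530530880, nat_lit 309) := top_sound R_19530530880
  ⟨V6_19529732160_ok, V6_19513479168_ok, V6_19496964096_ok, V6_19496189952_ok, V6_19480186944_ok, V6_19446644736_ok, V6_18439999488_ok, trivial⟩
  ⟨W_19479412736_ok, W_19446640640_ok, W_19446636608_ok, W_19446382592_ok, W_18422448128_ok, W_18372902912_ok, W_18372898880_ok, W_18372640832_ok, W_17382256640_ok, W_17365483520_ok, W_17348706368_ok, W_17315938304_ok, W_16308518912_ok, W_16308514880_ok, W_16291741760_ok, W_16242196544_ok, W_15235551296_ok, W_15235297280_ok, W_15235039232_ok, W_15235035200_ok, W_15234777152_ok, W_15218524160_ok, W_15218262080_ok, W_15202009088_ok, W_15201747008_ok, W_15185231936_ok, W_14161817600_ok, W_14161813568_ok, W_14161559552_ok, W_14161555520_ok, W_14161297472_ok, W_14145044480_ok, W_14144782400_ok, W_14128267328_ok, W_13088079872_ok, W_13088075840_ok, W_13087817792_ok, W_13071302720_ok, trivial⟩ C_19530530880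
theorem L_19530534912 : HH 127 (nat_lit 19530534912, nat_lit 199) := top_sound R_19530534912
  ⟨V6_19446644736_ok, V6_18456772608_ok, V6_17383034880_ok, V6_17382776832_ok, trivial⟩
  ⟨W_19480186880_ok, W_19463413760_ok, W_19463155712_ok, W_19446640640_ok, W_19446382592_ok, W_18389676032_ok, W_17315938304_ok, W_15235297280_ok, W_15235039232_ok, W_15218524160_ok, W_15202009088_ok, W_14161817600_ok, W_14161559552_ok, W_14145044480_ok, W_13088079872_ok, W_13071306752_ok, trivial⟩ C_19530534912
theorem L_19530784833 : HH 127 (nat_lit 19530784833, nat_lit 63) := top_sound R_19530784833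
  ⟨V6_17382510657_ok, V6_16276004928_ok, trivial⟩
  ⟨W_19512954944_ok, W_19512696896_ok, W_19496181824_ok, W_19463409728_ok, W_19463151680_ok, W_18455990336_ok, W_18455732288_ok, W_18389672000_ok, trivial⟩ C_19530784833
theorem L_19530784896 : HH 127 (nat_lit 19530784896, nat_lit 146) := top_sound R_19530784896
  ⟨V6_16309297152_ok, V6_16292782080_ok, V6_15235817472_ok, trivial⟩
  ⟨W_19529474048_ok, W_19529211968_ok, W_19512958976_ok, W_19512696896_ok, W_19496181824_ok, W_19495919744_ok, W_19479404672_ok, W_19463413760_ok, W_19463151680_ok, W_19462889600_ok, W_18455470208_ok, W_18438955136_ok, W_18422440064_ok, W_18389934080_ok, W_17381990528_ok, W_17316192320_ok, W_16242450560_ok, W_15202001024_ok, W_14161813568_ok, W_13088071808_ok, W_13071556736_ok, trivial⟩ C_19530784896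
theorem L_19530788928 : HH 127 (nat_lit 19530788928, nat_lit 287) := top_sound R_19530788928
  ⟨V6_19529732160_ok, V6_18456252480_ok, V6_18439999488_ok, V6_18423484416_ok, V6_17383034880_ok, V6_17366519808_ok, trivial⟩
  ⟨W_19529732096_ok, W_19529474048_ok, W_19512700928_ok, W_19496185856_ok, W_19495923776_ok, W_19463671808_ok, W_19463413760_ok, W_19463409728_ok, W_19463155712_ok, W_18455736320_ok, W_18438959168_ok, W_18389934080_ok, W_18389930048_ok, W_18389676032_ok, W_17382256640_ok, W_17381994560_ok, W_17332965440_ok, W_17316196352_ok, W_17316192320_ok, W_16308514880_ok, W_16242454592_ok, W_15235551296_ok, W_15235297280_ok, W_15235035200_ok, W_15185489984_ok, W_14162071616_ok, W_14161817600_ok, W_14161813568_ok, W_14161555520_ok, W_14128525376_ok, W_13088337920_ok, W_13088333888_ok, W_13088075840_ok, W_13071560768_ok, trivial⟩ C_19530788928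
theorem L_19530792960 : HH 127 (nat_lit 19530792960, nat_lit 274) := top_sound R_19530792960
  ⟨V6_19496189952_ok, V6_18439999488_ok, V6_18423484416_ok, V6_17383034880_ok, V6_17366519808_ok, trivial⟩
  ⟨W_19529732096_ok, W_19479412736_ok, W_19463671808_ok, W_19463413760_ok, W_18422448128_ok, W_18389934080_ok, W_17382256640_ok, W_17316196352_ok, W_17315938304_ok, W_16308518912_ok, W_16242458624_ok, W_15235297280_ok, W_15235039232_ok, W_15218524160_ok, W_15202009088_ok, W_15185494016_ok, W_14161817600_ok, W_14161559552_ok, W_14145044480_ok, W_14128529408_ok, W_13088337920_ok, W_13088079872_ok, W_13071564800_ok, trivial⟩ C_19530792960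
theorem L_19531042881 : HH 127 (nat_lit 19531042881, nat_lit 23) := top_sound R_19531042881
  ⟨V6_17332965441_ok, V6_15235813440_ok, trivial⟩
  ⟨W_19512954944_ok, W_19496439872_ok, W_18455990336_ok, W_16259485760_ok, trivial⟩ C_19531042881
theorem L_19531046976 : HH 127 (nat_lit 19531046976, nat_lit 191) := top_sound R_19531046976
  ⟨V6_18456256512_ok, V6_17382776832_ok, V6_15235813440_ok, trivial⟩
  ⟨W_19529732096_ok, W_19529474048_ok, W_19529470016_ok, W_19529211968_ok, W_19512696896_ok, W_19480186880_ok, W_19479924800_ok, W_18406707200_ok, W_17333227520_ok, W_17332965440_ok, W_16276262912_ok, W_16276000832_ok, W_16259489792_ok, W_16259485760_ok, W_15235551296_ok, W_15219298304_ok, W_15202525184_ok, W_15185748032_ok, W_14162333696_ok, W_14162071616_ok, W_14161813568_ok, W_14145560576_ok, W_14145556544_ok, W_14128783424_ok, W_13088595968_ok, W_13088333888_ok, trivial⟩ C_19531046976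
theorem L_19531051008 : HH 127 (nat_lit 19531051008, nat_lit 219) := top_sound R_19531051008
  ⟨V6_19512963072_ok, V6_18456772608_ok, V6_18455998464_ok, V6_17382776832_ok, trivial⟩
  ⟨W_19529732096_ok, W_19529474048_ok, W_19496185856_ok, W_19480444928_ok, W_18455736320_ok, W_18406965248_ok, W_18406707200_ok, W_17382256640_ok, W_17333227520_ok, W_16276262912_ok, W_16259489792_ok, W_15235297280_ok, W_15219298304_ok, W_15202525184_ok, W_15185752064_ok, W_14162333696_ok, W_14161817600_ok, W_14145560576_ok, W_14145302528_ok, W_14128787456_ok, W_13088595968_ok, W_13088337920_ok, W_13071822848_ok, trivial⟩ C_19531051008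
theorem L_19531305024 : HH 127 (nat_lit 19531305024, nat_lit 67) := top_sound R_19531305024
  ⟨V6_18456514560_ok, trivial⟩
  ⟨W_19529732096_ok, W_16292515904_ok, W_16276262912_ok, W_15219298304_ok, W_15202783232_ok, W_14145818624_ok, W_14145556544_ok, W_13088854016_ok, trivial⟩ C_19531305024
theorem L_19531309056 : HH 127 (nat_lit 19531309056, nat_lit 154) := top_sound R_19531309056
  ⟨V6_17382776832_ok, V6_15235817472_ok, trivial⟩
  ⟨W_19529990144_ok, W_19529732096_ok, W_19529474048_ok, W_19513475072_ok, W_19496960000_ok, W_17350000640_ok, W_16276520960_ok, W_16276262912_ok, W_15219298304_ok, W_15202783232_ok, W_15202525184_ok, W_14162591744_ok, W_14162333696_ok, W_14145560576_ok, W_13088854016_ok, W_13088595968_ok, trivial⟩ C_19531309056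
theorem L_19531567104 : HH 127 (nat_lit 19531567104, nat_lit 58) := top_sound R_19531567104
  ⟨V6_17383034880_ok, trivial⟩
  ⟨W_19529990144_ok, W_19513475072_ok, W_18456510464_ok, W_14145818624_ok, W_13088854016_ok, trivial⟩ C_19531567104
theorem L_19531825152 : HH 127 (nat_lit 19531825152, nat_lit 20) := top_sound R_19531825152
  ⟨V6_18456772608_ok, trivial⟩
  ⟨W_18456510464_ok, trivial⟩ C_19531825152
theorem L_19546255554 : HH 127 (nat_lit 19546255554, nat_lit 1) := top_sound R_19546255554
  ⟨V6_14177546370_ok, trivial⟩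
  ⟨W_19479146624_ok, trivial⟩ C_19546255554
theorem L_19546517634 : HH 127 (nat_lit 19546517634, nat_lit 9) := top_sound R_19546517634
  ⟨V6_18455732352_ok, trivial⟩
  ⟨W_19479404672_ok, W_19479146624_ok, W_19462631552_ok, W_14177808512_ok, trivial⟩ C_19546517634
theorem L_19546517697 : HH 127 (nat_lit 19546517697, nat_lit 11) := top_sound R_19546517697
  ⟨V6_15234773184_ok, V6_15234511041_ok, V6_14177808576_ok, trivial⟩
  ⟨W_19495923776_ok, W_19479408704_ok, W_19479146624_ok, W_19462631552_ok, trivial⟩ C_19546517697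
theorem L_19546521729 : HH 127 (nat_lit 19546521729, nat_lit 31) := top_sound R_19546521729
  ⟨V6_15234777216_ok, V6_14177812608_ok, trivial⟩
  ⟨W_19496181824_ok, W_19479408704_ok, W_19479404672_ok, W_19462635584_ok, W_18422440064_ok, trivial⟩ C_19546521729
theorem L_19546521792 : HH 127 (nat_lit 19546521792, nat_lit 40) := top_sound R_19546521792
  ⟨V6_17382260736_ok, trivial⟩
  ⟨W_19496185856_ok, W_19479412736_ok, W_19479408704_ok, W_19462635584_ok, W_19429081280_ok, W_18405666944_ok, trivial⟩ C_19546521792
theorem L_19546775682 : HH 127 (nat_lit 19546775682, nat_lit 10) := top_sound R_19546775682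
  ⟨V6_15235031169_ok, trivial⟩
  ⟨W_19479404672_ok, W_19462889600_ok, W_17398505600_ok, trivial⟩ C_19546775682
theorem L_19546779777 : HH 127 (nat_lit 19546779777, nat_lit 52) := top_sound R_19546779777
  ⟨V6_17365737600_ok, V6_15235031169_ok, trivial⟩
  ⟨W_19512696896_ok, W_19496181824_ok, W_19495923776_ok, W_19479408704_ok, W_19479146624_ok, W_18455732288_ok, W_18438959168_ok, W_17381994560_ok, W_16325029952_ok, W_15251550272_ok, W_14178070592_ok, trivial⟩ C_19546779777
theorem L_19546779840 : HH 127 (nat_lit 19546779840, nat_lit 50) := top_sound R_19546779840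
  ⟨V6_18455998464_ok, V6_14177808576_ok, trivial⟩
  ⟨W_19512700928_ok, W_19496185856_ok, W_19479408704_ok, W_19479146624_ok, W_19446116480_ok, W_18372374720_ok, W_16325029952_ok, W_15251812352_ok, W_14178070592_ok, W_14177546432_ok, trivial⟩ C_19546779840
theorem L_19546783809 : HH 127 (nat_lit 19546783809, nat_lit 52) := top_sound R_19546783809
  ⟨V6_17348706369_ok, V6_16308518976_ok, V6_16291741761_ok, trivial⟩
  ⟨W_19512954944_ok, W_19496439872_ok, W_19496181824_ok, W_19479408704_ok, W_19462635584_ok, W_19446120512_ok, W_16325546048_ok, W_14178070592_ok, trivial⟩ C_19546783809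
theorem L_19546783872 : HH 127 (nat_lit 19546783872, nat_lit 136) := top_sound R_19546783872
  ⟨V6_18456256512_ok, V6_17382260736_ok, V6_16325296128_ok, trivial⟩
  ⟨W_19496185856_ok, W_19479412736_ok, W_19479404672_ok, W_19462889600_ok, W_19462635584_ok, W_19446116480_ok, W_19429343360_ok, W_18439221248_ok, W_18422448128_ok, W_18422440064_ok, W_17382256640_ok, W_17365475456_ok, W_17348706368_ok, W_15251812352_ok, W_15251546240_ok, W_15218262080_ok, W_14178070592_ok, W_14177808512_ok, trivial⟩ C_19546783872
theorem L_19546787904 : HH 127 (nat_lit 19546787904, nat_lit 84) := top_sound R_19546787904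
  ⟨V6_16308781056_ok, V6_16292007936_ok, V6_14178078720_ok, trivial⟩
  ⟨W_19513217024_ok, W_19496439872_ok, W_19462897664_ok, W_19446120512_ok, W_18456252416_ok, W_16325546048_ok, W_15251812352_ok, W_14178070592_ok, trivial⟩ C_19546787904
theorem L_19547037825 : HH 127 (nat_lit 19547037825, nat_lit 50) := top_sound R_19547037825
  ⟨V6_19446374529_ok, V6_15235293312_ok, V6_15235031169_ok, trivial⟩
  ⟨W_19512696896_ok, W_19512434816_ok, W_19496181824_ok, W_19463151680_ok, W_18472247360_ok, W_18455732288_ok, W_18455470208_ok, W_17398767680_ok, W_14178328640_ok, trivial⟩ C_19547037825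
theorem L_19547041857 : HH 127 (nat_lit 19547041857, nat_lit 74) := top_sound R_19547041857
  ⟨V6_19546247232_ok, V6_19512954945_ok, V6_18472505409_ok, V6_18456252480_ok, V6_18439217217_ok, trivial⟩
  ⟨W_19512696896_ok, W_19495923776_ok, W_19479408704_ok, W_19463151680_ok, W_19446378560_ok, W_18438959168_ok, W_16325546048_ok, W_16325029952_ok, W_16308514880_ok, W_15251550272_ok, W_14178328640_ok, W_14178070592_ok, W_14161555520_ok, trivial⟩ C_19547041857
theorem L_19547041920 : HH 127 (nat_lit 19547041920, nat_lit 185) := top_sound R_19547041920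
  ⟨V6_18439741440_ok, V6_17382776832_ok, trivial⟩
  ⟨W_19529474048_ok, W_19512700928_ok, W_19512696896_ok, W_19496185856_ok, W_19495919744_ok, W_19479404672_ok, W_19479146624_ok, W_19463155712_ok, W_19463151680_ok, W_19462889600_ok, W_19446378560_ok, W_19446374528_ok, W_19446116480_ok, W_18472509440_ok, W_18439221248_ok, W_18422182016_ok, W_17398771712_ok, W_17382256640_ok, W_16325292032_ok, W_16325029952_ok, W_15251812352_ok, W_15251546240_ok, W_14178332672_ok, W_14178070592_ok, trivial⟩ C_19547041920
theorem L_19547045952 : HH 127 (nat_lit 19547045952, nat_lit 255) := top_sound R_19547045952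
  ⟨V6_19513479168_ok, V6_18456514560_ok, V6_17399549952_ok, V6_17382260736_ok, V6_16325296128_ok, trivial⟩
  ⟨W_19529732096_ok, W_19479412736_ok, W_19463155712_ok, W_19462635584_ok, W_19446382592_ok, W_18422448128_ok, W_18372640832_ok, W_17382256640_ok, W_17365483520_ok, W_17348706368_ok, W_16308518912_ok, W_16308514880_ok, W_16291741760_ok, W_15235297280_ok, W_15235039232_ok, W_15235035200_ok, W_15234777152_ok, W_15218524160_ok, W_15218262080_ok, W_15201747008_ok, W_14178332672_ok, W_14178328640_ok, W_14161559552_ok, W_14161555520_ok, W_14161297472_ok, W_14144782400_ok, trivial⟩ C_19547045952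
theorem L_19547049984 : HH 127 (nat_lit 19547049984, nat_lit 153) := top_sound R_19547049984
  ⟨V6_18456514560_ok, V6_17382776832_ok, trivial⟩
  ⟨W_19463155712_ok, W_19462897664_ok, W_19446382592_ok, W_19446124544_ok, W_19429609472_ok, W_18389417984_ok, W_18389159936_ok, W_18372644864_ok, W_17332195328_ok, W_16275230720_ok, W_15251812352_ok, W_15235297280_ok, W_15235039232_ok, W_15218524160_ok, W_15218266112_ok, W_14178332672_ok, W_14161559552_ok, trivial⟩ C_19547049984
theorem L_19547299905 : HH 127 (nat_lit 19547299905, nat_lit 67) := top_sound R_19547299905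
  ⟨V6_19446636609_ok, V6_17382510657_ok, V6_16309293120_ok, V6_15252328512_ok, trivial⟩
  ⟨W_19529211968_ok, W_19512696896_ok, W_19496181824_ok, W_19463409728_ok, W_19463151680_ok, W_19446636608_ok, W_18472247360_ok, W_18406187072_ok, W_14178328640_ok, W_14161813568_ok, trivial⟩ C_19547299905
theorem L_19547299968 : HH 127 (nat_lit 19547299968, nat_lit 132) := top_sound R_19547299968
  ⟨V6_16325812224_ok, V6_16309297152_ok, V6_15252332544_ok, trivial⟩
  ⟨W_19529474048_ok, W_19512958976_ok, W_19512696896_ok, W_19496181824_ok, W_19479404672_ok, W_19463413760_ok, W_19463151680_ok, W_19462889600_ok, W_19446636608_ok, W_18472509440_ok, W_18472247360_ok, W_18455732288_ok, W_18455470208_ok, W_18438955136_ok, W_18422440064_ok, W_18405924992_ok, W_17381990528_ok, trivial⟩ C_19547299968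
theorem L_19547304000 : HH 127 (nat_lit 19547304000, nat_lit 283) := top_sound R_19547304000
  ⟨V6_19513479168_ok, V6_19496964096_ok, V6_18456252480_ok, V6_18439999488_ok, V6_17383034880_ok, trivial⟩
  ⟨W_19546247168_ok, W_19529732096_ok, W_19529474048_ok, W_19512700928_ok, W_19496185856_ok, W_19495923776_ok, W_19463413760_ok, W_19463409728_ok, W_19463155712_ok, W_19446640640_ok, W_19446636608_ok, W_18472509440_ok, W_18455736320_ok, W_18438959168_ok, W_18389676032_ok, W_18372898880_ok, W_17398771712_ok, W_17382256640_ok, W_17381994560_ok, W_16325029952_ok, W_16308514880_ok, W_15251812352_ok, W_15251550272_ok, W_15235551296_ok, W_15235297280_ok, W_15235035200_ok, W_14178590720_ok, W_14178586688_ok, W_14178332672_ok, W_14178328640_ok, W_14178070592_ok, W_14161817600_ok, W_14161813568_ok, W_14161555520_ok, trivial⟩ C_19547304000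
theorem L_19547308032 : HH 127 (nat_lit 19547308032, nat_lit 249) := top_sound R_19547308032
  ⟨V6_19496189952_ok, V6_19446644736_ok, V6_18456772608_ok, V6_17399549952_ok, V6_17383034880_ok, V6_17382260736_ok, V6_16325296128_ok, trivial⟩
  ⟨W_19529732096_ok, W_19479412736_ok, W_19463413760_ok, W_19463155712_ok, W_19446640640_ok, W_19446382592_ok, W_18472767488_ok, W_18372902912_ok, W_17382256640_ok, W_17315938304_ok, W_16308518912_ok, W_15235297280_ok, W_15235039232_ok, W_15218524160_ok, W_15202009088_ok, W_14178590720_ok, W_14178332672_ok, W_14161817600_ok, W_14161559552_ok, W_14145044480_ok, trivial⟩ C_19547308032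
theorem L_19547557953 : HH 127 (nat_lit 19547557953, nat_lit 27) := top_sound R_19547557953
  ⟨V6_15252328512_ok, V6_14178848832_ok, trivial⟩
  ⟨W_19545985088_ok, W_19529470016_ok, W_19512954944_ok, W_19496439872_ok, W_19479924800_ok, W_19463409728_ok, trivial⟩ C_19547557953
theorem L_19547562048 : HH 127 (nat_lit 19547562048, nat_lit 229) := top_sound R_19547562048
  ⟨V6_19546247232_ok, V6_18406707264_ok, V6_17399549952_ok, V6_17382776832_ok, V6_15252328512_ok, V6_15235813440_ok, trivial⟩
  ⟨W_19546247168_ok, W_19545989120_ok, W_19545985088_ok, W_19529732096_ok, W_19529474048_ok, W_19529470016_ok, W_19529211968_ok, W_19463671808_ok, W_19463413760_ok, W_19463409728_ok, W_19463151680_ok, W_18472767488_ok, W_18472509440_ok, W_18472505408_ok, W_18472247360_ok, W_18406707200_ok, W_18389934080_ok, W_18389930048_ok, W_17398767680_ok, W_17332965440_ok, W_17316192320_ok, W_15235551296_ok, W_14178848768_ok, W_14178590720_ok, W_14178586688_ok, W_14178328640_ok, W_14162071616_ok, W_14161813568_ok, trivial⟩ C_19547562048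
theorem L_19547566080 : HH 127 (nat_lit 19547566080, nat_lit 258) := top_sound R_19547566080
  ⟨V6_18456772608_ok, V6_18423484416_ok, V6_17399549952_ok, V6_17383034880_ok, V6_17366519808_ok, V6_16326328320_ok, trivial⟩
  ⟨W_19546247168_ok, W_19529732096_ok, W_19529474048_ok, W_19512700928_ok, W_19496185856_ok, W_19463671808_ok, W_19463413760_ok, W_19463155712_ok, W_18472509440_ok, W_18455736320_ok, W_18389934080_ok, W_18389676032_ok, W_17398771712_ok, W_17382256640_ok, W_17316196352_ok, W_16325292032_ok, W_15251812352_ok, W_15235297280_ok, W_14178848768_ok, W_14178590720_ok, W_14178332672_ok, W_14161817600_ok, trivial⟩ C_19547566080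
theorem L_19547820096 : HH 127 (nat_lit 19547820096, nat_lit 99) := top_sound R_19547820096
  ⟨V6_17399549952_ok, V6_16276262976_ok, V6_15252328512_ok, V6_14178848832_ok, trivial⟩
  ⟨W_19545985088_ok, W_19529732096_ok, W_19529470016_ok, W_19480186880_ok, W_19479924800_ok, W_18472767488_ok, W_18472505408_ok, W_18406707200_ok, W_17333227520_ok, trivial⟩ C_19547820096
theorem L_19547824128 : HH 127 (nat_lit 19547824128, nat_lit 193) := top_sound R_19547824128
  ⟨V6_17382776832_ok, V6_17349746688_ok, V6_16326328320_ok, V6_14179110912_ok, trivial⟩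
  ⟨W_19546505216_ok, W_19546247168_ok, W_19545989120_ok, W_19529732096_ok, W_19529474048_ok, W_19480444928_ok, W_19480186880_ok, W_18472767488_ok, W_18472509440_ok, W_18406965248_ok, W_18406707200_ok, W_17333227520_ok, W_16276262912_ok, W_15219298304_ok, W_14178848768_ok, W_14178590720_ok, W_14162333696_ok, trivial⟩ C_19547824128
theorem L_19548082176 : HH 127 (nat_lit 19548082176, nat_lit 107) := top_sound R_19548082176
  ⟨V6_18423742464_ok, V6_17399549952_ok, V6_16326328320_ok, V6_15236333568_ok, V6_14179110912_ok, trivial⟩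
  ⟨W_19546505216_ok, W_19546247168_ok, W_19529732096_ok, W_19513475072_ok, W_19496960000_ok, W_18472767488_ok, W_14162591744_ok, W_14162333696_ok, trivial⟩ C_19548082176
theorem L_19548340224 : HH 127 (nat_lit 19548340224, nat_lit 31) := top_sound R_19548340224
  ⟨V6_18456772608_ok, trivial⟩
  ⟨W_19546505216_ok, W_18456510464_ok, trivial⟩ C_19548340224
theorem L_19563032706 : HH 127 (nat_lit 19563032706, nat_lit 1) := top_sound R_19563032706
  ⟨V6_15268061313_ok, trivial⟩
  ⟨W_19479146624_ok, trivial⟩ C_19563032706
theorem L_19563032769 : HH 127 (nat_lit 19563032769, nat_lit 2) := top_sound R_19563032769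
  ⟨V6_15268065345_ok, trivial⟩
  ⟨W_19495923776_ok, W_19479146624_ok, trivial⟩ C_19563032769
theorem L_19563290754 : HH 127 (nat_lit 19563290754, nat_lit 8) := top_sound R_19563290754
  ⟨V6_18472247424_ok, V6_16308248706_ok, trivial⟩
  ⟨W_19479404672_ok, W_15268061312_ok, W_15251546240_ok, trivial⟩ C_19563290754
theorem L_19563294849 : HH 127 (nat_lit 19563294849, nat_lit 29) := top_sound R_19563294849
  ⟨V6_18455732352_ok, V6_18439217217_ok, trivial⟩
  ⟨W_19496181824_ok, W_19479408704_ok, W_15268323392_ok, W_15251550272_ok, W_15251546240_ok, trivial⟩ C_19563294849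
theorem L_19563294912 : HH 127 (nat_lit 19563294912, nat_lit 22) := top_sound R_19563294912
  ⟨V6_16342069248_ok, V6_15251288256_ok, trivial⟩
  ⟨W_19496185856_ok, W_19479408704_ok, W_19479146624_ok, W_19462631552_ok, trivial⟩ C_19563294912
theorem L_19563298881 : HH 127 (nat_lit 19563298881, nat_lit 20) := top_sound R_19563298881
  ⟨V6_18405670977_ok, V6_17348706369_ok, V6_16291741761_ok, trivial⟩
  ⟨W_19512954944_ok, W_18455990336_ok, W_17399025728_ok, W_15268323392_ok, trivial⟩ C_19563298881
theorem L_19563298944 : HH 127 (nat_lit 19563298944, nat_lit 68) := top_sound R_19563298944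
  ⟨V6_16291741824_ok, V6_15268331520_ok, V6_15234777216_ok, trivial⟩
  ⟨W_19512958976_ok, W_19479404672_ok, W_19462635584_ok, W_18455994368_ok, W_17399029760_ok, W_16342065152_ok, trivial⟩ C_19563298944
theorem L_19563552897 : HH 127 (nat_lit 19563552897, nat_lit 34) := top_sound R_19563552897
  ⟨V6_18439217217_ok, V6_16291995777_ok, V6_15235031169_ok, trivial⟩
  ⟨W_19529211968_ok, W_19512696896_ok, W_19496181824_ok, W_19462889600_ok, W_17415282752_ok, W_16341540992_ok, W_15268061312_ok, trivial⟩ C_19563552897
theorem L_19563556929 : HH 127 (nat_lit 19563556929, nat_lit 49) := top_sound R_19563556929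
  ⟨V6_19512954945_ok, V6_18456252480_ok, V6_17382510657_ok, trivial⟩
  ⟨W_19512696896_ok, W_19495923776_ok, W_19479408704_ok, W_18438959168_ok, W_17398767680_ok, W_16341803072_ok, W_16325029952_ok, W_16308514880_ok, W_15251550272_ok, W_15235035200_ok, trivial⟩ C_19563556929
theorem L_19563556992 : HH 127 (nat_lit 19563556992, nat_lit 113) := top_sound R_19563556992
  ⟨V6_18456256512_ok, V6_18455998464_ok, trivial⟩
  ⟨W_19529474048_ok, W_19512696896_ok, W_19496185856_ok, W_19479404672_ok, W_19462889600_ok, W_19446116480_ok, W_18472509440_ok, W_18422440064_ok, W_17415544832_ok, W_17365475456_ok, W_16342065152_ok, W_16341803072_ok, W_15268585472_ok, W_15268061312_ok, W_15251812352_ok, W_15251546240_ok, trivial⟩ C_19563556992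
theorem L_19563561024 : HH 127 (nat_lit 19563561024, nat_lit 148) := top_sound R_19563561024
  ⟨V6_17382260736_ok, V6_17365483584_ok, V6_16325296128_ok, V6_16308518976_ok, V6_15268331520_ok, trivial⟩
  ⟨W_19529732096_ok, W_19496185856_ok, W_19479412736_ok, W_18472767488_ok, W_18456252416_ok, W_18455990336_ok, W_18439221248_ok, W_17415802880_ok, W_15268585472_ok, W_15251812352_ok, W_15235039232_ok, trivial⟩ C_19563561024
theorem L_19563565056 : HH 127 (nat_lit 19563565056, nat_lit 59) := top_sound R_19563565056
  ⟨V6_16292007936_ok, V6_15251816448_ok, V6_15235043328_ok, trivial⟩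
  ⟨W_19513217024_ok, W_19462897664_ok, W_18473025536_ok, W_17416060928_ok, W_15268585472_ok, trivial⟩ C_19563565056
theorem L_19563814977 : HH 127 (nat_lit 19563814977, nat_lit 50) := top_sound R_19563814977
  ⟨V6_18439737408_ok, V6_15268843584_ok, trivial⟩
  ⟨W_19545985088_ok, W_19529211968_ok, W_19512696896_ok, W_19463151680_ok, W_18472505408_ok, W_18472247360_ok, W_17415540800_ok, W_17415282752_ok, W_17398767680_ok, W_16342061120_ok, W_16341803072_ok, trivial⟩ C_19563814977
theorem L_19563815040 : HH 127 (nat_lit 19563815040, nat_lit 118) := top_sound R_19563815040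
  ⟨V6_17382776832_ok, V6_16325812224_ok, trivial⟩
  ⟨W_19545989120_ok, W_19529474048_ok, W_19529211968_ok, W_19512696896_ok, W_19496181824_ok, W_19495919744_ok, W_19479404672_ok, W_19463151680_ok, W_19462889600_ok, W_19446374528_ok, W_18489024512_ok, W_18472509440_ok, W_18472247360_ok, W_18422440064_ok, W_18405924992_ok, W_17415544832_ok, W_15268585472_ok, W_15268061312_ok, trivial⟩ C_19563815040
theorem L_19563819072 : HH 127 (nat_lit 19563819072, nat_lit 220) := top_sound R_19563819072
  ⟨V6_18456514560_ok, V6_17399549952_ok, V6_17382776832_ok, V6_15268843584_ok, trivial⟩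
  ⟨W_19546247168_ok, W_19529732096_ok, W_19529474048_ok, W_19529470016_ok, W_19512700928_ok, W_19496185856_ok, W_19495923776_ok, W_19463155712_ok, W_19463151680_ok, W_19446378560_ok, W_18489282560_ok, W_18472767488_ok, W_18472509440_ok, W_18472505408_ok, W_18455736320_ok, W_18438959168_ok, W_17398771712_ok, W_17382256640_ok, W_15268843520_ok, W_15235297280_ok, trivial⟩ C_19563819072
theorem L_19563823104 : HH 127 (nat_lit 19563823104, nat_lit 202) := top_sound R_19563823104
  ⟨V6_17399549952_ok, V6_17382776832_ok, V6_17382260736_ok, V6_16325296128_ok, trivial⟩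
  ⟨W_19546505216_ok, W_19529732096_ok, W_19496185856_ok, W_19479412736_ok, W_19463155712_ok, W_19446382592_ok, W_18489540608_ok, W_18472767488_ok, W_18439221248_ok, W_18422448128_ok, W_15268843520_ok, W_15235297280_ok, W_15218524160_ok, trivial⟩ C_19563823104
theorem L_19564073025 : HH 127 (nat_lit 19564073025, nat_lit 24) := top_sound R_19564073025
  ⟨V6_15268581441_ok, V6_15252328512_ok, trivial⟩
  ⟨W_19545985088_ok, W_19512954944_ok, W_19479924800_ok, W_19463409728_ok, W_18489020480_ok, trivial⟩ C_19564073025
theorem L_19564077120 : HH 127 (nat_lit 19564077120, nat_lit 208) := top_sound R_19564077120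
  ⟨V6_18423222336_ok, V6_17383034880_ok, V6_17382776832_ok, V6_15252328512_ok, trivial⟩
  ⟨W_19546247168_ok, W_19545989120_ok, W_19545985088_ok, W_19529732096_ok, W_19529474048_ok, W_19529470016_ok, W_19529211968_ok, W_19512696896_ok, W_19480186880_ok, W_19463413760_ok, W_19463409728_ok, W_19446636608_ok, W_18489282560_ok, W_18489024512_ok, W_18489020480_ok, W_18472767488_ok, W_18472509440_ok, W_18472505408_ok, W_18472247360_ok, W_17415544832_ok, W_17398767680_ok, W_15268843520_ok, W_15268585472_ok, W_15235551296_ok, trivial⟩ C_19564077120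
theorem L_19564081152 : HH 127 (nat_lit 19564081152, nat_lit 226) := top_sound R_19564081152
  ⟨V6_19496964096_ok, V6_18456772608_ok, V6_17383034880_ok, V6_17382776832_ok, trivial⟩
  ⟨W_19563020288_ok, W_19546247168_ok, W_19529732096_ok, W_19529474048_ok, W_19512700928_ok, W_19496185856_ok, W_19463413760_ok, W_19463155712_ok, W_19446640640_ok, W_18472767488_ok, W_18472509440_ok, W_18455736320_ok, W_18389676032_ok, W_17398771712_ok, W_17382256640_ok, W_16341807104_ok, W_15269101568_ok, W_15235297280_ok, trivial⟩ C_19564081152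
theorem L_19564335168 : HH 127 (nat_lit 19564335168, nat_lit 97) := top_sound R_19564335168
  ⟨V6_17366519808_ok, V6_15268843584_ok, V6_15252328512_ok, V6_15235813440_ok, trivial⟩
  ⟨W_19562762240_ok, W_19546247168_ok, W_19529732096_ok, W_19529470016_ok, W_19479924800_ok, W_19463671808_ok, W_19463409728_ok, W_18489282560_ok, W_18489020480_ok, W_18472767488_ok, W_17415540800_ok, trivial⟩ C_19564335168
theorem L_19564339200 : HH 127 (nat_lit 19564339200, nat_lit 218) := top_sound R_19564339200
  ⟨V6_18439741440_ok, V6_18423484416_ok, V6_17382776832_ok, trivial⟩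
  ⟨W_19563020288_ok, W_19562762240_ok, W_19546505216_ok, W_19546247168_ok, W_19545989120_ok, W_19529732096_ok, W_19529474048_ok, W_19480444928_ok, W_19463671808_ok, W_19463413760_ok, W_18489282560_ok, W_18489024512_ok, W_18472767488_ok, W_18472509440_ok, W_18406707200_ok, W_18389934080_ok, W_15269101568_ok, W_15268843520_ok, W_15268585472_ok, trivial⟩ C_19564339200
theorem L_19564597248 : HH 127 (nat_lit 19564597248, nat_lit 125) := top_sound R_19564597248
  ⟨V6_19480707072_ok, V6_18423742464_ok, V6_18423484416_ok, V6_17366519808_ok, trivial⟩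
  ⟨W_19563020288_ok, W_19562762240_ok, W_19546247168_ok, W_19529732096_ok, W_18489540608_ok, W_18489282560_ok, W_18472767488_ok, W_18406965248_ok, W_17416060928_ok, W_15269101568_ok, W_15268843520_ok, trivial⟩ C_19564597248
theorem L_19564855296 : HH 127 (nat_lit 19564855296, nat_lit 52) := top_sound R_19564855296
  ⟨V6_18423742464_ok, V6_17350262784_ok, V6_16326328320_ok, V6_15236333568_ok, trivial⟩
  ⟨W_19563020288_ok, W_19546505216_ok, W_18489540608_ok, W_17416060928_ok, trivial⟩ C_19564855296
theorem L_19579805826 : HH 127 (nat_lit 19579805826, nat_lit 3) := top_sound R_19579805826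
  ⟨V6_16358318208_ok, V6_16308248706_ok, trivial⟩
  ⟨W_19495919744_ok, trivial⟩ C_19579805826
theorem L_19579809921 : HH 127 (nat_lit 19579809921, nat_lit 7) := top_sound R_19579809921
  ⟨V6_19495923777_ok, V6_16341803073_ok, trivial⟩
  ⟨W_18455732288_ok, trivial⟩ C_19579809921
theorem L_19579809984 : HH 127 (nat_lit 19579809984, nat_lit 5) := top_sound R_19579809984
  ⟨V6_16358584320_ok, trivial⟩
  ⟨W_19512700928_ok, W_19479146624_ok, trivial⟩ C_19579809984
theorem L_19580067969 : HH 127 (nat_lit 19580067969, nat_lit 20) := top_sound R_19580067969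
  ⟨V6_18439217217_ok, V6_16358318208_ok, V6_16358318145_ok, V6_16341540993_ok, trivial⟩
  ⟨W_19496181824_ok, W_19479404672_ok, W_17415282752_ok, trivial⟩ C_19580067969

theorem H_22 : AllH 127 tb22 :=
  ⟨L_19514011713, L_19514011776, L_19514015808, L_19514019840, L_19514269761, L_19514269824, L_19514273856, L_19514277888, L_19514527809, L_19514531904, L_19514535936, L_19514789952, L_19514793984, L_19529740482, L_19529744514, L_19529744577, L_19529744640, L_19530002562, L_19530002625, L_19530006657, L_19530006720, L_19530010689, L_19530010752, L_19530260610, L_19530264705, L_19530264768, L_19530268737, L_19530268800, L_19530272832, L_19530276864, L_19530522753, L_19530526785, L_19530526848, L_19530530880, L_19530534912, L_19530784833, L_19530784896, L_19530788928, L_19530792960, L_19531042881, L_19531046976, L_19531051008, L_19531305024, L_19531309056, L_19531567104, L_19531825152, L_19546255554, L_19546517634, L_19546517697, L_19546521729, L_19546521792, L_19546775682, L_19546779777, L_19546779840, L_19546783809, L_19546783872,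 L_19546787904, L_19547037825, L_19547041857, L_19547041920, L_19547045952, L_19547049984, L_19547299905, L_19547299968, L_19547304000, L_19547308032, L_19547557953, L_19547562048, L_19547566080, L_19547820096, L_19547824128, L_19548082176, L_19548340224, L_19563032706, L_19563032769, L_19563290754, L_19563294849, L_19563294912, L_19563298881, L_19563298944, L_19563552897, L_19563556929, L_19563556992, L_19563561024, L_19563565056, L_19563814977, L_19563815040, L_19563819072, L_19563823104, L_19564073025, L_19564077120, L_19564081152, L_19564335168, L_19564339200, L_19564597248, L_19564855296, L_19579805826, L_19579809921, L_19579809984, L_19580067969, trivial⟩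

theorem L_19580072001 : HH 127 (nat_lit 19580072001, nat_lit 24) := top_sound R_19580072001
  ⟨V6_19495923777_ok, V6_18472505409_ok, V6_18439217217_ok, trivial⟩
  ⟨W_19496181824_ok, W_19479408704_ok, W_16358576192_ok, W_16342061120_ok, trivial⟩ C_19580072001
theorem L_19580072064 : HH 127 (nat_lit 19580072064, nat_lit 59) := top_sound R_19580072064
  ⟨V6_18455998464_ok, V6_16358584320_ok, trivial⟩
  ⟨W_19529474048_ok, W_19512696896_ok, W_19495919744_ok, W_19479404672_ok, W_18472509440_ok, W_18422440064_ok, W_17415544832_ok, W_17381990528_ok, W_16325025920_ok, trivial⟩ C_19580072064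
theorem L_19580076096 : HH 127 (nat_lit 19580076096, nat_lit 64) := top_sound R_19580076096
  ⟨V6_17365483584_ok, V6_16308518976_ok, trivial⟩
  ⟨W_19529732096_ok, W_19512954944_ok, W_19479412736_ok, W_18455990336_ok, W_17415802880_ok, W_16358838272_ok, W_16342061120_ok, trivial⟩ C_19580076096
theorem L_19580330049 : HH 127 (nat_lit 19580330049, nat_lit 34) := top_sound R_19580330049
  ⟨V6_19512954945_ok, V6_18505797696_ok, V6_18439217217_ok, V6_17382510657_ok, trivial⟩
  ⟨W_19529211968_ok, W_19512696896_ok, W_19496181824_ok, W_16341803072_ok, W_16325546048_ok, trivial⟩ C_19580330049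
theorem L_19580330112 : HH 127 (nat_lit 19580330112, nat_lit 71) := top_sound R_19580330112
  ⟨V6_18455732352_ok, V6_17365737600_ok, V6_16358842368_ok, trivial⟩
  ⟨W_19545989120_ok, W_19529474048_ok, W_19462889600_ok, W_18489024512_ok, W_18472509440_ok, W_17399029760_ok, W_16358580224_ok, W_16342065152_ok, trivial⟩ C_19580330112
theorem L_19580334144 : HH 127 (nat_lit 19580334144, nat_lit 133) := top_sound R_19580334144
  ⟨V6_18456256512_ok, V6_18456252480_ok, V6_16358842368_ok, V6_16358584320_ok, trivial⟩
  ⟨W_19546247168_ok, W_19529732096_ok, W_19529474048_ok, W_19512700928_ok, W_19496185856_ok, W_18489282560_ok, W_18472767488_ok, W_18439221248_ok, W_17398771712_ok, W_16358838272_ok, W_16358576192_ok, W_16341807104_ok, W_16325292032_ok, trivial⟩ C_19580334144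
theorem L_19580338176 : HH 127 (nat_lit 19580338176, nat_lit 105) := top_sound R_19580338176
  ⟨V6_17382260736_ok, V6_16325296128_ok, V6_16308781056_ok, trivial⟩
  ⟨W_19546505216_ok, W_19529732096_ok, W_18489540608_ok, W_18472767488_ok, W_17416060928_ok, W_17415802880_ok, W_16358838272_ok, W_16342065152_ok, trivial⟩ C_19580338176
theorem L_19580588097 : HH 127 (nat_lit 19580588097, nat_lit 18) := top_sound R_19580588097
  ⟨V6_19579277376_ok, V6_19479924801_ok, V6_17365995585_ok, trivial⟩
  ⟨W_18472505408_ok, W_16358576192_ok, W_16342061120_ok, W_16325546048_ok, trivial⟩ C_19580588097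
theorem L_19580592192 : HH 127 (nat_lit 19580592192, nat_lit 155) := top_sound R_19580592192
  ⟨V6_19496706048_ok, V6_17399549952_ok, trivial⟩
  ⟨W_19562762240_ok, W_19546247168_ok, W_19545989120_ok, W_19545985088_ok, W_19529732096_ok, W_19529474048_ok, W_19529470016_ok, W_19529211968_ok, W_18489282560_ok, W_18489024512_ok, W_18489020480_ok, W_18472767488_ok, W_18472509440_ok, W_18472505408_ok, W_18472247360_ok, W_17415544832_ok, W_17398767680_ok, W_16358580224_ok, W_16341803072_ok, trivial⟩ C_19580592192
theorem L_19580596224 : HH 127 (nat_lit 19580596224, nat_lit 171) := top_sound R_19580596224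
  ⟨V6_19496706048_ok, V6_17399549952_ok, V6_16359358464_ok, V6_16358584320_ok, trivial⟩
  ⟨W_19563020288_ok, W_19546247168_ok, W_19529732096_ok, W_19529474048_ok, W_19496185856_ok, W_19463155712_ok, W_18489540608_ok, W_18472767488_ok, W_18439221248_ok, W_17398771712_ok, W_17382256640_ok, trivial⟩ C_19580596224
theorem L_19580850240 : HH 127 (nat_lit 19580850240, nat_lit 85) := top_sound R_19580850240
  ⟨V6_19579277376_ok, V6_19496964096_ok, V6_18423222336_ok, trivial⟩
  ⟨W_19579277312_ok, W_19562762240_ok, W_19546247168_ok, W_19545985088_ok, W_18505797632_ok, W_18489282560_ok, W_18472505408_ok, W_17432317952_ok, W_17432055872_ok, W_17415802880_ok, W_16358838272_ok, W_16358576192_ok, W_16325546048_ok, trivial⟩ C_19580850240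
theorem L_19580854272 : HH 127 (nat_lit 19580854272, nat_lit 173) := top_sound R_19580854272
  ⟨V6_18456772608_ok, V6_18423226368_ok, V6_16309297152_ok, trivial⟩
  ⟨W_19579535360_ok, W_19563020288_ok, W_19562762240_ok, W_19546505216_ok, W_19546247168_ok, W_19545989120_ok, W_19529732096_ok, W_19529474048_ok, W_18489282560_ok, W_18489024512_ok, W_18472767488_ok, W_18472509440_ok, W_17416060928_ok, W_17415544832_ok, trivial⟩ C_19580854272
theorem L_19581112320 : HH 127 (nat_lit 19581112320, nat_lit 119) := top_sound R_19581112320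
  ⟨V6_17383034880_ok, V6_17366519808_ok, V6_16359358464_ok, V6_16326328320_ok, trivial⟩
  ⟨W_19563020288_ok, W_19562762240_ok, W_19546505216_ok, W_19546247168_ok, W_19529732096_ok, W_19463671808_ok, W_18506055680_ok, W_18505797632_ok, W_18489540608_ok, W_17432317952_ok, W_16359096320_ok, W_16358838272_ok, trivial⟩ C_19581112320
theorem L_19581370368 : HH 127 (nat_lit 19581370368, nat_lit 50) := top_sound R_19581370368
  ⟨V6_18456772608_ok, V6_16359358464_ok, V6_16326328320_ok, trivial⟩
  ⟨W_19579535360_ok, W_19563020288_ok, W_19480444928_ok, W_17432576000_ok, W_17416060928_ok, W_16359096320_ok, trivial⟩ C_19581370368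
theorem L_19596320898 : HH 127 (nat_lit 19596320898, nat_lit 2) := top_sound R_19596320898
  ⟨V6_18472247424_ok, trivial⟩
  ⟨W_19512434816_ok, trivial⟩ C_19596320898
theorem L_19596583041 : HH 127 (nat_lit 19596583041, nat_lit 7) := top_sound R_19596583041
  ⟨V6_18472247424_ok, trivial⟩
  ⟨W_19512696896_ok, trivial⟩ C_19596583041
theorem L_19596587073 : HH 127 (nat_lit 19596587073, nat_lit 8) := top_sound R_19596587073
  ⟨V6_19495923777_ok, V6_18472505409_ok, trivial⟩
  ⟨W_19512696896_ok, trivial⟩ C_19596587073
theorem L_19596587136 : HH 127 (nat_lit 19596587136, nat_lit 13) := top_sound R_19596587136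
  ⟨V6_18455732352_ok, trivial⟩
  ⟨W_17415544832_ok, W_17398771712_ok, trivial⟩ C_19596587136
theorem L_19596845121 : HH 127 (nat_lit 19596845121, nat_lit 16) := top_sound R_19596845121
  ⟨V6_19512954945_ok, V6_18439217217_ok, trivial⟩
  ⟨W_19529211968_ok, W_18489020480_ok, W_18472505408_ok, W_17415282752_ok, trivial⟩ C_19596845121
theorem L_19596845184 : HH 127 (nat_lit 19596845184, nat_lit 42) := top_sound R_19596845184
  ⟨V6_19562766336_ok, V6_18455732352_ok, V6_17448837120_ok, trivial⟩
  ⟨W_19529474048_ok, W_19479404672_ok, W_18472509440_ok, W_17415544832_ok, trivial⟩ C_19596845184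
theorem L_19596849216 : HH 127 (nat_lit 19596849216, nat_lit 62) := top_sound R_19596849216
  ⟨V6_19512963072_ok, V6_18455998464_ok, trivial⟩
  ⟨W_19546247168_ok, W_19529732096_ok, W_18489282560_ok, W_18472505408_ok, W_17432317952_ok, W_17415544832_ok, W_17415540800_ok, trivial⟩ C_19596849216
theorem L_19596853248 : HH 127 (nat_lit 19596853248, nat_lit 49) := top_sound R_19596853248
  ⟨V6_17449353216_ok, V6_17382260736_ok, trivial⟩
  ⟨W_19529732096_ok, W_18489540608_ok, W_17415802880_ok, trivial⟩ C_19596853248
theorem L_19597103169 : HH 127 (nat_lit 19597103169, nat_lit 11) := top_sound R_19597103169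
  ⟨V6_19496439873_ok, V6_17382510657_ok, trivial⟩
  ⟨W_19545985088_ok, W_18505535552_ok, W_18472505408_ok, W_17432055872_ok, trivial⟩ C_19597103169
theorem L_19597107264 : HH 127 (nat_lit 19597107264, nat_lit 92) := top_sound R_19597107264
  ⟨V6_19513221120_ok, V6_17448837120_ok, trivial⟩
  ⟨W_19562762240_ok, W_19546247168_ok, W_19545985088_ok, W_18489282560_ok, W_18489024512_ok, W_18472767488_ok, W_18472505408_ok, W_18472247360_ok, W_17432317952_ok, W_17415802880_ok, W_17399025728_ok, trivial⟩ C_19597107264
theorem L_19597111296 : HH 127 (nat_lit 19597111296, nat_lit 92) := top_sound R_19597111296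
  ⟨V6_19513221120_ok, V6_17449353216_ok, trivial⟩
  ⟨W_19563020288_ok, W_19546247168_ok, W_18489282560_ok, W_18472767488_ok, W_18455736320_ok, W_17432576000_ok, W_17432317952_ok, W_17416060928_ok, W_17398771712_ok, trivial⟩ C_19597111296
theorem L_19597365312 : HH 127 (nat_lit 19597365312, nat_lit 55) := top_sound R_19597365312
  ⟨V6_18522574848_ok, V6_17399549952_ok, trivial⟩
  ⟨W_19562762240_ok, W_19546247168_ok, W_19529732096_ok, W_19479924800_ok, W_18472505408_ok, trivial⟩ C_19597365312
theorem L_19597369344 : HH 127 (nat_lit 19597369344, nat_lit 129) := top_sound R_19597369344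
  ⟨V6_19496706048_ok, V6_17382776832_ok, trivial⟩
  ⟨W_19579535360_ok, W_19563020288_ok, W_19562762240_ok, W_19546247168_ok, W_19545989120_ok, W_18522570752_ok, W_18505797632_ok, W_18489540608_ok, W_18489282560_ok, W_18489024512_ok, W_18472767488_ok, W_17449091072_ok, W_17448833024_ok, W_17416060928_ok, trivial⟩ C_19597369344
theorem L_19597627392 : HH 127 (nat_lit 19597627392, nat_lit 91) := top_sound R_19597627392
  ⟨V6_19496964096_ok, V6_17449353216_ok, V6_17383034880_ok, trivial⟩
  ⟨W_19596050432_ok, W_19579535360_ok, W_19579277312_ok, W_19563020288_ok, W_19562762240_ok, W_19546247168_ok, W_19529732096_ok, W_18522570752_ok, W_17449091072_ok, W_17448833024_ok, W_17416060928_ok, trivial⟩ C_19597627392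
theorem L_19597885440 : HH 127 (nat_lit 19597885440, nat_lit 50) := top_sound R_19597885440
  ⟨V6_19596312576_ok, V6_18456772608_ok, V6_17449353216_ok, trivial⟩
  ⟨W_19579535360_ok, W_19563020288_ok, W_19480444928_ok, W_17449091072_ok, W_17432576000_ok, W_17416060928_ok, trivial⟩ C_19597885440
theorem L_19613098113 : HH 127 (nat_lit 19613098113, nat_lit 2) := top_sound R_19613098113
  ⟨V6_18472247424_ok, trivial⟩
  ⟨W_19529211968_ok, trivial⟩ C_19613098113
theorem L_19613360193 : HH 127 (nat_lit 19613360193, nat_lit 7) := top_sound R_19613360193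
  ⟨V6_18505797696_ok, V6_18472505409_ok, trivial⟩
  ⟨W_19512696896_ok, trivial⟩ C_19613360193
theorem L_19613360256 : HH 127 (nat_lit 19613360256, nat_lit 13) := top_sound R_19613360256
  ⟨V6_18455732352_ok, trivial⟩
  ⟨W_19545989120_ok, W_18489024512_ok, trivial⟩ C_19613360256
theorem L_19613364288 : HH 127 (nat_lit 19613364288, nat_lit 15) := top_sound R_19613364288
  ⟨V6_19546247232_ok, trivial⟩
  ⟨W_19529474048_ok, trivial⟩ C_19613364288
theorem L_19613618241 : HH 127 (nat_lit 19613618241, nat_lit 4) := top_sound R_19613618241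
  ⟨V6_19512954945_ok, trivial⟩
  ⟨W_19545985088_ok, W_18489020480_ok, trivial⟩ C_19613618241
theorem L_19613622336 : HH 127 (nat_lit 19613622336, nat_lit 44) := top_sound R_19613622336
  ⟨V6_19546247232_ok, V6_19529732160_ok, V6_18505797696_ok, trivial⟩
  ⟨W_19529732096_ok, W_19529474048_ok, W_18489024512_ok, trivial⟩ C_19613622336
theorem L_19613626368 : HH 127 (nat_lit 19613626368, nat_lit 40) := top_sound R_19613626368
  ⟨V6_18455998464_ok, trivial⟩
  ⟨W_19563020288_ok, W_19546247168_ok, W_18506055680_ok, W_18489282560_ok, trivial⟩ C_19613626368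
theorem L_19613880384 : HH 127 (nat_lit 19613880384, nat_lit 30) := top_sound R_19613880384
  ⟨V6_18456252480_ok, trivial⟩
  ⟨W_19562762240_ok, W_19546247168_ok, W_19545985088_ok, W_18505797632_ok, trivial⟩ C_19613880384
theorem L_19613884416 : HH 127 (nat_lit 19613884416, nat_lit 64) := top_sound R_19613884416
  ⟨V6_18456256512_ok, trivial⟩
  ⟨W_19579535360_ok, W_19562762240_ok, W_19546505216_ok, W_19546247168_ok, W_19545989120_ok, W_18522570752_ok, W_18489024512_ok, trivial⟩ C_19613884416
theorem L_19614142464 : HH 127 (nat_lit 19614142464, nat_lit 56) := top_sound R_19614142464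
  ⟨V6_18456514560_ok, trivial⟩
  ⟨W_19596050432_ok, W_19579535360_ok, W_19579277312_ok, W_19563020288_ok, W_19546505216_ok, W_19546247168_ok, W_18522570752_ok, trivial⟩ C_19614142464
theorem L_19614400512 : HH 127 (nat_lit 19614400512, nat_lit 28) := top_sound R_19614400512
  ⟨V6_18539347968_ok, V6_18456772608_ok, trivial⟩
  ⟨W_19579535360_ok, W_19546505216_ok, W_18522570752_ok, trivial⟩ C_19614400512
theorem L_19629875328 : HH 127 (nat_lit 19629875328, nat_lit 5) := top_sound R_19629875328
  ⟨V6_19562766336_ok, trivial⟩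
  ⟨W_19529211968_ok, trivial⟩ C_19629875328
theorem L_19630133313 : HH 127 (nat_lit 19630133313, nat_lit 2) := top_sound R_19630133313
  ⟨V6_19546247232_ok, trivial⟩
  ⟨W_19529470016_ok, trivial⟩ C_19630133313
theorem L_19630137408 : HH 127 (nat_lit 19630137408, nat_lit 11) := top_sound R_19630137408
  ⟨V6_19546247232_ok, trivial⟩
  ⟨W_19562762240_ok, W_19545989120_ok, trivial⟩ C_19630137408
theorem L_19630141440 : HH 127 (nat_lit 19630141440, nat_lit 5) := top_sound R_19630141440
  ⟨V6_19579797504_ok, trivial⟩
  ⟨W_19512700928_ok, trivial⟩ C_19630141440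
theorem L_19630395456 : HH 127 (nat_lit 19630395456, nat_lit 9) := top_sound R_19630395456
  ⟨V6_19529732160_ok, trivial⟩
  ⟨W_19579277312_ok, W_19562762240_ok, trivial⟩ C_19630395456
theorem L_19630399488 : HH 127 (nat_lit 19630399488, nat_lit 27) := top_sound R_19630399488
  ⟨V6_19596312576_ok, V6_19562766336_ok, trivial⟩
  ⟨W_19529732096_ok, W_19529474048_ok, trivial⟩ C_19630399488
theorem L_19630657536 : HH 127 (nat_lit 19630657536, nat_lit 21) := top_sound R_19630657536
  ⟨V6_19612827648_ok, V6_19596312576_ok, V6_19579797504_ok, trivial⟩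
  ⟨W_19529732096_ok, trivial⟩ C_19630657536
theorem L_19630915584 : HH 127 (nat_lit 19630915584, nat_lit 19) := top_sound R_19630915584
  ⟨V6_19596312576_ok, V6_19579797504_ok, trivial⟩
  ⟨W_19579535360_ok, W_19563020288_ok, trivial⟩ C_19630915584
theorem L_20503347459 : HH 127 (nat_lit 20503347459, nat_lit 1) := top_sound R_20503347459
  ⟨V6_14060896515_ok, trivial⟩
  ⟨W_19429081280_ok, trivial⟩ C_20503347459
theorem L_20503351554 : HH 127 (nat_lit 20503351554, nat_lit 1) := top_sound R_20503351554
  ⟨V6_14060900610_ok, trivial⟩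
  ⟨W_19429343360_ok, trivial⟩ C_20503351554
theorem L_20503355586 : HH 127 (nat_lit 20503355586, nat_lit 2) := top_sound R_20503355586
  ⟨V6_14060904642_ok, trivial⟩
  ⟨W_19429601408_ok, trivial⟩ C_20503355586
theorem L_20503355649 : HH 127 (nat_lit 20503355649, nat_lit 4) := top_sound R_20503355649
  ⟨V6_16208380161_ok, trivial⟩
  ⟨W_17282129984_ok, W_16208388224_ok, trivial⟩ C_20503355649
theorem L_20503355712 : HH 127 (nat_lit 20503355712, nat_lit 3) := top_sound R_20503355712
  ⟨V6_14060904768_ok, trivial⟩
  ⟨W_19429609472_ok, trivial⟩ C_20503355712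
theorem L_20519600388 : HH 127 (nat_lit 20519600388, nat_lit 1) := top_sound R_20519600388
  ⟨V6_17248043268_ok, trivial⟩
  ⟨W_20469268736_ok, trivial⟩ C_20519600388
theorem L_20519862531 : HH 127 (nat_lit 20519862531, nat_lit 1) := top_sound R_20519862531
  ⟨V6_16207855875_ok, trivial⟩
  ⟨W_19429081280_ok, trivial⟩ C_20519862531
theorem L_20520124611 : HH 127 (nat_lit 20520124611, nat_lit 1) := top_sound R_20520124611
  ⟨V6_18355859649_ok, trivial⟩
  ⟨W_19429081280_ok, trivial⟩ C_20520124611
theorem L_20520124674 : HH 127 (nat_lit 20520124674, nat_lit 5) := top_sound R_20520124674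
  ⟨V6_16208380161_ok, V6_15134638338_ok, trivial⟩
  ⟨W_20502823040_ok, W_19445858432_ok, W_19429081280_ok, trivial⟩ C_20520124674
theorem L_20520128706 : HH 127 (nat_lit 20520128706, nat_lit 5) := top_sound R_20520128706
  ⟨V6_15151419522_ok, V6_15151157442_ok, V6_15134642370_ok, trivial⟩
  ⟨W_20503081088_ok, W_19429601408_ok, W_19429343360_ok, W_18372374720_ok, trivial⟩ C_20520128706
theorem L_20520128769 : HH 127 (nat_lit 20520128769, nat_lit 6) := top_sound R_20520128769
  ⟨V6_16208380161_ok, V6_15151157505_ok, V6_15134642433_ok, trivial⟩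
  ⟨W_20503085120_ok, W_19446120512_ok, W_18372382784_ok, trivial⟩ C_20520128769
theorem L_20520128832 : HH 127 (nat_lit 20520128832, nat_lit 2) := top_sound R_20520128832
  ⟨V6_14077677888_ok, trivial⟩
  ⟨W_19429609472_ok, trivial⟩ C_20520128832
theorem L_20520132738 : HH 127 (nat_lit 20520132738, nat_lit 5) := top_sound R_20520132738
  ⟨V6_15134646402_ok, V6_14077681794_ok, trivial⟩
  ⟨W_20503339136_ok, W_19429601408_ok, trivial⟩ C_20520132738
theorem L_20520132801 : HH 127 (nat_lit 20520132801, nat_lit 9) := top_sound R_20520132801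
  ⟨V6_16225165377_ok, V6_15134646465_ok, trivial⟩
  ⟨W_19446378560_ok, W_19429601408_ok, W_17298895040_ok, trivial⟩ C_20520132801
theorem L_20520132864 : HH 127 (nat_lit 20520132864, nat_lit 14) := top_sound R_20520132864
  ⟨V6_19429613568_ok, V6_15134646528_ok, trivial⟩
  ⟨W_19446382592_ok, W_17298899072_ok, trivial⟩ C_20520132864
theorem L_20520382659 : HH 127 (nat_lit 20520382659, nat_lit 1) := top_sound R_20520382659
  ⟨V6_14077931715_ok, trivial⟩
  ⟨W_18372374720_ok, trivial⟩ C_20520382659
theorem L_20520386754 : HH 127 (nat_lit 20520386754, nat_lit 4) := top_sound R_20520386754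
  ⟨V6_15151677633_ok, trivial⟩
  ⟨W_20519596160_ok, W_19445858432_ok, trivial⟩ C_20520386754
theorem L_20520386817 : HH 127 (nat_lit 20520386817, nat_lit 6) := top_sound R_20520386817
  ⟨V6_15151677633_ok, trivial⟩
  ⟨W_20519600192_ok, W_19446120512_ok, W_17298374912_ok, trivial⟩ C_20520386817
theorem L_20520390786 : HH 127 (nat_lit 20520390786, nat_lit 2) := top_sound R_20520390786
  ⟨V6_15151419522_ok, trivial⟩
  ⟨W_19446374528_ok, trivial⟩ C_20520390786
theorem L_20520390849 : HH 127 (nat_lit 20520390849, nat_lit 9) := top_sound R_20520390849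
  ⟨V6_16225415361_ok, V6_14077939905_ok, trivial⟩
  ⟨W_19446378560_ok, W_19446120512_ok, trivial⟩ C_20520390849
theorem L_20520390912 : HH 127 (nat_lit 20520390912, nat_lit 9) := top_sound R_20520390912
  ⟨V6_15151681728_ok, trivial⟩
  ⟨W_19446382592_ok, W_19446120512_ok, trivial⟩ C_20520390912
theorem L_20520394881 : HH 127 (nat_lit 20520394881, nat_lit 8) := top_sound R_20520394881
  ⟨V6_15151685697_ok, V6_15151681665_ok, trivial⟩
  ⟨W_20520116288_ok, W_19446378560_ok, trivial⟩ C_20520394881
theorem L_20520394944 : HH 127 (nat_lit 20520394944, nat_lit 14) := top_sound R_20520394944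
  ⟨V6_17299169280_ok, V6_15151681728_ok, trivial⟩
  ⟨W_19446382592_ok, W_19446378560_ok, trivial⟩ C_20520394944
theorem L_20520398913 : HH 127 (nat_lit 20520398913, nat_lit 3) := top_sound R_20520398913
  ⟨V6_15151685697_ok, trivial⟩
  ⟨W_20520374336_ok, trivial⟩ C_20520398913
theorem L_20520398976 : HH 127 (nat_lit 20520398976, nat_lit 3) := top_sound R_20520398976
  ⟨V6_16225431552_ok, V6_14077948032_ok, trivial⟩
  ⟨W_20520378368_ok, W_19446636608_ok, trivial⟩ C_20520398976
theorem L_20536377603 : HH 127 (nat_lit 20536377603, nat_lit 2) := top_sound R_20536377603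
  ⟨V6_19395526914_ok, V6_16207855875_ok, trivial⟩
  ⟨W_17315152064_ok, trivial⟩ C_20536377603
theorem L_20536639683 : HH 127 (nat_lit 20536639683, nat_lit 1) := top_sound R_20536639683
  ⟨V6_16241668290_ok, trivial⟩
  ⟨W_19429081280_ok, trivial⟩ C_20536639683
theorem L_20536639746 : HH 127 (nat_lit 20536639746, nat_lit 5) := top_sound R_20536639746
  ⟨V6_17315152065_ok, trivial⟩
  ⟨W_20502823040_ok, W_19445858432_ok, W_18355339520_ok, trivial⟩ C_20536639746
theorem L_20536643778 : HH 127 (nat_lit 20536643778, nat_lit 2) := top_sound R_20536643778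
  ⟨V6_16241668290_ok, V6_15151157442_ok, trivial⟩
  ⟨W_20503081088_ok, W_19429343360_ok, trivial⟩ C_20536643778
theorem L_20536643841 : HH 127 (nat_lit 20536643841, nat_lit 4) := top_sound R_20536643841
  ⟨V6_19429347393_ok, V6_16224899265_ok, trivial⟩
  ⟨W_20503085120_ok, W_17315418176_ok, trivial⟩ C_20536643841
theorem L_20536901826 : HH 127 (nat_lit 20536901826, nat_lit 12) := top_sound R_20536901826
  ⟨V6_19462631616_ok, V6_17315152065_ok, V6_16241668290_ok, trivial⟩
  ⟨W_20519596160_ok, W_20502823040_ok, W_19446116480_ok, W_19429601408_ok, W_18355863680_ok, W_17282121920_ok, trivial⟩ C_20536901826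
theorem L_20536901889 : HH 127 (nat_lit 20536901889, nat_lit 18) := top_sound R_20536901889
  ⟨V6_19462635585_ok, V6_18372116736_ok, V6_17315152065_ok, trivial⟩
  ⟨W_20519600192_ok, W_19429605440_ok, W_18372640832_ok, W_18355863680_ok, W_17282121920_ok, W_16208380160_ok, trivial⟩ C_20536901889
theorem L_20536905858 : HH 127 (nat_lit 20536905858, nat_lit 12) := top_sound R_20536905858
  ⟨V6_18389409921_ok, trivial⟩
  ⟨W_20503339136_ok, W_20503081088_ok, W_19462889600_ok, W_19429601408_ok, W_19429343360_ok, trivial⟩ C_20536905858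
theorem L_20536905921 : HH 127 (nat_lit 20536905921, nat_lit 22) := top_sound R_20536905921
  ⟨V6_17282125953_ok, V6_16225161408_ok, V6_16208384193_ok, trivial⟩
  ⟨W_20519858240_ok, W_20503343168_ok, W_20503085120_ok, W_20503081088_ok, W_19446378560_ok, W_18389413952_ok, trivial⟩ C_20536905921
theorem L_20536905984 : HH 127 (nat_lit 20536905984, nat_lit 28) := top_sound R_20536905984
  ⟨V6_18389422080_ok, trivial⟩
  ⟨W_20519862272_ok, W_20503347200_ok, W_20503085120_ok, W_19462897664_ok, W_18355863680_ok, W_16208380160_ok, W_15167930624_ok, W_14094450944_ok, trivial⟩ C_20536905984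
theorem L_20536909953 : HH 127 (nat_lit 20536909953, nat_lit 23) := top_sound R_20536909953
  ⟨V6_18389409921_ok, V6_17282125953_ok, V6_16225165377_ok, trivial⟩
  ⟨W_19463151680_ok, W_19446378560_ok, W_15168200768_ok, trivial⟩ C_20536909953
theorem L_20536910016 : HH 127 (nat_lit 20536910016, nat_lit 38) := top_sound R_20536910016
  ⟨V6_17315684352_ok, V6_16225161408_ok, trivial⟩
  ⟨W_20520120320_ok, W_20503347200_ok, W_20503343168_ok, W_19463155712_ok, W_19446382592_ok, W_19429601408_ok, W_18355871744_ok, W_17282129984_ok, trivial⟩ C_20536910016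
theorem L_20537159874 : HH 127 (nat_lit 20537159874, nat_lit 4) := top_sound R_20537159874
  ⟨V6_16225415361_ok, trivial⟩
  ⟨W_20519596160_ok, W_19462631552_ok, trivial⟩ C_20537159874
theorem L_20537163906 : HH 127 (nat_lit 20537163906, nat_lit 14) := top_sound R_20537163906
  ⟨V6_18372894849_ok, V6_17315930241_ok, trivial⟩
  ⟨W_20536369280_ok, W_20519596160_ok, W_19462889600_ok, W_19446116480_ok, W_18372378752_ok, trivial⟩ C_20537163906
theorem L_20537163969 : HH 127 (nat_lit 20537163969, nat_lit 28) := top_sound R_20537163969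
  ⟨V6_17299161153_ok, V6_16225419456_ok, V6_15151677633_ok, trivial⟩
  ⟨W_20536373312_ok, W_20519858240_ok, W_20519596160_ok, W_19462635584_ok, W_19462631552_ok, W_19446378560_ok, W_19446120512_ok, W_18372374720_ok, trivial⟩ C_20537163969
theorem L_20537164032 : HH 127 (nat_lit 20537164032, nat_lit 31) := top_sound R_20537164032
  ⟨V6_19446644736_ok, V6_18372116736_ok, V6_16225419456_ok, trivial⟩
  ⟨W_19462635584_ok, W_18389417984_ok, W_17315938304_ok, trivial⟩ C_20537164032
theorem L_20537168001 : HH 127 (nat_lit 20537168001, nat_lit 34) := top_sound R_20537168001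
  ⟨V6_17299161153_ok, V6_16225423488_ok, V6_16225423425_ok, V6_15151681665_ok, trivial⟩
  ⟨W_20536631360_ok, W_20519858240_ok, W_19463151680_ok, W_19462889600_ok, W_19446378560_ok, W_19446120512_ok, trivial⟩ C_20537168001
theorem L_20537168064 : HH 127 (nat_lit 20537168064, nat_lit 52) := top_sound R_20537168064
  ⟨V6_17315942400_ok, V6_16225161408_ok, V6_15151681728_ok, trivial⟩
  ⟨W_20519858240_ok, W_19463155712_ok, W_19462897664_ok, W_19446640640_ok, W_19446382592_ok, W_19446120512_ok, W_19446116480_ok, W_18372374720_ok, trivial⟩ C_20537168064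
theorem L_20537172033 : HH 127 (nat_lit 20537172033, nat_lit 21) := top_sound R_20537172033
  ⟨V6_20520374337_ok, V6_16225427520_ok, V6_16225165377_ok, V6_15151685697_ok, trivial⟩
  ⟨W_20520374336_ok, W_20520116288_ok, W_19463151680_ok, W_14094721088_ok, trivial⟩ C_20537172033
theorem L_20537172096 : HH 127 (nat_lit 20537172096, nat_lit 59) := top_sound R_20537172096
  ⟨V6_17315684352_ok, V6_16225427520_ok, V6_16225165440_ok, V6_15151685760_ok, trivial⟩
  ⟨W_20520120320_ok, W_20520116288_ok, W_19463413760_ok, W_19463155712_ok, W_19446636608_ok, W_19446382592_ok, W_19446374528_ok, W_18372902912_ok, W_18372644864_ok, trivial⟩ C_20537172096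
theorem L_20537176128 : HH 127 (nat_lit 20537176128, nat_lit 22) := top_sound R_20537176128
  ⟨V6_16242204672_ok, V6_14094725184_ok, trivial⟩
  ⟨W_20537151488_ok, W_20520374336_ok, W_19463409728_ok, W_19446640640_ok, W_14094725120_ok, trivial⟩ C_20537176128
theorem L_20537421954 : HH 127 (nat_lit 20537421954, nat_lit 8) := top_sound R_20537421954
  ⟨V6_16242450561_ok, trivial⟩
  ⟨W_19462889600_ok, W_19462631552_ok, trivial⟩ C_20537421954
theorem L_20537422017 : HH 127 (nat_lit 20537422017, nat_lit 8) := top_sound R_20537422017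
  ⟨V6_20536111233_ok, V6_18388889793_ok, V6_15168712896_ok, trivial⟩
  ⟨W_20536373312_ok, W_19462893632_ok, trivial⟩ C_20537422017
theorem L_20537426049 : HH 127 (nat_lit 20537426049, nat_lit 32) := top_sound R_20537426049
  ⟨V6_17316192384_ok, V6_16242450561_ok, trivial⟩
  ⟨W_20536373312_ok, W_19463151680_ok, W_19462635584_ok, W_18388893824_ok, W_15168716864_ok, trivial⟩ C_20537426049
theorem L_20537426112 : HH 127 (nat_lit 20537426112, nat_lit 43) := top_sound R_20537426112
  ⟨V6_19462631616_ok, V6_17316200448_ok, trivial⟩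
  ⟨W_19463155712_ok, W_18389417984_ok, W_15168716864_ok, W_15168712832_ok, W_13021233344_ok, trivial⟩ C_20537426112
theorem L_20537430081 : HH 127 (nat_lit 20537430081, nat_lit 21) := top_sound R_20537430081
  ⟨V6_20536889409_ok, V6_15168720960_ok, V6_14094979137_ok, trivial⟩
  ⟨W_19463151680_ok, W_19462893632_ok, W_18389930048_ok, trivial⟩ C_20537430081
theorem L_20537430144 : HH 127 (nat_lit 20537430144, nat_lit 66) := top_sound R_20537430144
  ⟨V6_17316200448_ok, V6_17316192384_ok, V6_16242462720_ok, trivial⟩
  ⟨W_20536893440_ok, W_20536635392_ok, W_19463155712_ok, W_19463151680_ok, W_19462889600_ok, W_18389159936_ok, W_16242450560_ok, trivial⟩ C_20537430144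

theorem H_23 : AllH 127 tb23 :=
  ⟨L_19580072001, L_19580072064, L_19580076096, L_19580330049, L_19580330112, L_19580334144, L_19580338176, L_19580588097, L_19580592192, L_19580596224, L_19580850240, L_19580854272, L_19581112320, L_19581370368, L_19596320898, L_19596583041, L_19596587073, L_19596587136, L_19596845121, L_19596845184, L_19596849216, L_19596853248, L_19597103169, L_19597107264, L_19597111296, L_19597365312, L_19597369344, L_19597627392, L_19597885440, L_19613098113, L_19613360193, L_19613360256, L_19613364288, L_19613618241, L_19613622336, L_19613626368, L_19613880384, L_19613884416, L_19614142464, L_19614400512, L_19629875328, L_19630133313, L_19630137408, L_19630141440, L_19630395456, L_19630399488, L_19630657536, L_19630915584, L_20503347459, L_20503351554, L_20503355586, L_20503355649, L_20503355712, L_20519600388, L_20519862531, L_20520124611, L_20520124674, L_20520128706, L_20520128769, L_20520128832, L_20520132738, L_20520132801, L_20520132864, L_20520382659, L_20520386754, L_20520386817, L_20520390786, L_20520390849,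 L_20520390912, L_20520394881, L_20520394944, L_20520398913, L_20520398976, L_20536377603, L_20536639683, L_20536639746, L_20536643778, L_20536643841, L_20536901826, L_20536901889, L_20536905858, L_20536905921, L_20536905984, L_20536909953, L_20536910016, L_20537159874, L_20537163906, L_20537163969, L_20537164032, L_20537168001, L_20537168064, L_20537172033, L_20537172096, L_20537176128, L_20537421954, L_20537422017, L_20537426049, L_20537426112, L_20537430081, L_20537430144, trivial⟩

theorem L_20537434176 : HH 127 (nat_lit 20537434176, nat_lit 55) := top_sound R_20537434176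
  ⟨V6_17315684352_ok, V6_16242204672_ok, V6_15168724992_ok, trivial⟩
  ⟨W_20537151488_ok, W_20536893440_ok, W_19463409728_ok, W_19463151680_ok, W_18389934080_ok, trivial⟩ C_20537434176
theorem L_20537438208 : HH 127 (nat_lit 20537438208, nat_lit 24) := top_sound R_20537438208
  ⟨V6_17316200448_ok, trivial⟩
  ⟨W_20537409536_ok, W_20537151488_ok, W_19463671808_ok, W_13021245440_ok, trivial⟩ C_20537438208
theorem L_20553154755 : HH 127 (nat_lit 20553154755, nat_lit 1) := top_sound R_20553154755
  ⟨V6_18388889793_ok, trivial⟩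
  ⟨W_19429081280_ok, trivial⟩ C_20553154755
theorem L_20553154818 : HH 127 (nat_lit 20553154818, nat_lit 5) := top_sound R_20553154818
  ⟨V6_16258187520_ok, trivial⟩
  ⟨W_20502823040_ok, W_20469268736_ok, W_19429081280_ok, W_18355339520_ok, trivial⟩ C_20553154818
theorem L_20553416898 : HH 127 (nat_lit 20553416898, nat_lit 10) := top_sound R_20553416898
  ⟨V6_17331929280_ok, trivial⟩
  ⟨W_20519596160_ok, W_20503081088_ok, W_20502823040_ok, W_19446116480_ok, W_19429343360_ok, W_19429081280_ok, W_18372374720_ok, trivial⟩ C_20553416898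
theorem L_20553416961 : HH 127 (nat_lit 20553416961, nat_lit 13) := top_sound R_20553416961
  ⟨V6_18405670977_ok, V6_16258187520_ok, trivial⟩
  ⟨W_20519600192_ok, W_20503085120_ok, W_20502823040_ok, W_19446120512_ok, W_19429343360_ok, W_18355339520_ok, W_17298374912_ok, trivial⟩ C_20553416961
theorem L_20553420930 : HH 127 (nat_lit 20553420930, nat_lit 5) := top_sound R_20553420930
  ⟨V6_18372382848_ok, trivial⟩
  ⟨W_19462889600_ok, W_18405924992_ok, trivial⟩ C_20553420930
theorem L_20553420993 : HH 127 (nat_lit 20553420993, nat_lit 12) := top_sound R_20553420993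
  ⟨V6_18372382785_ok, V6_17298641088_ok, V6_16224899265_ok, trivial⟩
  ⟨W_20519858240_ok, W_20503085120_ok, W_20503081088_ok, W_18389151872_ok, W_14110970048_ok, trivial⟩ C_20553420993
theorem L_20553421056 : HH 127 (nat_lit 20553421056, nat_lit 12) := top_sound R_20553421056
  ⟨V6_18405937152_ok, trivial⟩
  ⟨W_20503085120_ok, W_19462897664_ok, W_15167930624_ok, trivial⟩ C_20553421056
theorem L_20553674946 : HH 127 (nat_lit 20553674946, nat_lit 7) := top_sound R_20553674946
  ⟨V6_20502818946_ok, V6_19429601472_ok, V6_18405404802_ok, V6_18355859649_ok, V6_16241668290_ok, trivial⟩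
  ⟨W_20519596160_ok, W_19479146624_ok, W_19462631552_ok, W_18372374720_ok, W_17331925184_ok, trivial⟩ C_20553674946
theorem L_20553678978 : HH 127 (nat_lit 20553678978, nat_lit 22) := top_sound R_20553678978
  ⟨V6_18405671040_ok, trivial⟩
  ⟨W_20503339136_ok, W_19462889600_ok, W_19446374528_ok, W_19446116480_ok, W_19429601408_ok, W_18389409920_ok, W_18355863680_ok, trivial⟩ C_20553678978
theorem L_20553679041 : HH 127 (nat_lit 20553679041, nat_lit 42) := top_sound R_20553679041
  ⟨V6_18405671040_ok, V6_17331929280_ok, trivial⟩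
  ⟨W_20536373312_ok, W_20519858240_ok, W_20503343168_ok, W_20503085120_ok, W_20503081088_ok, W_19479408704_ok, W_19446378560_ok, W_19446116480_ok, W_19429605440_ok, W_19429601408_ok, W_18372640832_ok, W_18355863680_ok, W_17282121920_ok, trivial⟩ C_20553679041
theorem L_20553679104 : HH 127 (nat_lit 20553679104, nat_lit 45) := top_sound R_20553679104
  ⟨V6_20553154560_ok, V6_17331929280_ok, trivial⟩
  ⟨W_20503347200_ok, W_19446382592_ok, W_19429605440_ok, W_19429343360_ok, W_18389417984_ok, W_18372640832_ok, W_18355863680_ok, W_17282121920_ok, W_16208380160_ok, W_15151415552_ok, trivial⟩ C_20553679104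
theorem L_20553683073 : HH 127 (nat_lit 20553683073, nat_lit 48) := top_sound R_20553683073
  ⟨V6_18406187136_ok, V6_17282125953_ok, trivial⟩
  ⟨W_20519858240_ok, W_20503343168_ok, W_20503339136_ok, W_20503085120_ok, W_19463151680_ok, W_19446378560_ok, W_19429605440_ok, W_18406187072_ok, W_16258453568_ok, trivial⟩ C_20553683073
theorem L_20553683136 : HH 127 (nat_lit 20553683136, nat_lit 72) := top_sound R_20553683136
  ⟨V6_19446386688_ok, V6_18405937152_ok, V6_18389422080_ok, trivial⟩
  ⟨W_20536635392_ok, W_20520120320_ok, W_20519858240_ok, W_19463155712_ok, W_18389417984_ok, W_18372374720_ok, W_15184973888_ok, W_15184969856_ok, trivial⟩ C_20553683136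
theorem L_20553687105 : HH 127 (nat_lit 20553687105, nat_lit 24) := top_sound R_20553687105
  ⟨V6_20536889409_ok, V6_19479924801_ok, V6_18355871808_ok, V6_16225165377_ok, trivial⟩
  ⟨W_19463151680_ok, W_17282129984_ok, W_15184973888_ok, W_14111236160_ok, trivial⟩ C_20553687105
theorem L_20553687168 : HH 127 (nat_lit 20553687168, nat_lit 74) := top_sound R_20553687168
  ⟨V6_20503351296_ok, V6_19429613568_ok, V6_17315684352_ok, V6_16258719744_ok, trivial⟩
  ⟨W_20536893440_ok, W_20503339136_ok, W_19463155712_ok, W_19446374528_ok, W_18389417984_ok, W_15184969856_ok, W_14111232128_ok, trivial⟩ C_20553687168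
theorem L_20553937026 : HH 127 (nat_lit 20553937026, nat_lit 15) := top_sound R_20553937026
  ⟨V6_18372894849_ok, V6_17315930241_ok, trivial⟩
  ⟨W_20519596160_ok, W_19479404672_ok, W_19479146624_ok, W_19462889600_ok, W_19446374528_ok, trivial⟩ C_20553937026
theorem L_20553937089 : HH 127 (nat_lit 20553937089, nat_lit 24) := top_sound R_20553937089
  ⟨V6_18388889793_ok, V6_18372898881_ok, V6_17299157184_ok, V6_16225415361_ok, trivial⟩
  ⟨W_20552888384_ok, W_20536373312_ok, W_19479408704_ok, W_19479146624_ok, W_19446378560_ok, W_14111486144_ok, trivial⟩ C_20553937089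
theorem L_20553941121 : HH 127 (nat_lit 20553941121, nat_lit 67) := top_sound R_20553941121
  ⟨V6_18405671040_ok, V6_18405670977_ok, V6_18372894849_ok, V6_17315930241_ok, V6_17299161153_ok, trivial⟩
  ⟨W_20520116288_ok, W_20519858240_ok, W_19463151680_ok, W_19446378560_ok, W_18406187072_ok, W_17315934272_ok, W_16242196544_ok, W_15185231936_ok, trivial⟩ C_20553941121
theorem L_20553941184 : HH 127 (nat_lit 20553941184, nat_lit 95) := top_sound R_20553941184
  ⟨V6_20553154560_ok, V6_19446644736_ok, V6_18405671040_ok, V6_17331929280_ok, trivial⟩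
  ⟨W_20553150464_ok, W_20520120320_ok, W_19463155712_ok, W_19446640640_ok, W_19446382592_ok, W_19446116480_ok, W_18389676032_ok, W_17315938304_ok, W_17299157120_ok, W_16242196544_ok, W_15185231936_ok, trivial⟩ C_20553941184
theorem L_20553945153 : HH 127 (nat_lit 20553945153, nat_lit 48) := top_sound R_20553945153
  ⟨V6_19480186944_ok, V6_17299161153_ok, V6_16225423425_ok, trivial⟩
  ⟨W_20520116288_ok, W_20519858240_ok, W_19463151680_ok, W_19446378560_ok, W_18372640832_ok, W_18372382784_ok, W_16258453568_ok, W_15185231936_ok, trivial⟩ C_20553945153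
theorem L_20553945216 : HH 127 (nat_lit 20553945216, nat_lit 127) := top_sound R_20553945216
  ⟨V6_20520382464_ok, V6_20519866368_ok, V6_19446644736_ok, V6_19446386688_ok, V6_18372907008_ok, V6_17315942400_ok, V6_17299165248_ok, trivial⟩
  ⟨W_20536893440_ok, W_20536635392_ok, W_20520120320_ok, W_20520116288_ok, W_19463413760_ok, W_19463155712_ok, W_19462889600_ok, W_19446374528_ok, W_18405924992_ok, W_18389676032_ok, W_17332195328_ok, W_17315938304_ok, W_16242196544_ok, trivial⟩ C_20553945216
theorem L_20553949248 : HH 127 (nat_lit 20553949248, nat_lit 104) := top_sound R_20553949248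
  ⟨V6_17315942400_ok, V6_17315684352_ok, V6_16258719744_ok, V6_16242204672_ok, trivial⟩
  ⟨W_20537151488_ok, W_20536893440_ok, W_20520374336_ok, W_20520120320_ok, W_20520116288_ok, W_19480186880_ok, W_19463409728_ok, W_19463155712_ok, W_19446640640_ok, W_19446636608_ok, W_19446382592_ok, W_17298907136_ok, W_14111236160_ok, trivial⟩ C_20553949248
theorem L_20553953280 : HH 127 (nat_lit 20553953280, nat_lit 28) := top_sound R_20553953280
  ⟨V6_18372907008_ok, V6_16242204672_ok, trivial⟩
  ⟨W_20537151488_ok, W_19480186880_ok, W_16225427456_ok, W_14094725120_ok, trivial⟩ C_20553953280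
theorem L_20554195074 : HH 127 (nat_lit 20554195074, nat_lit 8) := top_sound R_20554195074
  ⟨V6_16242450561_ok, trivial⟩
  ⟨W_20536369280_ok, W_19479404672_ok, trivial⟩ C_20554195074
theorem L_20554199169 : HH 127 (nat_lit 20554199169, nat_lit 47) := top_sound R_20554199169
  ⟨V6_16259231808_ok, trivial⟩
  ⟨W_20553146432_ok, W_20552888384_ok, W_20536373312_ok, W_20536369280_ok, W_19479404672_ok, W_19463151680_ok, W_19462889600_ok, W_19462631552_ok, W_18389409920_ok, trivial⟩ C_20554199169
theorem L_20554199232 : HH 127 (nat_lit 20554199232, nat_lit 47) := top_sound R_20554199232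
  ⟨V6_16259231808_ok, trivial⟩
  ⟨W_20552888384_ok, W_20536635392_ok, W_19479408704_ok, W_19463155712_ok, W_17316196352_ok, trivial⟩ C_20554199232
theorem L_20554203201 : HH 127 (nat_lit 20554203201, nat_lit 50) := top_sound R_20554203201
  ⟨V6_16259231808_ok, trivial⟩
  ⟨W_20536889408_ok, W_20536373312_ok, W_19479924800_ok, W_19463409728_ok, W_19463151680_ok, W_19462635584_ok, W_18389930048_ok, W_17316192320_ok, trivial⟩ C_20554203201
theorem L_20554203264 : HH 127 (nat_lit 20554203264, nat_lit 138) := top_sound R_20554203264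
  ⟨V6_18406711296_ok, V6_18405671040_ok, V6_17316200448_ok, V6_17316192384_ok, trivial⟩
  ⟨W_20553150464_ok, W_20536893440_ok, W_20536635392_ok, W_19479412736_ok, W_19463413760_ok, W_19463155712_ok, W_18389934080_ok, W_18389676032_ok, W_17315938304_ok, W_16242450560_ok, W_15185494016_ok, W_15168716864_ok, trivial⟩ C_20554203264
theorem L_20554207296 : HH 127 (nat_lit 20554207296, nat_lit 137) := top_sound R_20554207296
  ⟨V6_18406711296_ok, V6_18406707264_ok, V6_17316200448_ok, V6_16242462720_ok, trivial⟩
  ⟨W_20537151488_ok, W_20536893440_ok, W_20536635392_ok, W_19480186880_ok, W_19463671808_ok, W_19463413760_ok, W_19463409728_ok, W_19463155712_ok, W_19463151680_ok, W_19462897664_ok, W_17332195328_ok, W_15168720896_ok, trivial⟩ C_20554207296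
theorem L_20554211328 : HH 127 (nat_lit 20554211328, nat_lit 84) := top_sound R_20554211328
  ⟨V6_20554186752_ok, V6_17315684352_ok, V6_16258719744_ok, V6_15168724992_ok, trivial⟩
  ⟨W_20537409536_ok, W_20536893440_ok, W_19480186880_ok, W_19463671808_ok, W_19463413760_ok, W_18389934080_ok, trivial⟩ C_20554211328
theorem L_20554457217 : HH 127 (nat_lit 20554457217, nat_lit 13) := top_sound R_20554457217
  ⟨V6_20553146433_ok, V6_14112006273_ok, trivial⟩
  ⟨W_20553146432_ok, W_18405924992_ok, trivial⟩ C_20554457217
theorem L_20554461249 : HH 127 (nat_lit 20554461249, nat_lit 25) := top_sound R_20554461249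
  ⟨V6_20553146433_ok, V6_17332965441_ok, V6_15185748033_ok, trivial⟩
  ⟨W_18406187072_ok, W_15185489984_ok, W_14112010304_ok, trivial⟩ C_20554461249
theorem L_20554461312 : HH 127 (nat_lit 20554461312, nat_lit 57) := top_sound R_20554461312
  ⟨V6_16259231808_ok, trivial⟩
  ⟨W_20553408512_ok, W_20553150464_ok, W_20553146432_ok, W_20552888384_ok, W_19479408704_ok, W_19479404672_ok, W_19479146624_ok, W_16259489792_ok, W_15185752064_ok, trivial⟩ C_20554461312
theorem L_20554465344 : HH 127 (nat_lit 20554465344, nat_lit 82) := top_sound R_20554465344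
  ⟨V6_20553154560_ok, V6_19480186944_ok, V6_18406707264_ok, trivial⟩
  ⟨W_20553150464_ok, W_19480186880_ok, W_18406707200_ok, W_15185752064_ok, W_15185494016_ok, W_15185489984_ok, W_15185231936_ok, W_14112014336_ok, trivial⟩ C_20554465344
theorem L_20554469376 : HH 127 (nat_lit 20554469376, nat_lit 55) := top_sound R_20554469376
  ⟨V6_20554186752_ok, V6_18405937152_ok, V6_14112018432_ok, trivial⟩
  ⟨W_19480444928_ok, W_19480186880_ok, W_18406965248_ok, W_18406707200_ok, W_15185494016_ok, trivial⟩ C_20554469376
theorem L_20569931970 : HH 127 (nat_lit 20569931970, nat_lit 7) := top_sound R_20569931970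
  ⟨V6_20502818946_ok, V6_16274960577_ok, V6_14127481026_ok, trivial⟩
  ⟨W_20519596160_ok, W_19445858432_ok, W_19429081280_ok, W_18372116672_ok, trivial⟩ C_20569931970
theorem L_20569932033 : HH 127 (nat_lit 20569932033, nat_lit 12) := top_sound R_20569932033
  ⟨V6_20469268737_ok, V6_15201222912_ok, trivial⟩
  ⟨W_20519600192_ok, W_20502823040_ok, W_20469268736_ok, W_19462635584_ok, W_19429081280_ok, trivial⟩ C_20569932033
theorem L_20570190018 : HH 127 (nat_lit 20570190018, nat_lit 5) := top_sound R_20570190018
  ⟨V6_16274960577_ok, V6_15201218754_ok, trivial⟩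
  ⟨W_20519596160_ok, W_20503081088_ok, W_19446116480_ok, trivial⟩ C_20570190018
theorem L_20570194050 : HH 127 (nat_lit 20570194050, nat_lit 17) := top_sound R_20570194050
  ⟨V6_18405671040_ok, trivial⟩
  ⟨W_20519854208_ok, W_20503081088_ok, W_19462889600_ok, W_18422440064_ok, W_17348960384_ok, trivial⟩ C_20570194050
theorem L_20570194113 : HH 127 (nat_lit 20570194113, nat_lit 32) := top_sound R_20570194113
  ⟨V6_17348706369_ok, V6_16274964672_ok, V6_16274960577_ok, trivial⟩
  ⟨W_20536373312_ok, W_20519858240_ok, W_20519600192_ok, W_20519596160_ok, W_20503085120_ok, W_20503081088_ok, W_20502823040_ok, W_19479408704_ok, W_19446120512_ok, W_19446116480_ok, W_19429343360_ok, W_18372374720_ok, trivial⟩ C_20570194113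
theorem L_20570194176 : HH 127 (nat_lit 20570194176, nat_lit 34) := top_sound R_20570194176
  ⟨V6_19496189952_ok, trivial⟩
  ⟨W_19479412736_ok, W_18422448128_ok, W_18355339520_ok, W_17348706368_ok, W_15167930624_ok, W_13054001408_ok, trivial⟩ C_20570194176
theorem L_20570198145 : HH 127 (nat_lit 20570198145, nat_lit 25) := top_sound R_20570198145
  ⟨V6_20503089216_ok, V6_20503085121_ok, V6_19446124608_ok, V6_19429347456_ok, V6_19429347393_ok, trivial⟩
  ⟨W_19462889600_ok, W_18405924992_ok, W_17348960384_ok, W_16258453568_ok, W_15201488960_ok, W_15201484928_ok, trivial⟩ C_20570198145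
theorem L_20570198208 : HH 127 (nat_lit 20570198208, nat_lit 34) := top_sound R_20570198208
  ⟨V6_18405937152_ok, V6_17348972544_ok, trivial⟩
  ⟨W_20536635392_ok, W_20519862272_ok, W_20519858240_ok, W_20503085120_ok, W_20503081088_ok, W_19462897664_ok, W_19446116480_ok, W_19429343360_ok, W_18372374720_ok, W_14110970048_ok, trivial⟩ C_20570198208
theorem L_20570452098 : HH 127 (nat_lit 20570452098, nat_lit 21) := top_sound R_20570452098
  ⟨V6_19446374529_ok, V6_18389409921_ok, trivial⟩
  ⟨W_20503339136_ok, W_19495919744_ok, W_19479404672_ok, W_19479146624_ok, W_19429601408_ok, W_18422182016_ok, W_17348960384_ok, trivial⟩ C_20570452098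
theorem L_20570452161 : HH 127 (nat_lit 20570452161, nat_lit 27) := top_sound R_20570452161
  ⟨V6_20503343169_ok, V6_19495923777_ok, V6_19429601472_ok, V6_18388889793_ok, V6_17348702400_ok, V6_16274960577_ok, trivial⟩
  ⟨W_20552888384_ok, W_20536373312_ok, W_20519858240_ok, W_19479408704_ok, W_19446378560_ok, W_19429601408_ok, W_14128001216_ok, trivial⟩ C_20570452161
theorem L_20570456193 : HH 127 (nat_lit 20570456193, nat_lit 84) := top_sound R_20570456193
  ⟨V6_18422448192_ok, V6_18405671040_ok, V6_17348706369_ok, trivial⟩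
  ⟨W_20520116288_ok, W_20503343168_ok, W_20503339136_ok, W_20503085120_ok, W_19496181824_ok, W_19463151680_ok, W_19462889600_ok, W_19446378560_ok, W_19446374528_ok, W_19429605440_ok, W_19429601408_ok, W_18389409920_ok, W_18372640832_ok, W_18355863680_ok, W_15201747008_ok, trivial⟩ C_20570456193
theorem L_20570456256 : HH 127 (nat_lit 20570456256, nat_lit 116) := top_sound R_20570456256
  ⟨V6_19496189952_ok, V6_18422448192_ok, V6_17331929280_ok, V6_16274964672_ok, trivial⟩
  ⟨W_20553150464_ok, W_20536635392_ok, W_20520120320_ok, W_20503347200_ok, W_20503343168_ok, W_20503081088_ok, W_19496185856_ok, W_19463155712_ok, W_19446382592_ok, W_19429605440_ok, W_18422448128_ok, W_18372640832_ok, W_18355863680_ok, W_15201747008_ok, trivial⟩ C_20570456256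
theorem L_20570460225 : HH 127 (nat_lit 20570460225, nat_lit 49) := top_sound R_20570460225
  ⟨V6_20536889409_ok, V6_19496702016_ok, V6_19479924801_ok, trivial⟩
  ⟨W_20520116288_ok, W_20519858240_ok, W_20503343168_ok, W_20503085120_ok, W_18372640832_ok, W_17298903104_ok, W_16258453568_ok, W_15201747008_ok, W_15201488960_ok, W_15184973888_ok, trivial⟩ C_20570460225
theorem L_20570460288 : HH 127 (nat_lit 20570460288, nat_lit 144) := top_sound R_20570460288
  ⟨V6_20519866368_ok, V6_20503351296_ok, V6_19496706048_ok, V6_19446386688_ok, trivial⟩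
  ⟨W_20536893440_ok, W_20536635392_ok, W_20520120320_ok, W_20520116288_ok, W_20519854208_ok, W_20503347200_ok, W_20503339136_ok, W_20503081088_ok, W_19463155712_ok, W_19462889600_ok, W_19446382592_ok, W_19446374528_ok, W_19429609472_ok, W_18405924992_ok, W_16275230720_ok, W_15201747008_ok, W_15201488960_ok, W_15201484928_ok, W_15184969856_ok, W_14127747200_ok, W_14111232128_ok, W_13054267520_ok, trivial⟩ C_20570460288
theorem L_20570464320 : HH 127 (nat_lit 20570464320, nat_lit 98) := top_sound R_20570464320
  ⟨V6_20570443776_ok, V6_15201755136_ok, trivial⟩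
  ⟨W_20503347200_ok, W_19463155712_ok, W_19446382592_ok, W_19429609472_ok, W_19429605440_ok, W_18389417984_ok, W_18372640832_ok, W_18355871744_ok, W_17298907136_ok, W_17298903104_ok, W_17282129984_ok, W_16225165376_ok, W_15201747008_ok, W_15184973888_ok, trivial⟩ C_20570464320
theorem L_20570710146 : HH 127 (nat_lit 20570710146, nat_lit 14) := top_sound R_20570710146
  ⟨V6_18372894849_ok, V6_17315930241_ok, trivial⟩
  ⟨W_20569399424_ok, W_19495919744_ok, W_19479404672_ok, W_15202001024_ok, trivial⟩ C_20570710146
theorem L_20570714241 : HH 127 (nat_lit 20570714241, nat_lit 70) := top_sound R_20570714241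
  ⟨V6_19446636609_ok, V6_18389672064_ok, V6_18389409921_ok, V6_18372898881_ok, V6_17315930241_ok, trivial⟩
  ⟨W_20569661504_ok, W_20552888384_ok, W_20520116288_ok, W_20519858240_ok, W_19496181824_ok, W_19495923776_ok, W_19479408704_ok, W_19463151680_ok, W_18406187072_ok, W_15202001024_ok, trivial⟩ C_20570714241
theorem L_20570714304 : HH 127 (nat_lit 20570714304, nat_lit 73) := top_sound R_20570714304
  ⟨V6_20569927680_ok, V6_20520382464_ok, V6_17348702400_ok, trivial⟩
  ⟨W_20569665536_ok, W_19496185856_ok, W_19463155712_ok, W_19446640640_ok, W_18422182016_ok, W_18389676032_ok, W_18372898880_ok, W_17299157120_ok, W_16225415360_ok, W_15168450752_ok, W_14128263296_ok, W_14111486144_ok, trivial⟩ C_20570714304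
theorem L_20570718273 : HH 127 (nat_lit 20570718273, nat_lit 79) := top_sound R_20570718273
  ⟨V6_20520374337_ok, V6_18422448192_ok, V6_18405670977_ok, V6_17348706369_ok, V6_17299161153_ok, trivial⟩
  ⟨W_20520374336_ok, W_20520116288_ok, W_19496181824_ok, W_19463409728_ok, W_19463151680_ok, W_19446636608_ok, W_17315934272_ok, W_16242196544_ok, W_15201747008_ok, W_15185231936_ok, trivial⟩ C_20570718273
theorem L_20570718336 : HH 127 (nat_lit 20570718336, nat_lit 214) := top_sound R_20570718336
  ⟨V6_19496706048_ok, V6_19496189952_ok, V6_18422448192_ok, V6_18405671040_ok, trivial⟩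
  ⟨W_20569923584_ok, W_20553150464_ok, W_20536893440_ok, W_20520120320_ok, W_19496185856_ok, W_19463413760_ok, W_19463155712_ok, W_19446636608_ok, W_19446382592_ok, W_18389676032_ok, W_17315938304_ok, W_16242196544_ok, W_15202009088_ok, W_15202001024_ok, W_15185231936_ok, W_14128267328_ok, W_14128263296_ok, W_13054525568_ok, trivial⟩ C_20570718336
theorem L_20570722368 : HH 127 (nat_lit 20570722368, nat_lit 200) := top_sound R_20570722368
  ⟨V6_19496964096_ok, V6_19480186944_ok, V6_18423226368_ok, V6_18423222336_ok, trivial⟩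
  ⟨W_20537151488_ok, W_20536893440_ok, W_20520120320_ok, W_20520116288_ok, W_19463413760_ok, W_19463155712_ok, W_19446382592_ok, W_18389676032_ok, W_18372640832_ok, W_17315938304_ok, W_17299165184_ok, W_16242196544_ok, W_15202009088_ok, W_15201747008_ok, W_15201488960_ok, W_15185231936_ok, W_15168458816_ok, W_14128267328_ok, trivial⟩ C_20570722368
theorem L_20570726400 : HH 127 (nat_lit 20570726400, nat_lit 115) := top_sound R_20570726400
  ⟨V6_18423226368_ok, V6_16258719744_ok, trivial⟩
  ⟨W_20537151488_ok, W_20536893440_ok, W_20520120320_ok, W_19480186880_ok, W_19463155712_ok, W_19446382592_ok, W_18389417984_ok, trivial⟩ C_20570726400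
theorem L_20570972289 : HH 127 (nat_lit 20570972289, nat_lit 44) := top_sound R_20570972289
  ⟨V6_18389409921_ok, V6_15202263168_ok, trivial⟩
  ⟨W_20569661504_ok, W_20569399424_ok, W_19496181824_ok, W_19495919744_ok, W_19479404672_ok, W_18406187072_ok, trivial⟩ C_20570972289
theorem L_20570976321 : HH 127 (nat_lit 20570976321, nat_lit 63) := top_sound R_20570976321
  ⟨V6_16276004928_ok, trivial⟩
  ⟨W_20569661504_ok, W_20552888384_ok, W_20536889408_ok, W_20536373312_ok, W_19479408704_ok, W_19463409728_ok, W_19463151680_ok, W_19462893632_ok, W_18389413952_ok, trivial⟩ C_20570976321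
theorem L_20570976384 : HH 127 (nat_lit 20570976384, nat_lit 168) := top_sound R_20570976384
  ⟨V6_18423226368_ok, V6_18406711296_ok, V6_17349746688_ok, trivial⟩
  ⟨W_20569923584_ok, W_20569665536_ok, W_20569661504_ok, W_20553150464_ok, W_20536893440_ok, W_20536635392_ok, W_19496185856_ok, W_19495923776_ok, W_19495919744_ok, W_19479404672_ok, W_19479146624_ok, W_19463413760_ok, W_19463155712_ok, W_19463151680_ok, W_19462889600_ok, W_16242450560_ok, W_16242192512_ok, W_15168712832_ok, W_14128263296_ok, trivial⟩ C_20570976384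
theorem L_20570980416 : HH 127 (nat_lit 20570980416, nat_lit 241) := top_sound R_20570980416
  ⟨V6_19496964096_ok, V6_19496189952_ok, V6_18423484416_ok, V6_18422448192_ok, V6_18406707264_ok, V6_17349742656_ok, trivial⟩
  ⟨W_20569923584_ok, W_20537151488_ok, W_20536893440_ok, W_19463413760_ok, W_19463155712_ok, W_18389934080_ok, W_18389676032_ok, W_17316196352_ok, W_17316192320_ok, W_17315938304_ok, W_16242458624_ok, W_16242454592_ok, W_16242196544_ok, W_15202009088_ok, W_15185494016_ok, W_15185231936_ok, W_15168716864_ok, W_14128529408_ok, W_14128267328_ok, trivial⟩ C_20570980416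
theorem L_20570984448 : HH 127 (nat_lit 20570984448, nat_lit 170) := top_sound R_20570984448
  ⟨V6_18423484416_ok, V6_18406711296_ok, V6_17349746688_ok, trivial⟩
  ⟨W_20537409536_ok, W_20537151488_ok, W_20536893440_ok, W_20536635392_ok, W_19463413760_ok, W_19463155712_ok, W_19462897664_ok, W_18389676032_ok, W_18389159936_ok, W_17315938304_ok, W_16242458624_ok, W_15202009088_ok, W_15168720896_ok, trivial⟩ C_20570984448
theorem L_20571234369 : HH 127 (nat_lit 20571234369, nat_lit 34) := top_sound R_20571234369
  ⟨V6_20569661505_ok, V6_16276262976_ok, V6_15185748033_ok, trivial⟩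
  ⟨W_19496181824_ok, W_19479924800_ok, W_18406187072_ok, trivial⟩ C_20571234369
theorem L_20571234432 : HH 127 (nat_lit 20571234432, nat_lit 73) := top_sound R_20571234432
  ⟨V6_16276267008_ok, V6_16276004928_ok, trivial⟩
  ⟨W_20569923584_ok, W_20569661504_ok, W_20569399424_ok, W_20552884352_ok, W_19495919744_ok, W_19479404672_ok, W_18422440064_ok, W_18406449152_ok, W_18405924992_ok, trivial⟩ C_20571234432
theorem L_20571238464 : HH 127 (nat_lit 20571238464, nat_lit 156) := top_sound R_20571238464
  ⟨V6_18423484416_ok, V6_17349746688_ok, V6_17349742656_ok, trivial⟩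
  ⟨W_20570181632_ok, W_20569923584_ok, W_20569665536_ok, W_20569661504_ok, W_20553150464_ok, W_20552888384_ok, W_19496185856_ok, W_19495923776_ok, W_19480186880_ok, W_18406707200_ok, W_15202525184_ok, W_15185752064_ok, W_15185489984_ok, W_14128787456_ok, trivial⟩ C_20571238464
theorem L_20571242496 : HH 127 (nat_lit 20571242496, nat_lit 145) := top_sound R_20571242496
  ⟨V6_19496189952_ok, V6_19480707072_ok, V6_18423742464_ok, V6_17349746688_ok, trivial⟩
  ⟨W_20569923584_ok, W_20553150464_ok, W_19496185856_ok, W_19480444928_ok, W_19480186880_ok, W_18406965248_ok, W_18406707200_ok, W_15202009088_ok, W_15185752064_ok, W_15185494016_ok, W_14128787456_ok, W_14112014336_ok, trivial⟩ C_20571242496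
theorem L_20571492417 : HH 127 (nat_lit 20571492417, nat_lit 7) := top_sound R_20571492417
  ⟨V6_20569919553_ok, V6_15202783296_ok, trivial⟩
  ⟨W_19496439872_ok, trivial⟩ C_20571492417
theorem L_20571496512 : HH 127 (nat_lit 20571496512, nat_lit 65) := top_sound R_20571496512
  ⟨V6_17349742656_ok, V6_16276262976_ok, V6_15202787328_ok, trivial⟩
  ⟨W_20570181632_ok, W_20569923584_ok, W_19496439872_ok, W_19496181824_ok, W_15202783232_ok, trivial⟩ C_20571496512
theorem L_20571500544 : HH 127 (nat_lit 20571500544, nat_lit 80) := top_sound R_20571500544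
  ⟨V6_18423742464_ok, V6_16276008960_ok, trivial⟩
  ⟨W_20570181632_ok, W_20569923584_ok, W_19496960000_ok, W_19496185856_ok, W_13055307776_ok, trivial⟩ C_20571500544
theorem L_20586705090 : HH 127 (nat_lit 20586705090, nat_lit 3) := top_sound R_20586705090
  ⟨V6_20502818946_ok, V6_15201218754_ok, V6_14144254146_ok, trivial⟩
  ⟨W_19462631552_ok, trivial⟩ C_20586705090
theorem L_20586709122 : HH 127 (nat_lit 20586709122, nat_lit 11) := top_sound R_20586709122
  ⟨V6_16291741824_ok, trivial⟩
  ⟨W_20536369280_ok, W_20519596160_ok, W_20502823040_ok, W_19479404672_ok, trivial⟩ C_20586709122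
theorem L_20586709185 : HH 127 (nat_lit 20586709185, nat_lit 20) := top_sound R_20586709185
  ⟨V6_16291741761_ok, V6_15218000064_ok, trivial⟩
  ⟨W_20536373312_ok, W_20519600192_ok, W_20519596160_ok, W_20502823040_ok, W_19462635584_ok, W_19462631552_ok, W_19429081280_ok, trivial⟩ C_20586709185
theorem L_20586709248 : HH 127 (nat_lit 20586709248, nat_lit 21) := top_sound R_20586709248
  ⟨V6_16258187520_ok, V6_15201222912_ok, V6_14144258304_ok, trivial⟩
  ⟨W_19479412736_ok, W_18422448128_ok, trivial⟩ C_20586709248
theorem L_20586967170 : HH 127 (nat_lit 20586967170, nat_lit 15) := top_sound R_20586967170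
  ⟨V6_16291995777_ok, trivial⟩
  ⟨W_20552884352_ok, W_20536369280_ok, W_20519854208_ok, W_20519596160_ok, W_20503081088_ok, W_19479146624_ok, W_19462631552_ok, W_19446116480_ok, trivial⟩ C_20586967170
theorem L_20586967233 : HH 127 (nat_lit 20586967233, nat_lit 20) := top_sound R_20586967233
  ⟨V6_19495923777_ok, V6_17348702400_ok, V6_16274960577_ok, trivial⟩
  ⟨W_20536373312_ok, W_20519858240_ok, W_20503081088_ok, W_19479408704_ok, W_19446116480_ok, W_18372374720_ok, trivial⟩ C_20586967233
theorem L_20586971265 : HH 127 (nat_lit 20586971265, nat_lit 59) := top_sound R_20586971265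
  ⟨V6_16291995777_ok, V6_16291741824_ok, V6_16291741761_ok, trivial⟩
  ⟨W_20536631360_ok, W_20519858240_ok, W_20519854208_ok, W_20519600192_ok, W_20503085120_ok, W_20503081088_ok, W_19496181824_ok, W_19462893632_ok, W_19462889600_ok, W_19446120512_ok, W_19429343360_ok, W_18439217216_ok, trivial⟩ C_20586971265
theorem L_20586971328 : HH 127 (nat_lit 20586971328, nat_lit 79) := top_sound R_20586971328
  ⟨V6_18439225344_ok, V6_17365483584_ok, V6_16274964672_ok, trivial⟩
  ⟨W_20553150464_ok, W_20536635392_ok, W_20519596160_ok, W_20503085120_ok, W_20503081088_ok, W_19496185856_ok, W_19479412736_ok, W_19446116480_ok, W_19429343360_ok, W_18439221248_ok, W_18422448128_ok, trivial⟩ C_20586971328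
theorem L_20586975297 : HH 127 (nat_lit 20586975297, nat_lit 27) := top_sound R_20586975297
  ⟨V6_20553404481_ok, V6_20503089216_ok, V6_19496439873_ok, V6_19429347393_ok, V6_18439475265_ok, trivial⟩
  ⟨W_20503085120_ok, W_19496439872_ok, W_18372382784_ok, W_16258453568_ok, W_15218262080_ok, W_15201488960_ok, W_14144524352_ok, trivial⟩ C_20586975297
theorem L_20586975360 : HH 127 (nat_lit 20586975360, nat_lit 69) := top_sound R_20586975360
  ⟨V6_17365737600_ok, V6_16292007936_ok, trivial⟩
  ⟨W_20553408512_ok, W_20536635392_ok, W_20519862272_ok, W_20519858240_ok, W_20519854208_ok, W_20503085120_ok, W_20503081088_ok, W_19462897664_ok, W_19462889600_ok, W_19446124544_ok, W_15218266112_ok, W_15218262080_ok, trivial⟩ C_20586975360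
theorem L_20587225218 : HH 127 (nat_lit 20587225218, nat_lit 15) := top_sound R_20587225218
  ⟨V6_19446374529_ok, V6_16291995777_ok, trivial⟩
  ⟨W_20569399424_ok, W_20536369280_ok, W_20503339136_ok, W_19495919744_ok, W_19446374528_ok, trivial⟩ C_20587225218
theorem L_20587229313 : HH 127 (nat_lit 20587229313, nat_lit 76) := top_sound R_20587229313
  ⟨V6_18439217217_ok, V6_17365737600_ok, V6_16291995777_ok, trivial⟩
  ⟨W_20552888384_ok, W_20536373312_ok, W_20520116288_ok, W_20519858240_ok, W_20503343168_ok, W_20503339136_ok, W_20503081088_ok, W_19512696896_ok, W_19496181824_ok, W_19495923776_ok, W_19463151680_ok, W_19462889600_ok, W_19446378560_ok, W_19446374528_ok, W_19429601408_ok, W_18438959168_ok, trivial⟩ C_20587229313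
theorem L_20587229376 : HH 127 (nat_lit 20587229376, nat_lit 75) := top_sound R_20587229376
  ⟨V6_19512963072_ok, V6_17366003712_ok, trivial⟩
  ⟨W_20553150464_ok, W_20552888384_ok, W_20536635392_ok, W_20520120320_ok, W_20519858240_ok, W_20519596160_ok, W_20503343168_ok, W_20503081088_ok, W_19512700928_ok, W_19496185856_ok, W_19479408704_ok, W_19446116480_ok, W_19429601408_ok, W_14144516288_ok, W_13071036608_ok, trivial⟩ C_20587229376
theorem L_20587233345 : HH 127 (nat_lit 20587233345, nat_lit 80) := top_sound R_20587233345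
  ⟨V6_19512954945_ok, V6_18405670977_ok, V6_17365483584_ok, V6_17348706369_ok, V6_16291741761_ok, trivial⟩
  ⟨W_20520116288_ok, W_20519858240_ok, W_20503343168_ok, W_20503085120_ok, W_19496181824_ok, W_19479924800_ok, W_19463151680_ok, W_19446378560_ok, W_18372640832_ok, W_15201747008_ok, W_14144782400_ok, trivial⟩ C_20587233345
theorem L_20587233408 : HH 127 (nat_lit 20587233408, nat_lit 220) := top_sound R_20587233408
  ⟨V6_19496189952_ok, V6_18439741440_ok, V6_18439225344_ok, V6_17365483584_ok, trivial⟩
  ⟨W_20569923584_ok, W_20553150464_ok, W_20536893440_ok, W_20520120320_ok, W_20520116288_ok, W_20519854208_ok, W_20503347200_ok, W_20503343168_ok, W_20503339136_ok, W_20503081088_ok, W_19496185856_ok, W_19479412736_ok, W_19479404672_ok, W_19463155712_ok, W_19446382592_ok, W_19446374528_ok, W_19429605440_ok, W_19429343360_ok, W_18422448128_ok, W_18372640832_ok, W_18355863680_ok, W_17365483520_ok, W_17348706368_ok, W_15218524160_ok, W_14144782400_ok, trivial⟩ C_20587233408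
theorem L_20587237440 : HH 127 (nat_lit 20587237440, nat_lit 186) := top_sound R_20587237440
  ⟨V6_20570443776_ok, V6_19513479168_ok, V6_18439741440_ok, trivial⟩
  ⟨W_20536893440_ok, W_20536635392_ok, W_20520120320_ok, W_20520116288_ok, W_20503347200_ok, W_20503343168_ok, W_20503085120_ok, W_19463155712_ok, W_19446382592_ok, W_19429609472_ok, W_19429605440_ok, W_18389159936_ok, W_18372644864_ok, W_18372640832_ok, W_17298903104_ok, W_16258453568_ok, W_15218524160_ok, W_15218266112_ok, W_15218262080_ok, W_15201747008_ok, W_15201488960_ok, W_15184973888_ok, W_14144782400_ok, W_14144524352_ok, W_13071044672_ok, trivial⟩ C_20587237440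
theorem L_20587241472 : HH 127 (nat_lit 20587241472, nat_lit 89) := top_sound R_20587241472
  ⟨V6_20503351296_ok, V6_17315684352_ok, V6_16258719744_ok, V6_15201755136_ok, V6_14144790528_ok, trivial⟩
  ⟨W_20570439680_ok, W_20536893440_ok, W_20520120320_ok, W_20503347200_ok, W_19513475072_ok, W_19463155712_ok, W_18355871744_ok, trivial⟩ C_20587241472
theorem L_20587487361 : HH 127 (nat_lit 20587487361, nat_lit 53) := top_sound R_20587487361
  ⟨V6_18389672064_ok, V6_17315930241_ok, V6_16291995777_ok, trivial⟩
  ⟨W_20569661504_ok, W_20569399424_ok, W_19512696896_ok, W_19512434816_ok, W_19496181824_ok, W_19495919744_ok, W_19463151680_ok, W_17365475456_ok, trivial⟩ C_20587487361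
theorem L_20587491393 : HH 127 (nat_lit 20587491393, nat_lit 84) := top_sound R_20587491393
  ⟨V6_20520374337_ok, V6_19480186944_ok, V6_19446636609_ok, V6_18423222336_ok, trivial⟩
  ⟨W_20586434624_ok, W_20569661504_ok, W_20552888384_ok, W_20536373312_ok, W_20520374336_ok, W_20520116288_ok, W_20519858240_ok, W_19512696896_ok, W_19495923776_ok, W_19463409728_ok, W_19463151680_ok, W_19446378560_ok, W_18438959168_ok, W_18372898880_ok, W_17315934272_ok, trivial⟩ C_20587491393
theorem L_20587491456 : HH 127 (nat_lit 20587491456, nat_lit 204) := top_sound R_20587491456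
  ⟨V6_19512963072_ok, V6_18439741440_ok, V6_17366261760_ok, trivial⟩
  ⟨W_20586438656_ok, W_20569923584_ok, W_20569665536_ok, W_20569661504_ok, W_20553150464_ok, W_20536893440_ok, W_20520120320_ok, W_20520116288_ok, W_20519854208_ok, W_19512700928_ok, W_19512696896_ok, W_19496185856_ok, W_19463413760_ok, W_19463155712_ok, W_19446640640_ok, W_19446636608_ok, W_19446374528_ok, W_18439221248_ok, W_18422182016_ok, W_18389676032_ok, W_18372898880_ok, W_16242192512_ok, W_15202001024_ok, trivial⟩ C_20587491456
theorem L_20587495488 : HH 127 (nat_lit 20587495488, nat_lit 294) := top_sound R_20587495488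
  ⟨V6_19513479168_ok, V6_19496964096_ok, V6_19496189952_ok, V6_19446644736_ok, V6_18439999488_ok, V6_18439225344_ok, trivial⟩
  ⟨W_20586696704_ok, W_20569923584_ok, W_20537151488_ok, W_20536893440_ok, W_20520374336_ok, W_20520116288_ok, W_19479412736_ok, W_19446640640_ok, W_19446636608_ok, W_19446382592_ok, W_18422448128_ok, W_18372902912_ok, W_18372898880_ok, W_18372640832_ok, W_17365483520_ok, W_17348706368_ok, W_17315938304_ok, W_16291741760_ok, W_16242196544_ok, W_15218524160_ok, W_15218262080_ok, W_15202009088_ok, W_15201747008_ok, W_15185231936_ok, W_14145044480_ok, W_14144782400_ok, W_14128267328_ok, W_13071302720_ok, trivial⟩ C_20587495488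
theorem L_20587499520 : HH 127 (nat_lit 20587499520, nat_lit 191) := top_sound R_20587499520
  ⟨V6_19496964096_ok, V6_18439999488_ok, V6_17366261760_ok, trivial⟩
  ⟨W_20537151488_ok, W_20536893440_ok, W_20536635392_ok, W_20520120320_ok, W_19463413760_ok, W_19463155712_ok, W_19446382592_ok, W_18389676032_ok, W_18372644864_ok, W_17315938304_ok, W_15218524160_ok, W_15202009088_ok, W_14145044480_ok, W_13071306752_ok, trivial⟩ C_20587499520
theorem L_20587749441 : HH 127 (nat_lit 20587749441, nat_lit 61) := top_sound R_20587749441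
  ⟨V6_18439217217_ok, V6_16276004928_ok, trivial⟩
  ⟨W_20586434624_ok, W_20569661504_ok, W_19512954944_ok, W_19512696896_ok, W_19496439872_ok, W_19479924800_ok, W_19463409728_ok, W_19463151680_ok, W_18389930048_ok, trivial⟩ C_20587749441
theorem L_20587749504 : HH 127 (nat_lit 20587749504, nat_lit 129) := top_sound R_20587749504
  ⟨V6_17349746688_ok, V6_16292782080_ok, trivial⟩
  ⟨W_20586438656_ok, W_20569923584_ok, W_20569661504_ok, W_20569399424_ok, W_20536893440_ok, W_20536369280_ok, W_19512696896_ok, W_19495919744_ok, W_19479404672_ok, W_19463413760_ok, W_19463151680_ok, W_19462889600_ok, W_18389934080_ok, trivial⟩ C_20587749504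
theorem L_20587753536 : HH 127 (nat_lit 20587753536, nat_lit 270) := top_sound R_20587753536
  ⟨V6_19513479168_ok, V6_18439999488_ok, V6_18423484416_ok, V6_18423222336_ok, V6_17366519808_ok, trivial⟩
  ⟨W_20586696704_ok, W_20586438656_ok, W_20569923584_ok, W_20569665536_ok, W_20569661504_ok, W_20553150464_ok, W_20552888384_ok, W_20537151488_ok, W_20536893440_ok, W_20536635392_ok, W_20536373312_ok, W_19512700928_ok, W_19496185856_ok, W_19495923776_ok, W_19463671808_ok, W_19463413760_ok, W_19463409728_ok, W_19463155712_ok, W_18438959168_ok, W_18389934080_ok, W_18389676032_ok, W_17316196352_ok, W_17316192320_ok, W_16242454592_ok, W_14128525376_ok, W_13071560768_ok, trivial⟩ C_20587753536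
theorem L_20587757568 : HH 127 (nat_lit 20587757568, nat_lit 245) := top_sound R_20587757568
  ⟨V6_19496189952_ok, V6_18439999488_ok, V6_18439225344_ok, V6_18423484416_ok, V6_17366519808_ok, trivial⟩
  ⟨W_20586696704_ok, W_20569923584_ok, W_20537151488_ok, W_20536893440_ok, W_19463413760_ok, W_19463155712_ok, W_18389934080_ok, W_17316196352_ok, W_17315938304_ok, W_16242458624_ok, W_15218524160_ok, W_15202009088_ok, W_15185494016_ok, W_14145044480_ok, W_14128529408_ok, W_13071564800_ok, trivial⟩ C_20587757568
theorem L_20588007489 : HH 127 (nat_lit 20588007489, nat_lit 21) := top_sound R_20588007489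
  ⟨V6_17332965441_ok, V6_16276262976_ok, trivial⟩
  ⟨W_20586434624_ok, W_19512954944_ok, W_19479924800_ok, trivial⟩ C_20588007489
theorem L_20588011584 : HH 127 (nat_lit 20588011584, nat_lit 169) := top_sound R_20588011584
  ⟨V6_17366261760_ok, V6_17349742656_ok, V6_16292782080_ok, trivial⟩
  ⟨W_20586696704_ok, W_20586438656_ok, W_20586434624_ok, W_20586176576_ok, W_20570181632_ok, W_20569923584_ok, W_20569661504_ok, W_19512696896_ok, W_19480186880_ok, W_18406707200_ok, W_17333227520_ok, W_16276262912_ok, W_15219298304_ok, W_15202525184_ok, trivial⟩ C_20588011584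
theorem L_20588015616 : HH 127 (nat_lit 20588015616, nat_lit 190) := top_sound R_20588015616
  ⟨V6_20554186752_ok, V6_19512963072_ok, V6_17366519808_ok, V6_16292782080_ok, trivial⟩
  ⟨W_20586696704_ok, W_20586438656_ok, W_20569923584_ok, W_20569665536_ok, W_20553150464_ok, W_19496185856_ok, W_19480444928_ok, W_19480186880_ok, W_18439221248_ok, W_18406965248_ok, W_18406707200_ok, W_16276262912_ok, W_15185752064_ok, W_14145302528_ok, trivial⟩ C_20588015616

theorem H_24 : AllH 127 tb24 :=
  ⟨L_20537434176, L_20537438208, L_20553154755, L_20553154818, L_20553416898, L_20553416961, L_20553420930, L_20553420993, L_20553421056, L_20553674946, L_20553678978, L_20553679041, L_20553679104, L_20553683073, L_20553683136, L_20553687105, L_20553687168, L_20553937026, L_20553937089, L_20553941121, L_20553941184, L_20553945153, L_20553945216, L_20553949248, L_20553953280, L_20554195074, L_20554199169, L_20554199232, L_20554203201, L_20554203264, L_20554207296, L_20554211328, L_20554457217, L_20554461249, L_20554461312, L_20554465344, L_20554469376,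 L_20569931970, L_20569932033, L_20570190018, L_20570194050, L_20570194113, L_20570194176, L_20570198145, L_20570198208, L_20570452098, L_20570452161, L_20570456193, L_20570456256, L_20570460225, L_20570460288, L_20570464320, L_20570710146, L_20570714241, L_20570714304, L_20570718273, L_20570718336, L_20570722368, L_20570726400, L_20570972289, L_20570976321, L_20570976384, L_20570980416, L_20570984448, L_20571234369, L_20571234432, L_20571238464, L_20571242496, L_20571492417, L_20571496512, L_20571500544, L_20586705090, L_20586709122, L_20586709185, L_20586709248, L_20586967170, L_20586967233, L_20586971265, L_20586971328, L_20586975297, L_20586975360, L_20587225218, L_20587229313, L_20587229376, L_20587233345, L_20587233408, L_20587237440, L_20587241472, L_20587487361, L_20587491393, L_20587491456, L_20587495488, L_20587499520, L_20587749441, L_20587749504, L_20587753536, L_20587757568, L_20588007489, L_20588011584, L_20588015616, trivial⟩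

theorem L_20588269632 : HH 127 (nat_lit 20588269632, nat_lit 57) := top_sound R_20588269632
  ⟨V6_17366519808_ok, V6_15202783296_ok, trivial⟩
  ⟨W_20586696704_ok, W_20570181632_ok, W_19512954944_ok, W_19496439872_ok, W_14145818624_ok, trivial⟩ C_20588269632
theorem L_20588273664 : HH 127 (nat_lit 20588273664, nat_lit 115) := top_sound R_20588273664
  ⟨V6_18423742464_ok, V6_16292782080_ok, V6_15219302400_ok, trivial⟩
  ⟨W_20586696704_ok, W_20586438656_ok, W_20570181632_ok, W_20569923584_ok, W_19513475072_ok, W_19496960000_ok, W_16276520960_ok, W_13072080896_ok, trivial⟩ C_20588273664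
theorem L_20588531712 : HH 127 (nat_lit 20588531712, nat_lit 33) := top_sound R_20588531712
  ⟨V6_17366519808_ok, trivial⟩
  ⟨W_20586696704_ok, W_19513475072_ok, trivial⟩ C_20588531712
theorem L_20603482242 : HH 127 (nat_lit 20603482242, nat_lit 10) := top_sound R_20603482242
  ⟨V6_18455732352_ok, trivial⟩
  ⟨W_20536369280_ok, W_20519596160_ok, W_19479404672_ok, trivial⟩ C_20603482242
theorem L_20603482305 : HH 127 (nat_lit 20603482305, nat_lit 11) := top_sound R_20603482305
  ⟨V6_16274960577_ok, V6_15234773184_ok, V6_15234511041_ok, trivial⟩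
  ⟨W_20552888384_ok, W_20536373312_ok, W_20519596160_ok, W_19495923776_ok, W_19479146624_ok, trivial⟩ C_20603482305
theorem L_20603486337 : HH 127 (nat_lit 20603486337, nat_lit 34) := top_sound R_20603486337
  ⟨V6_17348706369_ok, V6_15234777216_ok, trivial⟩
  ⟨W_20553146432_ok, W_20536373312_ok, W_20536369280_ok, W_20519600192_ok, W_20519596160_ok, W_20502823040_ok, W_19479404672_ok, W_18422440064_ok, trivial⟩ C_20603486337
theorem L_20603486400 : HH 127 (nat_lit 20603486400, nat_lit 44) := top_sound R_20603486400
  ⟨V6_17382260736_ok, V6_14161035456_ok, trivial⟩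
  ⟨W_20553150464_ok, W_20519600192_ok, W_20519596160_ok, W_20502823040_ok, W_19496185856_ok, W_19462635584_ok, W_19429081280_ok, trivial⟩ C_20603486400
theorem L_20603740290 : HH 127 (nat_lit 20603740290, nat_lit 12) := top_sound R_20603740290
  ⟨V6_16291995777_ok, trivial⟩
  ⟨W_20536369280_ok, W_20519854208_ok, W_19462889600_ok, trivial⟩ C_20603740290
theorem L_20603744385 : HH 127 (nat_lit 20603744385, nat_lit 56) := top_sound R_20603744385
  ⟨V6_17365737600_ok, V6_16291995777_ok, trivial⟩
  ⟨W_20569661504_ok, W_20552888384_ok, W_20536373312_ok, W_20519858240_ok, W_20519596160_ok, W_20503081088_ok, W_19512696896_ok, W_19496181824_ok, W_19495923776_ok, W_19479408704_ok, W_19479146624_ok, W_18438959168_ok, W_17381994560_ok, trivial⟩ C_20603744385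
theorem L_20603744448 : HH 127 (nat_lit 20603744448, nat_lit 50) := top_sound R_20603744448
  ⟨V6_18455998464_ok, trivial⟩
  ⟨W_20569665536_ok, W_20553150464_ok, W_20552888384_ok, W_20536635392_ok, W_20519858240_ok, W_20519596160_ok, W_20503081088_ok, W_19479408704_ok, W_19446116480_ok, W_18372374720_ok, W_14144516288_ok, trivial⟩ C_20603744448
theorem L_20603748417 : HH 127 (nat_lit 20603748417, nat_lit 54) := top_sound R_20603748417
  ⟨V6_17348706369_ok, V6_16308518976_ok, V6_16291741761_ok, trivial⟩
  ⟨W_20536631360_ok, W_20536373312_ok, W_20519858240_ok, W_20503085120_ok, W_19512954944_ok, W_19496181824_ok, W_19462635584_ok, W_19446120512_ok, trivial⟩ C_20603748417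
theorem L_20603748480 : HH 127 (nat_lit 20603748480, nat_lit 147) := top_sound R_20603748480
  ⟨V6_18456256512_ok, V6_17382260736_ok, V6_16308518976_ok, trivial⟩
  ⟨W_20569923584_ok, W_20553150464_ok, W_20536635392_ok, W_20519854208_ok, W_20519600192_ok, W_20519596160_ok, W_20503085120_ok, W_20503081088_ok, W_20502823040_ok, W_19496185856_ok, W_19479412736_ok, W_19479404672_ok, W_19462889600_ok, W_19462635584_ok, W_19446116480_ok, W_18439221248_ok, W_18422448128_ok, W_15235039232_ok, trivial⟩ C_20603748480
theorem L_20603752512 : HH 127 (nat_lit 20603752512, nat_lit 88) := top_sound R_20603752512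
  ⟨V6_18456252480_ok, V6_16308781056_ok, V6_15235043328_ok, trivial⟩
  ⟨W_20570181632_ok, W_20536635392_ok, W_20519862272_ok, W_20519858240_ok, W_20503085120_ok, W_19462897664_ok, W_19446120512_ok, W_18389159936_ok, W_17332195328_ok, W_16275230720_ok, W_15235039232_ok, W_15218266112_ok, trivial⟩ C_20603752512
theorem L_20604002433 : HH 127 (nat_lit 20604002433, nat_lit 55) := top_sound R_20604002433
  ⟨V6_19446374529_ok, V6_16291995777_ok, V6_15235293312_ok, trivial⟩
  ⟨W_20569661504_ok, W_20569399424_ok, W_19529211968_ok, W_19512696896_ok, W_19512434816_ok, W_19496181824_ok, W_19463151680_ok, W_18455732288_ok, W_18455470208_ok, trivial⟩ C_20604002433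
theorem L_20604006465 : HH 127 (nat_lit 20604006465, nat_lit 76) := top_sound R_20604006465
  ⟨V6_20603211840_ok, V6_19529732160_ok, V6_18456252480_ok, trivial⟩
  ⟨W_20536373312_ok, W_20520116288_ok, W_20519858240_ok, W_20503343168_ok, W_19529470016_ok, W_19512696896_ok, W_19495923776_ok, W_19463151680_ok, W_19446378560_ok, W_18438959168_ok, W_17381994560_ok, W_16308514880_ok, W_15235035200_ok, W_14161555520_ok, trivial⟩ C_20604006465
theorem L_20604006528 : HH 127 (nat_lit 20604006528, nat_lit 199) := top_sound R_20604006528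
  ⟨V6_18455998464_ok, V6_18439741440_ok, V6_17382776832_ok, trivial⟩
  ⟨W_20586438656_ok, W_20569923584_ok, W_20569665536_ok, W_20569661504_ok, W_20553150464_ok, W_20536893440_ok, W_20520120320_ok, W_20520116288_ok, W_20503343168_ok, W_20503339136_ok, W_20503081088_ok, W_19529474048_ok, W_19496185856_ok, W_19479404672_ok, W_19463155712_ok, W_19463151680_ok, W_19462889600_ok, W_19446378560_ok, W_19446374528_ok, W_19446116480_ok, W_15235297280_ok, trivial⟩ C_20604006528
theorem L_20604010560 : HH 127 (nat_lit 20604010560, nat_lit 273) := top_sound R_20604010560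
  ⟨V6_20553154560_ok, V6_19529732160_ok, V6_19513479168_ok, V6_19496189952_ok, V6_18456252480_ok, V6_18439225344_ok, V6_17382260736_ok, trivial⟩
  ⟨W_20586696704_ok, W_20569923584_ok, W_20536893440_ok, W_20520116288_ok, W_19529732096_ok, W_19446382592_ok, W_18422448128_ok, W_18372640832_ok, W_17382256640_ok, W_17365483520_ok, W_16308518912_ok, W_15235297280_ok, W_15235039232_ok, W_15235035200_ok, W_15218524160_ok, W_15218262080_ok, W_15201747008_ok, W_14161559552_ok, W_14161555520_ok, W_14161297472_ok, W_14144782400_ok, W_13087817792_ok, trivial⟩ C_20604010560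
theorem L_20604014592 : HH 127 (nat_lit 20604014592, nat_lit 165) := top_sound R_20604014592
  ⟨V6_18456514560_ok, V6_17382776832_ok, trivial⟩
  ⟨W_20536893440_ok, W_20536635392_ok, W_20520120320_ok, W_20519862272_ok, W_20503347200_ok, W_19463155712_ok, W_19462897664_ok, W_19446382592_ok, W_19446124544_ok, W_19429609472_ok, W_18389159936_ok, W_18372644864_ok, W_15235297280_ok, W_15218524160_ok, W_15218266112_ok, W_14161559552_ok, W_13087821824_ok, trivial⟩ C_20604014592
theorem L_20604264513 : HH 127 (nat_lit 20604264513, nat_lit 68) := top_sound R_20604264513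
  ⟨V6_20520374337_ok, V6_19446636609_ok, V6_18439217217_ok, V6_17382510657_ok, V6_16309293120_ok, trivial⟩
  ⟨W_20602949696_ok, W_20586434624_ok, W_20569661504_ok, W_19512696896_ok, W_19496181824_ok, W_19463151680_ok, W_18406187072_ok, W_14161813568_ok, trivial⟩ C_20604264513
theorem L_20604264576 : HH 127 (nat_lit 20604264576, nat_lit 146) := top_sound R_20604264576
  ⟨V6_17366261760_ok, V6_16309297152_ok, trivial⟩
  ⟨W_20586438656_ok, W_20569923584_ok, W_20569661504_ok, W_20536893440_ok, W_20536369280_ok, W_20520116288_ok, W_20519854208_ok, W_19529211968_ok, W_19512696896_ok, W_19495919744_ok, W_19479404672_ok, W_19463413760_ok, W_19463151680_ok, W_19462889600_ok, W_19446636608_ok, W_19446374528_ok, W_18422440064_ok, W_13088071808_ok, trivial⟩ C_20604264576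
theorem L_20604268608 : HH 127 (nat_lit 20604268608, nat_lit 296) := top_sound R_20604268608
  ⟨V6_19513479168_ok, V6_19496964096_ok, V6_18456252480_ok, V6_18439999488_ok, V6_17383034880_ok, trivial⟩
  ⟨W_20603211776_ok, W_20586696704_ok, W_20586438656_ok, W_20569923584_ok, W_20569665536_ok, W_20569661504_ok, W_20553150464_ok, W_20552888384_ok, W_20537151488_ok, W_20536893440_ok, W_20536635392_ok, W_20536373312_ok, W_20520378368_ok, W_20520374336_ok, W_20520120320_ok, W_20520116288_ok, W_20519858240_ok, W_19529474048_ok, W_19446640640_ok, W_19446636608_ok, W_18455736320_ok, W_18438959168_ok, W_18372898880_ok, W_17382256640_ok, W_17381994560_ok, W_16308514880_ok, W_15235551296_ok, W_15235297280_ok, W_15235035200_ok, W_14161817600_ok, W_14161813568_ok, W_14161555520_ok, W_13088075840_ok, trivial⟩ C_20604268608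
theorem L_20604272640 : HH 127 (nat_lit 20604272640, nat_lit 268) := top_sound R_20604272640
  ⟨V6_19496189952_ok, V6_18456772608_ok, V6_18439999488_ok, V6_18439225344_ok, V6_17383034880_ok, V6_17382260736_ok, trivial⟩
  ⟨W_20586696704_ok, W_20569923584_ok, W_20537151488_ok, W_20536893440_ok, W_19529732096_ok, W_19463413760_ok, W_19446382592_ok, W_17382256640_ok, W_17315938304_ok, W_15235297280_ok, W_15235039232_ok, W_15218524160_ok, W_15202009088_ok, W_14161817600_ok, W_14161559552_ok, W_14145044480_ok, W_13088079872_ok, trivial⟩ C_20604272640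
theorem L_20604522561 : HH 127 (nat_lit 20604522561, nat_lit 25) := top_sound R_20604522561
  ⟨V6_17382510657_ok, V6_17332965441_ok, V6_15235813440_ok, trivial⟩
  ⟨W_20602949696_ok, W_20586434624_ok, W_20536889408_ok, W_19512954944_ok, W_19463409728_ok, trivial⟩ C_20604522561
theorem L_20604526656 : HH 127 (nat_lit 20604526656, nat_lit 239) := top_sound R_20604526656
  ⟨V6_18456256512_ok, V6_18406707264_ok, V6_17383034880_ok, V6_17382776832_ok, trivial⟩
  ⟨W_20603211776_ok, W_20602949696_ok, W_20586696704_ok, W_20586438656_ok, W_20586434624_ok, W_20569923584_ok, W_20569661504_ok, W_20537151488_ok, W_20536893440_ok, W_19529732096_ok, W_19529474048_ok, W_19529211968_ok, W_19463671808_ok, W_19463413760_ok, W_19463409728_ok, W_18389934080_ok, W_18389930048_ok, W_17332965440_ok, W_17316192320_ok, W_15235551296_ok, W_14162071616_ok, W_14161813568_ok, W_13088333888_ok, trivial⟩ C_20604526656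
theorem L_20604530688 : HH 127 (nat_lit 20604530688, nat_lit 272) := top_sound R_20604530688
  ⟨V6_20554186752_ok, V6_18456772608_ok, V6_18439999488_ok, V6_18423484416_ok, V6_17383034880_ok, V6_17366519808_ok, trivial⟩
  ⟨W_20569665536_ok, W_20553150464_ok, W_20537151488_ok, W_20536893440_ok, W_20536635392_ok, W_19529732096_ok, W_19529474048_ok, W_19512700928_ok, W_19496185856_ok, W_19463671808_ok, W_19463413760_ok, W_19463155712_ok, W_18455736320_ok, W_18389934080_ok, W_18389676032_ok, W_17382256640_ok, W_17316196352_ok, W_15235297280_ok, W_14161817600_ok, W_13088337920_ok, trivial⟩ C_20604530688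
theorem L_20604784704 : HH 127 (nat_lit 20604784704, nat_lit 96) := top_sound R_20604784704
  ⟨V6_17383034880_ok, V6_16276262976_ok, V6_15235813440_ok, trivial⟩
  ⟨W_20603211776_ok, W_20602949696_ok, W_20586696704_ok, W_20586434624_ok, W_20570181632_ok, W_19529732096_ok, W_18406707200_ok, W_16259485760_ok, trivial⟩ C_20604784704
theorem L_20604788736 : HH 127 (nat_lit 20604788736, nat_lit 202) := top_sound R_20604788736
  ⟨V6_18456772608_ok, V6_18456256512_ok, V6_17382776832_ok, trivial⟩
  ⟨W_20603211776_ok, W_20586696704_ok, W_20586438656_ok, W_20569923584_ok, W_19529732096_ok, W_19529474048_ok, W_19480444928_ok, W_19480186880_ok, W_18406707200_ok, W_17333227520_ok, W_16276262912_ok, W_15219298304_ok, W_15202525184_ok, W_13088595968_ok, trivial⟩ C_20604788736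
theorem L_20605046784 : HH 127 (nat_lit 20605046784, nat_lit 105) := top_sound R_20605046784
  ⟨V6_20603473920_ok, V6_18456772608_ok, V6_17350262784_ok, V6_15236333568_ok, trivial⟩
  ⟨W_20603211776_ok, W_20586696704_ok, W_19529732096_ok, W_16276520960_ok, W_16276262912_ok, W_15219298304_ok, W_15202783232_ok, W_14162333696_ok, W_14145818624_ok, W_13088854016_ok, trivial⟩ C_20605046784
theorem L_20605304832 : HH 127 (nat_lit 20605304832, nat_lit 29) := top_sound R_20605304832
  ⟨V6_18456772608_ok, trivial⟩
  ⟨W_18456510464_ok, W_15236071424_ok, W_13089112064_ok, trivial⟩ C_20605304832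
theorem L_20619997314 : HH 127 (nat_lit 20619997314, nat_lit 2) := top_sound R_20619997314
  ⟨V6_16291475586_ok, V6_14177546370_ok, trivial⟩
  ⟨W_19495919744_ok, trivial⟩ C_20619997314
theorem L_20619997377 : HH 127 (nat_lit 20619997377, nat_lit 2) := top_sound R_20619997377
  ⟨V6_15251288256_ok, V6_15234511041_ok, trivial⟩
  ⟨W_20552888384_ok, trivial⟩ C_20619997377
theorem L_20620255362 : HH 127 (nat_lit 20620255362, nat_lit 9) := top_sound R_20620255362
  ⟨V6_18472247424_ok, V6_16308248706_ok, trivial⟩
  ⟨W_20536369280_ok, W_19479404672_ok, trivial⟩ C_20620255362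
theorem L_20620259457 : HH 127 (nat_lit 20620259457, nat_lit 33) := top_sound R_20620259457
  ⟨V6_18455732352_ok, V6_18439217217_ok, trivial⟩
  ⟨W_20519596160_ok, W_19496181824_ok, W_19479408704_ok, W_16308514880_ok, W_15251550272_ok, trivial⟩ C_20620259457
theorem L_20620259520 : HH 127 (nat_lit 20620259520, nat_lit 29) := top_sound R_20620259520
  ⟨V6_18455998464_ok, trivial⟩
  ⟨W_20553150464_ok, W_20552888384_ok, W_17382256640_ok, trivial⟩ C_20620259520
theorem L_20620263489 : HH 127 (nat_lit 20620263489, nat_lit 29) := top_sound R_20620263489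
  ⟨V6_19512954945_ok, V6_18405670977_ok, V6_16291741761_ok, trivial⟩
  ⟨W_19496181824_ok, W_18455990336_ok, W_17399025728_ok, W_15251550272_ok, trivial⟩ C_20620263489
theorem L_20620263552 : HH 127 (nat_lit 20620263552, nat_lit 76) := top_sound R_20620263552
  ⟨V6_17382260736_ok, V6_16325296128_ok, V6_15234777216_ok, trivial⟩
  ⟨W_20569923584_ok, W_20553150464_ok, W_20519600192_ok, W_20519596160_ok, W_20502823040_ok, W_19496181824_ok, W_19479404672_ok, W_19462635584_ok, W_18422440064_ok, trivial⟩ C_20620263552
theorem L_20620517505 : HH 127 (nat_lit 20620517505, nat_lit 40) := top_sound R_20620517505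
  ⟨V6_18439217217_ok, V6_16291995777_ok, V6_15235031169_ok, trivial⟩
  ⟨W_20586176576_ok, W_20569661504_ok, W_20569399424_ok, W_20519854208_ok, W_19529211968_ok, W_19512434816_ok, W_19496181824_ok, W_19462889600_ok, W_18472247360_ok, trivial⟩ C_20620517505
theorem L_20620521537 : HH 127 (nat_lit 20620521537, nat_lit 55) := top_sound R_20620521537
  ⟨V6_18456252480_ok, V6_18439217217_ok, V6_17382510657_ok, trivial⟩
  ⟨W_20569661504_ok, W_20552888384_ok, W_20536373312_ok, W_20519858240_ok, W_19512696896_ok, W_19479408704_ok, W_16325029952_ok, W_16308514880_ok, W_15251550272_ok, W_14178070592_ok, trivial⟩ C_20620521537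
theorem L_20620521600 : HH 127 (nat_lit 20620521600, nat_lit 136) := top_sound R_20620521600
  ⟨V6_18456256512_ok, V6_18455998464_ok, trivial⟩
  ⟨W_20586438656_ok, W_20569923584_ok, W_20569661504_ok, W_20553150464_ok, W_20536635392_ok, W_20503081088_ok, W_19529474048_ok, W_19512696896_ok, W_19496185856_ok, W_19495919744_ok, W_19479404672_ok, W_19462889600_ok, W_18472509440_ok, W_17381990528_ok, W_15251546240_ok, W_14178070592_ok, trivial⟩ C_20620521600
theorem L_20620525632 : HH 127 (nat_lit 20620525632, nat_lit 175) := top_sound R_20620525632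
  ⟨V6_18422448192_ok, V6_17382260736_ok, V6_17365483584_ok, V6_16325296128_ok, V6_16308518976_ok, trivial⟩
  ⟨W_20586696704_ok, W_20570181632_ok, W_20569923584_ok, W_20553150464_ok, W_20536635392_ok, W_19529732096_ok, W_19496185856_ok, W_19479412736_ok, W_18472767488_ok, W_18456252416_ok, W_15251812352_ok, W_15251554304_ok, trivial⟩ C_20620525632
theorem L_20620529664 : HH 127 (nat_lit 20620529664, nat_lit 74) := top_sound R_20620529664
  ⟨V6_20519866368_ok, V6_16308781056_ok, V6_15235043328_ok, V6_14178078720_ok, trivial⟩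
  ⟨W_20536635392_ok, W_19529990144_ok, W_18473025536_ok, W_18456252416_ok, W_15251812352_ok, trivial⟩ C_20620529664
theorem L_20620779585 : HH 127 (nat_lit 20620779585, nat_lit 62) := top_sound R_20620779585
  ⟨V6_19545985089_ok, V6_18472505409_ok, V6_18456252480_ok, V6_18439217217_ok, V6_17382510657_ok, trivial⟩
  ⟨W_20586434624_ok, W_20569661504_ok, W_20520116288_ok, W_19529211968_ok, W_19512696896_ok, W_19479924800_ok, W_19463151680_ok, W_16325546048_ok, W_14178328640_ok, trivial⟩ C_20620779585
theorem L_20620779648 : HH 127 (nat_lit 20620779648, nat_lit 132) := top_sound R_20620779648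
  ⟨V6_17382776832_ok, V6_16325812224_ok, trivial⟩
  ⟨W_20586438656_ok, W_20569923584_ok, W_20569661504_ok, W_20536893440_ok, W_20536369280_ok, W_20520116288_ok, W_20519854208_ok, W_20503339136_ok, W_19545989120_ok, W_19529211968_ok, W_19512696896_ok, W_19479404672_ok, W_19463151680_ok, W_19462889600_ok, W_19446374528_ok, W_18472247360_ok, W_15251546240_ok, trivial⟩ C_20620779648
theorem L_20620783680 : HH 127 (nat_lit 20620783680, nat_lit 262) := top_sound R_20620783680
  ⟨V6_19546247232_ok, V6_19529732160_ok, V6_19513479168_ok, V6_18456514560_ok, V6_18456252480_ok, V6_17399549952_ok, trivial⟩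
  ⟨W_20586696704_ok, W_20586438656_ok, W_20569923584_ok, W_20569665536_ok, W_20553150464_ok, W_20536893440_ok, W_20536635392_ok, W_20536373312_ok, W_20520120320_ok, W_20520116288_ok, W_20519858240_ok, W_19529474048_ok, W_19512700928_ok, W_19496185856_ok, W_19463155712_ok, W_17382256640_ok, W_16325292032_ok, W_15235297280_ok, W_14178332672_ok, W_14178070592_ok, W_14161555520_ok, trivial⟩ C_20620783680
theorem L_20620787712 : HH 127 (nat_lit 20620787712, nat_lit 229) := top_sound R_20620787712
  ⟨V6_18439225344_ok, V6_17399549952_ok, V6_17382776832_ok, V6_17382260736_ok, V6_16325296128_ok, trivial⟩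
  ⟨W_20586696704_ok, W_20569923584_ok, W_20553150464_ok, W_20536893440_ok, W_20520120320_ok, W_19529732096_ok, W_19496185856_ok, W_19479412736_ok, W_19463155712_ok, W_19446382592_ok, W_18472767488_ok, W_15218524160_ok, W_14161559552_ok, trivial⟩ C_20620787712
theorem L_20621037633 : HH 127 (nat_lit 20621037633, nat_lit 29) := top_sound R_20621037633
  ⟨V6_20520374337_ok, V6_17382510657_ok, V6_15252328512_ok, trivial⟩
  ⟨W_20586434624_ok, W_20536889408_ok, W_20520374336_ok, W_19545985088_ok, W_19529470016_ok, W_19479924800_ok, trivial⟩ C_20621037633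
theorem L_20621041728 : HH 127 (nat_lit 20621041728, nat_lit 242) := top_sound R_20621041728
  ⟨V6_19480186944_ok, V6_18439999488_ok, V6_18423222336_ok, V6_17399549952_ok, V6_17383034880_ok, trivial⟩
  ⟨W_20603211776_ok, W_20586696704_ok, W_20586438656_ok, W_20569923584_ok, W_20569661504_ok, W_20537151488_ok, W_20536893440_ok, W_20520374336_ok, W_20520116288_ok, W_19546247168_ok, W_19529732096_ok, W_19529474048_ok, W_19463413760_ok, W_19446636608_ok, W_18472767488_ok, W_18472509440_ok, W_14178590720_ok, W_14178586688_ok, W_14161813568_ok, trivial⟩ C_20621041728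
theorem L_20621045760 : HH 127 (nat_lit 20621045760, nat_lit 270) := top_sound R_20621045760
  ⟨V6_19513479168_ok, V6_19496964096_ok, V6_18456772608_ok, V6_18439999488_ok, V6_17383034880_ok, trivial⟩
  ⟨W_20603211776_ok, W_20586438656_ok, W_20569923584_ok, W_20569665536_ok, W_20553150464_ok, W_20536893440_ok, W_20536635392_ok, W_20520378368_ok, W_20520120320_ok, W_19529474048_ok, W_19496185856_ok, W_19463155712_ok, W_19446640640_ok, W_18472509440_ok, W_18455736320_ok, W_17398771712_ok, W_17382256640_ok, W_15251812352_ok, W_15235297280_ok, W_14178590720_ok, W_14178332672_ok, W_14161817600_ok, trivial⟩ C_20621045760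
theorem L_20621299776 : HH 127 (nat_lit 20621299776, nat_lit 118) := top_sound R_20621299776
  ⟨V6_19546247232_ok, V6_17366519808_ok, V6_15252328512_ok, V6_15235813440_ok, V6_14178848832_ok, trivial⟩
  ⟨W_20619464768_ok, W_20603211776_ok, W_20586696704_ok, W_20537151488_ok, W_19546247168_ok, W_19529732096_ok, W_19480186880_ok, W_19463671808_ok, W_18406707200_ok, trivial⟩ C_20621299776
theorem L_20621303808 : HH 127 (nat_lit 20621303808, nat_lit 243) := top_sound R_20621303808
  ⟨V6_18456256512_ok, V6_18423484416_ok, V6_17399549952_ok, V6_17366519808_ok, V6_16326328320_ok, trivial⟩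
  ⟨W_20619984896_ok, W_20603211776_ok, W_20586696704_ok, W_20586438656_ok, W_20569923584_ok, W_20537409536_ok, W_20537151488_ok, W_20536893440_ok, W_19546247168_ok, W_19529732096_ok, W_19463671808_ok, W_19463413760_ok, W_18472767488_ok, W_18389934080_ok, W_14178848768_ok, trivial⟩ C_20621303808
theorem L_20621561856 : HH 127 (nat_lit 20621561856, nat_lit 143) := top_sound R_20621561856
  ⟨V6_18423742464_ok, V6_17399549952_ok, V6_17366519808_ok, V6_16326328320_ok, V6_14179110912_ok, trivial⟩
  ⟨W_20619984896_ok, W_20603211776_ok, W_20586696704_ok, W_20570181632_ok, W_19546505216_ok, W_19546247168_ok, W_19529732096_ok, W_19480444928_ok, W_14178848768_ok, trivial⟩ C_20621561856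
theorem L_20621819904 : HH 127 (nat_lit 20621819904, nat_lit 54) := top_sound R_20621819904
  ⟨V6_20620247040_ok, V6_16326328320_ok, V6_15236333568_ok, trivial⟩
  ⟨W_20619984896_ok, W_18456510464_ok, W_17350000640_ok, W_16276520960_ok, W_15252586496_ok, W_14162591744_ok, trivial⟩ C_20621819904
theorem L_20636770434 : HH 127 (nat_lit 20636770434, nat_lit 4) := top_sound R_20636770434
  ⟨V6_16341540993_ok, V6_16308248706_ok, V6_15268061313_ok, trivial⟩
  ⟨W_20569399424_ok, W_20552884352_ok, trivial⟩ C_20636770434
theorem L_20636774529 : HH 127 (nat_lit 20636774529, nat_lit 9) := top_sound R_20636774529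
  ⟨V6_20536111233_ok, V6_16341803073_ok, V6_15268065345_ok, trivial⟩
  ⟨W_20569661504_ok, W_16325025920_ok, W_16308252800_ok, W_15268061312_ok, trivial⟩ C_20636774529
theorem L_20636774592 : HH 127 (nat_lit 20636774592, nat_lit 5) := top_sound R_20636774592
  ⟨V6_19479146688_ok, V6_17365217472_ok, V6_15251288256_ok, trivial⟩
  ⟨W_17398771712_ok, trivial⟩ C_20636774592
theorem L_20637032577 : HH 127 (nat_lit 20637032577, nat_lit 27) := top_sound R_20637032577
  ⟨V6_20553146433_ok, V6_18439217217_ok, V6_16341540993_ok, trivial⟩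
  ⟨W_20569399424_ok, W_19529211968_ok, W_19512434816_ok, W_17415282752_ok, W_17398767680_ok, W_16341803072_ok, W_15268323392_ok, W_15268061312_ok, W_15251546240_ok, trivial⟩ C_20637032577
theorem L_20637036609 : HH 127 (nat_lit 20637036609, nat_lit 31) := top_sound R_20637036609
  ⟨V6_20569919553_ok, V6_19512954945_ok, V6_19495923777_ok, V6_18439217217_ok, trivial⟩
  ⟨W_19496181824_ok, W_18472505408_ok, W_16341803072_ok, W_16308514880_ok, W_15251550272_ok, trivial⟩ C_20637036609
theorem L_20637036672 : HH 127 (nat_lit 20637036672, nat_lit 78) := top_sound R_20637036672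
  ⟨V6_20569927680_ok, V6_18455998464_ok, trivial⟩
  ⟨W_20569923584_ok, W_19529474048_ok, W_19512696896_ok, W_18472509440_ok, W_17415544832_ok, W_16342065152_ok, W_15268327424_ok, W_15268061312_ok, trivial⟩ C_20637036672
theorem L_20637040704 : HH 127 (nat_lit 20637040704, nat_lit 85) := top_sound R_20637040704
  ⟨V6_17382260736_ok, V6_16308518976_ok, V6_15268331520_ok, trivial⟩
  ⟨W_20586696704_ok, W_20569923584_ok, W_20553150464_ok, W_19529732096_ok, W_19512954944_ok, W_18455990336_ok, trivial⟩ C_20637040704
theorem L_20637294657 : HH 127 (nat_lit 20637294657, nat_lit 44) := top_sound R_20637294657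
  ⟨V6_18456252480_ok, V6_17382510657_ok, trivial⟩
  ⟨W_20586434624_ok, W_20586176576_ok, W_20569661504_ok, W_19529211968_ok, W_19512696896_ok, W_18472247360_ok, W_17415282752_ok, W_17398767680_ok, W_16341803072_ok, W_15268581440_ok, trivial⟩ C_20637294657
theorem L_20637294720 : HH 127 (nat_lit 20637294720, nat_lit 96) := top_sound R_20637294720
  ⟨V6_19513221120_ok, V6_18456256512_ok, trivial⟩
  ⟨W_20586438656_ok, W_20569923584_ok, W_20569399424_ok, W_19545989120_ok, W_19529211968_ok, W_18489024512_ok, W_17415544832_ok, W_16342065152_ok, W_16341803072_ok, W_16341540992_ok, W_15268585472_ok, W_15268061312_ok, W_15251546240_ok, trivial⟩ C_20637294720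
theorem L_20637298752 : HH 127 (nat_lit 20637298752, nat_lit 174) := top_sound R_20637298752
  ⟨V6_19513221120_ok, V6_18456256512_ok, V6_18456252480_ok, trivial⟩
  ⟨W_20603211776_ok, W_20586696704_ok, W_20586438656_ok, W_20569923584_ok, W_20553150464_ok, W_19546247168_ok, W_19529732096_ok, W_19496185856_ok, W_18489282560_ok, W_18472767488_ok, W_16341807104_ok, W_16325292032_ok, W_15268585472_ok, W_15268581440_ok, W_15268327424_ok, trivial⟩ C_20637298752
theorem L_20637302784 : HH 127 (nat_lit 20637302784, nat_lit 141) := top_sound R_20637302784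
  ⟨V6_20553154560_ok, V6_19496189952_ok, V6_17382260736_ok, V6_16325296128_ok, V6_15268331520_ok, trivial⟩
  ⟨W_20586696704_ok, W_19546505216_ok, W_19529732096_ok, W_18489540608_ok, W_18472767488_ok, W_17416060928_ok, W_17415802880_ok, W_15268585472_ok, W_15268327424_ok, W_15251812352_ok, trivial⟩ C_20637302784
theorem L_20637552705 : HH 127 (nat_lit 20637552705, nat_lit 22) := top_sound R_20637552705
  ⟨V6_20536889409_ok, V6_17365995585_ok, V6_15268843584_ok, V6_15268581441_ok, trivial⟩
  ⟨W_20619464768_ok, W_20602949696_ok, W_20586434624_ok, W_19545985088_ok, W_18489020480_ok, W_18472505408_ok, W_17415540800_ok, trivial⟩ C_20637552705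
theorem L_20637556800 : HH 127 (nat_lit 20637556800, nat_lit 206) := top_sound R_20637556800
  ⟨V6_19496706048_ok, V6_17382776832_ok, V6_15268843584_ok, trivial⟩
  ⟨W_20603211776_ok, W_20602949696_ok, W_20586696704_ok, W_20586438656_ok, W_20569923584_ok, W_20536893440_ok, W_19546247168_ok, W_19545985088_ok, W_19529732096_ok, W_18489282560_ok, W_18489024512_ok, W_18489020480_ok, W_18472767488_ok, W_18472509440_ok, W_18472505408_ok, W_17415544832_ok, W_15268581440_ok, trivial⟩ C_20637556800
theorem L_20637560832 : HH 127 (nat_lit 20637560832, nat_lit 226) := top_sound R_20637560832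
  ⟨V6_18439741440_ok, V6_17399549952_ok, V6_17382776832_ok, trivial⟩
  ⟨W_20619984896_ok, W_20603211776_ok, W_20586696704_ok, W_20586438656_ok, W_20569923584_ok, W_20569665536_ok, W_20553150464_ok, W_20536893440_ok, W_20520120320_ok, W_19563020288_ok, W_19546247168_ok, W_19529732096_ok, W_19529474048_ok, W_19463155712_ok, W_16341807104_ok, trivial⟩ C_20637560832
theorem L_20637814848 : HH 127 (nat_lit 20637814848, nat_lit 110) := top_sound R_20637814848
  ⟨V6_19546247232_ok, V6_18423222336_ok, V6_17383034880_ok, trivial⟩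
  ⟨W_20619464768_ok, W_20603211776_ok, W_20586696704_ok, W_20537151488_ok, W_20520374336_ok, W_19562762240_ok, W_19546247168_ok, W_19545985088_ok, W_18489282560_ok, W_17415802880_ok, W_15268843520_ok, trivial⟩ C_20637814848
theorem L_20637818880 : HH 127 (nat_lit 20637818880, nat_lit 232) := top_sound R_20637818880
  ⟨V6_18439741440_ok, V6_17383034880_ok, V6_17382776832_ok, trivial⟩
  ⟨W_20636499968_ok, W_20619984896_ok, W_20603211776_ok, W_20586696704_ok, W_20586438656_ok, W_20569923584_ok, W_20537151488_ok, W_20536893440_ok, W_19546247168_ok, W_19529732096_ok, W_19529474048_ok, W_19463413760_ok, W_18472767488_ok, trivial⟩ C_20637818880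
theorem L_20638076928 : HH 127 (nat_lit 20638076928, nat_lit 158) := top_sound R_20638076928
  ⟨V6_18423484416_ok, V6_17399549952_ok, V6_17366519808_ok, V6_16326328320_ok, trivial⟩
  ⟨W_20636499968_ok, W_20619984896_ok, W_20603211776_ok, W_20586696704_ok, W_20537409536_ok, W_20537151488_ok, W_19563020288_ok, W_19562762240_ok, W_19546505216_ok, W_19546247168_ok, W_19463671808_ok, W_18489540608_ok, W_15269101568_ok, trivial⟩ C_20638076928
theorem L_20638334976 : HH 127 (nat_lit 20638334976, nat_lit 67) := top_sound R_20638334976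
  ⟨V6_20620247040_ok, V6_20554186752_ok, V6_18423742464_ok, V6_16326328320_ok, trivial⟩
  ⟨W_20619984896_ok, W_19563020288_ok, W_18456510464_ok, W_17416060928_ok, W_17350000640_ok, W_15269101568_ok, trivial⟩ C_20638334976
theorem L_20653285506 : HH 127 (nat_lit 20653285506, nat_lit 1) := top_sound R_20653285506
  ⟨V6_16358318208_ok, trivial⟩
  ⟨W_20569399424_ok, trivial⟩ C_20653285506
theorem L_20653547649 : HH 127 (nat_lit 20653547649, nat_lit 12) := top_sound R_20653547649
  ⟨V6_20569661505_ok, V6_16341803073_ok, V6_16341540993_ok, trivial⟩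
  ⟨W_20569399424_ok, W_19529211968_ok, W_17415282752_ok, W_16341540992_ok, trivial⟩ C_20653547649
theorem L_20653551681 : HH 127 (nat_lit 20653551681, nat_lit 9) := top_sound R_20653551681
  ⟨V6_19495923777_ok, V6_16341803073_ok, trivial⟩
  ⟨W_20586434624_ok, W_18472505408_ok, W_17415540800_ok, trivial⟩ C_20653551681
theorem L_20653551744 : HH 127 (nat_lit 20653551744, nat_lit 22) := top_sound R_20653551744
  ⟨V6_18455732352_ok, V6_16358584320_ok, trivial⟩
  ⟨W_20586438656_ok, W_20569665536_ok, W_20552888384_ok, W_19512700928_ok, trivial⟩ C_20653551744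
theorem L_20653809729 : HH 127 (nat_lit 20653809729, nat_lit 27) := top_sound R_20653809729
  ⟨V6_20569919553_ok, V6_20553146433_ok, V6_18439217217_ok, trivial⟩
  ⟨W_20602949696_ok, W_19545985088_ok, W_18489020480_ok, W_18472505408_ok, W_17415282752_ok, W_17399025728_ok, W_16358576192_ok, W_16342061120_ok, trivial⟩ C_20653809729
theorem L_20653809792 : HH 127 (nat_lit 20653809792, nat_lit 58) := top_sound R_20653809792
  ⟨V6_20586700800_ok, trivial⟩
  ⟨W_20569399424_ok, W_19545989120_ok, W_19529474048_ok, W_18489024512_ok, W_18472247360_ok, W_17415544832_ok, W_16358580224_ok, W_16342065152_ok, W_16341540992_ok, trivial⟩ C_20653809792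
theorem L_20653813824 : HH 127 (nat_lit 20653813824, nat_lit 97) := top_sound R_20653813824
  ⟨V6_20569927680_ok, V6_18455998464_ok, trivial⟩
  ⟨W_20603211776_ok, W_20586696704_ok, W_19546247168_ok, W_19529474048_ok, W_18489282560_ok, W_18472505408_ok, W_17432317952_ok, W_17415802880_ok, W_17415540800_ok, W_16358576192_ok, W_16341803072_ok, trivial⟩ C_20653813824
theorem L_20653817856 : HH 127 (nat_lit 20653817856, nat_lit 63) := top_sound R_20653817856
  ⟨V6_17382260736_ok, V6_16358842368_ok, V6_16325296128_ok, trivial⟩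
  ⟨W_20586696704_ok, W_20553150464_ok, W_19546505216_ok, W_18489540608_ok, trivial⟩ C_20653817856
theorem L_20654067777 : HH 127 (nat_lit 20654067777, nat_lit 15) := top_sound R_20654067777
  ⟨V6_16342323264_ok, trivial⟩
  ⟨W_20602949696_ok, W_20586434624_ok, W_19545985088_ok, W_18489020480_ok, W_17432055872_ok, trivial⟩ C_20654067777
theorem L_20654071872 : HH 127 (nat_lit 20654071872, nat_lit 140) := top_sound R_20654071872
  ⟨V6_19513221120_ok, V6_18456256512_ok, trivial⟩
  ⟨W_20603211776_ok, W_20602949696_ok, W_20586696704_ok, W_20569923584_ok, W_19562762240_ok, W_19546247168_ok, W_19545989120_ok, W_19545985088_ok, W_19529732096_ok, W_18489282560_ok, W_18489020480_ok, W_18472505408_ok, W_16358576192_ok, trivial⟩ C_20654071872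
theorem L_20654075904 : HH 127 (nat_lit 20654075904, nat_lit 144) := top_sound R_20654075904
  ⟨V6_18456256512_ok, V6_18455998464_ok, V6_16358584320_ok, trivial⟩
  ⟨W_20619984896_ok, W_20603211776_ok, W_20586696704_ok, W_20569923584_ok, W_20569665536_ok, W_19563020288_ok, W_19546505216_ok, W_19546247168_ok, W_17416060928_ok, W_16358838272_ok, W_16358580224_ok, W_16341807104_ok, trivial⟩ C_20654075904
theorem L_20654329920 : HH 127 (nat_lit 20654329920, nat_lit 87) := top_sound R_20654329920
  ⟨V6_18456252480_ok, V6_17399549952_ok, trivial⟩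
  ⟨W_20619464768_ok, W_20603211776_ok, W_20586696704_ok, W_20570181632_ok, W_19579277312_ok, W_19546247168_ok, W_17432317952_ok, W_16358838272_ok, W_16358576192_ok, trivial⟩ C_20654329920
theorem L_20654333952 : HH 127 (nat_lit 20654333952, nat_lit 184) := top_sound R_20654333952
  ⟨V6_19496706048_ok, V6_17399549952_ok, V6_17382776832_ok, trivial⟩
  ⟨W_20636499968_ok, W_20619984896_ok, W_20603211776_ok, W_20586696704_ok, W_20586438656_ok, W_19579535360_ok, W_19563020288_ok, W_19546247168_ok, W_19529732096_ok, W_18489540608_ok, W_18489282560_ok, W_18489024512_ok, W_18472767488_ok, trivial⟩ C_20654333952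
theorem L_20654592000 : HH 127 (nat_lit 20654592000, nat_lit 139) := top_sound R_20654592000
  ⟨V6_19496964096_ok, V6_18456772608_ok, V6_18439999488_ok, V6_16359358464_ok, trivial⟩
  ⟨W_20653015040_ok, W_20636499968_ok, W_20619984896_ok, W_20603211776_ok, W_20586696704_ok, W_19579535360_ok, W_19579277312_ok, W_19563020288_ok, W_19562762240_ok, W_19546247168_ok, W_18489282560_ok, W_17416060928_ok, W_16358838272_ok, trivial⟩ C_20654592000
theorem L_20654850048 : HH 127 (nat_lit 20654850048, nat_lit 64) := top_sound R_20654850048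
  ⟨V6_20554186752_ok, V6_18456772608_ok, V6_16359358464_ok, V6_16326328320_ok, trivial⟩
  ⟨W_20653015040_ok, W_20636499968_ok, W_20619984896_ok, W_19579535360_ok, W_19563020288_ok, W_17432576000_ok, W_17416060928_ok, trivial⟩ C_20654850048
theorem L_20670062721 : HH 127 (nat_lit 20670062721, nat_lit 5) := top_sound R_20670062721
  ⟨V6_18472247424_ok, trivial⟩
  ⟨W_19529211968_ok, trivial⟩ C_20670062721
theorem L_20670324801 : HH 127 (nat_lit 20670324801, nat_lit 11) := top_sound R_20670324801
  ⟨V6_20569661505_ok, V6_19545985089_ok, V6_18472505409_ok, V6_17415282753_ok, trivial⟩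
  ⟨W_19512696896_ok, W_17415282752_ok, trivial⟩ C_20670324801
theorem L_20670324864 : HH 127 (nat_lit 20670324864, nat_lit 25) := top_sound R_20670324864
  ⟨V6_18455732352_ok, V6_17448837120_ok, trivial⟩
  ⟨W_20586438656_ok, W_19545989120_ok, W_18489024512_ok, trivial⟩ C_20670324864
theorem L_20670328896 : HH 127 (nat_lit 20670328896, nat_lit 28) := top_sound R_20670328896
  ⟨V6_20603211840_ok, V6_19546247232_ok, trivial⟩
  ⟨W_20586438656_ok, W_17415544832_ok, W_17398771712_ok, trivial⟩ C_20670328896
theorem L_20670582849 : HH 127 (nat_lit 20670582849, nat_lit 9) := top_sound R_20670582849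
  ⟨V6_20569919553_ok, V6_17448570945_ok, V6_17399025729_ok, trivial⟩
  ⟨W_20619464768_ok, W_18505535552_ok, W_18472505408_ok, W_17432055872_ok, trivial⟩ C_20670582849
theorem L_20670586944 : HH 127 (nat_lit 20670586944, nat_lit 81) := top_sound R_20670586944
  ⟨V6_20586700800_ok, V6_18522574848_ok, V6_17448837120_ok, trivial⟩
  ⟨W_20586696704_ok, W_19529732096_ok, W_18472767488_ok, W_17415802880_ok, trivial⟩ C_20670586944
theorem L_20670590976 : HH 127 (nat_lit 20670590976, nat_lit 78) := top_sound R_20670590976
  ⟨V6_20569927680_ok, V6_18455998464_ok, trivial⟩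
  ⟨W_20619984896_ok, W_20603211776_ok, W_19563020288_ok, W_19546247168_ok, W_18489282560_ok, W_17449091072_ok, W_17432317952_ok, trivial⟩ C_20670590976
theorem L_20670844992 : HH 127 (nat_lit 20670844992, nat_lit 56) := top_sound R_20670844992
  ⟨V6_19546247232_ok, V6_18505797696_ok, V6_18456252480_ok, trivial⟩
  ⟨W_20586696704_ok, W_19529732096_ok, W_17448833024_ok, W_17432317952_ok, trivial⟩ C_20670844992
theorem L_20670849024 : HH 127 (nat_lit 20670849024, nat_lit 121) := top_sound R_20670849024
  ⟨V6_19513221120_ok, V6_18456256512_ok, trivial⟩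
  ⟨W_20636499968_ok, W_20619984896_ok, W_20603211776_ok, W_19579535360_ok, W_19563020288_ok, W_19562762240_ok, W_19546247168_ok, W_18522570752_ok, W_18489282560_ok, W_17449091072_ok, W_17448833024_ok, W_17432317952_ok, W_17416060928_ok, trivial⟩ C_20670849024
theorem L_20671107072 : HH 127 (nat_lit 20671107072, nat_lit 107) := top_sound R_20671107072
  ⟨V6_20570443776_ok, V6_17449353216_ok, V6_17399549952_ok, trivial⟩
  ⟨W_20653015040_ok, W_20636499968_ok, W_20636241920_ok, W_20619984896_ok, W_19596050432_ok, W_19579535360_ok, W_19579277312_ok, W_19563020288_ok, W_19562762240_ok, W_18522570752_ok, W_18522312704_ok, W_18489540608_ok, W_18489282560_ok, W_17449091072_ok, W_17448833024_ok, W_17416060928_ok, trivial⟩ C_20671107072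
theorem L_20671365120 : HH 127 (nat_lit 20671365120, nat_lit 58) := top_sound R_20671365120
  ⟨V6_19596312576_ok, V6_18522832896_ok, V6_18456772608_ok, V6_17449353216_ok, trivial⟩
  ⟨W_20619984896_ok, W_19563020288_ok, W_18456510464_ok, W_17416060928_ok, trivial⟩ C_20671365120
theorem L_20686839873 : HH 127 (nat_lit 20686839873, nat_lit 4) := top_sound R_20686839873
  ⟨V6_18505797696_ok, trivial⟩
  ⟨W_19529211968_ok, trivial⟩ C_20686839873
theorem L_20686839936 : HH 127 (nat_lit 20686839936, nat_lit 8) := top_sound R_20686839936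
  ⟨V6_19562766336_ok, trivial⟩
  ⟨W_19545989120_ok, trivial⟩ C_20686839936
theorem L_20687097921 : HH 127 (nat_lit 20687097921, nat_lit 3) := top_sound R_20687097921
  ⟨V6_19545985089_ok, V6_18472505409_ok, trivial⟩
  ⟨W_18505535552_ok, W_18489020480_ok, trivial⟩ C_20687097921
theorem L_20687102016 : HH 127 (nat_lit 20687102016, nat_lit 33) := top_sound R_20687102016
  ⟨V6_19562766336_ok, V6_18522574848_ok, V6_18505797696_ok, trivial⟩
  ⟨W_20603211776_ok, W_20586438656_ok, W_20569661504_ok, trivial⟩ C_20687102016

theorem H_25 : AllH 127 tb25 :=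
  ⟨L_20588269632, L_20588273664, L_20588531712, L_20603482242, L_20603482305, L_20603486337, L_20603486400, L_20603740290, L_20603744385, L_20603744448, L_20603748417, L_20603748480, L_20603752512, L_20604002433, L_20604006465, L_20604006528, L_20604010560, L_20604014592, L_20604264513, L_20604264576, L_20604268608, L_20604272640, L_20604522561, L_20604526656, L_20604530688, L_20604784704, L_20604788736, L_20605046784, L_20605304832, L_20619997314, L_20619997377, L_20620255362, L_20620259457, L_20620259520, L_20620263489, L_20620263552, L_20620517505, L_20620521537, L_20620521600, L_20620525632, L_20620529664, L_20620779585, L_20620779648, L_20620783680, L_20620787712, L_20621037633, L_20621041728, L_20621045760, L_20621299776, L_20621303808, L_20621561856, L_20621819904, L_20636770434, L_20636774529, L_20636774592, L_20637032577, L_20637036609, L_20637036672, L_20637040704, L_20637294657, L_20637294720, L_20637298752, L_20637302784, L_20637552705, L_20637556800, L_20637560832, L_20637814848, L_20637818880, L_20638076928, L_20638334976,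 L_20653285506, L_20653547649, L_20653551681, L_20653551744, L_20653809729, L_20653809792, L_20653813824, L_20653817856, L_20654067777, L_20654071872, L_20654075904, L_20654329920, L_20654333952, L_20654592000, L_20654850048, L_20670062721, L_20670324801, L_20670324864, L_20670328896, L_20670582849, L_20670586944, L_20670590976, L_20670844992, L_20670849024, L_20671107072, L_20671365120, L_20686839873, L_20686839936, L_20687097921, L_20687102016, trivial⟩

theorem L_20687106048 : HH 127 (nat_lit 20687106048, nat_lit 24) := top_sound R_20687106048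
  ⟨V6_20636762112_ok, V6_18522832896_ok, trivial⟩
  ⟨W_20586438656_ok, W_20569665536_ok, W_18455736320_ok, trivial⟩ C_20687106048
theorem L_20687360064 : HH 127 (nat_lit 20687360064, nat_lit 32) := top_sound R_20687360064
  ⟨V6_20586696768_ok, V6_18539089920_ok, trivial⟩
  ⟨W_20636241920_ok, W_19562762240_ok, W_18472767488_ok, trivial⟩ C_20687360064
theorem L_20687364096 : HH 127 (nat_lit 20687364096, nat_lit 64) := top_sound R_20687364096
  ⟨V6_20586700800_ok, V6_18539347968_ok, trivial⟩
  ⟨W_20636499968_ok, W_20619984896_ok, W_19563020288_ok, W_19562762240_ok, W_18522570752_ok, W_18489282560_ok, W_18489024512_ok, trivial⟩ C_20687364096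
theorem L_20687622144 : HH 127 (nat_lit 20687622144, nat_lit 65) := top_sound R_20687622144
  ⟨V6_20603473920_ok, V6_19612827648_ok, V6_18539089920_ok, V6_18522574848_ok, trivial⟩
  ⟨W_20636499968_ok, W_20619984896_ok, W_20586696704_ok, W_19579535360_ok, W_19563020288_ok, trivial⟩ C_20687622144
theorem L_20687880192 : HH 127 (nat_lit 20687880192, nat_lit 38) := top_sound R_20687880192
  ⟨V6_20620247040_ok, V6_19596312576_ok, trivial⟩
  ⟨W_19612565504_ok, W_19563020288_ok, W_18522570752_ok, W_18456510464_ok, trivial⟩ C_20687880192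
theorem L_20703612993 : HH 127 (nat_lit 20703612993, nat_lit 1) := top_sound R_20703612993
  ⟨V6_19545985089_ok, trivial⟩
  ⟨W_20619464768_ok, trivial⟩ C_20703612993
theorem L_20703617088 : HH 127 (nat_lit 20703617088, nat_lit 10) := top_sound R_20703617088
  ⟨V6_19562766336_ok, trivial⟩
  ⟨W_20602949696_ok, W_19562762240_ok, trivial⟩ C_20703617088
theorem L_20703875136 : HH 127 (nat_lit 20703875136, nat_lit 11) := top_sound R_20703875136
  ⟨V6_19546247232_ok, trivial⟩
  ⟨W_20636241920_ok, W_19562762240_ok, trivial⟩ C_20703875136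
theorem L_20703879168 : HH 127 (nat_lit 20703879168, nat_lit 25) := top_sound R_20703879168
  ⟨V6_19596312576_ok, V6_19562766336_ok, trivial⟩
  ⟨W_20603211776_ok, W_20586438656_ok, trivial⟩ C_20703879168
theorem L_20704137216 : HH 127 (nat_lit 20704137216, nat_lit 33) := top_sound R_20704137216
  ⟨V6_20603473920_ok, trivial⟩
  ⟨W_20653015040_ok, W_20636499968_ok, W_20636241920_ok, W_19596050432_ok, W_19563020288_ok, trivial⟩ C_20704137216
theorem L_20704395264 : HH 127 (nat_lit 20704395264, nat_lit 22) := top_sound R_20704395264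
  ⟨V6_20620247040_ok, trivial⟩
  ⟨W_20636499968_ok, W_19563020288_ok, trivial⟩ C_20704395264
theorem L_20720390208 : HH 127 (nat_lit 20720390208, nat_lit 3) := top_sound R_20720390208
  ⟨V6_20653019136_ok, trivial⟩
  ⟨W_20602949696_ok, trivial⟩ C_20720390208
theorem L_20720394240 : HH 127 (nat_lit 20720394240, nat_lit 3) := top_sound R_20720394240
  ⟨V6_20653277184_ok, trivial⟩
  ⟨W_20636499968_ok, trivial⟩ C_20720394240
theorem L_20720652288 : HH 127 (nat_lit 20720652288, nat_lit 12) := top_sound R_20720652288
  ⟨V6_20636762112_ok, trivial⟩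
  ⟨W_20603211776_ok, trivial⟩ C_20720652288
theorem L_20720910336 : HH 127 (nat_lit 20720910336, nat_lit 7) := top_sound R_20720910336
  ⟨V6_20620247040_ok, trivial⟩
  ⟨W_20636499968_ok, trivial⟩ C_20720910336
theorem L_21576564996 : HH 127 (nat_lit 21576564996, nat_lit 1) := top_sound R_21576564996
  ⟨V6_15134114052_ok, trivial⟩
  ⟨W_20469268736_ok, trivial⟩ C_21576564996
theorem L_21577089282 : HH 127 (nat_lit 21577089282, nat_lit 3) := top_sound R_21577089282
  ⟨V6_15134638338_ok, trivial⟩
  ⟨W_20502823040_ok, W_19429081280_ok, trivial⟩ C_21577089282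
theorem L_21577093314 : HH 127 (nat_lit 21577093314, nat_lit 1) := top_sound R_21577093314
  ⟨V6_15134642370_ok, trivial⟩
  ⟨W_20503081088_ok, trivial⟩ C_21577093314
theorem L_21577093377 : HH 127 (nat_lit 21577093377, nat_lit 2) := top_sound R_21577093377
  ⟨V6_15134642433_ok, trivial⟩
  ⟨W_20503085120_ok, trivial⟩ C_21577093377
theorem L_21577097346 : HH 127 (nat_lit 21577097346, nat_lit 4) := top_sound R_21577097346
  ⟨V6_15134646402_ok, trivial⟩
  ⟨W_20503339136_ok, W_19429601408_ok, trivial⟩ C_21577097346
theorem L_21577097409 : HH 127 (nat_lit 21577097409, nat_lit 3) := top_sound R_21577097409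
  ⟨V6_15134646465_ok, trivial⟩
  ⟨W_20503343168_ok, W_19429601408_ok, trivial⟩ C_21577097409
theorem L_21577097472 : HH 127 (nat_lit 21577097472, nat_lit 7) := top_sound R_21577097472
  ⟨V6_15134646528_ok, trivial⟩
  ⟨W_20503347200_ok, W_19429609472_ok, trivial⟩ C_21577097472
theorem L_21593342211 : HH 127 (nat_lit 21593342211, nat_lit 1) := top_sound R_21593342211
  ⟨V6_16207855875_ok, trivial⟩
  ⟨W_20469268736_ok, trivial⟩ C_21593342211
theorem L_21593604291 : HH 127 (nat_lit 21593604291, nat_lit 1) := top_sound R_21593604291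
  ⟨V6_20502823104_ok, trivial⟩
  ⟨W_18372374720_ok, trivial⟩ C_21593604291
theorem L_21593604354 : HH 127 (nat_lit 21593604354, nat_lit 2) := top_sound R_21593604354
  ⟨V6_18372116736_ok, trivial⟩
  ⟨W_21559787648_ok, W_19429343360_ok, trivial⟩ C_21593604354
theorem L_21593608386 : HH 127 (nat_lit 21593608386, nat_lit 1) := top_sound R_21593608386
  ⟨V6_15151157442_ok, trivial⟩
  ⟨W_20503081088_ok, trivial⟩ C_21593608386
theorem L_21593608449 : HH 127 (nat_lit 21593608449, nat_lit 1) := top_sound R_21593608449
  ⟨V6_15151157505_ok, trivial⟩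
  ⟨W_20503085120_ok, trivial⟩ C_21593608449
theorem L_21593866434 : HH 127 (nat_lit 21593866434, nat_lit 6) := top_sound R_21593866434
  ⟨V6_20502823104_ok, trivial⟩
  ⟨W_19429601408_ok, W_18372374720_ok, W_18355863680_ok, trivial⟩ C_21593866434
theorem L_21593866497 : HH 127 (nat_lit 21593866497, nat_lit 9) := top_sound R_21593866497
  ⟨V6_18372116736_ok, V6_16208380161_ok, trivial⟩
  ⟨W_20503085120_ok, W_19429605440_ok, W_18372640832_ok, trivial⟩ C_21593866497
theorem L_21593870466 : HH 127 (nat_lit 21593870466, nat_lit 5) := top_sound R_21593870466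
  ⟨V6_17282125953_ok, trivial⟩
  ⟨W_21576818816_ok, W_20503339136_ok, W_20503081088_ok, trivial⟩ C_21593870466
theorem L_21593870529 : HH 127 (nat_lit 21593870529, nat_lit 10) := top_sound R_21593870529
  ⟨V6_16225161408_ok, trivial⟩
  ⟨W_20519858240_ok, W_20503085120_ok, W_20503081088_ok, W_19429601408_ok, trivial⟩ C_21593870529
theorem L_21593870592 : HH 127 (nat_lit 21593870592, nat_lit 12) := top_sound R_21593870592
  ⟨V6_16225161408_ok, trivial⟩
  ⟨W_21576826880_ok, W_20503347200_ok, W_20503085120_ok, W_19429609472_ok, trivial⟩ C_21593870592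
theorem L_21593874561 : HH 127 (nat_lit 21593874561, nat_lit 11) := top_sound R_21593874561
  ⟨V6_17282125953_ok, V6_16225165377_ok, trivial⟩
  ⟨W_21577080896_ok, W_20520116288_ok, W_20503343168_ok, W_17282129984_ok, trivial⟩ C_21593874561
theorem L_21593874624 : HH 127 (nat_lit 21593874624, nat_lit 18) := top_sound R_21593874624
  ⟨V6_19429613568_ok, V6_16225165440_ok, trivial⟩
  ⟨W_20520120320_ok, W_20503347200_ok, W_19429601408_ok, trivial⟩ C_21593874624
theorem L_21594124482 : HH 127 (nat_lit 21594124482, nat_lit 2) := top_sound R_21594124482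
  ⟨V6_16225415361_ok, trivial⟩
  ⟨W_20519596160_ok, trivial⟩ C_21594124482
theorem L_21594128514 : HH 127 (nat_lit 21594128514, nat_lit 3) := top_sound R_21594128514
  ⟨V6_18372894849_ok, trivial⟩
  ⟨W_21593333888_ok, W_20519596160_ok, trivial⟩ C_21594128514
theorem L_21594128577 : HH 127 (nat_lit 21594128577, nat_lit 11) := top_sound R_21594128577
  ⟨V6_17299161153_ok, trivial⟩
  ⟨W_20519858240_ok, W_20519600192_ok, W_20519596160_ok, W_18372116672_ok, trivial⟩ C_21594128577
theorem L_21594128640 : HH 127 (nat_lit 21594128640, nat_lit 8) := top_sound R_21594128640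
  ⟨V6_16225419456_ok, trivial⟩
  ⟨W_21593341952_ok, W_19446382592_ok, trivial⟩ C_21594128640
theorem L_21594132609 : HH 127 (nat_lit 21594132609, nat_lit 10) := top_sound R_21594132609
  ⟨V6_18372894849_ok, V6_16225423425_ok, trivial⟩
  ⟨W_21593595968_ok, W_20519858240_ok, W_20519854208_ok, W_18372382784_ok, trivial⟩ C_21594132609
theorem L_21594132672 : HH 127 (nat_lit 21594132672, nat_lit 18) := top_sound R_21594132672
  ⟨V6_17298641088_ok, V6_16225419456_ok, trivial⟩
  ⟨W_21593600000_ok, W_20520120320_ok, W_19446640640_ok, W_18372644864_ok, trivial⟩ C_21594132672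
theorem L_21594136641 : HH 127 (nat_lit 21594136641, nat_lit 8) := top_sound R_21594136641
  ⟨V6_16225165377_ok, V6_15151685697_ok, trivial⟩
  ⟨W_20520374336_ok, W_20520116288_ok, trivial⟩ C_21594136641
theorem L_21594136704 : HH 127 (nat_lit 21594136704, nat_lit 15) := top_sound R_21594136704
  ⟨V6_16225165440_ok, V6_15151685760_ok, trivial⟩
  ⟨W_21593858048_ok, W_20520378368_ok, W_20520116288_ok, W_19446636608_ok, W_19446374528_ok, trivial⟩ C_21594136704
theorem L_21594140736 : HH 127 (nat_lit 21594140736, nat_lit 6) := top_sound R_21594140736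
  ⟨V6_16225427520_ok, trivial⟩
  ⟨W_21594116096_ok, W_20520374336_ok, trivial⟩ C_21594140736
theorem L_21610119426 : HH 127 (nat_lit 21610119426, nat_lit 5) := top_sound R_21610119426
  ⟨V6_17315152065_ok, trivial⟩
  ⟨W_21559787648_ok, W_20502823040_ok, W_20469268736_ok, W_18355339520_ok, trivial⟩ C_21610119426
theorem L_21610381506 : HH 127 (nat_lit 21610381506, nat_lit 6) := top_sound R_21610381506
  ⟨V6_17315152065_ok, trivial⟩
  ⟨W_21559787648_ok, W_20519596160_ok, W_20503081088_ok, W_19446116480_ok, trivial⟩ C_21610381506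
theorem L_21610381569 : HH 127 (nat_lit 21610381569, nat_lit 10) := top_sound R_21610381569
  ⟨V6_19462635585_ok, V6_17315152065_ok, trivial⟩
  ⟨W_21576564800_ok, W_21559787648_ok, W_20519600192_ok, W_20503085120_ok, W_18355339520_ok, W_15167930624_ok, trivial⟩ C_21610381569
theorem L_21610385538 : HH 127 (nat_lit 21610385538, nat_lit 3) := top_sound R_21610385538
  ⟨V6_19429347456_ok, trivial⟩
  ⟨W_19462889600_ok, trivial⟩ C_21610385538
theorem L_21610385601 : HH 127 (nat_lit 21610385601, nat_lit 7) := top_sound R_21610385601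
  ⟨V6_17298641088_ok, V6_16224899265_ok, trivial⟩
  ⟨W_20519858240_ok, W_20503085120_ok, W_20503081088_ok, trivial⟩ C_21610385601
theorem L_21610385664 : HH 127 (nat_lit 21610385664, nat_lit 6) := top_sound R_21610385664
  ⟨V6_17298641088_ok, trivial⟩
  ⟨W_20519862272_ok, W_15167930624_ok, trivial⟩ C_21610385664
theorem L_21610639554 : HH 127 (nat_lit 21610639554, nat_lit 3) := top_sound R_21610639554
  ⟨V6_18388889793_ok, V6_16241668290_ok, trivial⟩
  ⟨W_21576560768_ok, W_19429601408_ok, trivial⟩ C_21610639554
theorem L_21610643586 : HH 127 (nat_lit 21610643586, nat_lit 17) := top_sound R_21610643586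
  ⟨V6_20502818946_ok, V6_18389409921_ok, trivial⟩
  ⟨W_21576560768_ok, W_20503339136_ok, W_20502823040_ok, W_19462889600_ok, W_19446374528_ok, W_19429601408_ok, W_19429343360_ok, trivial⟩ C_21610643586
theorem L_21610643649 : HH 127 (nat_lit 21610643649, nat_lit 26) := top_sound R_21610643649
  ⟨V6_21576564801_ok, V6_20503343169_ok, V6_20502823104_ok, V6_19462631616_ok, V6_19429601472_ok, V6_18388889793_ok, V6_17315152065_ok, trivial⟩
  ⟨W_20536373312_ok, W_20519858240_ok, W_20503343168_ok, W_19446378560_ok, W_18372640832_ok, W_18372374720_ok, trivial⟩ C_21610643649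
theorem L_21610643712 : HH 127 (nat_lit 21610643712, nat_lit 34) := top_sound R_21610643712
  ⟨V6_21610119168_ok, V6_19429081344_ok, trivial⟩
  ⟨W_18389417984_ok, W_18372640832_ok, W_18355863680_ok, W_18355339520_ok, W_17298374912_ok, W_17282121920_ok, W_16241410304_ok, W_16208380160_ok, W_15167930624_ok, W_15151415552_ok, trivial⟩ C_21610643712
theorem L_21610647681 : HH 127 (nat_lit 21610647681, nat_lit 31) := top_sound R_21610647681
  ⟨V6_21577080897_ok, V6_19446374529_ok, V6_18389409921_ok, V6_17282125953_ok, trivial⟩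
  ⟨W_21593595968_ok, W_20519858240_ok, W_20503085120_ok, W_19463151680_ok, W_18372640832_ok, trivial⟩ C_21610647681
theorem L_21610647744 : HH 127 (nat_lit 21610647744, nat_lit 44) := top_sound R_21610647744
  ⟨V6_18389422080_ok, V6_16225161408_ok, trivial⟩
  ⟨W_21577084928_ok, W_21576826880_ok, W_20536635392_ok, W_20519862272_ok, W_20519858240_ok, W_20503343168_ok, W_20503085120_ok, W_20503081088_ok, W_19446124544_ok, W_19446116480_ok, W_18389159936_ok, W_18372374720_ok, trivial⟩ C_21610647744
theorem L_21610651713 : HH 127 (nat_lit 21610651713, nat_lit 12) := top_sound R_21610651713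
  ⟨V6_18355871808_ok, V6_16225165377_ok, trivial⟩
  ⟨W_21593854016_ok, W_19463151680_ok, trivial⟩ C_21610651713
theorem L_21610651776 : HH 127 (nat_lit 21610651776, nat_lit 52) := top_sound R_21610651776
  ⟨V6_18389422080_ok, V6_16225165440_ok, trivial⟩
  ⟨W_20536893440_ok, W_20520120320_ok, W_20503339136_ok, W_19463151680_ok, W_19446374528_ok, W_18355871744_ok, trivial⟩ C_21610651776
theorem L_21610901634 : HH 127 (nat_lit 21610901634, nat_lit 9) := top_sound R_21610901634
  ⟨V6_17315930241_ok, trivial⟩
  ⟨W_21609848960_ok, W_21593333888_ok, W_20519596160_ok, W_19446116480_ok, trivial⟩ C_21610901634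
theorem L_21610901697 : HH 127 (nat_lit 21610901697, nat_lit 12) := top_sound R_21610901697
  ⟨V6_17299157184_ok, V6_16225415361_ok, trivial⟩
  ⟨W_21593337920_ok, W_20536373312_ok, W_20519596160_ok, W_19462631552_ok, trivial⟩ C_21610901697
theorem L_21610905729 : HH 127 (nat_lit 21610905729, nat_lit 40) := top_sound R_21610905729
  ⟨V6_18389409921_ok, V6_18372894849_ok, V6_17315930241_ok, V6_17299161153_ok, trivial⟩
  ⟨W_21593595968_ok, W_21593337920_ok, W_21593333888_ok, W_20536373312_ok, W_20519858240_ok, W_20519600192_ok, W_20519596160_ok, W_19463151680_ok, W_19446636608_ok, trivial⟩ C_21610905729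
theorem L_21610905792 : HH 127 (nat_lit 21610905792, nat_lit 56) := top_sound R_21610905792
  ⟨V6_21610119168_ok, V6_19446644736_ok, V6_16225419456_ok, trivial⟩
  ⟨W_19463155712_ok, W_18389676032_ok, W_18389417984_ok, W_18372898880_ok, W_17315934272_ok, trivial⟩ C_21610905792
theorem L_21610909761 : HH 127 (nat_lit 21610909761, nat_lit 28) := top_sound R_21610909761
  ⟨V6_20520374337_ok, V6_17299165248_ok, V6_17299161153_ok, trivial⟩
  ⟨W_21593854016_ok, W_21593595968_ok, W_20520374336_ok, W_19463409728_ok, W_19463151680_ok, trivial⟩ C_21610909761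
theorem L_21610909824 : HH 127 (nat_lit 21610909824, nat_lit 74) := top_sound R_21610909824
  ⟨V6_18389672064_ok, V6_17315942400_ok, V6_17299165248_ok, trivial⟩
  ⟨W_21593858048_ok, W_21593600000_ok, W_21593595968_ok, W_20536635392_ok, W_20520120320_ok, W_20519862272_ok, W_20519858240_ok, W_20519854208_ok, W_19463155712_ok, W_19446374528_ok, trivial⟩ C_21610909824
theorem L_21610913856 : HH 127 (nat_lit 21610913856, nat_lit 61) := top_sound R_21610913856
  ⟨V6_17315684352_ok, V6_17299165248_ok, V6_16242204672_ok, trivial⟩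
  ⟨W_21593858048_ok, W_20537151488_ok, W_20520374336_ok, W_20520120320_ok, W_20520116288_ok, W_19463409728_ok, W_19463151680_ok, trivial⟩ C_21610913856
theorem L_21610917888 : HH 127 (nat_lit 21610917888, nat_lit 14) := top_sound R_21610917888
  ⟨V6_18372907008_ok, V6_16242204672_ok, trivial⟩
  ⟨W_21594116096_ok, W_20537151488_ok, trivial⟩ C_21610917888
theorem L_21611159682 : HH 127 (nat_lit 21611159682, nat_lit 8) := top_sound R_21611159682
  ⟨V6_17316192384_ok, trivial⟩
  ⟨W_21609848960_ok, W_19462889600_ok, trivial⟩ C_21611159682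
theorem L_21611163777 : HH 127 (nat_lit 21611163777, nat_lit 22) := top_sound R_21611163777
  ⟨V6_17316192384_ok, trivial⟩
  ⟨W_21609852992_ok, W_21609848960_ok, W_20536373312_ok, W_19463151680_ok, trivial⟩ C_21611163777
theorem L_21611163840 : HH 127 (nat_lit 21611163840, nat_lit 17) := top_sound R_21611163840
  ⟨V6_18389938176_ok, trivial⟩
  ⟨W_19463155712_ok, W_15168712832_ok, trivial⟩ C_21611163840
theorem L_21611167809 : HH 127 (nat_lit 21611167809, nat_lit 20) := top_sound R_21611167809
  ⟨V6_21610631232_ok, V6_18389930049_ok, trivial⟩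
  ⟨W_17315934272_ok, W_16242454592_ok, W_16242196544_ok, trivial⟩ C_21611167809
theorem L_21611167872 : HH 127 (nat_lit 21611167872, nat_lit 74) := top_sound R_21611167872
  ⟨V6_18389672064_ok, V6_17316200448_ok, V6_17316192384_ok, trivial⟩
  ⟨W_20536893440_ok, W_19463155712_ok, W_19462635584_ok, W_18389934080_ok, W_18389417984_ok, trivial⟩ C_21611167872
theorem L_21611171904 : HH 127 (nat_lit 21611171904, nat_lit 64) := top_sound R_21611171904
  ⟨V6_19462901760_ok, V6_17316200448_ok, V6_16242462720_ok, trivial⟩
  ⟨W_21610369088_ok, W_20537151488_ok, W_20536893440_ok, W_19463413760_ok, W_19463409728_ok, W_18389930048_ok, trivial⟩ C_21611171904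
theorem L_21611175936 : HH 127 (nat_lit 21611175936, nat_lit 47) := top_sound R_21611175936
  ⟨V6_21611151360_ok, V6_16242204672_ok, V6_15168724992_ok, trivial⟩
  ⟨W_21610889216_ok, W_20536893440_ok, W_19463671808_ok, W_14094983168_ok, trivial⟩ C_21611175936
theorem L_21626896578 : HH 127 (nat_lit 21626896578, nat_lit 5) := top_sound R_21626896578
  ⟨V6_17315152065_ok, trivial⟩
  ⟨W_21576560768_ok, W_18405666944_ok, trivial⟩ C_21626896578
theorem L_21626896641 : HH 127 (nat_lit 21626896641, nat_lit 9) := top_sound R_21626896641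
  ⟨V6_20469268737_ok, V6_16258187520_ok, trivial⟩
  ⟨W_21576564800_ok, W_20519600192_ok, W_20502823040_ok, W_20469268736_ok, trivial⟩ C_21626896641
theorem L_21627154626 : HH 127 (nat_lit 21627154626, nat_lit 4) := top_sound R_21627154626
  ⟨V6_19479146688_ok, V6_18405404802_ok, V6_16241668290_ok, trivial⟩
  ⟨W_21576560768_ok, W_20519596160_ok, W_20503081088_ok, trivial⟩ C_21627154626
theorem L_21627158658 : HH 127 (nat_lit 21627158658, nat_lit 12) := top_sound R_21627158658
  ⟨V6_18405671040_ok, trivial⟩
  ⟨W_21576818816_ok, W_21559787648_ok, W_19479404672_ok, W_19462889600_ok, trivial⟩ C_21627158658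
theorem L_21627158721 : HH 127 (nat_lit 21627158721, nat_lit 24) := top_sound R_21627158721
  ⟨V6_18388889793_ok, V6_17331929280_ok, V6_17315152065_ok, trivial⟩
  ⟨W_21593337920_ok, W_21576564800_ok, W_21576560768_ok, W_21559787648_ok, W_20519858240_ok, W_20503085120_ok, W_20503081088_ok, W_19479408704_ok, W_18372374720_ok, trivial⟩ C_21627158721
theorem L_21627158784 : HH 127 (nat_lit 21627158784, nat_lit 24) := top_sound R_21627158784
  ⟨V6_17331929280_ok, V6_16258187520_ok, trivial⟩
  ⟨W_21576826880_ok, W_21576564800_ok, W_21559787648_ok, W_20519862272_ok, W_20503085120_ok, W_19479412736_ok, W_19429343360_ok, trivial⟩ C_21627158784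
theorem L_21627162753 : HH 127 (nat_lit 21627162753, nat_lit 18) := top_sound R_21627162753
  ⟨V6_21576818817_ok, V6_18372382848_ok, V6_18372382785_ok, trivial⟩
  ⟨W_21593595968_ok, W_20519858240_ok, W_20503085120_ok, W_18405924992_ok, W_16258453568_ok, trivial⟩ C_21627162753
theorem L_21627162816 : HH 127 (nat_lit 21627162816, nat_lit 25) := top_sound R_21627162816
  ⟨V6_19429347456_ok, V6_18405937152_ok, trivial⟩
  ⟨W_21593600000_ok, W_20536635392_ok, W_20519862272_ok, W_18372374720_ok, W_17332195328_ok, W_14110970048_ok, trivial⟩ C_21627162816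
theorem L_21627416706 : HH 127 (nat_lit 21627416706, nat_lit 16) := top_sound R_21627416706
  ⟨V6_18389409921_ok, trivial⟩
  ⟨W_21609848960_ok, W_21593333888_ok, W_21576818816_ok, W_21576560768_ok, W_20503339136_ok, W_19479404672_ok, W_19479146624_ok, trivial⟩ C_21627416706
theorem L_21627416769 : HH 127 (nat_lit 21627416769, nat_lit 19) := top_sound R_21627416769
  ⟨V6_21593075841_ok, V6_21576560769_ok, V6_20536111233_ok, V6_20503343169_ok, V6_19462631616_ok, V6_19429601472_ok, V6_18388889793_ok, V6_18355859649_ok, trivial⟩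
  ⟨W_20552888384_ok, W_20503343168_ok, W_19479408704_ok, W_19446378560_ok, trivial⟩ C_21627416769
theorem L_21627420801 : HH 127 (nat_lit 21627420801, nat_lit 62) := top_sound R_21627420801
  ⟨V6_18406187136_ok, V6_18389409921_ok, trivial⟩
  ⟨W_21593595968_ok, W_21593337920_ok, W_21577080896_ok, W_21576564800_ok, W_21576560768_ok, W_20520116288_ok, W_20519858240_ok, W_20503085120_ok, W_19479408704_ok, W_19463151680_ok, W_19446378560_ok, W_19429605440_ok, W_18372640832_ok, trivial⟩ C_21627420801
theorem L_21627420864 : HH 127 (nat_lit 21627420864, nat_lit 85) := top_sound R_21627420864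
  ⟨V6_21577089024_ok, V6_20553154560_ok, V6_18405671040_ok, trivial⟩
  ⟨W_21577084928_ok, W_21576822848_ok, W_20553150464_ok, W_20536635392_ok, W_20520120320_ok, W_20503343168_ok, W_19479412736_ok, W_19463155712_ok, W_19446382592_ok, W_18372640832_ok, W_18355863680_ok, trivial⟩ C_21627420864
theorem L_21627424833 : HH 127 (nat_lit 21627424833, nat_lit 36) := top_sound R_21627424833
  ⟨V6_21610631232_ok, V6_21610369089_ok, V6_20536889409_ok, V6_20503343169_ok, V6_19479924801_ok, trivial⟩
  ⟨W_20520116288_ok, W_20503085120_ok, W_19463151680_ok, W_18372640832_ok, W_16258453568_ok, W_15184973888_ok, trivial⟩ C_21627424833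
theorem L_21627424896 : HH 127 (nat_lit 21627424896, nat_lit 106) := top_sound R_21627424896
  ⟨V6_20519866368_ok, V6_20503351296_ok, V6_19446386688_ok, V6_18405937152_ok, V6_18389422080_ok, trivial⟩
  ⟨W_21577080896_ok, W_21576818816_ok, W_20536893440_ok, W_20536635392_ok, W_20503339136_ok, W_19463155712_ok, W_19462889600_ok, W_18405924992_ok, W_18389417984_ok, W_15184973888_ok, W_15184969856_ok, trivial⟩ C_21627424896
theorem L_21627428928 : HH 127 (nat_lit 21627428928, nat_lit 72) := top_sound R_21627428928
  ⟨V6_20503351296_ok, V6_19429613568_ok, V6_17315684352_ok, V6_16258719744_ok, trivial⟩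
  ⟨W_21593858048_ok, W_21593854016_ok, W_20536893440_ok, W_20520120320_ok, W_20520116288_ok, W_19463155712_ok, trivial⟩ C_21627428928
theorem L_21627674754 : HH 127 (nat_lit 21627674754, nat_lit 8) := top_sound R_21627674754
  ⟨V6_17315930241_ok, trivial⟩
  ⟨W_21609848960_ok, W_21593333888_ok, W_19446374528_ok, trivial⟩ C_21627674754
theorem L_21627678849 : HH 127 (nat_lit 21627678849, nat_lit 50) := top_sound R_21627678849
  ⟨V6_18406187136_ok, V6_18372894849_ok, trivial⟩
  ⟨W_21626626112_ok, W_21593595968_ok, W_21593337920_ok, W_20552888384_ok, W_20520116288_ok, W_20519858240_ok, W_20519596160_ok, W_19479408704_ok, W_18372898880_ok, W_17315934272_ok, trivial⟩ C_21627678849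
theorem L_21627678912 : HH 127 (nat_lit 21627678912, nat_lit 53) := top_sound R_21627678912
  ⟨V6_21593862144_ok, V6_20520382464_ok, trivial⟩
  ⟨W_21593337920_ok, W_20553150464_ok, W_19479408704_ok, W_18389676032_ok, W_17315934272_ok, W_16225415360_ok, W_14111486144_ok, trivial⟩ C_21627678912
theorem L_21627682881 : HH 127 (nat_lit 21627682881, nat_lit 57) := top_sound R_21627682881
  ⟨V6_19480186944_ok, V6_18405670977_ok, V6_17299161153_ok, trivial⟩
  ⟨W_21593854016_ok, W_21593595968_ok, W_21593337920_ok, W_20520116288_ok, W_20519858240_ok, W_19463151680_ok, W_19446378560_ok, W_16242196544_ok, W_15185231936_ok, trivial⟩ C_21627682881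
theorem L_21627682944 : HH 127 (nat_lit 21627682944, nat_lit 146) := top_sound R_21627682944
  ⟨V6_21610119168_ok, V6_21594120192_ok, V6_20553154560_ok, V6_20520382464_ok, V6_19446644736_ok, V6_18405671040_ok, trivial⟩
  ⟨W_20553150464_ok, W_20536893440_ok, W_20520116288_ok, W_19479412736_ok, W_19463413760_ok, W_19463155712_ok, W_19446382592_ok, W_19446374528_ok, W_18389676032_ok, W_17315938304_ok, W_17299157120_ok, W_16242196544_ok, W_15185231936_ok, trivial⟩ C_21627682944
theorem L_21627686976 : HH 127 (nat_lit 21627686976, nat_lit 140) := top_sound R_21627686976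
  ⟨V6_21627408384_ok, V6_21610893312_ok, V6_20519866368_ok, V6_19480186944_ok, V6_19446386688_ok, trivial⟩
  ⟨W_20536893440_ok, W_20536635392_ok, W_19463413760_ok, W_19463155712_ok, W_19446382592_ok, W_18389676032_ok, W_18372898880_ok, W_17315938304_ok, W_16242196544_ok, W_15185231936_ok, W_15168458816_ok, W_14111494208_ok, trivial⟩ C_21627686976
theorem L_21627691008 : HH 127 (nat_lit 21627691008, nat_lit 76) := top_sound R_21627691008
  ⟨V6_19446644736_ok, V6_17315684352_ok, V6_16258719744_ok, V6_16242204672_ok, trivial⟩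
  ⟨W_21627404288_ok, W_21594116096_ok, W_20537151488_ok, W_20536893440_ok, W_20520378368_ok, W_19480186880_ok, trivial⟩ C_21627691008
theorem L_21627936897 : HH 127 (nat_lit 21627936897, nat_lit 28) := top_sound R_21627936897
  ⟨V6_18389409921_ok, V6_17315930241_ok, V6_16242450561_ok, trivial⟩
  ⟨W_21626626112_ok, W_21609848960_ok, W_19479404672_ok, W_18406187072_ok, trivial⟩ C_21627936897
theorem L_21627940929 : HH 127 (nat_lit 21627940929, nat_lit 41) := top_sound R_21627940929
  ⟨V6_19479924801_ok, V6_16259231808_ok, trivial⟩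
  ⟨W_21626626112_ok, W_21610111040_ok, W_20552888384_ok, W_20536889408_ok, W_20536373312_ok, W_19479924800_ok, W_19463409728_ok, trivial⟩ C_21627940929
theorem L_21627940992 : HH 127 (nat_lit 21627940992, nat_lit 108) := top_sound R_21627940992
  ⟨V6_20537155584_ok, V6_18406711296_ok, V6_17316192384_ok, trivial⟩
  ⟨W_20553150464_ok, W_20536893440_ok, W_20536635392_ok, W_19463155712_ok, W_19462889600_ok, W_18389934080_ok, W_17316196352_ok, W_16242454592_ok, W_15185489984_ok, trivial⟩ C_21627940992
theorem L_21627945024 : HH 127 (nat_lit 21627945024, nat_lit 154) := top_sound R_21627945024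
  ⟨V6_21610119168_ok, V6_20553154560_ok, V6_19480186944_ok, V6_18406711296_ok, V6_18406707264_ok, trivial⟩
  ⟨W_20536893440_ok, W_19480186880_ok, W_19463671808_ok, W_19463413760_ok, W_19463155712_ok, W_18389934080_ok, W_18389930048_ok, W_17316196352_ok, W_17315938304_ok, W_16242458624_ok, W_16242454592_ok, W_15185494016_ok, W_15168716864_ok, trivial⟩ C_21627945024
theorem L_21627949056 : HH 127 (nat_lit 21627949056, nat_lit 107) := top_sound R_21627949056
  ⟨V6_18406711296_ok, V6_17316200448_ok, V6_16242462720_ok, trivial⟩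
  ⟨W_21627404288_ok, W_21610889216_ok, W_20537409536_ok, W_20537151488_ok, W_20536893440_ok, W_20536635392_ok, W_19480444928_ok, W_19463671808_ok, W_19462897664_ok, W_18389159936_ok, trivial⟩ C_21627949056
theorem L_21628198977 : HH 127 (nat_lit 21628198977, nat_lit 19) := top_sound R_21628198977
  ⟨V6_20553146433_ok, V6_15185748033_ok, trivial⟩
  ⟨W_21626884160_ok, W_19479924800_ok, W_17332965440_ok, trivial⟩ C_21628198977

theorem H_26 : AllH 127 tb26 :=
  ⟨L_20687106048, L_20687360064, L_20687364096, L_20687622144, L_20687880192, L_20703612993, L_20703617088, L_20703875136, L_20703879168, L_20704137216, L_20704395264, L_20720390208, L_20720394240, L_20720652288, L_20720910336, L_21576564996, L_21577089282, L_21577093314, L_21577093377, L_21577097346, L_21577097409, L_21577097472, L_21593342211, L_21593604291, L_21593604354, L_21593608386, L_21593608449, L_21593866434, L_21593866497, L_21593870466, L_21593870529, L_21593870592, L_21593874561, L_21593874624, L_21594124482, L_21594128514, L_21594128577, L_21594128640, L_21594132609,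 L_21594132672, L_21594136641, L_21594136704, L_21594140736, L_21610119426, L_21610381506, L_21610381569, L_21610385538, L_21610385601, L_21610385664, L_21610639554, L_21610643586, L_21610643649, L_21610643712, L_21610647681, L_21610647744, L_21610651713, L_21610651776, L_21610901634, L_21610901697, L_21610905729, L_21610905792, L_21610909761, L_21610909824, L_21610913856, L_21610917888, L_21611159682, L_21611163777, L_21611163840, L_21611167809, L_21611167872, L_21611171904, L_21611175936, L_21626896578, L_21626896641, L_21627154626, L_21627158658, L_21627158721, L_21627158784, L_21627162753, L_21627162816, L_21627416706, L_21627416769, L_21627420801, L_21627420864, L_21627424833, L_21627424896, L_21627428928, L_21627674754, L_21627678849, L_21627678912, L_21627682881, L_21627682944, L_21627686976, L_21627691008, L_21627936897, L_21627940929, L_21627940992, L_21627945024, L_21627949056, L_21628198977, trivial⟩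

theorem L_21628199040 : HH 127 (nat_lit 21628199040, nat_lit 29) := top_sound R_21628199040
  ⟨V6_18406711296_ok, trivial⟩
  ⟨W_21626888192_ok, W_21626626112_ok, W_19479404672_ok, W_18405924992_ok, trivial⟩ C_21628199040
theorem L_21628203072 : HH 127 (nat_lit 21628203072, nat_lit 76) := top_sound R_21628203072
  ⟨V6_18406711296_ok, V6_18406707264_ok, trivial⟩
  ⟨W_21626884160_ok, W_21626630144_ok, W_21626626112_ok, W_20553150464_ok, W_19480186880_ok, W_18406707200_ok, W_15185489984_ok, W_14112010304_ok, trivial⟩ C_21628203072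
theorem L_21628207104 : HH 127 (nat_lit 21628207104, nat_lit 60) := top_sound R_21628207104
  ⟨V6_20553154560_ok, V6_18406711296_ok, trivial⟩
  ⟨W_21627404288_ok, W_19480186880_ok, W_19479412736_ok, W_15185752064_ok, W_15185494016_ok, W_14112014336_ok, trivial⟩ C_21628207104
theorem L_21643669698 : HH 127 (nat_lit 21643669698, nat_lit 2) := top_sound R_21643669698
  ⟨V6_18405404802_ok, V6_15201218754_ok, trivial⟩
  ⟨W_20519596160_ok, trivial⟩ C_21643669698
theorem L_21643673730 : HH 127 (nat_lit 21643673730, nat_lit 12) := top_sound R_21643673730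
  ⟨V6_18405671040_ok, trivial⟩
  ⟨W_21593333888_ok, W_19479404672_ok, W_18422440064_ok, trivial⟩ C_21643673730
theorem L_21643673793 : HH 127 (nat_lit 21643673793, nat_lit 16) := top_sound R_21643673793
  ⟨V6_16274964672_ok, trivial⟩
  ⟨W_21593337920_ok, W_21576564800_ok, W_21559787648_ok, W_20536373312_ok, W_20519596160_ok, W_20502823040_ok, trivial⟩ C_21643673793
theorem L_21643673856 : HH 127 (nat_lit 21643673856, nat_lit 22) := top_sound R_21643673856
  ⟨V6_19429081344_ok, V6_16258187520_ok, V6_15201222912_ok, trivial⟩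
  ⟨W_21593341952_ok, W_21576564800_ok, W_18422448128_ok, trivial⟩ C_21643673856
theorem L_21643931778 : HH 127 (nat_lit 21643931778, nat_lit 12) := top_sound R_21643931778
  ⟨V6_19496181888_ok, trivial⟩
  ⟨W_21609848960_ok, W_21576818816_ok, W_21576560768_ok, W_20503081088_ok, W_19462889600_ok, trivial⟩ C_21643931778
theorem L_21643931841 : HH 127 (nat_lit 21643931841, nat_lit 16) := top_sound R_21643931841
  ⟨V6_18388889793_ok, V6_17348702400_ok, V6_16274960577_ok, trivial⟩
  ⟨W_21593337920_ok, W_21576560768_ok, W_20552888384_ok, W_20519858240_ok, W_20503081088_ok, W_19495923776_ok, W_18372374720_ok, trivial⟩ C_21643931841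
theorem L_21643935873 : HH 127 (nat_lit 21643935873, nat_lit 51) := top_sound R_21643935873
  ⟨V6_18422448192_ok, V6_17348706369_ok, trivial⟩
  ⟨W_21593595968_ok, W_21593337920_ok, W_21576822848_ok, W_21576818816_ok, W_21559787648_ok, W_20519858240_ok, W_20519854208_ok, W_20503081088_ok, W_19496181824_ok, W_19479404672_ok, W_19462889600_ok, W_18422440064_ok, trivial⟩ C_21643935873
theorem L_21643935936 : HH 127 (nat_lit 21643935936, nat_lit 67) := top_sound R_21643935936
  ⟨V6_19496189952_ok, V6_17331929280_ok, V6_16274964672_ok, trivial⟩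
  ⟨W_21593341952_ok, W_21593337920_ok, W_21576826880_ok, W_21576822848_ok, W_21576564800_ok, W_21576560768_ok, W_21559787648_ok, W_20536635392_ok, W_20519858240_ok, W_20503081088_ok, W_19496185856_ok, W_19479408704_ok, W_19429343360_ok, trivial⟩ C_21643935936
theorem L_21643939905 : HH 127 (nat_lit 21643939905, nat_lit 23) := top_sound R_21643939905
  ⟨V6_20503085121_ok, V6_19496439873_ok, V6_19446124608_ok, trivial⟩
  ⟨W_21610369088_ok, W_21593595968_ok, W_19496439872_ok, W_18372382784_ok, W_16258453568_ok, W_15201488960_ok, trivial⟩ C_21643939905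
theorem L_21643939968 : HH 127 (nat_lit 21643939968, nat_lit 54) := top_sound R_21643939968
  ⟨V6_20519866368_ok, V6_18405937152_ok, V6_17348972544_ok, trivial⟩
  ⟨W_21593600000_ok, W_21593595968_ok, W_21576826880_ok, W_21576822848_ok, W_21576818816_ok, W_20536635392_ok, W_20519862272_ok, W_20519854208_ok, W_20503085120_ok, W_20503081088_ok, W_19462889600_ok, W_18405924992_ok, trivial⟩ C_21643939968
theorem L_21644189826 : HH 127 (nat_lit 21644189826, nat_lit 16) := top_sound R_21644189826
  ⟨V6_18389409921_ok, trivial⟩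
  ⟨W_21576818816_ok, W_20569399424_ok, W_20503339136_ok, W_19495919744_ok, W_17348960384_ok, trivial⟩ C_21644189826
theorem L_21644193921 : HH 127 (nat_lit 21644193921, nat_lit 64) := top_sound R_21644193921
  ⟨V6_21577080897_ok, V6_18406187136_ok, V6_18389409921_ok, trivial⟩
  ⟨W_21626626112_ok, W_21593337920_ok, W_21576560768_ok, W_20569661504_ok, W_20552888384_ok, W_20519858240_ok, W_19496181824_ok, W_19495923776_ok, W_19495919744_ok, W_19479408704_ok, W_19463151680_ok, trivial⟩ C_21644193921
theorem L_21644193984 : HH 127 (nat_lit 21644193984, nat_lit 58) := top_sound R_21644193984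
  ⟨V6_20569927680_ok, V6_17348702400_ok, trivial⟩
  ⟨W_21577084928_ok, W_20569665536_ok, W_20536635392_ok, W_20520120320_ok, W_19479408704_ok, W_19463155712_ok, W_19429601408_ok, W_18422182016_ok, trivial⟩ C_21644193984
theorem L_21644197953 : HH 127 (nat_lit 21644197953, nat_lit 62) := top_sound R_21644197953
  ⟨V6_18422448192_ok, V6_18405670977_ok, V6_17348706369_ok, trivial⟩
  ⟨W_21626884160_ok, W_21593854016_ok, W_21593595968_ok, W_21577080896_ok, W_21576822848_ok, W_20520116288_ok, W_20503343168_ok, W_19479924800_ok, W_19463151680_ok, W_19429605440_ok, W_15201747008_ok, trivial⟩ C_21644197953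
theorem L_21644198016 : HH 127 (nat_lit 21644198016, nat_lit 194) := top_sound R_21644198016
  ⟨V6_19496706048_ok, V6_19496189952_ok, V6_18422448192_ok, trivial⟩
  ⟨W_21593341952_ok, W_21577084928_ok, W_21577080896_ok, W_21576826880_ok, W_21576822848_ok, W_21576818816_ok, W_20569923584_ok, W_20553150464_ok, W_20536893440_ok, W_20520120320_ok, W_20520116288_ok, W_20519854208_ok, W_20503347200_ok, W_20503343168_ok, W_20503339136_ok, W_19496185856_ok, W_19479412736_ok, W_19463155712_ok, W_19446382592_ok, W_19446374528_ok, W_18422448128_ok, W_15201747008_ok, trivial⟩ C_21644198016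
theorem L_21644202048 : HH 127 (nat_lit 21644202048, nat_lit 156) := top_sound R_21644202048
  ⟨V6_20570443776_ok, V6_19496706048_ok, trivial⟩
  ⟨W_21577084928_ok, W_21577080896_ok, W_21576822848_ok, W_20536893440_ok, W_20536635392_ok, W_20520120320_ok, W_20520116288_ok, W_20503347200_ok, W_20503343168_ok, W_20503085120_ok, W_19463155712_ok, W_19446382592_ok, W_19429609472_ok, W_19429605440_ok, W_18389159936_ok, W_18372644864_ok, W_18372640832_ok, W_17332195328_ok, W_17298903104_ok, W_16258453568_ok, W_15201747008_ok, W_15201488960_ok, W_15184973888_ok, trivial⟩ C_21644202048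
theorem L_21644206080 : HH 127 (nat_lit 21644206080, nat_lit 83) := top_sound R_21644206080
  ⟨V6_20503351296_ok, V6_17315684352_ok, V6_16258719744_ok, V6_15201755136_ok, trivial⟩
  ⟨W_21627404288_ok, W_21593858048_ok, W_21577084928_ok, W_20570439680_ok, W_20536893440_ok, W_20520120320_ok, W_20503347200_ok, trivial⟩ C_21644206080
theorem L_21644451969 : HH 127 (nat_lit 21644451969, nat_lit 45) := top_sound R_21644451969
  ⟨V6_19446636609_ok, V6_18389672064_ok, V6_17315930241_ok, trivial⟩
  ⟨W_21643141184_ok, W_20569661504_ok, W_20569399424_ok, W_19496181824_ok, W_19495919744_ok, W_18406187072_ok, trivial⟩ C_21644451969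
theorem L_21644456001 : HH 127 (nat_lit 21644456001, nat_lit 66) := top_sound R_21644456001
  ⟨V6_19480186944_ok, V6_18423222336_ok, trivial⟩
  ⟨W_21626884160_ok, W_21609852992_ok, W_21593595968_ok, W_21593337920_ok, W_20569661504_ok, W_20552888384_ok, W_20536373312_ok, W_20520116288_ok, W_20519858240_ok, W_19495923776_ok, W_19479408704_ok, W_19463151680_ok, trivial⟩ C_21644456001
theorem L_21644456064 : HH 127 (nat_lit 21644456064, nat_lit 169) := top_sound R_21644456064
  ⟨V6_19496706048_ok, V6_18423226368_ok, trivial⟩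
  ⟨W_20569923584_ok, W_20569665536_ok, W_20553150464_ok, W_20536893440_ok, W_20520378368_ok, W_20520120320_ok, W_20520116288_ok, W_20519854208_ok, W_19496185856_ok, W_19463413760_ok, W_19463155712_ok, W_18389676032_ok, W_18372898880_ok, W_16242192512_ok, W_15202001024_ok, W_14128263296_ok, trivial⟩ C_21644456064
theorem L_21644460096 : HH 127 (nat_lit 21644460096, nat_lit 243) := top_sound R_21644460096
  ⟨V6_20570443776_ok, V6_19496964096_ok, V6_19496189952_ok, V6_19480186944_ok, V6_18423222336_ok, trivial⟩
  ⟨W_20569923584_ok, W_20553150464_ok, W_20536893440_ok, W_20520120320_ok, W_20520116288_ok, W_19479412736_ok, W_19463413760_ok, W_19463155712_ok, W_19446636608_ok, W_19446382592_ok, W_18422448128_ok, W_18372898880_ok, W_18372640832_ok, W_17348706368_ok, W_17315938304_ok, W_16242196544_ok, W_15202009088_ok, W_15201747008_ok, W_15185231936_ok, W_14128267328_ok, trivial⟩ C_21644460096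
theorem L_21644464128 : HH 127 (nat_lit 21644464128, nat_lit 158) := top_sound R_21644464128
  ⟨V6_19496964096_ok, V6_19446644736_ok, V6_18423226368_ok, trivial⟩
  ⟨W_21627404288_ok, W_21610889216_ok, W_21594116096_ok, W_20537151488_ok, W_20536893440_ok, W_20536635392_ok, W_20520120320_ok, W_19463155712_ok, W_19446382592_ok, W_19446124544_ok, W_18389159936_ok, W_17315938304_ok, W_15202009088_ok, trivial⟩ C_21644464128
theorem L_21644714049 : HH 127 (nat_lit 21644714049, nat_lit 44) := top_sound R_21644714049
  ⟨V6_21643399233_ok, V6_17349742656_ok, V6_16276004928_ok, trivial⟩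
  ⟨W_21643399232_ok, W_21643141184_ok, W_21626884160_ok, W_21626626112_ok, W_20569661504_ok, W_20536889408_ok, W_19479924800_ok, W_19463409728_ok, W_18389930048_ok, trivial⟩ C_21644714049
theorem L_21644714112 : HH 127 (nat_lit 21644714112, nat_lit 111) := top_sound R_21644714112
  ⟨V6_18406711296_ok, V6_17349746688_ok, trivial⟩
  ⟨W_21643403264_ok, W_21643141184_ok, W_21626626112_ok, W_20569923584_ok, W_20569661504_ok, W_20569399424_ok, W_20536893440_ok, W_19495919744_ok, W_19463413760_ok, W_19462889600_ok, W_16242450560_ok, trivial⟩ C_21644714112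
theorem L_21644718144 : HH 127 (nat_lit 21644718144, nat_lit 209) := top_sound R_21644718144
  ⟨V6_19496706048_ok, V6_18423484416_ok, V6_18406707264_ok, V6_17349742656_ok, trivial⟩
  ⟨W_20569923584_ok, W_20569665536_ok, W_20553150464_ok, W_20537151488_ok, W_20536893440_ok, W_19496185856_ok, W_19495923776_ok, W_19463671808_ok, W_19463413760_ok, W_19463155712_ok, W_18389934080_ok, W_18389676032_ok, W_17316196352_ok, W_16242454592_ok, W_15185489984_ok, W_14128525376_ok, trivial⟩ C_21644718144
theorem L_21644722176 : HH 127 (nat_lit 21644722176, nat_lit 208) := top_sound R_21644722176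
  ⟨V6_20553154560_ok, V6_19496189952_ok, V6_18423484416_ok, V6_17349746688_ok, trivial⟩
  ⟨W_21627404288_ok, W_21610889216_ok, W_20569923584_ok, W_20537409536_ok, W_20536893440_ok, W_19480444928_ok, W_19463671808_ok, W_19463413760_ok, W_19463155712_ok, W_18389934080_ok, W_18389676032_ok, W_17315938304_ok, W_16242458624_ok, W_15202009088_ok, trivial⟩ C_21644722176
theorem L_21644972097 : HH 127 (nat_lit 21644972097, nat_lit 12) := top_sound R_21644972097
  ⟨V6_21643399233_ok, V6_16276262976_ok, trivial⟩
  ⟨W_21626884160_ok, W_19479924800_ok, trivial⟩ C_21644972097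
theorem L_21644976192 : HH 127 (nat_lit 21644976192, nat_lit 121) := top_sound R_21644976192
  ⟨V6_17349746688_ok, V6_17349742656_ok, V6_16276262976_ok, trivial⟩
  ⟨W_21643661312_ok, W_21643403264_ok, W_21643141184_ok, W_21626884160_ok, W_21626626112_ok, W_20570181632_ok, W_20569923584_ok, W_20569661504_ok, W_19480186880_ok, W_16259485760_ok, trivial⟩ C_21644976192
theorem L_21644980224 : HH 127 (nat_lit 21644980224, nat_lit 139) := top_sound R_21644980224
  ⟨V6_19480707072_ok, V6_18423742464_ok, V6_17349746688_ok, V6_16276267008_ok, trivial⟩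
  ⟨W_21643919360_ok, W_21643403264_ok, W_21627404288_ok, W_21626630144_ok, W_20569923584_ok, W_20569665536_ok, W_20553150464_ok, W_19496185856_ok, W_19480186880_ok, W_15185752064_ok, trivial⟩ C_21644980224
theorem L_21645234240 : HH 127 (nat_lit 21645234240, nat_lit 27) := top_sound R_21645234240
  ⟨V6_17349742656_ok, trivial⟩
  ⟨W_21643399232_ok, W_20570181632_ok, trivial⟩ C_21645234240
theorem L_21645238272 : HH 127 (nat_lit 21645238272, nat_lit 75) := top_sound R_21645238272
  ⟨V6_17349746688_ok, trivial⟩
  ⟨W_21643919360_ok, W_20570181632_ok, W_20569923584_ok, W_16276520960_ok, trivial⟩ C_21645238272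
theorem L_21660446850 : HH 127 (nat_lit 21660446850, nat_lit 9) := top_sound R_21660446850
  ⟨V6_21593075841_ok, V6_21576560769_ok, V6_21576556674_ok, V6_20536111233_ok, V6_16291475586_ok, trivial⟩
  ⟨W_19495919744_ok, W_17365475456_ok, W_16291737728_ok, trivial⟩ C_21660446850
theorem L_21660446913 : HH 127 (nat_lit 21660446913, nat_lit 10) := top_sound R_21660446913
  ⟨V6_17348702400_ok, trivial⟩
  ⟨W_21593337920_ok, W_21576560768_ok, W_20552888384_ok, W_20536373312_ok, trivial⟩ C_21660446913
theorem L_21660450945 : HH 127 (nat_lit 21660450945, nat_lit 32) := top_sound R_21660450945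
  ⟨V6_21576564801_ok, V6_17348706369_ok, V6_16291741824_ok, trivial⟩
  ⟨W_21610111040_ok, W_21593337920_ok, W_21576564800_ok, W_21559787648_ok, W_20536373312_ok, W_20536369280_ok, W_20519596160_ok, W_19479404672_ok, trivial⟩ C_21660450945
theorem L_21660451008 : HH 127 (nat_lit 21660451008, nat_lit 41) := top_sound R_21660451008
  ⟨V6_18439225344_ok, V6_16274964672_ok, trivial⟩
  ⟨W_21593341952_ok, W_21593337920_ok, W_21576564800_ok, W_21576560768_ok, W_21559787648_ok, W_20553150464_ok, W_20519596160_ok, W_19479408704_ok, trivial⟩ C_21660451008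
theorem L_21660704898 : HH 127 (nat_lit 21660704898, nat_lit 12) := top_sound R_21660704898
  ⟨V6_21576818817_ok, V6_16291995777_ok, trivial⟩
  ⟨W_21609848960_ok, W_21576818816_ok, W_20569399424_ok, W_20536369280_ok, trivial⟩ C_21660704898
theorem L_21660708993 : HH 127 (nat_lit 21660708993, nat_lit 51) := top_sound R_21660708993
  ⟨V6_18439217217_ok, V6_17365737600_ok, trivial⟩
  ⟨W_21626626112_ok, W_21609848960_ok, W_21593595968_ok, W_21593337920_ok, W_21593333888_ok, W_21576818816_ok, W_21576560768_ok, W_20552888384_ok, W_20536373312_ok, W_20519858240_ok, W_20519596160_ok, W_20503081088_ok, W_19495923776_ok, W_19479408704_ok, W_19479146624_ok, trivial⟩ C_21660708993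
theorem L_21660709056 : HH 127 (nat_lit 21660709056, nat_lit 48) := top_sound R_21660709056
  ⟨V6_19512963072_ok, trivial⟩
  ⟨W_21593337920_ok, W_21576822848_ok, W_21576560768_ok, W_20569665536_ok, W_20553150464_ok, W_20536635392_ok, W_20519858240_ok, W_20503081088_ok, W_18372374720_ok, W_14144516288_ok, trivial⟩ C_21660709056
theorem L_21660713025 : HH 127 (nat_lit 21660713025, nat_lit 52) := top_sound R_21660713025
  ⟨V6_19512954945_ok, V6_17365483584_ok, V6_16291741761_ok, trivial⟩
  ⟨W_21626884160_ok, W_21593595968_ok, W_21593337920_ok, W_21576822848_ok, W_21576564800_ok, W_20536373312_ok, W_20519858240_ok, W_20519600192_ok, W_20503085120_ok, W_19512954944_ok, W_19496439872_ok, trivial⟩ C_21660713025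
theorem L_21660713088 : HH 127 (nat_lit 21660713088, nat_lit 136) := top_sound R_21660713088
  ⟨V6_19513221120_ok, V6_18439225344_ok, V6_16291741824_ok, trivial⟩
  ⟨W_21593595968_ok, W_21593341952_ok, W_21593337920_ok, W_21593333888_ok, W_21576826880_ok, W_21576822848_ok, W_21576818816_ok, W_21576564800_ok, W_21576560768_ok, W_21559787648_ok, W_20569923584_ok, W_20553150464_ok, W_20536635392_ok, W_20519854208_ok, W_20503085120_ok, W_20503081088_ok, W_19496185856_ok, W_19479412736_ok, W_19462889600_ok, W_19429343360_ok, W_18422448128_ok, trivial⟩ C_21660713088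
theorem L_21660717120 : HH 127 (nat_lit 21660717120, nat_lit 82) := top_sound R_21660717120
  ⟨V6_19513221120_ok, trivial⟩
  ⟨W_21610369088_ok, W_21593600000_ok, W_21593595968_ok, W_21576826880_ok, W_21576822848_ok, W_20536635392_ok, W_20519862272_ok, W_20519858240_ok, W_20503085120_ok, W_19446124544_ok, W_18389159936_ok, W_18372382784_ok, W_17332195328_ok, W_16275230720_ok, W_16258453568_ok, W_15218266112_ok, W_15218262080_ok, W_15201488960_ok, trivial⟩ C_21660717120
theorem L_21660967041 : HH 127 (nat_lit 21660967041, nat_lit 51) := top_sound R_21660967041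
  ⟨V6_21577080897_ok, V6_17365737600_ok, V6_16291995777_ok, trivial⟩
  ⟨W_21643141184_ok, W_21626626112_ok, W_21609848960_ok, W_21593595968_ok, W_21577080896_ok, W_21576818816_ok, W_20586176576_ok, W_20569399424_ok, W_20520116288_ok, W_20503339136_ok, W_19463151680_ok, W_19446374528_ok, trivial⟩ C_21660967041
theorem L_21660971073 : HH 127 (nat_lit 21660971073, nat_lit 70) := top_sound R_21660971073
  ⟨V6_21660176448_ok, V6_21643399233_ok, V6_20586696768_ok, V6_19512954945_ok, V6_18439217217_ok, trivial⟩
  ⟨W_21609852992_ok, W_21593854016_ok, W_21593337920_ok, W_21577080896_ok, W_21576822848_ok, W_20536373312_ok, W_20520116288_ok, W_20519858240_ok, W_20503343168_ok, W_19512696896_ok, W_19479408704_ok, W_19463151680_ok, W_19446378560_ok, W_18438959168_ok, trivial⟩ C_21660971073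
theorem L_21660971136 : HH 127 (nat_lit 21660971136, nat_lit 184) := top_sound R_21660971136
  ⟨V6_19513221120_ok, V6_18439741440_ok, trivial⟩
  ⟨W_21609852992_ok, W_21577084928_ok, W_21577080896_ok, W_21576822848_ok, W_21576818816_ok, W_21576560768_ok, W_20586438656_ok, W_20569923584_ok, W_20569665536_ok, W_20553150464_ok, W_20536893440_ok, W_20520120320_ok, W_20520116288_ok, W_20519854208_ok, W_20503343168_ok, W_20503339136_ok, W_20503081088_ok, W_19512700928_ok, W_19496185856_ok, W_19463155712_ok, W_19446374528_ok, W_18439221248_ok, W_18438959168_ok, trivial⟩ C_21660971136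
theorem L_21660975168 : HH 127 (nat_lit 21660975168, nat_lit 253) := top_sound R_21660975168
  ⟨V6_20570443776_ok, V6_20553154560_ok, V6_19513479168_ok, V6_19496189952_ok, V6_18439225344_ok, trivial⟩
  ⟨W_21577084928_ok, W_21577080896_ok, W_21576822848_ok, W_20586696704_ok, W_20569923584_ok, W_20553150464_ok, W_20536893440_ok, W_20520120320_ok, W_20520116288_ok, W_20503347200_ok, W_19479412736_ok, W_19463155712_ok, W_19446382592_ok, W_18422448128_ok, W_18372640832_ok, W_17365483520_ok, W_17348706368_ok, W_16291741760_ok, W_15218524160_ok, W_15218262080_ok, W_15201747008_ok, W_14144782400_ok, trivial⟩ C_21660975168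
theorem L_21660979200 : HH 127 (nat_lit 21660979200, nat_lit 153) := top_sound R_21660979200
  ⟨V6_19513479168_ok, V6_18439741440_ok, trivial⟩
  ⟨W_21627404288_ok, W_21577084928_ok, W_21576826880_ok, W_20536893440_ok, W_20536635392_ok, W_20520120320_ok, W_20503347200_ok, W_19463155712_ok, W_19446382592_ok, W_19446124544_ok, W_19429609472_ok, W_18389159936_ok, W_18372644864_ok, W_17332195328_ok, W_16275230720_ok, W_15218524160_ok, W_15218266112_ok, trivial⟩ C_21660979200
theorem L_21661229121 : HH 127 (nat_lit 21661229121, nat_lit 63) := top_sound R_21661229121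
  ⟨V6_19446636609_ok, V6_18439217217_ok, V6_18423222336_ok, trivial⟩
  ⟨W_21643141184_ok, W_21626884160_ok, W_21593854016_ok, W_21593595968_ok, W_20586434624_ok, W_20569661504_ok, W_20520374336_ok, W_20520116288_ok, W_19512696896_ok, W_19463151680_ok, trivial⟩ C_21661229121
theorem L_21661229184 : HH 127 (nat_lit 21661229184, nat_lit 130) := top_sound R_21661229184
  ⟨V6_18423226368_ok, V6_17366261760_ok, trivial⟩
  ⟨W_21643141184_ok, W_21609848960_ok, W_21593858048_ok, W_21593595968_ok, W_21593333888_ok, W_20586438656_ok, W_20569923584_ok, W_20569661504_ok, W_20569399424_ok, W_20536893440_ok, W_20520116288_ok, W_20519854208_ok, W_19512696896_ok, W_19462889600_ok, W_19446374528_ok, trivial⟩ C_21661229184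
theorem L_21661233216 : HH 127 (nat_lit 21661233216, nat_lit 273) := top_sound R_21661233216
  ⟨V6_19513479168_ok, V6_19496964096_ok, V6_19480186944_ok, V6_18439999488_ok, V6_18423222336_ok, trivial⟩
  ⟨W_21609852992_ok, W_20586696704_ok, W_20586438656_ok, W_20569923584_ok, W_20569665536_ok, W_20569661504_ok, W_20553150464_ok, W_20552888384_ok, W_20537151488_ok, W_20536893440_ok, W_20536635392_ok, W_20536373312_ok, W_20520378368_ok, W_20520120320_ok, W_20520116288_ok, W_20519858240_ok, W_19512700928_ok, W_19496185856_ok, W_19463413760_ok, W_19463155712_ok, W_19446640640_ok, W_19446636608_ok, W_18438959168_ok, W_18389676032_ok, W_18372898880_ok, trivial⟩ C_21661233216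
theorem L_21661237248 : HH 127 (nat_lit 21661237248, nat_lit 241) := top_sound R_21661237248
  ⟨V6_19496189952_ok, V6_18439999488_ok, V6_18439741440_ok, V6_18439225344_ok, trivial⟩
  ⟨W_21660434432_ok, W_21627404288_ok, W_21610889216_ok, W_21594116096_ok, W_20586696704_ok, W_20569923584_ok, W_20537151488_ok, W_20536893440_ok, W_20520378368_ok, W_20520120320_ok, W_19463413760_ok, W_19446382592_ok, W_17315938304_ok, W_15218524160_ok, W_15202009088_ok, W_14145044480_ok, trivial⟩ C_21661237248
theorem L_21661487169 : HH 127 (nat_lit 21661487169, nat_lit 24) := top_sound R_21661487169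
  ⟨V6_17365995585_ok, V6_17349742656_ok, trivial⟩
  ⟨W_21626884160_ok, W_21610369088_ok, W_20586434624_ok, W_20536889408_ok, W_18389930048_ok, trivial⟩ C_21661487169
theorem L_21661491264 : HH 127 (nat_lit 21661491264, nat_lit 212) := top_sound R_21661491264
  ⟨V6_18439741440_ok, V6_18423484416_ok, V6_17366519808_ok, V6_17349742656_ok, trivial⟩
  ⟨W_21659918336_ok, W_21659914304_ok, W_21643141184_ok, W_20586696704_ok, W_20586438656_ok, W_20586434624_ok, W_20569923584_ok, W_20569661504_ok, W_20537151488_ok, W_20536893440_ok, W_19480186880_ok, W_19463671808_ok, W_19463413760_ok, W_19463409728_ok, W_19463151680_ok, W_18389934080_ok, trivial⟩ C_21661491264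
theorem L_21661495296 : HH 127 (nat_lit 21661495296, nat_lit 242) := top_sound R_21661495296
  ⟨V6_20554186752_ok, V6_19512963072_ok, V6_18439999488_ok, V6_18423484416_ok, V6_17366519808_ok, trivial⟩
  ⟨W_21660434432_ok, W_21627404288_ok, W_21610889216_ok, W_20586696704_ok, W_20586438656_ok, W_20569923584_ok, W_20569665536_ok, W_20553150464_ok, W_20537409536_ok, W_20537151488_ok, W_20536893440_ok, W_19463671808_ok, W_19463413760_ok, W_18389934080_ok, W_18389676032_ok, W_17316196352_ok, trivial⟩ C_21661495296
theorem L_21661749312 : HH 127 (nat_lit 21661749312, nat_lit 85) := top_sound R_21661749312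
  ⟨V6_21660176448_ok, V6_17366519808_ok, V6_16276262976_ok, trivial⟩
  ⟨W_20586696704_ok, W_19480186880_ok, W_18406707200_ok, W_17333227520_ok, W_16276262912_ok, W_15219298304_ok, W_14145556544_ok, trivial⟩ C_21661749312
theorem L_21661753344 : HH 127 (nat_lit 21661753344, nat_lit 164) := top_sound R_21661753344
  ⟨V6_19480707072_ok, V6_17366519808_ok, V6_17366261760_ok, V6_16292782080_ok, trivial⟩
  ⟨W_21660434432_ok, W_21660176384_ok, W_21643919360_ok, W_21643403264_ok, W_21627404288_ok, W_20586696704_ok, W_20586438656_ok, W_20569923584_ok, W_19480444928_ok, W_18406965248_ok, W_17333227520_ok, W_16259489792_ok, trivial⟩ C_21661753344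
theorem L_21662011392 : HH 127 (nat_lit 21662011392, nat_lit 79) := top_sound R_21662011392
  ⟨V6_18423484416_ok, V6_17366519808_ok, trivial⟩
  ⟨W_21660434432_ok, W_21660176384_ok, W_21643919360_ok, W_20586696704_ok, W_16276520960_ok, W_14145818624_ok, trivial⟩ C_21662011392
theorem L_21662269440 : HH 127 (nat_lit 21662269440, nat_lit 12) := top_sound R_21662269440
  ⟨V6_17366777856_ok, trivial⟩
  ⟨W_21660434432_ok, W_15219556352_ok, trivial⟩ C_21662269440
theorem L_21676961922 : HH 127 (nat_lit 21676961922, nat_lit 2) := top_sound R_21676961922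
  ⟨V6_16308248706_ok, trivial⟩
  ⟨W_21609848960_ok, trivial⟩ C_21676961922
theorem L_21676961985 : HH 127 (nat_lit 21676961985, nat_lit 2) := top_sound R_21676961985
  ⟨V6_16308252864_ok, trivial⟩
  ⟨W_20552888384_ok, trivial⟩ C_21676961985
theorem L_21677219970 : HH 127 (nat_lit 21677219970, nat_lit 11) := top_sound R_21677219970
  ⟨V6_18455732352_ok, trivial⟩
  ⟨W_21609848960_ok, W_21593333888_ok, W_19479404672_ok, trivial⟩ C_21677219970
theorem L_21677224065 : HH 127 (nat_lit 21677224065, nat_lit 34) := top_sound R_21677224065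
  ⟨V6_18455732352_ok, V6_18439217217_ok, trivial⟩
  ⟨W_21593337920_ok, W_21593333888_ok, W_21576560768_ok, W_20552888384_ok, W_20519596160_ok, W_19496181824_ok, W_19479408704_ok, trivial⟩ C_21677224065
theorem L_21677224128 : HH 127 (nat_lit 21677224128, nat_lit 26) := top_sound R_21677224128
  ⟨V6_18455998464_ok, trivial⟩
  ⟨W_21593337920_ok, W_20569665536_ok, W_20553150464_ok, W_20552888384_ok, trivial⟩ C_21677224128
theorem L_21677228097 : HH 127 (nat_lit 21677228097, nat_lit 25) := top_sound R_21677228097
  ⟨V6_21576564801_ok, V6_18405670977_ok, V6_17348706369_ok, V6_16291741761_ok, trivial⟩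
  ⟨W_21626884160_ok, W_21610111040_ok, W_19512954944_ok, W_18455990336_ok, trivial⟩ C_21677228097
theorem L_21677228160 : HH 127 (nat_lit 21677228160, nat_lit 84) := top_sound R_21677228160
  ⟨V6_18405671040_ok, V6_16308518976_ok, V6_15234777216_ok, trivial⟩
  ⟨W_21593341952_ok, W_21593337920_ok, W_21593333888_ok, W_21576564800_ok, W_21559787648_ok, W_20569923584_ok, W_20553150464_ok, W_19496181824_ok, W_19479404672_ok, W_18422440064_ok, trivial⟩ C_21677228160
theorem L_21677482113 : HH 127 (nat_lit 21677482113, nat_lit 42) := top_sound R_21677482113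
  ⟨V6_18439217217_ok, V6_16291995777_ok, V6_15235031169_ok, trivial⟩
  ⟨W_21643141184_ok, W_21593595968_ok, W_21593333888_ok, W_21576818816_ok, W_20569661504_ok, W_20569399424_ok, W_20519854208_ok, W_19529211968_ok, W_19479404672_ok, W_19462889600_ok, trivial⟩ C_21677482113
theorem L_21677486145 : HH 127 (nat_lit 21677486145, nat_lit 56) := top_sound R_21677486145
  ⟨V6_18456252480_ok, V6_18439217217_ok, V6_17382510657_ok, trivial⟩
  ⟨W_21626884160_ok, W_21626626112_ok, W_21593595968_ok, W_21593337920_ok, W_21576822848_ok, W_20569661504_ok, W_20552888384_ok, W_20536373312_ok, W_20519858240_ok, W_19495923776_ok, W_19479408704_ok, W_17381994560_ok, trivial⟩ C_21677486145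
theorem L_21677486208 : HH 127 (nat_lit 21677486208, nat_lit 137) := top_sound R_21677486208
  ⟨V6_19512963072_ok, V6_18456256512_ok, trivial⟩
  ⟨W_21609848960_ok, W_21593595968_ok, W_21593337920_ok, W_21593333888_ok, W_21576822848_ok, W_21576818816_ok, W_21576560768_ok, W_20586438656_ok, W_20569923584_ok, W_20569661504_ok, W_20553150464_ok, W_20536635392_ok, W_20503081088_ok, W_19529474048_ok, W_19512696896_ok, W_19479404672_ok, W_19462889600_ok, W_19446116480_ok, trivial⟩ C_21677486208
theorem L_21677490240 : HH 127 (nat_lit 21677490240, nat_lit 178) := top_sound R_21677490240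
  ⟨V6_18456256512_ok, V6_18456252480_ok, V6_17382260736_ok, V6_16308518976_ok, trivial⟩
  ⟨W_21593595968_ok, W_21593341952_ok, W_21593337920_ok, W_21576826880_ok, W_21576822848_ok, W_21576564800_ok, W_20586696704_ok, W_20569923584_ok, W_20553150464_ok, W_20536635392_ok, W_20519600192_ok, W_20503085120_ok, W_19529732096_ok, W_19496185856_ok, W_19479412736_ok, W_19462635584_ok, W_18422448128_ok, trivial⟩ C_21677490240
theorem L_21677494272 : HH 127 (nat_lit 21677494272, nat_lit 70) := top_sound R_21677494272
  ⟨V6_20519866368_ok, V6_19462901760_ok, V6_16308781056_ok, trivial⟩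
  ⟨W_21643919360_ok, W_21627146240_ok, W_21593600000_ok, W_20536635392_ok, W_20519862272_ok, W_19529990144_ok, trivial⟩ C_21677494272
theorem L_21677744193 : HH 127 (nat_lit 21677744193, nat_lit 58) := top_sound R_21677744193
  ⟨V6_18439737408_ok, V6_17382510657_ok, V6_17365995585_ok, trivial⟩
  ⟨W_21643141184_ok, W_21626884160_ok, W_21626626112_ok, W_21593595968_ok, W_21577080896_ok, W_20569661504_ok, W_20520116288_ok, W_19529211968_ok, W_19512696896_ok, W_19463151680_ok, trivial⟩ C_21677744193
theorem L_21677744256 : HH 127 (nat_lit 21677744256, nat_lit 144) := top_sound R_21677744256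
  ⟨V6_18456256512_ok, V6_17382776832_ok, trivial⟩
  ⟨W_21659918336_ok, W_21643141184_ok, W_21609848960_ok, W_21593858048_ok, W_21593595968_ok, W_21593333888_ok, W_21577080896_ok, W_21576818816_ok, W_20586438656_ok, W_20569923584_ok, W_20569661504_ok, W_20536893440_ok, W_20520116288_ok, W_20519854208_ok, W_20503339136_ok, W_19463151680_ok, W_19446374528_ok, trivial⟩ C_21677744256
theorem L_21677748288 : HH 127 (nat_lit 21677748288, nat_lit 262) := top_sound R_21677748288
  ⟨V6_20603473920_ok, V6_20603211840_ok, V6_19529732160_ok, V6_19513479168_ok, V6_18456514560_ok, V6_18456252480_ok, trivial⟩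
  ⟨W_21609852992_ok, W_21577084928_ok, W_21577080896_ok, W_21576822848_ok, W_20569923584_ok, W_20569665536_ok, W_20553150464_ok, W_20536893440_ok, W_20536635392_ok, W_20520120320_ok, W_20520116288_ok, W_19529732096_ok, W_19529474048_ok, W_19512700928_ok, W_19496185856_ok, W_19495923776_ok, W_19463155712_ok, W_18455736320_ok, W_18438959168_ok, W_17382256640_ok, W_16308514880_ok, W_15235297280_ok, W_15235035200_ok, W_14161555520_ok, trivial⟩ C_21677748288
theorem L_21677752320 : HH 127 (nat_lit 21677752320, nat_lit 245) := top_sound R_21677752320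
  ⟨V6_18456514560_ok, V6_18456256512_ok, V6_18455998464_ok, V6_17382260736_ok, trivial⟩
  ⟨W_21660434432_ok, W_21627404288_ok, W_21593858048_ok, W_21593341952_ok, W_21577084928_ok, W_21576826880_ok, W_20586696704_ok, W_20536893440_ok, W_20520120320_ok, W_20503347200_ok, W_19529732096_ok, W_19479412736_ok, W_19446382592_ok, W_18422448128_ok, W_15235297280_ok, W_15235039232_ok, W_15218524160_ok, W_14161559552_ok, trivial⟩ C_21677752320
theorem L_21678002241 : HH 127 (nat_lit 21678002241, nat_lit 27) := top_sound R_21678002241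
  ⟨V6_20520374337_ok, V6_16309293120_ok, trivial⟩
  ⟨W_21643399232_ok, W_21626884160_ok, W_21593854016_ok, W_20602949696_ok, W_20586434624_ok, W_20536889408_ok, W_20520374336_ok, trivial⟩ C_21678002241
theorem L_21678006336 : HH 127 (nat_lit 21678006336, nat_lit 244) := top_sound R_21678006336
  ⟨V6_18456514560_ok, V6_18456256512_ok, V6_18456252480_ok, V6_17383034880_ok, trivial⟩
  ⟨W_21676691456_ok, W_21659918336_ok, W_21643141184_ok, W_21594116096_ok, W_21593858048_ok, W_21593854016_ok, W_21593595968_ok, W_20603211776_ok, W_20586696704_ok, W_20586438656_ok, W_20569923584_ok, W_20537151488_ok, W_20536893440_ok, W_20520378368_ok, W_20520374336_ok, W_20520116288_ok, W_19529732096_ok, W_19463413760_ok, W_19463409728_ok, W_19446636608_ok, W_15235551296_ok, W_14161813568_ok, trivial⟩ C_21678006336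
theorem L_21678010368 : HH 127 (nat_lit 21678010368, nat_lit 272) := top_sound R_21678010368
  ⟨V6_19513479168_ok, V6_19496964096_ok, V6_18456772608_ok, V6_18439999488_ok, V6_17383034880_ok, trivial⟩
  ⟨W_20603211776_ok, W_20586696704_ok, W_20586438656_ok, W_20569923584_ok, W_20569665536_ok, W_20553150464_ok, W_20536893440_ok, W_20536635392_ok, W_20520378368_ok, W_20520120320_ok, W_19529474048_ok, W_19496185856_ok, W_19463155712_ok, W_18455736320_ok, W_18389676032_ok, W_17382256640_ok, W_15235297280_ok, W_14161817600_ok, trivial⟩ C_21678010368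
theorem L_21678264384 : HH 127 (nat_lit 21678264384, nat_lit 109) := top_sound R_21678264384
  ⟨V6_17383034880_ok, V6_17366519808_ok, trivial⟩
  ⟨W_21660176384_ok, W_21659914304_ok, W_21643661312_ok, W_21643399232_ok, W_20603211776_ok, W_20602949696_ok, W_20586696704_ok, W_20586434624_ok, W_20537151488_ok, W_19529470016_ok, W_19463409728_ok, trivial⟩ C_21678264384
theorem L_21678268416 : HH 127 (nat_lit 21678268416, nat_lit 255) := top_sound R_21678268416
  ⟨V6_18456772608_ok, V6_18456514560_ok, V6_18423484416_ok, V6_17383034880_ok, V6_17366519808_ok, trivial⟩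
  ⟨W_21676949504_ok, W_21676691456_ok, W_21659918336_ok, W_21610889216_ok, W_20603211776_ok, W_20586696704_ok, W_20586438656_ok, W_20569923584_ok, W_20537409536_ok, W_20537151488_ok, W_20536893440_ok, W_19529732096_ok, W_19529474048_ok, W_19463671808_ok, W_19463413760_ok, W_18389934080_ok, trivial⟩ C_21678268416
theorem L_21678526464 : HH 127 (nat_lit 21678526464, nat_lit 139) := top_sound R_21678526464
  ⟨V6_18456514560_ok, V6_18423742464_ok, V6_17383034880_ok, trivial⟩
  ⟨W_21676949504_ok, W_21676691456_ok, W_21660434432_ok, W_21643919360_ok, W_21627404288_ok, W_20603211776_ok, W_20586696704_ok, W_19480444928_ok, W_19480186880_ok, trivial⟩ C_21678526464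
theorem L_21678784512 : HH 127 (nat_lit 21678784512, nat_lit 57) := top_sound R_21678784512
  ⟨V6_18456772608_ok, V6_17350262784_ok, V6_15236333568_ok, trivial⟩
  ⟨W_21676949504_ok, W_21660434432_ok, W_21643919360_ok, W_17350000640_ok, W_15219556352_ok, W_14162591744_ok, trivial⟩ C_21678784512
theorem L_21693735042 : HH 127 (nat_lit 21693735042, nat_lit 4) := top_sound R_21693735042
  ⟨V6_17381990529_ok, trivial⟩
  ⟨W_21626364032_ok, W_21609848960_ok, trivial⟩ C_21693735042
theorem L_21693739137 : HH 127 (nat_lit 21693739137, nat_lit 10) := top_sound R_21693739137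
  ⟨V6_20569661505_ok, V6_19495923777_ok, trivial⟩
  ⟨W_17398767680_ok, W_17381990528_ok, W_16325029952_ok, trivial⟩ C_21693739137
theorem L_21693739200 : HH 127 (nat_lit 21693739200, nat_lit 6) := top_sound R_21693739200
  ⟨V6_21643407360_ok, V6_15251288256_ok, trivial⟩
  ⟨W_17398771712_ok, W_16325029952_ok, trivial⟩ C_21693739200
theorem L_21693997185 : HH 127 (nat_lit 21693997185, nat_lit 30) := top_sound R_21693997185
  ⟨V6_21643141185_ok, V6_20553146433_ok, V6_18439217217_ok, trivial⟩
  ⟨W_19512696896_ok, W_18455732288_ok, W_17398767680_ok, W_17381990528_ok, W_17365475456_ok, W_15251546240_ok, trivial⟩ C_21693997185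
theorem L_21694001217 : HH 127 (nat_lit 21694001217, nat_lit 34) := top_sound R_21694001217
  ⟨V6_19546247232_ok, V6_18472505409_ok, V6_18439217217_ok, trivial⟩
  ⟨W_21626884160_ok, W_21593337920_ok, W_20552888384_ok, W_20536373312_ok, W_19479408704_ok, W_16308514880_ok, W_15251550272_ok, trivial⟩ C_21694001217
theorem L_21694001280 : HH 127 (nat_lit 21694001280, nat_lit 87) := top_sound R_21694001280
  ⟨V6_19512963072_ok, V6_18455998464_ok, trivial⟩
  ⟨W_21609848960_ok, W_21593333888_ok, W_20586438656_ok, W_20569923584_ok, W_20569661504_ok, W_19529474048_ok, W_18472509440_ok, W_17398767680_ok, W_17381990528_ok, trivial⟩ C_21694001280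
theorem L_21694005312 : HH 127 (nat_lit 21694005312, nat_lit 94) := top_sound R_21694005312
  ⟨V6_17382260736_ok, V6_17365483584_ok, V6_16308518976_ok, trivial⟩
  ⟨W_21643661312_ok, W_21626884160_ok, W_21593341952_ok, W_21593337920_ok, W_21576564800_ok, W_20586696704_ok, W_20569923584_ok, W_19512954944_ok, trivial⟩ C_21694005312
theorem L_21694259265 : HH 127 (nat_lit 21694259265, nat_lit 49) := top_sound R_21694259265
  ⟨V6_18456252480_ok, V6_18439217217_ok, trivial⟩
  ⟨W_21643141184_ok, W_21626884160_ok, W_21626626112_ok, W_21593595968_ok, W_20602949696_ok, W_20569661504_ok, W_19545985088_ok, W_19529211968_ok, W_19512696896_ok, W_18472247360_ok, trivial⟩ C_21694259265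
theorem L_21694259328 : HH 127 (nat_lit 21694259328, nat_lit 105) := top_sound R_21694259328
  ⟨V6_21676695552_ok, V6_18456256512_ok, trivial⟩
  ⟨W_20586438656_ok, W_20569923584_ok, W_19529474048_ok, W_19512696896_ok, W_19479404672_ok, W_19462889600_ok, W_18472509440_ok, W_18422440064_ok, W_18405924992_ok, W_17365475456_ok, W_15251546240_ok, trivial⟩ C_21694259328
theorem L_21694263360 : HH 127 (nat_lit 21694263360, nat_lit 194) := top_sound R_21694263360
  ⟨V6_20603211840_ok, V6_19546247232_ok, V6_18456256512_ok, V6_18456252480_ok, V6_18455998464_ok, trivial⟩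
  ⟨W_21593595968_ok, W_21576822848_ok, W_20586696704_ok, W_20586438656_ok, W_20569923584_ok, W_20569665536_ok, W_20553150464_ok, W_19546247168_ok, W_19529732096_ok, W_19529474048_ok, W_19496185856_ok, W_18472767488_ok, W_17382256640_ok, trivial⟩ C_21694263360
theorem L_21694267392 : HH 127 (nat_lit 21694267392, nat_lit 156) := top_sound R_21694267392
  ⟨V6_21610119168_ok, V6_18456256512_ok, V6_17382260736_ok, trivial⟩
  ⟨W_21660434432_ok, W_20586696704_ok, W_20569923584_ok, W_20553150464_ok, W_19546505216_ok, W_19529732096_ok, W_18472767488_ok, W_15251812352_ok, trivial⟩ C_21694267392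
theorem L_21694517313 : HH 127 (nat_lit 21694517313, nat_lit 23) := top_sound R_21694517313
  ⟨V6_20536889409_ok, V6_16325808192_ok, trivial⟩
  ⟨W_21643399232_ok, W_21626884160_ok, W_21593854016_ok, W_20619464768_ok, W_20602949696_ok, W_19545985088_ok, W_19529470016_ok, trivial⟩ C_21694517313
theorem L_21694521408 : HH 127 (nat_lit 21694521408, nat_lit 228) := top_sound R_21694521408
  ⟨V6_19546247232_ok, V6_18456514560_ok, V6_17399549952_ok, V6_17382776832_ok, trivial⟩
  ⟨W_21676691456_ok, W_21659918336_ok, W_21643141184_ok, W_21593858048_ok, W_21593854016_ok, W_21593595968_ok, W_21577080896_ok, W_20603211776_ok, W_20586696704_ok, W_20586438656_ok, W_20569923584_ok, W_20569661504_ok, W_20536893440_ok, W_20520116288_ok, W_19545989120_ok, W_19529732096_ok, W_19529474048_ok, W_19529211968_ok, W_14178328640_ok, trivial⟩ C_21694521408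
theorem L_21694525440 : HH 127 (nat_lit 21694525440, nat_lit 251) := top_sound R_21694525440
  ⟨V6_20570443776_ok, V6_19513479168_ok, V6_18456514560_ok, V6_17399549952_ok, trivial⟩
  ⟨W_21577084928_ok, W_20569923584_ok, W_20569665536_ok, W_20553150464_ok, W_20536893440_ok, W_20536635392_ok, W_20520120320_ok, W_19546247168_ok, W_19529474048_ok, W_19512700928_ok, W_19496185856_ok, W_19463155712_ok, W_18472509440_ok, W_18455736320_ok, W_17382256640_ok, W_16325292032_ok, W_15251812352_ok, W_15235297280_ok, W_14178332672_ok, trivial⟩ C_21694525440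
theorem L_21694779456 : HH 127 (nat_lit 21694779456, nat_lit 123) := top_sound R_21694779456
  ⟨V6_17399549952_ok, V6_17383034880_ok, V6_15252328512_ok, trivial⟩
  ⟨W_21693206528_ok, W_21676691456_ok, W_21660176384_ok, W_21643399232_ok, W_21610369088_ok, W_21594116096_ok, W_21593854016_ok, W_20586696704_ok, W_20586434624_ok, W_20570181632_ok, W_20537151488_ok, W_20520374336_ok, W_19545985088_ok, trivial⟩ C_21694779456
theorem L_21694783488 : HH 127 (nat_lit 21694783488, nat_lit 253) := top_sound R_21694783488
  ⟨V6_19496964096_ok, V6_18456772608_ok, V6_18439999488_ok, V6_17399549952_ok, V6_17383034880_ok, trivial⟩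
  ⟨W_21693464576_ok, W_21676949504_ok, W_21676691456_ok, W_21659918336_ok, W_20603211776_ok, W_20586696704_ok, W_20586438656_ok, W_20569923584_ok, W_20536893440_ok, W_20520378368_ok, W_19546247168_ok, W_19529732096_ok, W_19529474048_ok, W_19463413760_ok, W_18472509440_ok, W_14178590720_ok, trivial⟩ C_21694783488
theorem L_21695041536 : HH 127 (nat_lit 21695041536, nat_lit 173) := top_sound R_21695041536
  ⟨V6_21611151360_ok, V6_18423484416_ok, V6_17399549952_ok, V6_17366519808_ok, V6_16326328320_ok, trivial⟩
  ⟨W_21693464576_ok, W_21693206528_ok, W_21676949504_ok, W_21676691456_ok, W_21660434432_ok, W_21627404288_ok, W_21610889216_ok, W_20619984896_ok, W_20603211776_ok, W_20586696704_ok, W_20537409536_ok, W_20537151488_ok, W_19546505216_ok, W_14178848768_ok, trivial⟩ C_21695041536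

theorem H_27 : AllH 127 tb27 :=
  ⟨L_21628199040, L_21628203072, L_21628207104, L_21643669698, L_21643673730, L_21643673793, L_21643673856, L_21643931778, L_21643931841, L_21643935873, L_21643935936, L_21643939905, L_21643939968, L_21644189826, L_21644193921, L_21644193984, L_21644197953, L_21644198016, L_21644202048, L_21644206080, L_21644451969, L_21644456001, L_21644456064, L_21644460096, L_21644464128, L_21644714049, L_21644714112, L_21644718144, L_21644722176, L_21644972097, L_21644976192, L_21644980224, L_21645234240, L_21645238272, L_21660446850, L_21660446913, L_21660450945, L_21660451008, L_21660704898, L_21660708993, L_21660709056, L_21660713025, L_21660713088, L_21660717120, L_21660967041, L_21660971073, L_21660971136, L_21660975168, L_21660979200, L_21661229121, L_21661229184, L_21661233216, L_21661237248, L_21661487169, L_21661491264, L_21661495296, L_21661749312, L_21661753344, L_21662011392, L_21662269440, L_21676961922, L_21676961985, L_21677219970, L_21677224065, L_21677224128, L_21677228097, L_21677228160, L_21677482113,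 L_21677486145, L_21677486208, L_21677490240, L_21677494272, L_21677744193, L_21677744256, L_21677748288, L_21677752320, L_21678002241, L_21678006336, L_21678010368, L_21678264384, L_21678268416, L_21678526464, L_21678784512, L_21693735042, L_21693739137, L_21693739200, L_21693997185, L_21694001217, L_21694001280, L_21694005312, L_21694259265, L_21694259328, L_21694263360, L_21694267392, L_21694517313, L_21694521408, L_21694525440, L_21694779456, L_21694783488, L_21695041536, trivial⟩

theorem L_21695299584 : HH 127 (nat_lit 21695299584, nat_lit 68) := top_sound R_21695299584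
  ⟨V6_21693726720_ok, V6_20620247040_ok, V6_19480707072_ok, V6_16326328320_ok, trivial⟩
  ⟨W_21676949504_ok, W_20619984896_ok, W_19480444928_ok, W_18456510464_ok, W_17350000640_ok, trivial⟩ C_21695299584
theorem L_21710250114 : HH 127 (nat_lit 21710250114, nat_lit 4) := top_sound R_21710250114
  ⟨V6_18472247424_ok, trivial⟩
  ⟨W_20569399424_ok, W_16341540992_ok, trivial⟩ C_21710250114
theorem L_21710512257 : HH 127 (nat_lit 21710512257, nat_lit 14) := top_sound R_21710512257
  ⟨V6_18455732352_ok, trivial⟩
  ⟨W_21643141184_ok, W_21626626112_ok, W_17415282752_ok, W_16341540992_ok, trivial⟩ C_21710512257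
theorem L_21710516289 : HH 127 (nat_lit 21710516289, nat_lit 13) := top_sound R_21710516289
  ⟨V6_19495923777_ok, V6_16341803073_ok, V6_15268065345_ok, trivial⟩
  ⟨W_21643399232_ok, W_18472505408_ok, W_16325029952_ok, trivial⟩ C_21710516289
theorem L_21710516352 : HH 127 (nat_lit 21710516352, nat_lit 24) := top_sound R_21710516352
  ⟨V6_21643407360_ok, V6_18455732352_ok, trivial⟩
  ⟨W_18472509440_ok, W_17415544832_ok, W_16341803072_ok, W_16325029952_ok, trivial⟩ C_21710516352
theorem L_21710774337 : HH 127 (nat_lit 21710774337, nat_lit 30) := top_sound R_21710774337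
  ⟨V6_20553146433_ok, V6_19545985089_ok, V6_19512954945_ok, V6_18472505409_ok, V6_18439217217_ok, trivial⟩
  ⟨W_21659914304_ok, W_21643141184_ok, W_21626884160_ok, W_19545985088_ok, W_19529211968_ok, W_18489020480_ok, W_17415282752_ok, W_16342061120_ok, trivial⟩ C_21710774337
theorem L_21710774400 : HH 127 (nat_lit 21710774400, nat_lit 77) := top_sound R_21710774400
  ⟨V6_20586700800_ok, V6_18455732352_ok, trivial⟩
  ⟨W_21659918336_ok, W_20569923584_ok, W_20569399424_ok, W_19545989120_ok, W_18489024512_ok, W_18472247360_ok, W_17415544832_ok, W_16342065152_ok, W_16341540992_ok, trivial⟩ C_21710774400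
theorem L_21710778432 : HH 127 (nat_lit 21710778432, nat_lit 115) := top_sound R_21710778432
  ⟨V6_19546247232_ok, V6_19512963072_ok, V6_18455998464_ok, trivial⟩
  ⟨W_21593337920_ok, W_20603211776_ok, W_20586696704_ok, W_20586438656_ok, W_20569923584_ok, W_19529732096_ok, W_17415544832_ok, W_16341807104_ok, trivial⟩ C_21710778432
theorem L_21710782464 : HH 127 (nat_lit 21710782464, nat_lit 87) := top_sound R_21710782464
  ⟨V6_18439225344_ok, V6_17382260736_ok, V6_16325296128_ok, V6_15268331520_ok, trivial⟩
  ⟨W_21660434432_ok, W_19546505216_ok, W_19529732096_ok, W_18489540608_ok, W_18472767488_ok, W_15268327424_ok, trivial⟩ C_21710782464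
theorem L_21711032385 : HH 127 (nat_lit 21711032385, nat_lit 19) := top_sound R_21711032385
  ⟨V6_21610369089_ok, V6_16342323264_ok, trivial⟩
  ⟨W_21659914304_ok, W_21626884160_ok, W_21610369088_ok, W_20586434624_ok, trivial⟩ C_21711032385
theorem L_21711036480 : HH 127 (nat_lit 21711036480, nat_lit 169) := top_sound R_21711036480
  ⟨V6_19513221120_ok, V6_18456256512_ok, trivial⟩
  ⟨W_21676691456_ok, W_21659918336_ok, W_21659914304_ok, W_21643141184_ok, W_20603211776_ok, W_20602949696_ok, W_20586696704_ok, W_20569923584_ok, W_19546247168_ok, W_19545985088_ok, W_19529732096_ok, W_18489282560_ok, W_18489024512_ok, W_18489020480_ok, W_18472505408_ok, W_15268581440_ok, trivial⟩ C_21711036480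
theorem L_21711040512 : HH 127 (nat_lit 21711040512, nat_lit 172) := top_sound R_21711040512
  ⟨V6_19513221120_ok, V6_18456256512_ok, V6_18455998464_ok, trivial⟩
  ⟨W_21676949504_ok, W_21660434432_ok, W_20619984896_ok, W_20603211776_ok, W_20586696704_ok, W_20569923584_ok, W_19563020288_ok, W_19546247168_ok, W_18489282560_ok, W_17416060928_ok, W_15268585472_ok, W_15268327424_ok, trivial⟩ C_21711040512
theorem L_21711294528 : HH 127 (nat_lit 21711294528, nat_lit 101) := top_sound R_21711294528
  ⟨V6_21627408384_ok, V6_17399549952_ok, trivial⟩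
  ⟨W_21693206528_ok, W_21676691456_ok, W_20636241920_ok, W_20603211776_ok, W_19562762240_ok, W_19546247168_ok, W_19529732096_ok, W_18489282560_ok, W_18489020480_ok, W_18472505408_ok, trivial⟩ C_21711294528
theorem L_21711298560 : HH 127 (nat_lit 21711298560, nat_lit 236) := top_sound R_21711298560
  ⟨V6_18439741440_ok, V6_17399549952_ok, V6_17382776832_ok, trivial⟩
  ⟨W_21693464576_ok, W_21676949504_ok, W_21676691456_ok, W_21660434432_ok, W_21659918336_ok, W_21627404288_ok, W_21593858048_ok, W_20636499968_ok, W_20619984896_ok, W_20603211776_ok, W_20586696704_ok, W_20586438656_ok, W_20569923584_ok, W_20536893440_ok, W_19546247168_ok, trivial⟩ C_21711298560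
theorem L_21711556608 : HH 127 (nat_lit 21711556608, nat_lit 168) := top_sound R_21711556608
  ⟨V6_18456772608_ok, V6_18439999488_ok, V6_17399549952_ok, V6_17383034880_ok, trivial⟩
  ⟨W_21693464576_ok, W_21693206528_ok, W_21676949504_ok, W_21676691456_ok, W_21660434432_ok, W_21627404288_ok, W_21610889216_ok, W_21594116096_ok, W_20636499968_ok, W_20619984896_ok, W_20603211776_ok, W_19563020288_ok, W_19562762240_ok, W_19546505216_ok, W_15269101568_ok, W_15268843520_ok, trivial⟩ C_21711556608
theorem L_21711814656 : HH 127 (nat_lit 21711814656, nat_lit 89) := top_sound R_21711814656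
  ⟨V6_21693726720_ok, V6_20554186752_ok, V6_18456772608_ok, V6_16326328320_ok, trivial⟩
  ⟨W_21709979648_ok, W_21676949504_ok, W_21610889216_ok, W_20619984896_ok, W_20537409536_ok, W_19563020288_ok, W_19480444928_ok, W_17416060928_ok, W_15269101568_ok, trivial⟩ C_21711814656
theorem L_21727027329 : HH 127 (nat_lit 21727027329, nat_lit 6) := top_sound R_21727027329
  ⟨V6_21643141185_ok, V6_16358318208_ok, V6_16358318145_ok, V6_16341540993_ok, trivial⟩
  ⟨W_19529211968_ok, W_16341540992_ok, trivial⟩ C_21727027329
theorem L_21727289409 : HH 127 (nat_lit 21727289409, nat_lit 15) := top_sound R_21727289409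
  ⟨V6_20569661505_ok, V6_18472505409_ok, V6_16358318145_ok, V6_16341803073_ok, trivial⟩
  ⟨W_21659914304_ok, W_21643141184_ok, W_20586434624_ok, W_16358576192_ok, trivial⟩ C_21727289409
theorem L_21727289472 : HH 127 (nat_lit 21727289472, nat_lit 34) := top_sound R_21727289472
  ⟨V6_19562766336_ok, V6_18455732352_ok, trivial⟩
  ⟨W_21659918336_ok, W_21643141184_ok, W_20586438656_ok, W_16358580224_ok, trivial⟩ C_21727289472
theorem L_21727293504 : HH 127 (nat_lit 21727293504, nat_lit 38) := top_sound R_21727293504
  ⟨V6_21643407360_ok, V6_19546247232_ok, V6_16358584320_ok, trivial⟩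
  ⟨W_20603211776_ok, W_17432317952_ok, W_17415544832_ok, W_16358580224_ok, W_16358576192_ok, W_16341807104_ok, trivial⟩ C_21727293504
theorem L_21727547457 : HH 127 (nat_lit 21727547457, nat_lit 11) := top_sound R_21727547457
  ⟨V6_19579277376_ok, V6_19512954945_ok, V6_17399025729_ok, trivial⟩
  ⟨W_21643399232_ok, W_21626884160_ok, W_20619464768_ok, W_16358576192_ok, trivial⟩ C_21727547457
theorem L_21727551552 : HH 127 (nat_lit 21727551552, nat_lit 109) := top_sound R_21727551552
  ⟨V6_20586700800_ok, V6_19546247232_ok, V6_19529732160_ok, trivial⟩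
  ⟨W_21676691456_ok, W_21659918336_ok, W_20603211776_ok, W_19562762240_ok, W_19545989120_ok, W_18489282560_ok, W_18489024512_ok, W_18472767488_ok, W_17415802880_ok, W_16358838272_ok, W_16358580224_ok, trivial⟩ C_21727551552
theorem L_21727555584 : HH 127 (nat_lit 21727555584, nat_lit 104) := top_sound R_21727555584
  ⟨V6_20569927680_ok, V6_18455998464_ok, V6_16358584320_ok, trivial⟩
  ⟨W_21676949504_ok, W_21660434432_ok, W_19563020288_ok, W_19546247168_ok, W_18506055680_ok, W_18489540608_ok, W_18489282560_ok, W_17432317952_ok, W_16358838272_ok, W_16358580224_ok, W_16341807104_ok, trivial⟩ C_21727555584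
theorem L_21727809600 : HH 127 (nat_lit 21727809600, nat_lit 76) := top_sound R_21727809600
  ⟨V6_19546247232_ok, V6_19529732160_ok, V6_18456252480_ok, trivial⟩
  ⟨W_21693206528_ok, W_21676691456_ok, W_20586696704_ok, W_19579277312_ok, W_19562762240_ok, W_19529732096_ok, W_16358838272_ok, trivial⟩ C_21727809600
theorem L_21727813632 : HH 127 (nat_lit 21727813632, nat_lit 162) := top_sound R_21727813632
  ⟨V6_21676695552_ok, V6_19513221120_ok, V6_18456256512_ok, trivial⟩
  ⟨W_21676949504_ok, W_21676691456_ok, W_21660434432_ok, W_21659918336_ok, W_20636499968_ok, W_20619984896_ok, W_20603211776_ok, W_19579535360_ok, W_19563020288_ok, W_19546247168_ok, W_18489282560_ok, W_18489024512_ok, W_17416060928_ok, trivial⟩ C_21727813632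
theorem L_21728071680 : HH 127 (nat_lit 21728071680, nat_lit 143) := top_sound R_21728071680
  ⟨V6_21627408384_ok, V6_18456514560_ok, V6_17399549952_ok, trivial⟩
  ⟨W_21709979648_ok, W_21693464576_ok, W_21676949504_ok, W_20653015040_ok, W_20636499968_ok, W_20619984896_ok, W_20586696704_ok, W_19579535360_ok, W_19579277312_ok, W_19563020288_ok, W_19562762240_ok, W_19546247168_ok, W_18489282560_ok, trivial⟩ C_21728071680
theorem L_21728329728 : HH 127 (nat_lit 21728329728, nat_lit 74) := top_sound R_21728329728
  ⟨V6_21726756864_ok, V6_20620247040_ok, V6_18456772608_ok, V6_16359358464_ok, trivial⟩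
  ⟨W_21676949504_ok, W_21627404288_ok, W_21610889216_ok, W_18456510464_ok, W_17432576000_ok, W_16359096320_ok, trivial⟩ C_21728329728
theorem L_21743804481 : HH 127 (nat_lit 21743804481, nat_lit 4) := top_sound R_21743804481
  ⟨V6_18505797696_ok, trivial⟩
  ⟨W_21643141184_ok, trivial⟩ C_21743804481
theorem L_21743804544 : HH 127 (nat_lit 21743804544, nat_lit 15) := top_sound R_21743804544
  ⟨V6_19562766336_ok, trivial⟩
  ⟨W_21659918336_ok, W_21626364032_ok, W_20569399424_ok, trivial⟩ C_21743804544
theorem L_21744062529 : HH 127 (nat_lit 21744062529, nat_lit 6) := top_sound R_21744062529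
  ⟨V6_18505797696_ok, V6_18472505409_ok, trivial⟩
  ⟨W_21659914304_ok, W_21643399232_ok, trivial⟩ C_21744062529
theorem L_21744066624 : HH 127 (nat_lit 21744066624, nat_lit 51) := top_sound R_21744066624
  ⟨V6_21676695552_ok, V6_19546247232_ok, V6_18522574848_ok, V6_17448837120_ok, trivial⟩
  ⟨W_20603211776_ok, W_20586438656_ok, W_17448833024_ok, W_17432317952_ok, W_17432055872_ok, W_17415544832_ok, trivial⟩ C_21744066624
theorem L_21744070656 : HH 127 (nat_lit 21744070656, nat_lit 30) := top_sound R_21744070656
  ⟨V6_21693726720_ok, V6_21643407360_ok, trivial⟩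
  ⟨W_19529474048_ok, W_17449091072_ok, W_17415544832_ok, W_17398771712_ok, trivial⟩ C_21744070656
theorem L_21744324672 : HH 127 (nat_lit 21744324672, nat_lit 44) := top_sound R_21744324672
  ⟨V6_20586696768_ok, V6_19529732160_ok, V6_18505797696_ok, trivial⟩
  ⟨W_21693206528_ok, W_20586696704_ok, W_17432317952_ok, W_17415802880_ok, trivial⟩ C_21744324672
theorem L_21744328704 : HH 127 (nat_lit 21744328704, nat_lit 109) := top_sound R_21744328704
  ⟨V6_21676695552_ok, V6_20586700800_ok, V6_17449353216_ok, V6_17448837120_ok, trivial⟩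
  ⟨W_21693464576_ok, W_21676949504_ok, W_21660434432_ok, W_20636499968_ok, W_20619984896_ok, W_19579535360_ok, W_19563020288_ok, W_18522570752_ok, W_18472767488_ok, W_17415544832_ok, trivial⟩ C_21744328704
theorem L_21744586752 : HH 127 (nat_lit 21744586752, nat_lit 99) := top_sound R_21744586752
  ⟨V6_20620247040_ok, V6_20603473920_ok, V6_18522574848_ok, V6_17449353216_ok, trivial⟩
  ⟨W_21693206528_ok, W_21676949504_ok, W_21676691456_ok, W_21660434432_ok, W_20653015040_ok, W_20586696704_ok, W_17449091072_ok, W_17448833024_ok, W_17416060928_ok, trivial⟩ C_21744586752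
theorem L_21744844800 : HH 127 (nat_lit 21744844800, nat_lit 67) := top_sound R_21744844800
  ⟨V6_21726756864_ok, V6_21693726720_ok, V6_20620247040_ok, V6_17449353216_ok, trivial⟩
  ⟨W_21709979648_ok, W_21627404288_ok, W_18456510464_ok, W_17449091072_ok, W_17432576000_ok, W_17416060928_ok, trivial⟩ C_21744844800
theorem L_21760577601 : HH 127 (nat_lit 21760577601, nat_lit 2) := top_sound R_21760577601
  ⟨V6_19579277376_ok, V6_19545985089_ok, trivial⟩
  ⟨W_21659914304_ok, trivial⟩ C_21760577601
theorem L_21760581696 : HH 127 (nat_lit 21760581696, nat_lit 18) := top_sound R_21760581696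
  ⟨V6_19562766336_ok, trivial⟩
  ⟨W_21676691456_ok, W_21659914304_ok, W_21643141184_ok, trivial⟩ C_21760581696
theorem L_21760839744 : HH 127 (nat_lit 21760839744, nat_lit 22) := top_sound R_21760839744
  ⟨V6_19546247232_ok, V6_18539089920_ok, V6_18505797696_ok, trivial⟩
  ⟨W_21693206528_ok, W_21676691456_ok, W_19562762240_ok, trivial⟩ C_21760839744
theorem L_21760843776 : HH 127 (nat_lit 21760843776, nat_lit 47) := top_sound R_21760843776
  ⟨V6_21676695552_ok, V6_19596312576_ok, V6_18522832896_ok, V6_18522574848_ok, trivial⟩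
  ⟨W_21676949504_ok, W_20586438656_ok, W_18522570752_ok, W_18472509440_ok, trivial⟩ C_21760843776
theorem L_21761101824 : HH 127 (nat_lit 21761101824, nat_lit 62) := top_sound R_21761101824
  ⟨V6_20603473920_ok, V6_18522832896_ok, V6_18522574848_ok, trivial⟩
  ⟨W_21709979648_ok, W_21693206528_ok, W_21676949504_ok, W_20653015040_ok, W_20636499968_ok, W_19579535360_ok, W_18522570752_ok, W_18489282560_ok, trivial⟩ C_21761101824
theorem L_21761359872 : HH 127 (nat_lit 21761359872, nat_lit 43) := top_sound R_21761359872
  ⟨V6_20620247040_ok, V6_19596312576_ok, V6_18522832896_ok, trivial⟩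
  ⟨W_21726494720_ok, W_21676949504_ok, W_21660434432_ok, W_19612565504_ok, W_18522570752_ok, trivial⟩ C_21761359872
theorem L_21777354816 : HH 127 (nat_lit 21777354816, nat_lit 7) := top_sound R_21777354816
  ⟨V6_21693468672_ok, trivial⟩
  ⟨W_21693206528_ok, W_20636241920_ok, trivial⟩ C_21777354816
theorem L_21777358848 : HH 127 (nat_lit 21777358848, nat_lit 20) := top_sound R_21777358848
  ⟨V6_19596312576_ok, V6_19562766336_ok, trivial⟩
  ⟨W_21693464576_ok, W_20636499968_ok, trivial⟩ C_21777358848
theorem L_21777616896 : HH 127 (nat_lit 21777616896, nat_lit 27) := top_sound R_21777616896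
  ⟨V6_21693726720_ok, V6_19596312576_ok, trivial⟩
  ⟨W_21676691456_ok, W_20603211776_ok, trivial⟩ C_21777616896
theorem L_21777874944 : HH 127 (nat_lit 21777874944, nat_lit 30) := top_sound R_21777874944
  ⟨V6_20620247040_ok, V6_19629342720_ok, V6_19612827648_ok, trivial⟩
  ⟨W_21726494720_ok, W_21660434432_ok, W_20669530112_ok, W_20653015040_ok, W_19612565504_ok, trivial⟩ C_21777874944
theorem L_21793869888 : HH 127 (nat_lit 21793869888, nat_lit 1) := top_sound R_21793869888
  ⟨V6_20653019136_ok, trivial⟩
  ⟨W_20619464768_ok, trivial⟩ C_21793869888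
theorem L_21794131968 : HH 127 (nat_lit 21794131968, nat_lit 11) := top_sound R_21794131968
  ⟨V6_21693468672_ok, trivial⟩
  ⟨W_21709979648_ok, W_20653015040_ok, W_20636241920_ok, trivial⟩ C_21794131968
theorem L_21794390016 : HH 127 (nat_lit 21794390016, nat_lit 11) := top_sound R_21794390016
  ⟨V6_20636762112_ok, trivial⟩
  ⟨W_21709979648_ok, W_20669530112_ok, W_20653015040_ok, trivial⟩ C_21794390016
theorem L_21810905088 : HH 127 (nat_lit 21810905088, nat_lit 6) := top_sound R_21810905088
  ⟨V6_21726756864_ok, trivial⟩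
  ⟨W_21709979648_ok, trivial⟩ C_21810905088
theorem L_22650306819 : HH 127 (nat_lit 22650306819, nat_lit 1) := top_sound R_22650306819
  ⟨V6_16207855875_ok, trivial⟩
  ⟨W_20469268736_ok, trivial⟩ C_22650306819
theorem L_22650568962 : HH 127 (nat_lit 22650568962, nat_lit 1) := top_sound R_22650568962
  ⟨V6_19412304129_ok, trivial⟩
  ⟨W_19429343360_ok, trivial⟩ C_22650568962
theorem L_22650831042 : HH 127 (nat_lit 22650831042, nat_lit 2) := top_sound R_22650831042
  ⟨V6_20502818946_ok, V6_18355859649_ok, trivial⟩
  ⟨W_19429343360_ok, W_19429081280_ok, trivial⟩ C_22650831042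
theorem L_22650831105 : HH 127 (nat_lit 22650831105, nat_lit 4) := top_sound R_22650831105
  ⟨V6_16208380161_ok, trivial⟩
  ⟨W_21576564800_ok, W_20503085120_ok, trivial⟩ C_22650831105
theorem L_22650835074 : HH 127 (nat_lit 22650835074, nat_lit 3) := top_sound R_22650835074
  ⟨V6_17282125953_ok, trivial⟩
  ⟨W_21576818816_ok, W_20503081088_ok, trivial⟩ C_22650835074
theorem L_22650835137 : HH 127 (nat_lit 22650835137, nat_lit 3) := top_sound R_22650835137
  ⟨V6_16208384193_ok, trivial⟩
  ⟨W_21576822848_ok, W_20503081088_ok, trivial⟩ C_22650835137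
theorem L_22650835200 : HH 127 (nat_lit 22650835200, nat_lit 4) := top_sound R_22650835200
  ⟨V6_16208384256_ok, trivial⟩
  ⟨W_21576826880_ok, W_20503085120_ok, trivial⟩ C_22650835200
theorem L_22650839169 : HH 127 (nat_lit 22650839169, nat_lit 4) := top_sound R_22650839169
  ⟨V6_17282129985_ok, V6_17282125953_ok, trivial⟩
  ⟨W_21577080896_ok, W_20503343168_ok, trivial⟩ C_22650839169
theorem L_22650839232 : HH 127 (nat_lit 22650839232, nat_lit 8) := top_sound R_22650839232
  ⟨V6_19429613568_ok, trivial⟩
  ⟨W_21577084928_ok, W_19429601408_ok, trivial⟩ C_22650839232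
theorem L_22667084034 : HH 127 (nat_lit 22667084034, nat_lit 3) := top_sound R_22667084034
  ⟨V6_20469268737_ok, V6_19412304129_ok, V6_19395526914_ok, trivial⟩
  ⟨W_19445858432_ok, trivial⟩ C_22667084034
theorem L_22667346114 : HH 127 (nat_lit 22667346114, nat_lit 3) := top_sound R_22667346114
  ⟨V6_20502823104_ok, trivial⟩
  ⟨W_19446116480_ok, W_18372374720_ok, trivial⟩ C_22667346114
theorem L_22667346177 : HH 127 (nat_lit 22667346177, nat_lit 5) := top_sound R_22667346177
  ⟨V6_18372116736_ok, trivial⟩
  ⟨W_22633529408_ok, W_19446120512_ok, trivial⟩ C_22667346177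
theorem L_22667350146 : HH 127 (nat_lit 22667350146, nat_lit 1) := top_sound R_22667350146
  ⟨V6_18372382848_ok, trivial⟩
  ⟨W_21576818816_ok, trivial⟩ C_22667350146
theorem L_22667350209 : HH 127 (nat_lit 22667350209, nat_lit 3) := top_sound R_22667350209
  ⟨V6_18372382785_ok, trivial⟩
  ⟨W_22633787456_ok, W_20503085120_ok, trivial⟩ C_22667350209
theorem L_22667350272 : HH 127 (nat_lit 22667350272, nat_lit 2) := top_sound R_22667350272
  ⟨V6_17298641088_ok, trivial⟩
  ⟨W_21576826880_ok, trivial⟩ C_22667350272
theorem L_22667604162 : HH 127 (nat_lit 22667604162, nat_lit 2) := top_sound R_22667604162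
  ⟨V6_20502818946_ok, V6_18355859649_ok, trivial⟩
  ⟨W_19429601408_ok, trivial⟩ C_22667604162
theorem L_22667608194 : HH 127 (nat_lit 22667608194, nat_lit 8) := top_sound R_22667608194
  ⟨V6_19446374529_ok, trivial⟩
  ⟨W_22650298496_ok, W_20503339136_ok, W_20502823040_ok, trivial⟩ C_22667608194
theorem L_22667608257 : HH 127 (nat_lit 22667608257, nat_lit 13) := top_sound R_22667608257
  ⟨V6_20503085121_ok, V6_20502823104_ok, V6_19429601472_ok, trivial⟩
  ⟨W_21593337920_ok, W_19446378560_ok, W_18372640832_ok, trivial⟩ C_22667608257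
theorem L_22667608320 : HH 127 (nat_lit 22667608320, nat_lit 16) := top_sound R_22667608320
  ⟨V6_21577089024_ok, trivial⟩
  ⟨W_22650306560_ok, W_21593341952_ok, W_21576564800_ok, W_18355339520_ok, W_17282121920_ok, W_16208380160_ok, W_15151415552_ok, trivial⟩ C_22667608320
theorem L_22667612289 : HH 127 (nat_lit 22667612289, nat_lit 14) := top_sound R_22667612289
  ⟨V6_19446374529_ok, V6_17282125953_ok, trivial⟩
  ⟨W_21593595968_ok, W_21577080896_ok, W_20519858240_ok, W_20503085120_ok, trivial⟩ C_22667612289
theorem L_22667612352 : HH 127 (nat_lit 22667612352, nat_lit 20) := top_sound R_22667612352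
  ⟨V6_17282126016_ok, V6_16225161408_ok, trivial⟩
  ⟨W_21593600000_ok, W_21577084928_ok, W_21576826880_ok, W_20519858240_ok, W_20503081088_ok, trivial⟩ C_22667612352
theorem L_22667616321 : HH 127 (nat_lit 22667616321, nat_lit 6) := top_sound R_22667616321
  ⟨V6_16225165377_ok, trivial⟩
  ⟨W_21593854016_ok, W_21577080896_ok, W_20503343168_ok, trivial⟩ C_22667616321
theorem L_22667616384 : HH 127 (nat_lit 22667616384, nat_lit 24) := top_sound R_22667616384
  ⟨V6_19429613568_ok, V6_16225165440_ok, trivial⟩
  ⟨W_22650822656_ok, W_21593858048_ok, W_20520116288_ok, W_20503339136_ok, W_18355871744_ok, trivial⟩ C_22667616384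
theorem L_22667866242 : HH 127 (nat_lit 22667866242, nat_lit 2) := top_sound R_22667866242
  ⟨V6_18372894849_ok, trivial⟩
  ⟨W_20519596160_ok, trivial⟩ C_22667866242
theorem L_22667866305 : HH 127 (nat_lit 22667866305, nat_lit 5) := top_sound R_22667866305
  ⟨V6_21593075841_ok, V6_16225415361_ok, trivial⟩
  ⟨W_19446378560_ok, trivial⟩ C_22667866305
theorem L_22667870337 : HH 127 (nat_lit 22667870337, nat_lit 13) := top_sound R_22667870337
  ⟨V6_18372894849_ok, V6_17299161153_ok, trivial⟩
  ⟨W_22667075648_ok, W_21593337920_ok, W_21593333888_ok, W_20519600192_ok, W_20519596160_ok, trivial⟩ C_22667870337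
theorem L_22667870400 : HH 127 (nat_lit 22667870400, nat_lit 20) := top_sound R_22667870400
  ⟨V6_19446644736_ok, V6_16225419456_ok, trivial⟩
  ⟨W_22667079680_ok, W_21593337920_ok, W_20519862272_ok, W_20519600192_ok, trivial⟩ C_22667870400
theorem L_22667874369 : HH 127 (nat_lit 22667874369, nat_lit 10) := top_sound R_22667874369
  ⟨V6_17299161153_ok, trivial⟩
  ⟨W_21593595968_ok, W_20520374336_ok, trivial⟩ C_22667874369
theorem L_22667874432 : HH 127 (nat_lit 22667874432, nat_lit 22) := top_sound R_22667874432
  ⟨V6_17298903168_ok, V6_16225423488_ok, trivial⟩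
  ⟨W_21593600000_ok, W_21593595968_ok, W_20519862272_ok, W_20519858240_ok, trivial⟩ C_22667874432
theorem L_22667878464 : HH 127 (nat_lit 22667878464, nat_lit 19) := top_sound R_22667878464
  ⟨V6_18372907008_ok, V6_16225427520_ok, trivial⟩
  ⟨W_21593858048_ok, W_21593854016_ok, W_20520374336_ok, trivial⟩ C_22667878464
theorem L_22667882496 : HH 127 (nat_lit 22667882496, nat_lit 3) := top_sound R_22667882496
  ⟨V6_17299169280_ok, trivial⟩
  ⟨W_21594116096_ok, trivial⟩ C_22667882496
theorem L_22683861186 : HH 127 (nat_lit 22683861186, nat_lit 4) := top_sound R_22683861186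
  ⟨V6_17315152065_ok, trivial⟩
  ⟨W_22616752256_ok, W_21576560768_ok, W_20519596160_ok, trivial⟩ C_22683861186
theorem L_22683861249 : HH 127 (nat_lit 22683861249, nat_lit 7) := top_sound R_22683861249
  ⟨V6_20469268737_ok, V6_19412304129_ok, V6_17315152065_ok, trivial⟩
  ⟨W_22616752256_ok, W_21576564800_ok, W_20519600192_ok, trivial⟩ C_22683861249
theorem L_22684119234 : HH 127 (nat_lit 22684119234, nat_lit 1) := top_sound R_22684119234
  ⟨V6_16241668290_ok, trivial⟩
  ⟨W_21576560768_ok, trivial⟩ C_22684119234
theorem L_22684123266 : HH 127 (nat_lit 22684123266, nat_lit 9) := top_sound R_22684123266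
  ⟨V6_21576818817_ok, V6_21560049792_ok, V6_21559787649_ok, trivial⟩
  ⟨W_21559787648_ok, W_20536369280_ok, W_19462889600_ok, trivial⟩ C_22684123266
theorem L_22684123329 : HH 127 (nat_lit 22684123329, nat_lit 15) := top_sound R_22684123329
  ⟨V6_20503085121_ok, V6_19462635585_ok, V6_17315152065_ok, trivial⟩
  ⟨W_22650302528_ok, W_20536373312_ok, W_20519858240_ok, W_20519596160_ok, trivial⟩ C_22684123329
theorem L_22684123392 : HH 127 (nat_lit 22684123392, nat_lit 18) := top_sound R_22684123392
  ⟨V6_21610119168_ok, trivial⟩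
  ⟨W_22650306560_ok, W_21593341952_ok, W_19429343360_ok, W_19429081280_ok, W_18355339520_ok, W_17315152064_ok, W_17298374912_ok, W_16241410304_ok, W_15167930624_ok, trivial⟩ C_22684123392
theorem L_22684127361 : HH 127 (nat_lit 22684127361, nat_lit 11) := top_sound R_22684127361
  ⟨V6_19429347393_ok, V6_18372382848_ok, trivial⟩
  ⟨W_22633787456_ok, W_21593595968_ok, W_19462889600_ok, trivial⟩ C_22684127361
theorem L_22684127424 : HH 127 (nat_lit 22684127424, nat_lit 14) := top_sound R_22684127424
  ⟨V6_19462901760_ok, V6_17298641088_ok, trivial⟩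
  ⟨W_22650564608_ok, W_22633787456_ok, W_21593600000_ok, W_21576826880_ok, W_20503081088_ok, W_18372374720_ok, trivial⟩ C_22684127424
theorem L_22684381314 : HH 127 (nat_lit 22684381314, nat_lit 11) := top_sound R_22684381314
  ⟨V6_18389409921_ok, trivial⟩
  ⟨W_22650298496_ok, W_21609848960_ok, W_21576818816_ok, W_21576560768_ok, W_20503339136_ok, trivial⟩ C_22684381314
theorem L_22684381377 : HH 127 (nat_lit 22684381377, nat_lit 10) := top_sound R_22684381377
  ⟨V6_19462631616_ok, V6_19429601472_ok, V6_18388889793_ok, trivial⟩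
  ⟨W_22666817600_ok, W_22650302528_ok, W_18389413952_ok, trivial⟩ C_22684381377
theorem L_22684385409 : HH 127 (nat_lit 22684385409, nat_lit 41) := top_sound R_22684385409
  ⟨V6_21577080960_ok, V6_21576564801_ok, V6_19446374529_ok, V6_18389409921_ok, trivial⟩
  ⟨W_22667075648_ok, W_22650560576_ok, W_21593337920_ok, W_21577080896_ok, W_20520116288_ok, W_20503085120_ok, W_19463151680_ok, W_18372640832_ok, trivial⟩ C_22684385409
theorem L_22684385472 : HH 127 (nat_lit 22684385472, nat_lit 55) := top_sound R_22684385472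
  ⟨V6_22650826752_ok, V6_21610119168_ok, V6_21577089024_ok, trivial⟩
  ⟨W_21593337920_ok, W_20536635392_ok, W_20520120320_ok, W_19463155712_ok, W_18389417984_ok, W_18372374720_ok, trivial⟩ C_22684385472
theorem L_22684389441 : HH 127 (nat_lit 22684389441, nat_lit 21) := top_sound R_22684389441
  ⟨V6_21610631232_ok, V6_19429347393_ok, trivial⟩
  ⟨W_21577080896_ok, W_19463151680_ok, W_18372640832_ok, trivial⟩ C_22684389441
theorem L_22684389504 : HH 127 (nat_lit 22684389504, nat_lit 68) := top_sound R_22684389504
  ⟨V6_19462901760_ok, V6_19446386688_ok, V6_18389422080_ok, trivial⟩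
  ⟨W_22667337728_ok, W_22650564608_ok, W_22650560576_ok, W_21593595968_ok, W_21576818816_ok, W_20536893440_ok, W_20536635392_ok, W_20519854208_ok, W_20503339136_ok, W_20503081088_ok, W_19462889600_ok, trivial⟩ C_22684389504
theorem L_22684393536 : HH 127 (nat_lit 22684393536, nat_lit 47) := top_sound R_22684393536
  ⟨V6_21610631232_ok, V6_17315684352_ok, trivial⟩
  ⟨W_22667595776_ok, W_22650822656_ok, W_21577084928_ok, W_21577080896_ok, W_20536893440_ok, W_17282129984_ok, trivial⟩ C_22684393536
theorem L_22684639362 : HH 127 (nat_lit 22684639362, nat_lit 6) := top_sound R_22684639362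
  ⟨V6_17315930241_ok, trivial⟩
  ⟨W_21609848960_ok, W_21593333888_ok, trivial⟩ C_22684639362
theorem L_22684643457 : HH 127 (nat_lit 22684643457, nat_lit 29) := top_sound R_22684643457
  ⟨V6_20536111233_ok, V6_18389409921_ok, V6_17315930241_ok, trivial⟩
  ⟨W_22683590720_ok, W_22667075648_ok, W_21593595968_ok, W_21593337920_ok, W_19463151680_ok, trivial⟩ C_22684643457
theorem L_22684643520 : HH 127 (nat_lit 22684643520, nat_lit 26) := top_sound R_22684643520
  ⟨V6_20520382464_ok, V6_17299157184_ok, trivial⟩
  ⟨W_22683594752_ok, W_21593337920_ok, W_20519596160_ok, W_19463155712_ok, trivial⟩ C_22684643520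
theorem L_22684647489 : HH 127 (nat_lit 22684647489, nat_lit 31) := top_sound R_22684647489
  ⟨V6_20536889409_ok, V6_20520374337_ok, V6_19446636609_ok, V6_18372898881_ok, V6_17299161153_ok, trivial⟩
  ⟨W_22683848768_ok, W_22667075648_ok, W_21593337920_ok, W_20536373312_ok, W_20519600192_ok, W_19463151680_ok, trivial⟩ C_22684647489

theorem H_28 : AllH 127 tb28 :=
  ⟨L_21695299584, L_21710250114, L_21710512257, L_21710516289, L_21710516352, L_21710774337, L_21710774400, L_21710778432, L_21710782464, L_21711032385, L_21711036480, L_21711040512, L_21711294528, L_21711298560, L_21711556608, L_21711814656, L_21727027329, L_21727289409, L_21727289472, L_21727293504, L_21727547457, L_21727551552, L_21727555584, L_21727809600, L_21727813632, L_21728071680, L_21728329728, L_21743804481, L_21743804544, L_21744062529, L_21744066624, L_21744070656, L_21744324672, L_21744328704, L_21744586752, L_21744844800, L_21760577601, L_21760581696, L_21760839744, L_21760843776, L_21761101824, L_21761359872, L_21777354816, L_21777358848, L_21777616896,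 L_21777874944, L_21793869888, L_21794131968, L_21794390016, L_21810905088, L_22650306819, L_22650568962, L_22650831042, L_22650831105, L_22650835074, L_22650835137, L_22650835200, L_22650839169, L_22650839232, L_22667084034, L_22667346114, L_22667346177, L_22667350146, L_22667350209, L_22667350272, L_22667604162, L_22667608194, L_22667608257, L_22667608320, L_22667612289, L_22667612352, L_22667616321, L_22667616384, L_22667866242, L_22667866305, L_22667870337, L_22667870400, L_22667874369, L_22667874432, L_22667878464, L_22667882496, L_22683861186, L_22683861249, L_22684119234, L_22684123266, L_22684123329, L_22684123392, L_22684127361, L_22684127424, L_22684381314, L_22684381377, L_22684385409, L_22684385472, L_22684389441, L_22684389504, L_22684393536, L_22684639362, L_22684643457, L_22684643520, L_22684647489, trivial⟩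

theorem L_22684647552 : HH 127 (nat_lit 22684647552, nat_lit 89) := top_sound R_22684647552
  ⟨V6_21610119168_ok, V6_20537155584_ok, V6_19446644736_ok, trivial⟩
  ⟨W_20536893440_ok, W_20520116288_ok, W_19463413760_ok, W_19463155712_ok, W_19462889600_ok, W_19446374528_ok, W_17315938304_ok, W_16242196544_ok, trivial⟩ C_22684647552
theorem L_22684651584 : HH 127 (nat_lit 22684651584, nat_lit 80) := top_sound R_22684651584
  ⟨V6_18389422080_ok, V6_17315942400_ok, V6_17299165248_ok, trivial⟩
  ⟨W_22684110848_ok, W_22667595776_ok, W_21610369088_ok, W_21594116096_ok, W_21593600000_ok, W_21593595968_ok, W_20537151488_ok, W_20536635392_ok, W_20520374336_ok, W_19463409728_ok, trivial⟩ C_22684651584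
theorem L_22684655616 : HH 127 (nat_lit 22684655616, nat_lit 45) := top_sound R_22684655616
  ⟨V6_22667857920_ok, V6_17315684352_ok, V6_16242204672_ok, trivial⟩
  ⟨W_22684368896_ok, W_22667595776_ok, W_21610889216_ok, W_21594116096_ok, W_20520120320_ok, W_17298907136_ok, trivial⟩ C_22684655616
theorem L_22684901505 : HH 127 (nat_lit 22684901505, nat_lit 15) := top_sound R_22684901505
  ⟨V6_18389409921_ok, trivial⟩
  ⟨W_22683590720_ok, W_22683328640_ok, W_21609848960_ok, W_17316192320_ok, trivial⟩ C_22684901505
theorem L_22684905537 : HH 127 (nat_lit 22684905537, nat_lit 17) := top_sound R_22684905537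
  ⟨V6_21610631232_ok, trivial⟩
  ⟨W_22683590720_ok, W_17316192320_ok, W_17315934272_ok, trivial⟩ C_22684905537
theorem L_22684905600 : HH 127 (nat_lit 22684905600, nat_lit 52) := top_sound R_22684905600
  ⟨V6_22683856896_ok, V6_17316192384_ok, trivial⟩
  ⟨W_22683852800_ok, W_22683590720_ok, W_20536893440_ok, W_20536635392_ok, trivial⟩ C_22684905600
theorem L_22684909632 : HH 127 (nat_lit 22684909632, nat_lit 73) := top_sound R_22684909632
  ⟨V6_21610893312_ok, V6_21610119168_ok, V6_17316200448_ok, trivial⟩
  ⟨W_22683852800_ok, W_20536893440_ok, W_18389934080_ok, W_18389930048_ok, W_16242458624_ok, W_15168716864_ok, trivial⟩ C_22684909632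
theorem L_22684913664 : HH 127 (nat_lit 22684913664, nat_lit 54) := top_sound R_22684913664
  ⟨V6_21611151360_ok, V6_17316200448_ok, trivial⟩
  ⟨W_22684368896_ok, W_20536893440_ok, W_20536635392_ok, trivial⟩ C_22684913664
theorem L_22700634306 : HH 127 (nat_lit 22700634306, nat_lit 1) := top_sound R_22700634306
  ⟨V6_18405404802_ok, trivial⟩
  ⟨W_21576560768_ok, trivial⟩ C_22700634306
theorem L_22700638338 : HH 127 (nat_lit 22700638338, nat_lit 8) := top_sound R_22700638338
  ⟨V6_18405671040_ok, trivial⟩
  ⟨W_22650298496_ok, W_22616752256_ok, W_21593333888_ok, W_21576560768_ok, W_21559787648_ok, trivial⟩ C_22700638338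
theorem L_22700638401 : HH 127 (nat_lit 22700638401, nat_lit 13) := top_sound R_22700638401
  ⟨V6_18405670977_ok, V6_18388889793_ok, trivial⟩
  ⟨W_22650302528_ok, W_22616752256_ok, W_21593337920_ok, W_21576564800_ok, W_21559787648_ok, W_20519596160_ok, trivial⟩ C_22700638401
theorem L_22700638464 : HH 127 (nat_lit 22700638464, nat_lit 16) := top_sound R_22700638464
  ⟨V6_19429081344_ok, V6_18372116736_ok, V6_16258187520_ok, trivial⟩
  ⟨W_22650306560_ok, W_22616752256_ok, W_19479412736_ok, trivial⟩ C_22700638464
theorem L_22700896386 : HH 127 (nat_lit 22700896386, nat_lit 10) := top_sound R_22700896386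
  ⟨V6_21576818817_ok, V6_21576560769_ok, V6_20536111233_ok, trivial⟩
  ⟨W_19479404672_ok, W_19462889600_ok, trivial⟩ C_22700896386
theorem L_22700896449 : HH 127 (nat_lit 22700896449, nat_lit 11) := top_sound R_22700896449
  ⟨V6_21576560769_ok, V6_20536111233_ok, V6_19462631616_ok, V6_18388889793_ok, trivial⟩
  ⟨W_22633787456_ok, W_21576822848_ok, W_19479408704_ok, trivial⟩ C_22700896449
theorem L_22700900481 : HH 127 (nat_lit 22700900481, nat_lit 37) := top_sound R_22700900481
  ⟨V6_18405671040_ok, V6_18405670977_ok, trivial⟩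
  ⟨W_22667075648_ok, W_22650302528_ok, W_22650298496_ok, W_22633529408_ok, W_21593595968_ok, W_21593337920_ok, W_21593333888_ok, W_21576822848_ok, W_21576818816_ok, W_21559787648_ok, W_20519858240_ok, W_19462889600_ok, trivial⟩ C_22700900481
theorem L_22700900544 : HH 127 (nat_lit 22700900544, nat_lit 48) := top_sound R_22700900544
  ⟨V6_20553154560_ok, V6_17331929280_ok, trivial⟩
  ⟨W_22650564608_ok, W_22650306560_ok, W_22650302528_ok, W_22633787456_ok, W_21593341952_ok, W_21593337920_ok, W_21576560768_ok, W_20553150464_ok, W_20536635392_ok, W_18372374720_ok, trivial⟩ C_22700900544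
theorem L_22700904513 : HH 127 (nat_lit 22700904513, nat_lit 16) := top_sound R_22700904513
  ⟨V6_19446124608_ok, V6_18372382785_ok, trivial⟩
  ⟨W_22667333696_ok, W_21610369088_ok, W_21593595968_ok, W_16258453568_ok, trivial⟩ C_22700904513
theorem L_22700904576 : HH 127 (nat_lit 22700904576, nat_lit 40) := top_sound R_22700904576
  ⟨V6_20519866368_ok, V6_19462901760_ok, V6_18405937152_ok, trivial⟩
  ⟨W_22667337728_ok, W_22650560576_ok, W_22633787456_ok, W_21593595968_ok, W_21576822848_ok, W_21576818816_ok, W_20536635392_ok, W_20503081088_ok, W_19462889600_ok, trivial⟩ C_22700904576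
theorem L_22701154434 : HH 127 (nat_lit 22701154434, nat_lit 11) := top_sound R_22701154434
  ⟨V6_18389409921_ok, trivial⟩
  ⟨W_22683328640_ok, W_22666813568_ok, W_22650298496_ok, W_21576818816_ok, W_20503339136_ok, trivial⟩ C_22701154434
theorem L_22701158529 : HH 127 (nat_lit 22701158529, nat_lit 46) := top_sound R_22701158529
  ⟨V6_18406187136_ok, V6_18389409921_ok, trivial⟩
  ⟨W_22683590720_ok, W_22667075648_ok, W_22650560576_ok, W_22650302528_ok, W_22650298496_ok, W_21626626112_ok, W_21593337920_ok, W_21577080896_ok, W_21576818816_ok, W_21576560768_ok, W_20552888384_ok, W_20519858240_ok, W_20503343168_ok, W_20503339136_ok, trivial⟩ C_22701158529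
theorem L_22701158592 : HH 127 (nat_lit 22701158592, nat_lit 44) := top_sound R_22701158592
  ⟨V6_22650826752_ok, V6_21593862144_ok, trivial⟩
  ⟨W_20553150464_ok, W_19479408704_ok, W_19463155712_ok, W_15184965824_ok, trivial⟩ C_22701158592
theorem L_22701162561 : HH 127 (nat_lit 22701162561, nat_lit 47) := top_sound R_22701162561
  ⟨V6_22667595840_ok, V6_21610631232_ok, V6_19479924801_ok, V6_18405670977_ok, trivial⟩
  ⟨W_21593337920_ok, W_21577080896_ok, W_21576564800_ok, W_20536373312_ok, W_20519858240_ok, W_19479408704_ok, W_19463151680_ok, W_18372640832_ok, trivial⟩ C_22701162561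
theorem L_22701162624 : HH 127 (nat_lit 22701162624, nat_lit 139) := top_sound R_22701162624
  ⟨V6_22667083776_ok, V6_22650568704_ok, V6_21610119168_ok, V6_21577089024_ok, V6_20553154560_ok, V6_18405671040_ok, trivial⟩
  ⟨W_22650822656_ok, W_22650298496_ok, W_21577084928_ok, W_21577080896_ok, W_20553150464_ok, W_20536893440_ok, W_20520120320_ok, W_20520116288_ok, W_20503347200_ok, W_20503339136_ok, W_19479412736_ok, W_19479404672_ok, W_19463155712_ok, W_19462889600_ok, W_19446382592_ok, W_19446374528_ok, W_18405924992_ok, trivial⟩ C_22701162624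
theorem L_22701166656 : HH 127 (nat_lit 22701166656, nat_lit 111) := top_sound R_22701166656
  ⟨V6_21627408384_ok, V6_18405937152_ok, V6_18389422080_ok, trivial⟩
  ⟨W_22667595776_ok, W_22650822656_ok, W_21577084928_ok, W_21577080896_ok, W_20536893440_ok, W_20536635392_ok, W_20503347200_ok, W_20503085120_ok, W_19463155712_ok, W_19429609472_ok, W_18389417984_ok, trivial⟩ C_22701166656
theorem L_22701170688 : HH 127 (nat_lit 22701170688, nat_lit 59) := top_sound R_22701170688
  ⟨V6_20503351296_ok, V6_19429613568_ok, V6_17315684352_ok, V6_16258719744_ok, trivial⟩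
  ⟨W_22667595776_ok, W_22650822656_ok, W_21627404288_ok, W_20536893440_ok, trivial⟩ C_22701170688
theorem L_22701416577 : HH 127 (nat_lit 22701416577, nat_lit 31) := top_sound R_22701416577
  ⟨V6_19446636609_ok, V6_18389409921_ok, V6_17315930241_ok, trivial⟩
  ⟨W_22683328640_ok, W_22667075648_ok, W_21626626112_ok, W_21593595968_ok, W_21593333888_ok, W_20520116288_ok, W_19446636608_ok, trivial⟩ C_22701416577
theorem L_22701420609 : HH 127 (nat_lit 22701420609, nat_lit 46) := top_sound R_22701420609
  ⟨V6_19480186944_ok, V6_19446636609_ok, V6_18372898881_ok, trivial⟩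
  ⟨W_22683590720_ok, W_22667333696_ok, W_22667075648_ok, W_22666817600_ok, W_21593595968_ok, W_21593337920_ok, W_19479408704_ok, W_19463151680_ok, trivial⟩ C_22701420609
theorem L_22701420672 : HH 127 (nat_lit 22701420672, nat_lit 116) := top_sound R_22701420672
  ⟨V6_22683856896_ok, V6_21594120192_ok, V6_20537155584_ok, V6_20520382464_ok, trivial⟩
  ⟨W_22700367872_ok, W_20553150464_ok, W_20536893440_ok, W_19479404672_ok, W_19463413760_ok, W_19463155712_ok, W_19462889600_ok, W_19446374528_ok, W_18405924992_ok, W_18389676032_ok, trivial⟩ C_22701420672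
theorem L_22701424704 : HH 127 (nat_lit 22701424704, nat_lit 167) := top_sound R_22701424704
  ⟨V6_22667857920_ok, V6_21610893312_ok, V6_21610119168_ok, V6_20553154560_ok, V6_20520382464_ok, V6_19480186944_ok, V6_19446644736_ok, trivial⟩
  ⟨W_22667595776_ok, W_22667333696_ok, W_20553150464_ok, W_20536893440_ok, W_19480186880_ok, W_19479412736_ok, W_19463413760_ok, W_19463155712_ok, W_18389676032_ok, W_18372640832_ok, W_17315938304_ok, W_16242196544_ok, W_15185231936_ok, trivial⟩ C_22701424704
theorem L_22701428736 : HH 127 (nat_lit 22701428736, nat_lit 107) := top_sound R_22701428736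
  ⟨V6_19446386688_ok, V6_18405937152_ok, V6_18389422080_ok, V6_17315942400_ok, trivial⟩
  ⟨W_22700883968_ok, W_22684368896_ok, W_22667595776_ok, W_22667337728_ok, W_21627404288_ok, W_21610889216_ok, W_21594116096_ok, W_20537151488_ok, W_20536635392_ok, W_19480186880_ok, trivial⟩ C_22701428736
theorem L_22701678657 : HH 127 (nat_lit 22701678657, nat_lit 29) := top_sound R_22701678657
  ⟨V6_22700105793_ok, V6_19479924801_ok, V6_18406707264_ok, trivial⟩
  ⟨W_22700105792_ok, W_22683848768_ok, W_22683590720_ok, W_21626626112_ok, W_19463151680_ok, trivial⟩ C_22701678657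
theorem L_22701678720 : HH 127 (nat_lit 22701678720, nat_lit 68) := top_sound R_22701678720
  ⟨V6_18406711296_ok, V6_18389672064_ok, trivial⟩
  ⟨W_22700367872_ok, W_22683852800_ok, W_22683590720_ok, W_22683328640_ok, W_21626626112_ok, W_20536893440_ok, W_19479404672_ok, trivial⟩ C_22701678720
theorem L_22701682752 : HH 127 (nat_lit 22701682752, nat_lit 133) := top_sound R_22701682752
  ⟨V6_21610893312_ok, V6_19480186944_ok, V6_18406711296_ok, V6_18406707264_ok, trivial⟩
  ⟨W_22700367872_ok, W_22683852800_ok, W_22683590720_ok, W_20553150464_ok, W_20536893440_ok, W_20536635392_ok, W_19463155712_ok, W_18389934080_ok, W_17316196352_ok, trivial⟩ C_22701682752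
theorem L_22701686784 : HH 127 (nat_lit 22701686784, nat_lit 124) := top_sound R_22701686784
  ⟨V6_21611151360_ok, V6_20553154560_ok, V6_18406711296_ok, V6_17316200448_ok, trivial⟩
  ⟨W_22684368896_ok, W_22683852800_ok, W_21627404288_ok, W_21610889216_ok, W_20537409536_ok, W_20536893440_ok, W_19480444928_ok, W_19480186880_ok, W_19463671808_ok, trivial⟩ C_22701686784
theorem L_22701936705 : HH 127 (nat_lit 22701936705, nat_lit 8) := top_sound R_22701936705
  ⟨V6_19479924801_ok, V6_17332965441_ok, trivial⟩
  ⟨W_22700363840_ok, W_17332965440_ok, trivial⟩ C_22701936705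
theorem L_22701940800 : HH 127 (nat_lit 22701940800, nat_lit 55) := top_sound R_22701940800
  ⟨V6_18406711296_ok, V6_18406707264_ok, trivial⟩
  ⟨W_22700625920_ok, W_22700367872_ok, W_22700363840_ok, W_22700105792_ok, W_21626884160_ok, W_21626626112_ok, W_17333227520_ok, W_16259489792_ok, W_16259485760_ok, trivial⟩ C_22701940800
theorem L_22701944832 : HH 127 (nat_lit 22701944832, nat_lit 63) := top_sound R_22701944832
  ⟨V6_22700371968_ok, V6_18406711296_ok, trivial⟩
  ⟨W_22700367872_ok, W_21627404288_ok, W_19480444928_ok, W_19480186880_ok, W_15185752064_ok, trivial⟩ C_22701944832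
theorem L_22717411458 : HH 127 (nat_lit 22717411458, nat_lit 8) := top_sound R_22717411458
  ⟨V6_21593075841_ok, V6_21576560769_ok, V6_21576556674_ok, V6_18405404802_ok, trivial⟩
  ⟨W_19495919744_ok, W_19479404672_ok, trivial⟩ C_22717411458
theorem L_22717411521 : HH 127 (nat_lit 22717411521, nat_lit 7) := top_sound R_22717411521
  ⟨V6_17348702400_ok, trivial⟩
  ⟨W_22666817600_ok, W_20552888384_ok, W_19495923776_ok, W_19479146624_ok, trivial⟩ C_22717411521
theorem L_22717415553 : HH 127 (nat_lit 22717415553, nat_lit 28) := top_sound R_22717415553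
  ⟨V6_22650298497_ok, V6_21576564801_ok, V6_18405670977_ok, V6_17348706369_ok, trivial⟩
  ⟨W_22650302528_ok, W_19496181824_ok, W_19479408704_ok, W_17348706368_ok, trivial⟩ C_22717415553
theorem L_22717415616 : HH 127 (nat_lit 22717415616, nat_lit 36) := top_sound R_22717415616
  ⟨V6_19462631616_ok, V6_17331929280_ok, V6_16274964672_ok, trivial⟩
  ⟨W_22667079680_ok, W_22650306560_ok, W_22650302528_ok, W_22616752256_ok, W_21576564800_ok, W_19496185856_ok, trivial⟩ C_22717415616
theorem L_22717669506 : HH 127 (nat_lit 22717669506, nat_lit 11) := top_sound R_22717669506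
  ⟨V6_19496181888_ok, trivial⟩
  ⟨W_22650298496_ok, W_21609848960_ok, W_21576818816_ok, W_20569399424_ok, trivial⟩ C_22717669506
theorem L_22717673601 : HH 127 (nat_lit 22717673601, nat_lit 42) := top_sound R_22717673601
  ⟨V6_22633525377_ok, V6_19496181888_ok, trivial⟩
  ⟨W_22683590720_ok, W_22667075648_ok, W_22666817600_ok, W_22650302528_ok, W_22633787456_ok, W_21593595968_ok, W_21576818816_ok, W_20569661504_ok, W_20552888384_ok, W_19495923776_ok, W_19479408704_ok, trivial⟩ C_22717673601
theorem L_22717673664 : HH 127 (nat_lit 22717673664, nat_lit 36) := top_sound R_22717673664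
  ⟨V6_20569927680_ok, trivial⟩
  ⟨W_22683594752_ok, W_22666817600_ok, W_22650564608_ok, W_22633787456_ok, W_20536635392_ok, W_19496185856_ok, trivial⟩ C_22717673664
theorem L_22717677633 : HH 127 (nat_lit 22717677633, nat_lit 41) := top_sound R_22717677633
  ⟨V6_22633529409_ok, V6_18422448192_ok, trivial⟩
  ⟨W_22683848768_ok, W_22667333696_ok, W_22667075648_ok, W_22650560576_ok, W_22650302528_ok, W_22633529408_ok, W_21626884160_ok, W_21593595968_ok, W_21593337920_ok, W_21576822848_ok, W_20519858240_ok, W_20503085120_ok, trivial⟩ C_22717677633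
theorem L_22717677696 : HH 127 (nat_lit 22717677696, nat_lit 116) := top_sound R_22717677696
  ⟨V6_19496189952_ok, V6_18422448192_ok, V6_18405671040_ok, trivial⟩
  ⟨W_22683852800_ok, W_22667337728_ok, W_22667079680_ok, W_22667075648_ok, W_22650560576_ok, W_22650306560_ok, W_22650302528_ok, W_22650298496_ok, W_22633787456_ok, W_21593341952_ok, W_21576818816_ok, W_20569923584_ok, W_20553150464_ok, W_20536635392_ok, W_19462889600_ok, W_18405924992_ok, trivial⟩ C_22717677696
theorem L_22717681728 : HH 127 (nat_lit 22717681728, nat_lit 65) := top_sound R_22717681728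
  ⟨V6_20519866368_ok, V6_19462901760_ok, V6_18405937152_ok, V6_17348972544_ok, trivial⟩
  ⟨W_22684110848_ok, W_22667337728_ok, W_22667333696_ok, W_22650560576_ok, W_21627146240_ok, W_20536635392_ok, W_18389159936_ok, W_17332195328_ok, W_16275230720_ok, trivial⟩ C_22717681728
theorem L_22717931649 : HH 127 (nat_lit 22717931649, nat_lit 44) := top_sound R_22717931649
  ⟨V6_18406187136_ok, trivial⟩
  ⟨W_22667075648_ok, W_22650298496_ok, W_21643141184_ok, W_21626626112_ok, W_21593595968_ok, W_21577080896_ok, W_21576818816_ok, W_20569661504_ok, W_20569399424_ok, W_20503339136_ok, trivial⟩ C_22717931649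
theorem L_22717935681 : HH 127 (nat_lit 22717935681, nat_lit 54) := top_sound R_22717935681
  ⟨V6_22717141056_ok, V6_22667595840_ok, V6_21643399233_ok, V6_21610631232_ok, V6_19479924801_ok, trivial⟩
  ⟨W_22667333696_ok, W_21593337920_ok, W_21577080896_ok, W_21576822848_ok, W_20536373312_ok, W_20520116288_ok, W_20519858240_ok, W_20503343168_ok, W_19495923776_ok, W_19479408704_ok, W_19463151680_ok, trivial⟩ C_22717935681
theorem L_22717935744 : HH 127 (nat_lit 22717935744, nat_lit 153) := top_sound R_22717935744
  ⟨V6_20569927680_ok, V6_19496706048_ok, trivial⟩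
  ⟨W_22700367872_ok, W_22683852800_ok, W_22683594752_ok, W_22683590720_ok, W_22667337728_ok, W_22666817600_ok, W_22666813568_ok, W_22650822656_ok, W_22650564608_ok, W_22650560576_ok, W_21577084928_ok, W_20569923584_ok, W_20536893440_ok, W_20503339136_ok, W_19496185856_ok, W_19463155712_ok, W_19462889600_ok, W_19446374528_ok, trivial⟩ C_22717935744
theorem L_22717939776 : HH 127 (nat_lit 22717939776, nat_lit 210) := top_sound R_22717939776
  ⟨V6_20553154560_ok, V6_19496706048_ok, V6_19496189952_ok, V6_18422448192_ok, trivial⟩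
  ⟨W_22683852800_ok, W_22667595776_ok, W_22667337728_ok, W_22667333696_ok, W_22650822656_ok, W_22650564608_ok, W_22650560576_ok, W_22650302528_ok, W_21577084928_ok, W_21577080896_ok, W_21576822848_ok, W_20569923584_ok, W_20553150464_ok, W_20536893440_ok, W_20520120320_ok, W_20520116288_ok, W_20503347200_ok, W_19496185856_ok, W_19463155712_ok, W_19446382592_ok, trivial⟩ C_22717939776
theorem L_22717943808 : HH 127 (nat_lit 22717943808, nat_lit 128) := top_sound R_22717943808
  ⟨V6_20503351296_ok, V6_19496706048_ok, V6_19446386688_ok, trivial⟩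
  ⟨W_22700883968_ok, W_22684368896_ok, W_22667595776_ok, W_22667337728_ok, W_22650822656_ok, W_22650564608_ok, W_21627404288_ok, W_21577084928_ok, W_21576826880_ok, W_20536893440_ok, W_20536635392_ok, W_17332195328_ok, W_16275230720_ok, trivial⟩ C_22717943808
theorem L_22718193729 : HH 127 (nat_lit 22718193729, nat_lit 48) := top_sound R_22718193729
  ⟨V6_19479924801_ok, V6_19446636609_ok, V6_18423222336_ok, trivial⟩
  ⟨W_22683848768_ok, W_22683590720_ok, W_22667333696_ok, W_22667075648_ok, W_21643141184_ok, W_21626884160_ok, W_21593854016_ok, W_21593595968_ok, W_20569661504_ok, W_20520374336_ok, trivial⟩ C_22718193729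
theorem L_22718193792 : HH 127 (nat_lit 22718193792, nat_lit 110) := top_sound R_22718193792
  ⟨V6_20537155584_ok, V6_18423226368_ok, trivial⟩
  ⟨W_22716882944_ok, W_22700367872_ok, W_22683852800_ok, W_22683590720_ok, W_22683328640_ok, W_22667337728_ok, W_22666813568_ok, W_20569923584_ok, W_19479404672_ok, W_19462889600_ok, W_19446374528_ok, W_18422440064_ok, W_18405924992_ok, W_15202001024_ok, trivial⟩ C_22718193792
theorem L_22718197824 : HH 127 (nat_lit 22718197824, nat_lit 216) := top_sound R_22718197824
  ⟨V6_19496964096_ok, V6_19496706048_ok, V6_19480186944_ok, V6_18423222336_ok, trivial⟩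
  ⟨W_22700367872_ok, W_22683852800_ok, W_22683594752_ok, W_22683590720_ok, W_22667595776_ok, W_22667337728_ok, W_22667333696_ok, W_22667075648_ok, W_21594116096_ok, W_20569923584_ok, W_20569665536_ok, W_20553150464_ok, W_20536893440_ok, W_20520120320_ok, W_19496185856_ok, W_19463155712_ok, W_18389676032_ok, W_18372898880_ok, trivial⟩ C_22718197824
theorem L_22718201856 : HH 127 (nat_lit 22718201856, nat_lit 202) := top_sound R_22718201856
  ⟨V6_19496964096_ok, V6_19496189952_ok, V6_19446644736_ok, V6_18423226368_ok, trivial⟩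
  ⟨W_22684368896_ok, W_22683852800_ok, W_22667595776_ok, W_22667337728_ok, W_21627404288_ok, W_21610889216_ok, W_21594116096_ok, W_20569923584_ok, W_20553150464_ok, W_20537151488_ok, W_20536893440_ok, W_20520378368_ok, W_20520120320_ok, W_15202009088_ok, trivial⟩ C_22718201856
theorem L_22718451777 : HH 127 (nat_lit 22718451777, nat_lit 15) := top_sound R_22718451777
  ⟨V6_21643399233_ok, V6_17349742656_ok, trivial⟩
  ⟨W_22716878912_ok, W_22683848768_ok, W_21610369088_ok, W_20536889408_ok, trivial⟩ C_22718451777
theorem L_22718455872 : HH 127 (nat_lit 22718455872, nat_lit 164) := top_sound R_22718455872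
  ⟨V6_18423226368_ok, V6_18406707264_ok, V6_17349746688_ok, trivial⟩
  ⟨W_22717140992_ok, W_22716882944_ok, W_22700367872_ok, W_22700105792_ok, W_22683852800_ok, W_22683848768_ok, W_22683590720_ok, W_21643399232_ok, W_21643141184_ok, W_20569923584_ok, W_20569661504_ok, W_20537151488_ok, W_20536893440_ok, W_19463671808_ok, W_19463409728_ok, W_18389930048_ok, trivial⟩ C_22718455872
theorem L_22718459904 : HH 127 (nat_lit 22718459904, nat_lit 192) := top_sound R_22718459904
  ⟨V6_19496964096_ok, V6_18423484416_ok, V6_17349746688_ok, trivial⟩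
  ⟨W_22700367872_ok, W_22684368896_ok, W_22683852800_ok, W_21627404288_ok, W_21610889216_ok, W_20569923584_ok, W_20569665536_ok, W_20553150464_ok, W_20537409536_ok, W_20536893440_ok, W_19496185856_ok, W_19463155712_ok, trivial⟩ C_22718459904
theorem L_22718713920 : HH 127 (nat_lit 22718713920, nat_lit 55) := top_sound R_22718713920
  ⟨V6_18423484416_ok, V6_16276262976_ok, trivial⟩
  ⟨W_22717140992_ok, W_22700625920_ok, W_22700363840_ok, W_21643399232_ok, W_21626884160_ok, W_19479924800_ok, W_17333227520_ok, trivial⟩ C_22718713920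
theorem L_22718717952 : HH 127 (nat_lit 22718717952, nat_lit 121) := top_sound R_22718717952
  ⟨V6_20554186752_ok, V6_18423742464_ok, V6_17349746688_ok, V6_16276267008_ok, trivial⟩
  ⟨W_22717399040_ok, W_22717140992_ok, W_22700883968_ok, W_22700367872_ok, W_21643919360_ok, W_21643403264_ok, W_21627404288_ok, W_20569923584_ok, W_18406965248_ok, trivial⟩ C_22718717952
theorem L_22718976000 : HH 127 (nat_lit 22718976000, nat_lit 47) := top_sound R_22718976000
  ⟨V6_19496964096_ok, trivial⟩
  ⟨W_22717399040_ok, W_22717140992_ok, W_17350000640_ok, W_16276520960_ok, W_15202783232_ok, trivial⟩ C_22718976000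
theorem L_22733926530 : HH 127 (nat_lit 22733926530, nat_lit 2) := top_sound R_22733926530
  ⟨V6_18405404802_ok, V6_16291475586_ok, trivial⟩
  ⟨W_21609848960_ok, trivial⟩ C_22733926530
theorem L_22733926593 : HH 127 (nat_lit 22733926593, nat_lit 1) := top_sound R_22733926593
  ⟨V6_17365217472_ok, trivial⟩
  ⟨W_22666817600_ok, trivial⟩ C_22733926593
theorem L_22734184578 : HH 127 (nat_lit 22734184578, nat_lit 9) := top_sound R_22734184578
  ⟨V6_19496181888_ok, trivial⟩
  ⟨W_20569399424_ok, W_19512434816_ok, W_17365475456_ok, trivial⟩ C_22734184578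
theorem L_22734188673 : HH 127 (nat_lit 22734188673, nat_lit 31) := top_sound R_22734188673
  ⟨V6_20569661505_ok, V6_20536111233_ok, V6_19495923777_ok, V6_18439217217_ok, trivial⟩
  ⟨W_22667075648_ok, W_22650298496_ok, W_21593337920_ok, W_20536373312_ok, W_19479408704_ok, W_17365475456_ok, trivial⟩ C_22734188673
theorem L_22734188736 : HH 127 (nat_lit 22734188736, nat_lit 24) := top_sound R_22734188736
  ⟨V6_19512963072_ok, trivial⟩
  ⟨W_22683594752_ok, W_22667079680_ok, W_22666817600_ok, W_22650302528_ok, W_21593337920_ok, W_21576560768_ok, W_20569665536_ok, W_18422182016_ok, trivial⟩ C_22734188736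
theorem L_22734192705 : HH 127 (nat_lit 22734192705, nat_lit 25) := top_sound R_22734192705
  ⟨V6_19512954945_ok, V6_17348706369_ok, V6_16291741761_ok, trivial⟩
  ⟨W_22683848768_ok, W_22667075648_ok, W_21626884160_ok, W_21610111040_ok, W_19512954944_ok, trivial⟩ C_22734192705
theorem L_22734192768 : HH 127 (nat_lit 22734192768, nat_lit 74) := top_sound R_22734192768
  ⟨V6_18405671040_ok, V6_17365483584_ok, V6_16291741824_ok, trivial⟩
  ⟨W_22683852800_ok, W_22667079680_ok, W_22667075648_ok, W_22650306560_ok, W_22650302528_ok, W_22633529408_ok, W_21593337920_ok, W_21593333888_ok, W_21576564800_ok, W_21559787648_ok, W_20569923584_ok, trivial⟩ C_22734192768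
theorem L_22734446721 : HH 127 (nat_lit 22734446721, nat_lit 38) := top_sound R_22734446721
  ⟨V6_18439217217_ok, V6_17365737600_ok, trivial⟩
  ⟨W_22683590720_ok, W_22683328640_ok, W_22667075648_ok, W_22650560576_ok, W_22650298496_ok, W_21609848960_ok, W_21593595968_ok, W_21593333888_ok, W_21576818816_ok, W_20569661504_ok, trivial⟩ C_22734446721
theorem L_22734450753 : HH 127 (nat_lit 22734450753, nat_lit 49) := top_sound R_22734450753
  ⟨V6_20586696768_ok, V6_19512954945_ok, V6_18439217217_ok, trivial⟩
  ⟨W_22683848768_ok, W_22683590720_ok, W_22667333696_ok, W_22666817600_ok, W_22650560576_ok, W_22650302528_ok, W_22633787456_ok, W_21593337920_ok, W_21576822848_ok, W_20536373312_ok, W_20519858240_ok, W_19479408704_ok, W_18438959168_ok, trivial⟩ C_22734450753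
theorem L_22734450816 : HH 127 (nat_lit 22734450816, nat_lit 125) := top_sound R_22734450816
  ⟨V6_19513221120_ok, V6_19512963072_ok, trivial⟩
  ⟨W_22700367872_ok, W_22683852800_ok, W_22683590720_ok, W_22667337728_ok, W_22667079680_ok, W_22667075648_ok, W_22650564608_ok, W_22650560576_ok, W_22650302528_ok, W_22650298496_ok, W_22633787456_ok, W_21593595968_ok, W_21593333888_ok, W_21576818816_ok, W_21576560768_ok, W_20586438656_ok, W_20569923584_ok, W_20536635392_ok, W_19462889600_ok, trivial⟩ C_22734450816
theorem L_22734454848 : HH 127 (nat_lit 22734454848, nat_lit 161) := top_sound R_22734454848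
  ⟨V6_19513221120_ok, V6_18439225344_ok, V6_17365483584_ok, trivial⟩
  ⟨W_22683852800_ok, W_22683848768_ok, W_22667337728_ok, W_22667333696_ok, W_22667079680_ok, W_22667075648_ok, W_22650564608_ok, W_22650560576_ok, W_22650306560_ok, W_22650302528_ok, W_22633787456_ok, W_22633529408_ok, W_21593341952_ok, W_21576826880_ok, W_21576822848_ok, W_21576564800_ok, W_20586696704_ok, W_20569923584_ok, W_20553150464_ok, W_20503085120_ok, W_19479412736_ok, trivial⟩ C_22734454848
theorem L_22734458880 : HH 127 (nat_lit 22734458880, nat_lit 67) := top_sound R_22734458880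
  ⟨V6_22650568704_ok, V6_19462901760_ok, V6_18405937152_ok, V6_16292007936_ok, trivial⟩
  ⟨W_22667337728_ok, W_21643919360_ok, W_21627146240_ok, W_20536635392_ok, W_15218266112_ok, trivial⟩ C_22734458880
theorem L_22734708801 : HH 127 (nat_lit 22734708801, nat_lit 54) := top_sound R_22734708801
  ⟨V6_18439737408_ok, V6_18439217217_ok, trivial⟩
  ⟨W_22700363840_ok, W_22683848768_ok, W_22683590720_ok, W_22667333696_ok, W_22667075648_ok, W_22650560576_ok, W_21659914304_ok, W_21626626112_ok, W_21593854016_ok, W_21593595968_ok, W_21577080896_ok, W_20569661504_ok, W_20520116288_ok, trivial⟩ C_22734708801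
theorem L_22734708864 : HH 127 (nat_lit 22734708864, nat_lit 126) := top_sound R_22734708864
  ⟨V6_19513221120_ok, V6_18439741440_ok, trivial⟩
  ⟨W_22716882944_ok, W_22700367872_ok, W_22700105792_ok, W_22683852800_ok, W_22683590720_ok, W_22683328640_ok, W_22667337728_ok, W_22667075648_ok, W_22650822656_ok, W_22650560576_ok, W_22650298496_ok, W_21643141184_ok, W_21593595968_ok, W_21593333888_ok, W_21577080896_ok, W_21576818816_ok, W_20536893440_ok, W_20520116288_ok, W_20503339136_ok, trivial⟩ C_22734708864
theorem L_22734712896 : HH 127 (nat_lit 22734712896, nat_lit 237) := top_sound R_22734712896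
  ⟨V6_20570443776_ok, V6_19513479168_ok, V6_19512963072_ok, V6_18439741440_ok, trivial⟩
  ⟨W_22700367872_ok, W_22683852800_ok, W_22683590720_ok, W_22667595776_ok, W_22667337728_ok, W_22667333696_ok, W_22666817600_ok, W_22650822656_ok, W_22650564608_ok, W_22650560576_ok, W_22650302528_ok, W_21577084928_ok, W_21577080896_ok, W_21576822848_ok, W_20586696704_ok, W_20586438656_ok, W_20569923584_ok, W_20569665536_ok, W_20553150464_ok, W_20536893440_ok, W_20520120320_ok, W_20520116288_ok, W_19463155712_ok, trivial⟩ C_22734712896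
theorem L_22734716928 : HH 127 (nat_lit 22734716928, nat_lit 215) := top_sound R_22734716928
  ⟨V6_19513479168_ok, V6_19496189952_ok, V6_18439741440_ok, trivial⟩
  ⟨W_22684368896_ok, W_22683852800_ok, W_22667595776_ok, W_22667337728_ok, W_22650822656_ok, W_22650564608_ok, W_21660434432_ok, W_21627404288_ok, W_21577084928_ok, W_20586696704_ok, W_20569923584_ok, W_20536893440_ok, W_20520120320_ok, W_20503347200_ok, W_19446382592_ok, trivial⟩ C_22734716928
theorem L_22734966849 : HH 127 (nat_lit 22734966849, nat_lit 23) := top_sound R_22734966849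
  ⟨V6_19512954945_ok, V6_18439475265_ok, V6_17365995585_ok, trivial⟩
  ⟨W_22716878912_ok, W_22683848768_ok, W_22667333696_ok, W_21659914304_ok, W_16292515904_ok, trivial⟩ C_22734966849
theorem L_22734970944 : HH 127 (nat_lit 22734970944, nat_lit 217) := top_sound R_22734970944
  ⟨V6_19480186944_ok, V6_18439999488_ok, V6_18439741440_ok, V6_18423222336_ok, trivial⟩
  ⟨W_22733656064_ok, W_22716882944_ok, W_22716878912_ok, W_22700367872_ok, W_22700105792_ok, W_22683852800_ok, W_22683590720_ok, W_22667595776_ok, W_22667337728_ok, W_22667333696_ok, W_22667075648_ok, W_21659918336_ok, W_21643141184_ok, W_21594116096_ok, W_21593858048_ok, W_20586696704_ok, W_20586438656_ok, W_20569923584_ok, W_20536893440_ok, W_20520116288_ok, trivial⟩ C_22734970944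
theorem L_22734974976 : HH 127 (nat_lit 22734974976, nat_lit 240) := top_sound R_22734974976
  ⟨V6_19512963072_ok, V6_19496964096_ok, V6_18439999488_ok, V6_18439741440_ok, trivial⟩
  ⟨W_22733914112_ok, W_22700367872_ok, W_22684368896_ok, W_22683852800_ok, W_22667595776_ok, W_22667337728_ok, W_21660434432_ok, W_21627404288_ok, W_21610889216_ok, W_21594116096_ok, W_20586696704_ok, W_20586438656_ok, W_20569923584_ok, W_20537151488_ok, W_20536893440_ok, W_19446640640_ok, trivial⟩ C_22734974976
theorem L_22735228992 : HH 127 (nat_lit 22735228992, nat_lit 98) := top_sound R_22735228992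
  ⟨V6_21660176448_ok, V6_18406707264_ok, V6_17366519808_ok, V6_17349742656_ok, trivial⟩
  ⟨W_22733656064_ok, W_22717140992_ok, W_22684110848_ok, W_22683848768_ok, W_21659914304_ok, W_20586696704_ok, W_20537151488_ok, W_19463671808_ok, W_19463409728_ok, W_18389930048_ok, trivial⟩ C_22735228992
theorem L_22735233024 : HH 127 (nat_lit 22735233024, nat_lit 213) := top_sound R_22735233024
  ⟨V6_20554186752_ok, V6_18439741440_ok, V6_18423484416_ok, V6_17366519808_ok, trivial⟩
  ⟨W_22733914112_ok, W_22733656064_ok, W_22716882944_ok, W_22700367872_ok, W_22684368896_ok, W_22683852800_ok, W_21660434432_ok, W_21659918336_ok, W_21627404288_ok, W_20586438656_ok, W_20569923584_ok, W_20537409536_ok, W_20536893440_ok, W_19463671808_ok, trivial⟩ C_22735233024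
theorem L_22735491072 : HH 127 (nat_lit 22735491072, nat_lit 112) := top_sound R_22735491072
  ⟨V6_18439999488_ok, V6_18423742464_ok, V6_17366519808_ok, trivial⟩
  ⟨W_22733656064_ok, W_22717140992_ok, W_22700883968_ok, W_21660434432_ok, W_21643919360_ok, W_21627404288_ok, W_20586696704_ok, trivial⟩ C_22735491072
theorem L_22735749120 : HH 127 (nat_lit 22735749120, nat_lit 36) := top_sound R_22735749120
  ⟨V6_22717661184_ok, V6_17350262784_ok, trivial⟩
  ⟨W_22733914112_ok, W_21660434432_ok, W_16276520960_ok, trivial⟩ C_22735749120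
theorem L_22750699650 : HH 127 (nat_lit 22750699650, nat_lit 5) := top_sound R_22750699650
  ⟨V6_17381990529_ok, trivial⟩
  ⟨W_22683328640_ok, W_21609848960_ok, trivial⟩ C_22750699650
theorem L_22750703745 : HH 127 (nat_lit 22750703745, nat_lit 9) := top_sound R_22750703745
  ⟨V6_18455732352_ok, trivial⟩
  ⟨W_22666813568_ok, W_18455732288_ok, W_17381990528_ok, trivial⟩ C_22750703745
theorem L_22750703808 : HH 127 (nat_lit 22750703808, nat_lit 5) := top_sound R_22750703808
  ⟨V6_21643407360_ok, trivial⟩
  ⟨W_18455736320_ok, W_17381994560_ok, trivial⟩ C_22750703808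
theorem L_22750961793 : HH 127 (nat_lit 22750961793, nat_lit 31) := top_sound R_22750961793
  ⟨V6_18455732352_ok, V6_18439217217_ok, trivial⟩
  ⟨W_22700105792_ok, W_22683590720_ok, W_22683328640_ok, W_22667075648_ok, W_22650298496_ok, W_21643141184_ok, W_20569399424_ok, W_19512434816_ok, W_17381990528_ok, trivial⟩ C_22750961793
theorem L_22750965825 : HH 127 (nat_lit 22750965825, nat_lit 32) := top_sound R_22750965825
  ⟨V6_19529732160_ok, V6_18439217217_ok, trivial⟩
  ⟨W_22683848768_ok, W_22683590720_ok, W_22667075648_ok, W_22666817600_ok, W_22650302528_ok, W_21609852992_ok, W_21593337920_ok, W_20552888384_ok, W_20536373312_ok, W_17381994560_ok, trivial⟩ C_22750965825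
theorem L_22750965888 : HH 127 (nat_lit 22750965888, nat_lit 86) := top_sound R_22750965888
  ⟨V6_19512963072_ok, V6_18455998464_ok, trivial⟩
  ⟨W_22700367872_ok, W_22683852800_ok, W_22683590720_ok, W_22667079680_ok, W_22667075648_ok, W_22666817600_ok, W_22650302528_ok, W_22650298496_ok, W_21609848960_ok, W_20586438656_ok, W_20569661504_ok, W_19512696896_ok, W_17381990528_ok, trivial⟩ C_22750965888
theorem L_22750969920 : HH 127 (nat_lit 22750969920, nat_lit 95) := top_sound R_22750969920
  ⟨V6_19529732160_ok, V6_17365483584_ok, V6_16308518976_ok, trivial⟩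
  ⟨W_22700625920_ok, W_22683852800_ok, W_22667075648_ok, W_22650306560_ok, W_22650302528_ok, W_22633529408_ok, W_21626884160_ok, W_21593341952_ok, W_21593337920_ok, W_21576564800_ok, W_20586696704_ok, trivial⟩ C_22750969920
theorem L_22751223873 : HH 127 (nat_lit 22751223873, nat_lit 46) := top_sound R_22751223873
  ⟨V6_18456252480_ok, V6_18439217217_ok, trivial⟩
  ⟨W_22700363840_ok, W_22683848768_ok, W_22683590720_ok, W_22667333696_ok, W_22667075648_ok, W_22650560576_ok, W_21643399232_ok, W_21643141184_ok, W_21626626112_ok, W_21593595968_ok, W_19529211968_ok, trivial⟩ C_22751223873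
theorem L_22751223936 : HH 127 (nat_lit 22751223936, nat_lit 108) := top_sound R_22751223936
  ⟨V6_19513221120_ok, V6_18456256512_ok, trivial⟩
  ⟨W_22716882944_ok, W_22700367872_ok, W_22683852800_ok, W_22683590720_ok, W_22667337728_ok, W_22667075648_ok, W_22666813568_ok, W_22650560576_ok, W_22650298496_ok, W_20569923584_ok, W_19479404672_ok, W_19462889600_ok, W_18422440064_ok, trivial⟩ C_22751223936
theorem L_22751227968 : HH 127 (nat_lit 22751227968, nat_lit 187) := top_sound R_22751227968
  ⟨V6_19512963072_ok, V6_18456256512_ok, V6_18455998464_ok, trivial⟩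
  ⟨W_22700367872_ok, W_22683852800_ok, W_22683594752_ok, W_22683590720_ok, W_22667337728_ok, W_22667333696_ok, W_22667079680_ok, W_22667075648_ok, W_22666817600_ok, W_22650564608_ok, W_22650560576_ok, W_22650302528_ok, W_21609852992_ok, W_21576822848_ok, W_20586696704_ok, W_20586438656_ok, W_20569923584_ok, W_20569665536_ok, W_20553150464_ok, W_19512700928_ok, W_18455736320_ok, W_18438959168_ok, trivial⟩ C_22751227968
theorem L_22751232000 : HH 127 (nat_lit 22751232000, nat_lit 155) := top_sound R_22751232000
  ⟨V6_18456256512_ok, V6_18439225344_ok, V6_17382260736_ok, trivial⟩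
  ⟨W_22717399040_ok, W_22700883968_ok, W_22684110848_ok, W_22683852800_ok, W_22667337728_ok, W_22667079680_ok, W_22650564608_ok, W_22650306560_ok, W_21660434432_ok, W_21643919360_ok, W_21593341952_ok, W_21576826880_ok, W_20586696704_ok, W_15235039232_ok, trivial⟩ C_22751232000
theorem L_22751481921 : HH 127 (nat_lit 22751481921, nat_lit 21) := top_sound R_22751481921
  ⟨V6_20536889409_ok, V6_17382510657_ok, V6_17365995585_ok, trivial⟩
  ⟨W_22733393984_ok, W_22667333696_ok, W_21659914304_ok, W_21643399232_ok, W_20602949696_ok, W_20586434624_ok, trivial⟩ C_22751481921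
theorem L_22751486016 : HH 127 (nat_lit 22751486016, nat_lit 222) := top_sound R_22751486016
  ⟨V6_21676695552_ok, V6_18456252480_ok, V6_18439741440_ok, V6_17382776832_ok, trivial⟩
  ⟨W_22667595776_ok, W_22667337728_ok, W_22667333696_ok, W_22650822656_ok, W_22650560576_ok, W_21676691456_ok, W_21593858048_ok, W_21593854016_ok, W_21577080896_ok, W_20603211776_ok, W_20586696704_ok, W_20586438656_ok, W_20569923584_ok, W_20536893440_ok, W_20520116288_ok, W_19529732096_ok, W_19529474048_ok, trivial⟩ C_22751486016
theorem L_22751490048 : HH 127 (nat_lit 22751490048, nat_lit 250) := top_sound R_22751490048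
  ⟨V6_20603473920_ok, V6_20570443776_ok, V6_19513479168_ok, V6_18456514560_ok, trivial⟩
  ⟨W_22650564608_ok, W_21577084928_ok, W_20586696704_ok, W_20569923584_ok, W_20569665536_ok, W_20553150464_ok, W_20536893440_ok, W_20536635392_ok, W_20520120320_ok, W_19529732096_ok, W_19529474048_ok, W_19512700928_ok, W_19496185856_ok, W_19463155712_ok, W_18455736320_ok, W_17382256640_ok, W_15235297280_ok, trivial⟩ C_22751490048
theorem L_22751744064 : HH 127 (nat_lit 22751744064, nat_lit 114) := top_sound R_22751744064
  ⟨V6_22667857920_ok, V6_18439999488_ok, V6_17383034880_ok, trivial⟩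
  ⟨W_22733656064_ok, W_22717140992_ok, W_22684110848_ok, W_22683848768_ok, W_22667595776_ok, W_22667333696_ok, W_21676691456_ok, W_21643399232_ok, W_21594116096_ok, W_21593854016_ok, W_20603211776_ok, W_20602949696_ok, W_20537151488_ok, W_20520374336_ok, trivial⟩ C_22751744064

theorem H_29 : AllH 127 tb29 :=
  ⟨L_22684647552, L_22684651584, L_22684655616, L_22684901505, L_22684905537, L_22684905600, L_22684909632, L_22684913664, L_22700634306, L_22700638338, L_22700638401, L_22700638464, L_22700896386, L_22700896449, L_22700900481, L_22700900544, L_22700904513, L_22700904576, L_22701154434, L_22701158529, L_22701158592, L_22701162561, L_22701162624, L_22701166656, L_22701170688, L_22701416577, L_22701420609, L_22701420672, L_22701424704, L_22701428736, L_22701678657, L_22701678720, L_22701682752, L_22701686784, L_22701936705, L_22701940800, L_22701944832, L_22717411458, L_22717411521, L_22717415553, L_22717415616, L_22717669506, L_22717673601, L_22717673664, L_22717677633, L_22717677696, L_22717681728, L_22717931649, L_22717935681,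 L_22717935744, L_22717939776, L_22717943808, L_22718193729, L_22718193792, L_22718197824, L_22718201856, L_22718451777, L_22718455872, L_22718459904, L_22718713920, L_22718717952, L_22718976000, L_22733926530, L_22733926593, L_22734184578, L_22734188673, L_22734188736, L_22734192705, L_22734192768, L_22734446721, L_22734450753, L_22734450816, L_22734454848, L_22734458880, L_22734708801, L_22734708864, L_22734712896, L_22734716928, L_22734966849, L_22734970944, L_22734974976, L_22735228992, L_22735233024, L_22735491072, L_22735749120, L_22750699650, L_22750703745, L_22750703808, L_22750961793, L_22750965825, L_22750965888, L_22750969920, L_22751223873, L_22751223936, L_22751227968, L_22751232000, L_22751481921, L_22751486016, L_22751490048, L_22751744064, trivial⟩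

end Crest.Agent.R187.SN.Top
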