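import Crest.Agent.R187.SN.TD.WO7_Mg
import Crest.Agent.R187.SN.TD.FO6
import Crest.Agent.R187.SN.TD.C_15
import Crest.Agent.R187.SN.TD.C_16
import Crest.Agent.R187.SN.TD.C_17
import Crest.Agent.R187.SN.TD.C_18
import Crest.Agent.R187.SN.TD.C_19

/-!
# Row 187, PLAN S, generated certificate data (mod 127): rank bounds, glue, part 3

Written by a C++ program (helper824).  The tables are only data: every property is checked by
the kernel.
-/

set_option autoImplicit false
set_option maxRecDepth 100000
set_option Elab.async false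

namespace Crest.Agent.R187.SN.Top

theorem L_22751748096 : HH 127 (nat_lit 22751748096, nat_lit 252) := top_sound R_22751748096
  ⟨V6_19496964096_ok, V6_18456514560_ok, V6_18439999488_ok, V6_17383034880_ok, trivial⟩
  ⟨W_22750429184_ok, W_22733914112_ok, W_22716882944_ok, W_22700367872_ok, W_22683852800_ok, W_22667853824_ok, W_22667337728_ok, W_21676949504_ok, W_21676691456_ok, W_21659918336_ok, W_20603211776_ok, W_20586696704_ok, W_20586438656_ok, W_20569923584_ok, W_20536893440_ok, W_20520378368_ok, W_19529474048_ok, trivial⟩ C_22751748096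
theorem L_22752006144 : HH 127 (nat_lit 22752006144, nat_lit 167) := top_sound R_22752006144
  ⟨V6_20554186752_ok, V6_18456772608_ok, V6_18423484416_ok, V6_17383034880_ok, V6_17366519808_ok, trivial⟩
  ⟨W_22750429184_ok, W_22733914112_ok, W_22733656064_ok, W_22684368896_ok, W_21676949504_ok, W_21676691456_ok, W_21660434432_ok, W_21610889216_ok, W_20603211776_ok, W_20586696704_ok, W_20537409536_ok, W_20537151488_ok, trivial⟩ C_22752006144
theorem L_22752264192 : HH 127 (nat_lit 22752264192, nat_lit 70) := top_sound R_22752264192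
  ⟨V6_20554186752_ok, V6_19480707072_ok, V6_18456772608_ok, V6_18423742464_ok, trivial⟩
  ⟨W_22750429184_ok, W_22733914112_ok, W_22700883968_ok, W_21676949504_ok, W_19480444928_ok, W_17350000640_ok, trivial⟩ C_22752264192
theorem L_22767214722 : HH 127 (nat_lit 22767214722, nat_lit 2) := top_sound R_22767214722
  ⟨V6_22666551426_ok, V6_20552622210_ok, trivial⟩
  ⟨W_18455470208_ok, W_17398505600_ok, trivial⟩ C_22767214722
theorem L_22767476865 : HH 127 (nat_lit 22767476865, nat_lit 16) := top_sound R_22767476865
  ⟨V6_18455732352_ok, trivial⟩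
  ⟨W_22700105792_ok, W_22683590720_ok, W_22683328640_ok, W_21643141184_ok, W_21609848960_ok, trivial⟩ C_22767476865
theorem L_22767480897 : HH 127 (nat_lit 22767480897, nat_lit 11) := top_sound R_22767480897
  ⟨V6_20569661505_ok, V6_19495923777_ok, trivial⟩
  ⟨W_22666817600_ok, W_18472505408_ok, W_17398767680_ok, W_16325029952_ok, trivial⟩ C_22767480897
theorem L_22767480960 : HH 127 (nat_lit 22767480960, nat_lit 27) := top_sound R_22767480960
  ⟨V6_21643407360_ok, V6_18455732352_ok, trivial⟩
  ⟨W_22666813568_ok, W_19529474048_ok, W_18472509440_ok, W_16325029952_ok, W_16308252800_ok, trivial⟩ C_22767480960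
theorem L_22767738945 : HH 127 (nat_lit 22767738945, nat_lit 33) := top_sound R_22767738945
  ⟨V6_19546247232_ok, V6_18472505409_ok, V6_18439217217_ok, trivial⟩
  ⟨W_22700105792_ok, W_22683848768_ok, W_22683590720_ok, W_22667075648_ok, W_21643141184_ok, W_21626884160_ok, W_19529211968_ok, trivial⟩ C_22767738945
theorem L_22767739008 : HH 127 (nat_lit 22767739008, nat_lit 78) := top_sound R_22767739008
  ⟨V6_20586700800_ok, V6_18455732352_ok, trivial⟩
  ⟨W_22716882944_ok, W_22700367872_ok, W_22683852800_ok, W_22683590720_ok, W_22683328640_ok, W_22650298496_ok, W_21659918336_ok, W_19545989120_ok, W_18472509440_ok, W_18472247360_ok, trivial⟩ C_22767739008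
theorem L_22767743040 : HH 127 (nat_lit 22767743040, nat_lit 124) := top_sound R_22767743040
  ⟨V6_19546247232_ok, V6_19512963072_ok, V6_18455998464_ok, trivial⟩
  ⟨W_22700367872_ok, W_22683852800_ok, W_22683848768_ok, W_22683590720_ok, W_22667079680_ok, W_22667075648_ok, W_22666817600_ok, W_22650302528_ok, W_20603211776_ok, W_20586696704_ok, W_20569923584_ok, trivial⟩ C_22767743040
theorem L_22767747072 : HH 127 (nat_lit 22767747072, nat_lit 86) := top_sound R_22767747072
  ⟨V6_20620247040_ok, V6_17382260736_ok, V6_16325296128_ok, trivial⟩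
  ⟨W_22717399040_ok, W_22650306560_ok, W_21660434432_ok, W_20586696704_ok, W_18472767488_ok, trivial⟩ C_22767747072
theorem L_22767996993 : HH 127 (nat_lit 22767996993, nat_lit 19) := top_sound R_22767996993
  ⟨V6_22667333697_ok, V6_18472505409_ok, V6_18439475265_ok, V6_17382510657_ok, trivial⟩
  ⟨W_22700363840_ok, W_22683848768_ok, W_22667333696_ok, W_21659914304_ok, W_21610369088_ok, trivial⟩ C_22767996993
theorem L_22768001088 : HH 127 (nat_lit 22768001088, nat_lit 179) := top_sound R_22768001088
  ⟨V6_19513221120_ok, V6_18456256512_ok, V6_18456252480_ok, trivial⟩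
  ⟨W_22733656064_ok, W_22716882944_ok, W_22716878912_ok, W_22700367872_ok, W_22700105792_ok, W_22683852800_ok, W_22683590720_ok, W_22667337728_ok, W_22667333696_ok, W_22667075648_ok, W_22650560576_ok, W_21676691456_ok, W_21659918336_ok, W_21643141184_ok, W_20603211776_ok, W_20586696704_ok, W_20569923584_ok, W_18472247360_ok, trivial⟩ C_22768001088
theorem L_22768005120 : HH 127 (nat_lit 22768005120, nat_lit 186) := top_sound R_22768005120
  ⟨V6_19512963072_ok, V6_18456256512_ok, V6_18455998464_ok, trivial⟩
  ⟨W_22733914112_ok, W_22700367872_ok, W_22683852800_ok, W_22667337728_ok, W_22667079680_ok, W_22650564608_ok, W_21676949504_ok, W_21660434432_ok, W_20619984896_ok, W_20603211776_ok, W_20586696704_ok, W_20569665536_ok, W_19546247168_ok, W_17398771712_ok, trivial⟩ C_22768005120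
theorem L_22768259136 : HH 127 (nat_lit 22768259136, nat_lit 109) := top_sound R_22768259136
  ⟨V6_22766948352_ok, V6_18456514560_ok, V6_17399549952_ok, trivial⟩
  ⟨W_22733393984_ok, W_22717140992_ok, W_22700363840_ok, W_22684110848_ok, W_22683848768_ok, W_22667595776_ok, W_22667333696_ok, W_21693206528_ok, W_21676691456_ok, W_21643399232_ok, W_21593854016_ok, W_20603211776_ok, W_20602949696_ok, W_20586434624_ok, W_19545985088_ok, W_19529470016_ok, trivial⟩ C_22768259136
theorem L_22768263168 : HH 127 (nat_lit 22768263168, nat_lit 242) := top_sound R_22768263168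
  ⟨V6_19513479168_ok, V6_18456514560_ok, V6_18456256512_ok, V6_17399549952_ok, trivial⟩
  ⟨W_22750429184_ok, W_22733914112_ok, W_22684368896_ok, W_22667595776_ok, W_22667337728_ok, W_22650822656_ok, W_21676949504_ok, W_21627404288_ok, W_20586696704_ok, W_20569923584_ok, W_20536893440_ok, W_19546247168_ok, W_19529732096_ok, W_18472767488_ok, trivial⟩ C_22768263168
theorem L_22768521216 : HH 127 (nat_lit 22768521216, nat_lit 178) := top_sound R_22768521216
  ⟨V6_19496964096_ok, V6_18456772608_ok, V6_18439999488_ok, V6_17399549952_ok, trivial⟩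
  ⟨W_22750429184_ok, W_22733914112_ok, W_22733656064_ok, W_22684368896_ok, W_22667595776_ok, W_21693464576_ok, W_21693206528_ok, W_21676949504_ok, W_21676691456_ok, W_21660434432_ok, W_21610889216_ok, W_21594116096_ok, W_20619984896_ok, W_20603211776_ok, W_19546247168_ok, trivial⟩ C_22768521216
theorem L_22768779264 : HH 127 (nat_lit 22768779264, nat_lit 85) := top_sound R_22768779264
  ⟨V6_21693726720_ok, V6_20554186752_ok, V6_18456772608_ok, V6_16326328320_ok, trivial⟩
  ⟨W_22684368896_ok, W_21676949504_ok, W_21610889216_ok, W_20619984896_ok, W_20537409536_ok, W_18456510464_ok, trivial⟩ C_22768779264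
theorem L_22783991937 : HH 127 (nat_lit 22783991937, nat_lit 7) := top_sound R_22783991937
  ⟨V6_18472247424_ok, trivial⟩
  ⟨W_22683328640_ok, W_21643141184_ok, trivial⟩ C_22783991937
theorem L_22784254017 : HH 127 (nat_lit 22784254017, nat_lit 17) := top_sound R_22784254017
  ⟨V6_22700105793_ok, V6_20569661505_ok, V6_18472505409_ok, V6_17415282753_ok, V6_16341803073_ok, trivial⟩
  ⟨W_22700363840_ok, W_20586434624_ok, W_18489020480_ok, W_18472505408_ok, trivial⟩ C_22784254017
theorem L_22784254080 : HH 127 (nat_lit 22784254080, nat_lit 40) := top_sound R_22784254080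
  ⟨V6_19562766336_ok, V6_18455732352_ok, trivial⟩
  ⟨W_22716882944_ok, W_22700367872_ok, W_22700105792_ok, W_22683590720_ok, W_22683328640_ok, W_21659918336_ok, W_16341803072_ok, trivial⟩ C_22784254080
theorem L_22784258112 : HH 127 (nat_lit 22784258112, nat_lit 42) := top_sound R_22784258112
  ⟨V6_21643407360_ok, V6_20603211840_ok, V6_19546247232_ok, trivial⟩
  ⟨W_19546247168_ok, W_17415544832_ok, W_17398771712_ok, W_17398767680_ok, W_17381994560_ok, W_16341803072_ok, W_16325029952_ok, trivial⟩ C_22784258112
theorem L_22784512065 : HH 127 (nat_lit 22784512065, nat_lit 11) := top_sound R_22784512065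
  ⟨V6_19512954945_ok, V6_18472505409_ok, V6_17399025729_ok, trivial⟩
  ⟨W_22700363840_ok, W_22683848768_ok, W_21659914304_ok, W_20619464768_ok, trivial⟩ C_22784512065
theorem L_22784516160 : HH 127 (nat_lit 22784516160, nat_lit 126) := top_sound R_22784516160
  ⟨V6_20603473920_ok, V6_20586700800_ok, V6_19546247232_ok, trivial⟩
  ⟨W_22733656064_ok, W_22716882944_ok, W_22716878912_ok, W_22700367872_ok, W_22683852800_ok, W_22683590720_ok, W_21676691456_ok, W_21659918336_ok, W_19545989120_ok, W_19529211968_ok, W_18489024512_ok, W_18472247360_ok, W_17415544832_ok, W_16342065152_ok, W_16341803072_ok, trivial⟩ C_22784516160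
theorem L_22784520192 : HH 127 (nat_lit 22784520192, nat_lit 119) := top_sound R_22784520192
  ⟨V6_20620247040_ok, V6_19512963072_ok, V6_18455998464_ok, trivial⟩
  ⟨W_22733914112_ok, W_21676949504_ok, W_21660434432_ok, W_20619984896_ok, W_19563020288_ok, W_19546247168_ok, W_18489282560_ok, W_17415544832_ok, W_17398771712_ok, W_16342065152_ok, W_16341807104_ok, trivial⟩ C_22784520192
theorem L_22784774208 : HH 127 (nat_lit 22784774208, nat_lit 84) := top_sound R_22784774208
  ⟨V6_20603473920_ok, V6_18456252480_ok, trivial⟩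
  ⟨W_22733656064_ok, W_22717140992_ok, W_22683848768_ok, W_22667333696_ok, W_21693206528_ok, W_21676691456_ok, W_20586696704_ok, W_18489282560_ok, trivial⟩ C_22784774208
theorem L_22784778240 : HH 127 (nat_lit 22784778240, nat_lit 189) := top_sound R_22784778240
  ⟨V6_20603473920_ok, V6_19513221120_ok, V6_18456256512_ok, trivial⟩
  ⟨W_22750429184_ok, W_22733914112_ok, W_22667337728_ok, W_21693464576_ok, W_21676691456_ok, W_20586696704_ok, W_19563020288_ok, W_19546247168_ok, W_19529732096_ok, W_18489282560_ok, W_18472767488_ok, W_17416060928_ok, W_15268585472_ok, trivial⟩ C_22784778240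
theorem L_22785036288 : HH 127 (nat_lit 22785036288, nat_lit 165) := top_sound R_22785036288
  ⟨V6_20570443776_ok, V6_19513479168_ok, V6_17399549952_ok, trivial⟩
  ⟨W_22750429184_ok, W_22733656064_ok, W_22684368896_ok, W_22667595776_ok, W_21693464576_ok, W_21693206528_ok, W_21676949504_ok, W_21676691456_ok, W_21660434432_ok, W_21627404288_ok, W_20636499968_ok, W_20619984896_ok, W_19563020288_ok, W_15268843520_ok, trivial⟩ C_22785036288
theorem L_22785294336 : HH 127 (nat_lit 22785294336, nat_lit 87) := top_sound R_22785294336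
  ⟨V6_22783721472_ok, V6_21693726720_ok, V6_20620247040_ok, V6_18456772608_ok, trivial⟩
  ⟨W_22684368896_ok, W_22667853824_ok, W_21676949504_ok, W_21610889216_ok, W_20619984896_ok, W_19563020288_ok, W_17416060928_ok, W_15269101568_ok, trivial⟩ C_22785294336
theorem L_22800769089 : HH 127 (nat_lit 22800769089, nat_lit 7) := top_sound R_22800769089
  ⟨V6_19545985089_ok, V6_18505797696_ok, V6_17415282753_ok, trivial⟩
  ⟨W_22700105792_ok, W_21643141184_ok, trivial⟩ C_22800769089
theorem L_22800769152 : HH 127 (nat_lit 22800769152, nat_lit 17) := top_sound R_22800769152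
  ⟨V6_19562766336_ok, trivial⟩
  ⟨W_22716882944_ok, W_22700105792_ok, W_22683328640_ok, W_16341540992_ok, trivial⟩ C_22800769152
theorem L_22801027137 : HH 127 (nat_lit 22801027137, nat_lit 6) := top_sound R_22801027137
  ⟨V6_18505797696_ok, V6_18472505409_ok, trivial⟩
  ⟨W_22733393984_ok, W_22716878912_ok, W_22700363840_ok, trivial⟩ C_22801027137
theorem L_22801031232 : HH 127 (nat_lit 22801031232, nat_lit 62) := top_sound R_22801031232
  ⟨V6_21676695552_ok, V6_20603211840_ok, V6_19546247232_ok, V6_18505797696_ok, trivial⟩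
  ⟨W_22733656064_ok, W_22716882944_ok, W_22700367872_ok, W_20586438656_ok, W_17415544832_ok, W_16358580224_ok, trivial⟩ C_22801031232
theorem L_22801035264 : HH 127 (nat_lit 22801035264, nat_lit 44) := top_sound R_22801035264
  ⟨V6_21693726720_ok, V6_21643407360_ok, V6_16358584320_ok, trivial⟩
  ⟨W_19546247168_ok, W_18489282560_ok, W_17432317952_ok, W_17415544832_ok, W_16358580224_ok, trivial⟩ C_22801035264
theorem L_22801289280 : HH 127 (nat_lit 22801289280, nat_lit 58) := top_sound R_22801289280
  ⟨V6_20603473920_ok, V6_18505797696_ok, trivial⟩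
  ⟨W_22733656064_ok, W_22717140992_ok, W_22716878912_ok, W_21676691456_ok, W_17415802880_ok, W_16358838272_ok, W_16358576192_ok, trivial⟩ C_22801289280
theorem L_22801293312 : HH 127 (nat_lit 22801293312, nat_lit 128) := top_sound R_22801293312
  ⟨V6_20603473920_ok, V6_20586700800_ok, V6_16358842368_ok, trivial⟩
  ⟨W_22750429184_ok, W_22733914112_ok, W_22733656064_ok, W_22716882944_ok, W_22683852800_ok, W_21693464576_ok, W_21676949504_ok, W_20636499968_ok, W_19579535360_ok, W_19563020288_ok, W_18489024512_ok, W_16358580224_ok, trivial⟩ C_22801293312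
theorem L_22801551360 : HH 127 (nat_lit 22801551360, nat_lit 123) := top_sound R_22801551360
  ⟨V6_22766948352_ok, V6_22717661184_ok, V6_20620247040_ok, V6_20603473920_ok, trivial⟩
  ⟨W_20586696704_ok, W_19563020288_ok, W_19546247168_ok, W_19529732096_ok, W_18489282560_ok, W_18472767488_ok, W_17416060928_ok, W_16358838272_ok, trivial⟩ C_22801551360
theorem L_22801809408 : HH 127 (nat_lit 22801809408, nat_lit 79) := top_sound R_22801809408
  ⟨V6_22800236544_ok, V6_22783721472_ok, V6_22717661184_ok, V6_20620247040_ok, V6_16359358464_ok, trivial⟩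
  ⟨W_21676949504_ok, W_20619984896_ok, W_19563020288_ok, W_18456510464_ok, W_17432576000_ok, W_17416060928_ok, trivial⟩ C_22801809408
theorem L_22817542209 : HH 127 (nat_lit 22817542209, nat_lit 2) := top_sound R_22817542209
  ⟨V6_19545985089_ok, V6_17448570945_ok, trivial⟩
  ⟨W_22733393984_ok, W_22716878912_ok, trivial⟩ C_22817542209
theorem L_22817546304 : HH 127 (nat_lit 22817546304, nat_lit 25) := top_sound R_22817546304
  ⟨V6_19562766336_ok, V6_17448837120_ok, trivial⟩
  ⟨W_22733656064_ok, W_22716882944_ok, W_22716878912_ok, W_22700105792_ok, trivial⟩ C_22817546304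
theorem L_22817804352 : HH 127 (nat_lit 22817804352, nat_lit 29) := top_sound R_22817804352
  ⟨V6_19579277376_ok, V6_19546247232_ok, V6_18522574848_ok, V6_18505797696_ok, trivial⟩
  ⟨W_22733656064_ok, W_21693206528_ok, W_20636241920_ok, W_19579277312_ok, W_17448833024_ok, W_17432317952_ok, trivial⟩ C_22817804352
theorem L_22817808384 : HH 127 (nat_lit 22817808384, nat_lit 65) := top_sound R_22817808384
  ⟨V6_21693726720_ok, V6_21676695552_ok, V6_18522832896_ok, V6_18522574848_ok, V6_17448837120_ok, trivial⟩
  ⟨W_22716882944_ok, W_22700367872_ok, W_20586438656_ok, W_19529474048_ok, W_17449091072_ok, W_17448833024_ok, W_17415544832_ok, trivial⟩ C_22817808384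
theorem L_22818066432 : HH 127 (nat_lit 22818066432, nat_lit 86) := top_sound R_22818066432
  ⟨V6_20620247040_ok, V6_20603473920_ok, V6_17449353216_ok, trivial⟩
  ⟨W_22766944256_ok, W_22750429184_ok, W_22733914112_ok, W_22733656064_ok, W_21676949504_ok, W_21660434432_ok, W_20653015040_ok, W_17449091072_ok, W_17448833024_ok, trivial⟩ C_22818066432
theorem L_22818324480 : HH 127 (nat_lit 22818324480, nat_lit 60) := top_sound R_22818324480
  ⟨V6_22800236544_ok, V6_22717661184_ok, V6_21726756864_ok, V6_18522832896_ok, V6_17449353216_ok, trivial⟩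
  ⟨W_21676949504_ok, W_19579535360_ok, W_19563020288_ok, W_18522570752_ok, W_17449091072_ok, W_17432576000_ok, W_17416060928_ok, trivial⟩ C_22818324480
theorem L_22834319424 : HH 127 (nat_lit 22834319424, nat_lit 12) := top_sound R_22834319424
  ⟨V6_18522574848_ok, V6_18505797696_ok, trivial⟩
  ⟨W_22733656064_ok, W_22733393984_ok, W_22716878912_ok, trivial⟩ C_22834319424
theorem L_22834323456 : HH 127 (nat_lit 22834323456, nat_lit 25) := top_sound R_22834323456
  ⟨V6_19562766336_ok, V6_18522574848_ok, trivial⟩
  ⟨W_22750429184_ok, W_22716882944_ok, W_18522570752_ok, trivial⟩ C_22834323456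
theorem L_22834581504 : HH 127 (nat_lit 22834581504, nat_lit 46) := top_sound R_22834581504
  ⟨V6_21693726720_ok, V6_19596312576_ok, V6_18522832896_ok, V6_18522574848_ok, trivial⟩
  ⟨W_21676949504_ok, W_21676691456_ok, W_20603211776_ok, trivial⟩ C_22834581504
theorem L_22834839552 : HH 127 (nat_lit 22834839552, nat_lit 38) := top_sound R_22834839552
  ⟨V6_20620247040_ok, V6_19612827648_ok, V6_18522832896_ok, trivial⟩
  ⟨W_22750429184_ok, W_22717399040_ok, W_21726494720_ok, W_19612565504_ok, trivial⟩ C_22834839552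
theorem L_22850834496 : HH 127 (nat_lit 22850834496, nat_lit 2) := top_sound R_22850834496
  ⟨V6_20653019136_ok, trivial⟩
  ⟨W_22750171136_ok, W_22733393984_ok, trivial⟩ C_22850834496
theorem L_22851096576 : HH 127 (nat_lit 22851096576, nat_lit 20) := top_sound R_22851096576
  ⟨V6_21693468672_ok, V6_19596312576_ok, trivial⟩
  ⟨W_22766944256_ok, W_21709979648_ok, W_20653015040_ok, W_19579535360_ok, trivial⟩ C_22851096576
theorem L_22851354624 : HH 127 (nat_lit 22851354624, nat_lit 24) := top_sound R_22851354624
  ⟨V6_21693726720_ok, V6_19629342720_ok, V6_19612827648_ok, trivial⟩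
  ⟨W_22733914112_ok, W_20636499968_ok, trivial⟩ C_22851354624
theorem L_22867611648 : HH 127 (nat_lit 22867611648, nat_lit 5) := top_sound R_22867611648
  ⟨V6_22766948352_ok, trivial⟩
  ⟨W_21709979648_ok, trivial⟩ C_22867611648
theorem L_22867869696 : HH 127 (nat_lit 22867869696, nat_lit 10) := top_sound R_22867869696
  ⟨V6_22783721472_ok, V6_21726756864_ok, trivial⟩
  ⟨W_20636499968_ok, trivial⟩ C_22867869696
theorem L_22884384768 : HH 127 (nat_lit 22884384768, nat_lit 3) := top_sound R_22884384768
  ⟨V6_21726756864_ok, trivial⟩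
  ⟨W_21726494720_ok, trivial⟩ C_22884384768
theorem L_23690494212 : HH 127 (nat_lit 23690494212, nat_lit 1) := top_sound R_23690494212
  ⟨V6_17248043268_ok, trivial⟩
  ⟨W_20469268736_ok, trivial⟩ C_23690494212
theorem L_23724048642 : HH 127 (nat_lit 23724048642, nat_lit 2) := top_sound R_23724048642
  ⟨V6_20469268737_ok, V6_19395526914_ok, trivial⟩
  ⟨W_20502823040_ok, trivial⟩ C_23724048642
theorem L_23724310722 : HH 127 (nat_lit 23724310722, nat_lit 1) := top_sound R_23724310722
  ⟨V6_20502823104_ok, trivial⟩
  ⟨W_21559787648_ok, trivial⟩ C_23724310722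
theorem L_23724310785 : HH 127 (nat_lit 23724310785, nat_lit 2) := top_sound R_23724310785
  ⟨V6_20503085121_ok, trivial⟩
  ⟨W_21576564800_ok, trivial⟩ C_23724310785
theorem L_23724314817 : HH 127 (nat_lit 23724314817, nat_lit 1) := top_sound R_23724314817
  ⟨V6_19429347393_ok, trivial⟩
  ⟨W_22633787456_ok, trivial⟩ C_23724314817
theorem L_23724572802 : HH 127 (nat_lit 23724572802, nat_lit 5) := top_sound R_23724572802
  ⟨V6_21576560769_ok, V6_21576556674_ok, trivial⟩
  ⟨W_20503339136_ok, W_18355863680_ok, trivial⟩ C_23724572802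
theorem L_23724572865 : HH 127 (nat_lit 23724572865, nat_lit 4) := top_sound R_23724572865
  ⟨V6_20503343169_ok, V6_19429601472_ok, trivial⟩
  ⟨W_22650302528_ok, W_21576564800_ok, trivial⟩ C_23724572865
theorem L_23724572928 : HH 127 (nat_lit 23724572928, nat_lit 8) := top_sound R_23724572928
  ⟨V6_21577089024_ok, trivial⟩
  ⟨W_22650306560_ok, W_21576564800_ok, W_16208380160_ok, trivial⟩ C_23724572928
theorem L_23724576897 : HH 127 (nat_lit 23724576897, nat_lit 5) := top_sound R_23724576897
  ⟨V6_17282125953_ok, trivial⟩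
  ⟨W_22650560576_ok, W_21577080896_ok, trivial⟩ C_23724576897
theorem L_23724576960 : HH 127 (nat_lit 23724576960, nat_lit 6) := top_sound R_23724576960
  ⟨V6_17282126016_ok, trivial⟩
  ⟨W_22650564608_ok, W_21576826880_ok, trivial⟩ C_23724576960
theorem L_23724580929 : HH 127 (nat_lit 23724580929, nat_lit 1) := top_sound R_23724580929
  ⟨V6_17282129985_ok, trivial⟩
  ⟨W_21577080896_ok, trivial⟩ C_23724580929
theorem L_23724580992 : HH 127 (nat_lit 23724580992, nat_lit 12) := top_sound R_23724580992
  ⟨V6_19429613568_ok, V6_18355871808_ok, trivial⟩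
  ⟨W_22650822656_ok, W_20503339136_ok, W_19429601408_ok, trivial⟩ C_23724580992
theorem L_23740825794 : HH 127 (nat_lit 23740825794, nat_lit 2) := top_sound R_23740825794
  ⟨V6_21559787649_ok, trivial⟩
  ⟨W_22616752256_ok, W_19429081280_ok, trivial⟩ C_23740825794
theorem L_23740825857 : HH 127 (nat_lit 23740825857, nat_lit 5) := top_sound R_23740825857
  ⟨V6_18372116736_ok, trivial⟩
  ⟨W_23690494016_ok, W_22616752256_ok, W_21576564800_ok, trivial⟩ C_23740825857
theorem L_23741083842 : HH 127 (nat_lit 23741083842, nat_lit 1) := top_sound R_23741083842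
  ⟨V6_20502818946_ok, trivial⟩
  ⟨W_18372374720_ok, trivial⟩ C_23741083842
theorem L_23741087874 : HH 127 (nat_lit 23741087874, nat_lit 4) := top_sound R_23741087874
  ⟨V6_21576556674_ok, V6_21559787649_ok, trivial⟩
  ⟨W_19445858432_ok, W_19429343360_ok, trivial⟩ C_23741087874
theorem L_23741087937 : HH 127 (nat_lit 23741087937, nat_lit 8) := top_sound R_23741087937
  ⟨V6_20503085121_ok, V6_20502823104_ok, trivial⟩
  ⟨W_21593337920_ok, W_20519858240_ok, W_18372374720_ok, trivial⟩ C_23741087937
theorem L_23741088000 : HH 127 (nat_lit 23741088000, nat_lit 8) := top_sound R_23741088000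
  ⟨V6_19429081344_ok, V6_18372116736_ok, trivial⟩
  ⟨W_21593341952_ok, W_21576826880_ok, trivial⟩ C_23741088000
theorem L_23741091969 : HH 127 (nat_lit 23741091969, nat_lit 5) := top_sound R_23741091969
  ⟨V6_18372382848_ok, trivial⟩
  ⟨W_22633787456_ok, W_21593595968_ok, trivial⟩ C_23741091969
theorem L_23741092032 : HH 127 (nat_lit 23741092032, nat_lit 6) := top_sound R_23741092032
  ⟨V6_17298641088_ok, trivial⟩
  ⟨W_22650564608_ok, W_22633787456_ok, W_21576826880_ok, trivial⟩ C_23741092032
theorem L_23741345922 : HH 127 (nat_lit 23741345922, nat_lit 5) := top_sound R_23741345922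
  ⟨V6_19446374529_ok, trivial⟩
  ⟨W_23723778176_ok, W_22650298496_ok, W_21576560768_ok, trivial⟩ C_23741345922
theorem L_23741345985 : HH 127 (nat_lit 23741345985, nat_lit 5) := top_sound R_23741345985
  ⟨V6_21593075841_ok, V6_19429601472_ok, V6_18355859649_ok, trivial⟩
  ⟨W_22650302528_ok, W_21593337920_ok, trivial⟩ C_23741345985
theorem L_23741350017 : HH 127 (nat_lit 23741350017, nat_lit 20) := top_sound R_23741350017
  ⟨V6_21577080960_ok, V6_19446374529_ok, trivial⟩
  ⟨W_22667075648_ok, W_21593337920_ok, W_21576564800_ok, W_20503085120_ok, W_18372640832_ok, trivial⟩ C_23741350017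
theorem L_23741350080 : HH 127 (nat_lit 23741350080, nat_lit 27) := top_sound R_23741350080
  ⟨V6_22667083776_ok, V6_21577089024_ok, trivial⟩
  ⟨W_23724044288_ok, W_20520120320_ok, W_19446382592_ok, W_18372640832_ok, W_18372374720_ok, trivial⟩ C_23741350080
theorem L_23741354049 : HH 127 (nat_lit 23741354049, nat_lit 9) := top_sound R_23741354049
  ⟨V6_22667333697_ok, V6_20503343169_ok, V6_19429347393_ok, V6_18372382785_ok, trivial⟩
  ⟨W_22667333696_ok, W_21593854016_ok, W_21577080896_ok, trivial⟩ C_23741354049
theorem L_23741354112 : HH 127 (nat_lit 23741354112, nat_lit 31) := top_sound R_23741354112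
  ⟨V6_20503351296_ok, V6_17298903168_ok, trivial⟩
  ⟨W_22667337728_ok, W_22650560576_ok, W_21593600000_ok, W_21593595968_ok, W_21576818816_ok, W_20519854208_ok, W_20503339136_ok, trivial⟩ C_23741354112
theorem L_23741358144 : HH 127 (nat_lit 23741358144, nat_lit 21) := top_sound R_23741358144
  ⟨V6_22667595840_ok, V6_19429613568_ok, trivial⟩
  ⟨W_23724560384_ok, W_22650822656_ok, W_20520120320_ok, trivial⟩ C_23741358144
theorem L_23741603970 : HH 127 (nat_lit 23741603970, nat_lit 1) := top_sound R_23741603970
  ⟨V6_18372894849_ok, trivial⟩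
  ⟨W_23740293248_ok, trivial⟩ C_23741603970
theorem L_23741608065 : HH 127 (nat_lit 23741608065, nat_lit 9) := top_sound R_23741608065
  ⟨V6_18372898881_ok, V6_18372894849_ok, trivial⟩
  ⟨W_22667075648_ok, W_22666817600_ok, W_21593333888_ok, trivial⟩ C_23741608065
theorem L_23741608128 : HH 127 (nat_lit 23741608128, nat_lit 12) := top_sound R_23741608128
  ⟨V6_20520382464_ok, V6_17299157184_ok, trivial⟩
  ⟨W_20520120320_ok, W_20519596160_ok, trivial⟩ C_23741608128
theorem L_23741612097 : HH 127 (nat_lit 23741612097, nat_lit 14) := top_sound R_23741612097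
  ⟨V6_18372898881_ok, V6_17299161153_ok, trivial⟩
  ⟨W_22667333696_ok, W_22667075648_ok, W_20519600192_ok, trivial⟩ C_23741612097
theorem L_23741612160 : HH 127 (nat_lit 23741612160, nat_lit 27) := top_sound R_23741612160
  ⟨V6_20520382464_ok, V6_19446644736_ok, trivial⟩
  ⟨W_23740817408_ok, W_21593595968_ok, W_21593341952_ok, W_21593337920_ok, W_21593333888_ok, trivial⟩ C_23741612160
theorem L_23741616192 : HH 127 (nat_lit 23741616192, nat_lit 27) := top_sound R_23741616192
  ⟨V6_20519866368_ok, V6_17299165248_ok, trivial⟩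
  ⟨W_22667595776_ok, W_22667337728_ok, W_22667333696_ok, W_21593854016_ok, W_20520374336_ok, trivial⟩ C_23741616192
theorem L_23741620224 : HH 127 (nat_lit 23741620224, nat_lit 12) := top_sound R_23741620224
  ⟨V6_23741595648_ok, V6_18372907008_ok, trivial⟩
  ⟨W_22667595776_ok, W_17298907136_ok, trivial⟩ C_23741620224
theorem L_23757602946 : HH 127 (nat_lit 23757602946, nat_lit 7) := top_sound R_23757602946
  ⟨V6_23690494080_ok, V6_21576556674_ok, V6_20502818946_ok, trivial⟩
  ⟨W_23707263104_ok, W_20536369280_ok, W_19462631552_ok, trivial⟩ C_23757602946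
theorem L_23757603009 : HH 127 (nat_lit 23757603009, nat_lit 8) := top_sound R_23757603009
  ⟨V6_19462635585_ok, V6_17315152065_ok, trivial⟩
  ⟨W_23707267136_ok, W_22650302528_ok, W_22633529408_ok, W_22616752256_ok, W_21576564800_ok, trivial⟩ C_23757603009
theorem L_23757603072 : HH 127 (nat_lit 23757603072, nat_lit 14) := top_sound R_23757603072
  ⟨V6_23690494080_ok, V6_19429081344_ok, V6_18372116736_ok, trivial⟩
  ⟨W_22650306560_ok, W_21593341952_ok, W_21576564800_ok, W_16241410304_ok, trivial⟩ C_23757603072
theorem L_23757860994 : HH 127 (nat_lit 23757860994, nat_lit 6) := top_sound R_23757860994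
  ⟨V6_21576556674_ok, V6_20536111233_ok, V6_20502818946_ok, trivial⟩
  ⟨W_23707263104_ok, W_19462889600_ok, trivial⟩ C_23757860994
theorem L_23757861057 : HH 127 (nat_lit 23757861057, nat_lit 6) := top_sound R_23757861057
  ⟨V6_19462631616_ok, V6_18388889793_ok, trivial⟩
  ⟨W_23707267136_ok, W_22633787456_ok, W_21593337920_ok, trivial⟩ C_23757861057
theorem L_23757865089 : HH 127 (nat_lit 23757865089, nat_lit 25) := top_sound R_23757865089
  ⟨V6_22650298497_ok, V6_22633529409_ok, V6_22633525377_ok, V6_21576818817_ok, V6_21576564801_ok, V6_21576560769_ok, V6_21560049792_ok, V6_21559787649_ok, V6_20503085121_ok, trivial⟩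
  ⟨W_23707525184_ok, W_23707263104_ok, W_22667075648_ok, W_22633787456_ok, W_21593595968_ok, W_21593337920_ok, W_20536373312_ok, trivial⟩ C_23757865089
theorem L_23757865152 : HH 127 (nat_lit 23757865152, nat_lit 31) := top_sound R_23757865152
  ⟨V6_21610119168_ok, trivial⟩
  ⟨W_23724044288_ok, W_23707267136_ok, W_22650306560_ok, W_21593337920_ok, W_20536635392_ok, W_19446116480_ok, W_18372374720_ok, trivial⟩ C_23757865152
theorem L_23757869121 : HH 127 (nat_lit 23757869121, nat_lit 11) := top_sound R_23757869121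
  ⟨V6_22667333697_ok, V6_21610369089_ok, V6_19429347393_ok, V6_18372382785_ok, trivial⟩
  ⟨W_21593595968_ok, W_20519858240_ok, trivial⟩ C_23757869121
theorem L_23757869184 : HH 127 (nat_lit 23757869184, nat_lit 23) := top_sound R_23757869184
  ⟨V6_20519866368_ok, V6_19462901760_ok, trivial⟩
  ⟨W_23724302336_ok, W_22667337728_ok, W_21576826880_ok, W_21576818816_ok, W_19462889600_ok, trivial⟩ C_23757869184
theorem L_23758119042 : HH 127 (nat_lit 23758119042, nat_lit 10) := top_sound R_23758119042
  ⟨V6_19446374529_ok, V6_18389409921_ok, trivial⟩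
  ⟨W_23740293248_ok, W_22650298496_ok, W_21609848960_ok, W_21576818816_ok, trivial⟩ C_23758119042
theorem L_23758123137 : HH 127 (nat_lit 23758123137, nat_lit 29) := top_sound R_23758123137
  ⟨V6_20536111233_ok, V6_20503343169_ok, V6_19446374529_ok, V6_18389409921_ok, trivial⟩
  ⟨W_23740555328_ok, W_23724040256_ok, W_22683590720_ok, W_22667075648_ok, W_22666817600_ok, W_19463151680_ok, trivial⟩ C_23758123137
theorem L_23758123200 : HH 127 (nat_lit 23758123200, nat_lit 23) := top_sound R_23758123200
  ⟨V6_22650826752_ok, V6_19462631616_ok, trivial⟩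
  ⟨W_23724044288_ok, W_21593337920_ok, W_19463155712_ok, trivial⟩ C_23758123200

theorem H_30 : AllH 127 tb30 :=
  ⟨L_22751748096, L_22752006144, L_22752264192, L_22767214722, L_22767476865, L_22767480897, L_22767480960, L_22767738945, L_22767739008, L_22767743040, L_22767747072, L_22767996993, L_22768001088, L_22768005120, L_22768259136, L_22768263168, L_22768521216, L_22768779264, L_22783991937, L_22784254017, L_22784254080, L_22784258112, L_22784512065, L_22784516160, L_22784520192, L_22784774208, L_22784778240, L_22785036288, L_22785294336, L_22800769089, L_22800769152, L_22801027137, L_22801031232, L_22801035264, L_22801289280, L_22801293312, L_22801551360, L_22801809408, L_22817542209, L_22817546304, L_22817804352, L_22817808384, L_22818066432, L_22818324480, L_22834319424, L_22834323456, L_22834581504, L_22834839552, L_22850834496, L_22851096576, L_22851354624, L_22867611648, L_22867869696, L_22884384768, L_23690494212, L_23724048642, L_23724310722, L_23724310785, L_23724314817, L_23724572802, L_23724572865, L_23724572928,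 L_23724576897, L_23724576960, L_23724580929, L_23724580992, L_23740825794, L_23740825857, L_23741083842, L_23741087874, L_23741087937, L_23741088000, L_23741091969, L_23741092032, L_23741345922, L_23741345985, L_23741350017, L_23741350080, L_23741354049, L_23741354112, L_23741358144, L_23741603970, L_23741608065, L_23741608128, L_23741612097, L_23741612160, L_23741616192, L_23741620224, L_23757602946, L_23757603009, L_23757603072, L_23757860994, L_23757861057, L_23757865089, L_23757865152, L_23757869121, L_23757869184, L_23758119042, L_23758123137, L_23758123200, trivial⟩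

theorem L_23758127169 : HH 127 (nat_lit 23758127169, nat_lit 26) := top_sound R_23758127169
  ⟨V6_21610631232_ok, V6_21577080897_ok, V6_20536889409_ok, V6_20503343169_ok, trivial⟩
  ⟨W_23724298304_ok, W_23724040256_ok, W_21576564800_ok, W_19463151680_ok, W_18372640832_ok, trivial⟩ C_23758127169
theorem L_23758127232 : HH 127 (nat_lit 23758127232, nat_lit 94) := top_sound R_23758127232
  ⟨V6_22683856896_ok, V6_22650826752_ok, V6_21610119168_ok, V6_21577089024_ok, trivial⟩
  ⟨W_23740817408_ok, W_22650822656_ok, W_20536893440_ok, W_20503339136_ok, W_19463155712_ok, W_19462889600_ok, W_19446382592_ok, W_19446374528_ok, W_18372640832_ok, W_18355863680_ok, trivial⟩ C_23758127232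
theorem L_23758131264 : HH 127 (nat_lit 23758131264, nat_lit 69) := top_sound R_23758131264
  ⟨V6_19462901760_ok, V6_19446386688_ok, V6_18389422080_ok, trivial⟩
  ⟨W_23741075456_ok, W_23724560384_ok, W_23724302336_ok, W_22667595776_ok, W_22667337728_ok, W_22667333696_ok, W_22650560576_ok, W_21610369088_ok, W_21593854016_ok, W_21577080896_ok, W_20536635392_ok, trivial⟩ C_23758131264
theorem L_23758135296 : HH 127 (nat_lit 23758135296, nat_lit 42) := top_sound R_23758135296
  ⟨V6_19429613568_ok, V6_18389422080_ok, trivial⟩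
  ⟨W_22684368896_ok, W_22667595776_ok, W_21593858048_ok, W_18355871744_ok, trivial⟩ C_23758135296
theorem L_23758381185 : HH 127 (nat_lit 23758381185, nat_lit 19) := top_sound R_23758381185
  ⟨V6_19446636609_ok, V6_18389409921_ok, trivial⟩
  ⟨W_23757070400_ok, W_23740293248_ok, W_22683328640_ok, W_22667075648_ok, W_21593595968_ok, trivial⟩ C_23758381185
theorem L_23758385217 : HH 127 (nat_lit 23758385217, nat_lit 25) := top_sound R_23758385217
  ⟨V6_21610369089_ok, V6_20536889409_ok, V6_20520374337_ok, V6_19446636609_ok, V6_18372898881_ok, trivial⟩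
  ⟨W_23740555328_ok, W_22683590720_ok, W_19463151680_ok, W_17315934272_ok, trivial⟩ C_23758385217
theorem L_23758385280 : HH 127 (nat_lit 23758385280, nat_lit 67) := top_sound R_23758385280
  ⟨V6_20537155584_ok, V6_18389672064_ok, trivial⟩
  ⟨W_23740817408_ok, W_23740559360_ok, W_23740555328_ok, W_22683852800_ok, W_22683594752_ok, W_22683590720_ok, W_22667337728_ok, W_22666817600_ok, W_21593337920_ok, W_20520120320_ok, W_19446374528_ok, trivial⟩ C_23758385280
theorem L_23758389312 : HH 127 (nat_lit 23758389312, nat_lit 97) := top_sound R_23758389312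
  ⟨V6_22667857920_ok, V6_21610119168_ok, V6_20537155584_ok, V6_19446644736_ok, trivial⟩
  ⟨W_23757590528_ok, W_23740817408_ok, W_23740813376_ok, W_22667333696_ok, W_20536893440_ok, W_19463155712_ok, W_17315938304_ok, W_16242196544_ok, trivial⟩ C_23758389312
theorem L_23758393344 : HH 127 (nat_lit 23758393344, nat_lit 61) := top_sound R_23758393344
  ⟨V6_21610893312_ok, V6_17315942400_ok, trivial⟩
  ⟨W_23741075456_ok, W_22684368896_ok, W_22667595776_ok, W_22667337728_ok, W_21610889216_ok, W_21594116096_ok, W_19446124544_ok, W_18389159936_ok, trivial⟩ C_23758393344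
theorem L_23758643265 : HH 127 (nat_lit 23758643265, nat_lit 11) := top_sound R_23758643265
  ⟨V6_21610631232_ok, trivial⟩
  ⟨W_23757070400_ok, W_22683590720_ok, W_17316192320_ok, trivial⟩ C_23758643265
theorem L_23758643328 : HH 127 (nat_lit 23758643328, nat_lit 39) := top_sound R_23758643328
  ⟨V6_20537155584_ok, trivial⟩
  ⟨W_23757070400_ok, W_22683852800_ok, W_22683328640_ok, W_18389934080_ok, trivial⟩ C_23758643328
theorem L_23758647360 : HH 127 (nat_lit 23758647360, nat_lit 58) := top_sound R_23758647360
  ⟨V6_21610893312_ok, V6_20537155584_ok, trivial⟩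
  ⟨W_23757590528_ok, W_23757332480_ok, W_22683852800_ok, W_22683848768_ok, W_22683590720_ok, W_21609852992_ok, W_17316192320_ok, W_16242454592_ok, trivial⟩ C_23758647360
theorem L_23758651392 : HH 127 (nat_lit 23758651392, nat_lit 67) := top_sound R_23758651392
  ⟨V6_21610119168_ok, V6_17316200448_ok, trivial⟩
  ⟨W_23757848576_ok, W_23757590528_ok, W_21610889216_ok, W_20537409536_ok, W_20536893440_ok, trivial⟩ C_23758651392
theorem L_23774376066 : HH 127 (nat_lit 23774376066, nat_lit 6) := top_sound R_23774376066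
  ⟨V6_23690485890_ok, V6_21576556674_ok, V6_20502818946_ok, V6_18405404802_ok, trivial⟩
  ⟨W_19479404672_ok, W_19479146624_ok, trivial⟩ C_23774376066
theorem L_23774376129 : HH 127 (nat_lit 23774376129, nat_lit 5) := top_sound R_23774376129
  ⟨V6_19462631616_ok, trivial⟩
  ⟨W_23707267136_ok, W_22666817600_ok, W_20552888384_ok, trivial⟩ C_23774376129
theorem L_23774380161 : HH 127 (nat_lit 23774380161, nat_lit 21) := top_sound R_23774380161
  ⟨V6_20553146433_ok, V6_18405670977_ok, trivial⟩
  ⟨W_23724040256_ok, W_23690494016_ok, W_22667075648_ok, W_22650302528_ok, W_22650298496_ok, W_22633529408_ok, W_22616752256_ok, W_21576564800_ok, W_21559787648_ok, trivial⟩ C_23774380161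
theorem L_23774380224 : HH 127 (nat_lit 23774380224, nat_lit 26) := top_sound R_23774380224
  ⟨V6_20502823104_ok, V6_19462631616_ok, V6_17331929280_ok, trivial⟩
  ⟨W_23724044288_ok, W_23707267136_ok, W_20553150464_ok, W_19479408704_ok, trivial⟩ C_23774380224
theorem L_23774634114 : HH 127 (nat_lit 23774634114, nat_lit 7) := top_sound R_23774634114
  ⟨V6_21576818817_ok, V6_21576556674_ok, trivial⟩
  ⟨W_23740293248_ok, W_23707263104_ok, W_19479404672_ok, trivial⟩ C_23774634114
theorem L_23774638209 : HH 127 (nat_lit 23774638209, nat_lit 31) := top_sound R_23774638209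
  ⟨V6_23723778177_ok, V6_22650298497_ok, V6_22633525377_ok, V6_21593075841_ok, V6_21576818817_ok, V6_21576560769_ok, V6_20553146433_ok, V6_20536111233_ok, trivial⟩
  ⟨W_22683590720_ok, W_22633787456_ok, W_21593595968_ok, W_20536373312_ok, W_20519858240_ok, W_19479408704_ok, trivial⟩ C_23774638209
theorem L_23774638272 : HH 127 (nat_lit 23774638272, nat_lit 26) := top_sound R_23774638272
  ⟨V6_22683856896_ok, trivial⟩
  ⟨W_20553150464_ok, W_20536635392_ok, W_18372374720_ok, trivial⟩ C_23774638272
theorem L_23774642241 : HH 127 (nat_lit 23774642241, nat_lit 30) := top_sound R_23774642241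
  ⟨V6_21610369089_ok, V6_21576564801_ok, V6_20553146433_ok, V6_18405670977_ok, trivial⟩
  ⟨W_23724298304_ok, W_23724040256_ok, W_23707525184_ok, W_22683848768_ok, W_22667333696_ok, W_21626884160_ok, W_20503085120_ok, W_19479408704_ok, trivial⟩ C_23774642241
theorem L_23774642304 : HH 127 (nat_lit 23774642304, nat_lit 83) := top_sound R_23774642304
  ⟨V6_21610119168_ok, V6_20553154560_ok, V6_18405671040_ok, trivial⟩
  ⟨W_23740817408_ok, W_23724302336_ok, W_23724044288_ok, W_23724040256_ok, W_23707525184_ok, W_22683852800_ok, W_22667075648_ok, W_22650306560_ok, W_22650298496_ok, W_20536635392_ok, W_19479404672_ok, W_19462889600_ok, W_18405924992_ok, trivial⟩ C_23774642304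
theorem L_23774646336 : HH 127 (nat_lit 23774646336, nat_lit 46) := top_sound R_23774646336
  ⟨V6_20519866368_ok, V6_19462901760_ok, V6_18405937152_ok, trivial⟩
  ⟨W_23724302336_ok, W_23707525184_ok, W_22684110848_ok, W_22667333696_ok, W_21627146240_ok, W_17332195328_ok, W_16258453568_ok, trivial⟩ C_23774646336
theorem L_23774896257 : HH 127 (nat_lit 23774896257, nat_lit 32) := top_sound R_23774896257
  ⟨V6_21577080960_ok, V6_19446374529_ok, V6_18389409921_ok, trivial⟩
  ⟨W_23757070400_ok, W_23740555328_ok, W_23740293248_ok, W_22683590720_ok, W_22667075648_ok, W_18406187072_ok, trivial⟩ C_23774896257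
theorem L_23774900289 : HH 127 (nat_lit 23774900289, nat_lit 38) := top_sound R_23774900289
  ⟨V6_22667595840_ok, V6_21610631232_ok, V6_19479924801_ok, trivial⟩
  ⟨W_23724040256_ok, W_21609852992_ok, W_21593337920_ok, W_21577080896_ok, W_20536373312_ok, W_19479408704_ok, W_19463151680_ok, trivial⟩ C_23774900289
theorem L_23774900352 : HH 127 (nat_lit 23774900352, nat_lit 110) := top_sound R_23774900352
  ⟨V6_23740821504_ok, V6_23724564480_ok, V6_22700371968_ok, V6_22683856896_ok, V6_22650826752_ok, trivial⟩
  ⟨W_23723778176_ok, W_22700367872_ok, W_20553150464_ok, W_20536893440_ok, W_20520120320_ok, W_20503339136_ok, W_19479404672_ok, W_19463155712_ok, W_19462889600_ok, W_19446374528_ok, W_18405924992_ok, W_16258707584_ok, trivial⟩ C_23774900352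
theorem L_23774904384 : HH 127 (nat_lit 23774904384, nat_lit 150) := top_sound R_23774904384
  ⟨V6_23741337600_ok, V6_23724048384_ok, V6_21627408384_ok, V6_21610119168_ok, V6_20553154560_ok, trivial⟩
  ⟨W_23724560384_ok, W_23724302336_ok, W_22667595776_ok, W_22650822656_ok, W_21577084928_ok, W_21577080896_ok, W_20553150464_ok, W_20536893440_ok, W_20520120320_ok, W_20520116288_ok, W_20503347200_ok, W_20503343168_ok, W_19479412736_ok, W_19463155712_ok, W_19446382592_ok, W_19429605440_ok, W_18372640832_ok, trivial⟩ C_23774904384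
theorem L_23774908416 : HH 127 (nat_lit 23774908416, nat_lit 91) := top_sound R_23774908416
  ⟨V6_20503351296_ok, V6_19462901760_ok, V6_19446386688_ok, V6_18405937152_ok, V6_18389422080_ok, trivial⟩
  ⟨W_23757848576_ok, W_23741075456_ok, W_23724302336_ok, W_22700883968_ok, W_22684368896_ok, W_22667595776_ok, W_22650822656_ok, W_22650564608_ok, W_21627404288_ok, W_21577084928_ok, W_19429609472_ok, W_17332195328_ok, trivial⟩ C_23774908416
theorem L_23775158337 : HH 127 (nat_lit 23775158337, nat_lit 35) := top_sound R_23775158337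
  ⟨V6_22700105793_ok, V6_19480186944_ok, V6_19446636609_ok, trivial⟩
  ⟨W_23773843520_ok, W_23757328448_ok, W_23757070400_ok, W_23740813376_ok, W_23740555328_ok, W_22683590720_ok, W_22667333696_ok, W_21593595968_ok, W_20520374336_ok, W_19446636608_ok, trivial⟩ C_23775158337
theorem L_23775158400 : HH 127 (nat_lit 23775158400, nat_lit 72) := top_sound R_23775158400
  ⟨V6_20537155584_ok, V6_18389672064_ok, trivial⟩
  ⟨W_23757332480_ok, W_23757070400_ok, W_23740555328_ok, W_23740293248_ok, W_22700367872_ok, W_22683852800_ok, W_22683590720_ok, W_22683328640_ok, W_22667337728_ok, W_19479404672_ok, W_19446374528_ok, trivial⟩ C_23775158400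
theorem L_23775162432 : HH 127 (nat_lit 23775162432, nat_lit 148) := top_sound R_23775162432
  ⟨V6_22667857920_ok, V6_21627408384_ok, V6_21610893312_ok, V6_20520382464_ok, V6_19480186944_ok, trivial⟩
  ⟨W_23757332480_ok, W_23740817408_ok, W_23740559360_ok, W_20553150464_ok, W_20536893440_ok, W_20536635392_ok, W_19480186880_ok, W_19463413760_ok, W_19463155712_ok, W_18389676032_ok, trivial⟩ C_23775162432
theorem L_23775166464 : HH 127 (nat_lit 23775166464, nat_lit 132) := top_sound R_23775166464
  ⟨V6_21627408384_ok, V6_21610119168_ok, V6_20553154560_ok, V6_19446644736_ok, trivial⟩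
  ⟨W_23774363648_ok, W_23757848576_ok, W_23741333504_ok, W_23740817408_ok, W_21610889216_ok, W_21594116096_ok, W_20536893440_ok, W_19463413760_ok, W_18389676032_ok, W_18372902912_ok, W_17315938304_ok, trivial⟩ C_23775166464
theorem L_23775416385 : HH 127 (nat_lit 23775416385, nat_lit 9) := top_sound R_23775416385
  ⟨V6_19479924801_ok, V6_17332965441_ok, trivial⟩
  ⟨W_23773843520_ok, W_22700363840_ok, W_22683848768_ok, trivial⟩ C_23775416385
theorem L_23775420480 : HH 127 (nat_lit 23775420480, nat_lit 102) := top_sound R_23775420480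
  ⟨V6_20537155584_ok, V6_18406711296_ok, V6_18406707264_ok, trivial⟩
  ⟨W_23774105600_ok, W_23773843520_ok, W_23757590528_ok, W_23757332480_ok, W_23757328448_ok, W_23757070400_ok, W_22700367872_ok, W_22683852800_ok, W_22683590720_ok, W_20536893440_ok, W_18389930048_ok, trivial⟩ C_23775420480
theorem L_23775424512 : HH 127 (nat_lit 23775424512, nat_lit 117) := top_sound R_23775424512
  ⟨V6_22683856896_ok, V6_21611151360_ok, V6_20554186752_ok, V6_18406711296_ok, trivial⟩
  ⟨W_23774363648_ok, W_23757848576_ok, W_22700367872_ok, W_20537409536_ok, W_20536893440_ok, W_19480186880_ok, W_19463413760_ok, W_18389934080_ok, trivial⟩ C_23775424512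
theorem L_23775678528 : HH 127 (nat_lit 23775678528, nat_lit 28) := top_sound R_23775678528
  ⟨V6_23774105664_ok, V6_18406707264_ok, trivial⟩
  ⟨W_23773843520_ok, W_19480186880_ok, W_17333227520_ok, W_16259485760_ok, trivial⟩ C_23775678528
theorem L_23775682560 : HH 127 (nat_lit 23775682560, nat_lit 48) := top_sound R_23775682560
  ⟨V6_20554186752_ok, V6_18406711296_ok, trivial⟩
  ⟨W_23774363648_ok, W_23773847552_ok, W_22700883968_ok, W_22700367872_ok, W_18406965248_ok, W_17333227520_ok, trivial⟩ C_23775682560
theorem L_23790891138 : HH 127 (nat_lit 23790891138, nat_lit 1) := top_sound R_23790891138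
  ⟨V6_18405404802_ok, trivial⟩
  ⟨W_23723778176_ok, trivial⟩ C_23790891138
theorem L_23790891201 : HH 127 (nat_lit 23790891201, nat_lit 1) := top_sound R_23790891201
  ⟨V6_19479146688_ok, trivial⟩
  ⟨W_22666817600_ok, trivial⟩ C_23790891201
theorem L_23791149186 : HH 127 (nat_lit 23791149186, nat_lit 10) := top_sound R_23791149186
  ⟨V6_19496181888_ok, trivial⟩
  ⟨W_23740293248_ok, W_23723778176_ok, W_23707263104_ok, W_22650298496_ok, W_21609848960_ok, trivial⟩ C_23791149186
theorem L_23791153281 : HH 127 (nat_lit 23791153281, nat_lit 24) := top_sound R_23791153281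
  ⟨V6_19496181888_ok, trivial⟩
  ⟨W_23740555328_ok, W_23724040256_ok, W_23723778176_ok, W_23707267136_ok, W_23707263104_ok, W_22683590720_ok, W_22666813568_ok, W_22650302528_ok, W_21593337920_ok, W_20552888384_ok, trivial⟩ C_23791153281
theorem L_23791153344 : HH 127 (nat_lit 23791153344, nat_lit 18) := top_sound R_23791153344
  ⟨V6_21643407360_ok, V6_17348702400_ok, trivial⟩
  ⟨W_23724044288_ok, W_23707267136_ok, W_19496185856_ok, trivial⟩ C_23791153344
theorem L_23791157313 : HH 127 (nat_lit 23791157313, nat_lit 19) := top_sound R_23791157313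
  ⟨V6_20569919553_ok, V6_18405670977_ok, V6_17348706369_ok, trivial⟩
  ⟨W_23724040256_ok, W_23707267136_ok, W_23690494016_ok, W_22683848768_ok, W_22667075648_ok, W_22633529408_ok, W_21626884160_ok, trivial⟩ C_23791157313
theorem L_23791157376 : HH 127 (nat_lit 23791157376, nat_lit 67) := top_sound R_23791157376
  ⟨V6_19496189952_ok, V6_18405671040_ok, trivial⟩
  ⟨W_23740817408_ok, W_23724044288_ok, W_23724040256_ok, W_23707271168_ok, W_23707267136_ok, W_23690494016_ok, W_22667075648_ok, W_22650306560_ok, W_22650302528_ok, W_22650298496_ok, W_21593333888_ok, W_20569923584_ok, trivial⟩ C_23791157376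
theorem L_23791411329 : HH 127 (nat_lit 23791411329, nat_lit 33) := top_sound R_23791411329
  ⟨V6_19496181888_ok, trivial⟩
  ⟨W_23757070400_ok, W_23740555328_ok, W_23740293248_ok, W_23723778176_ok, W_23707263104_ok, W_22683590720_ok, W_22667075648_ok, W_22650560576_ok, W_21643141184_ok, W_21593595968_ok, trivial⟩ C_23791411329
theorem L_23791415361 : HH 127 (nat_lit 23791415361, nat_lit 39) := top_sound R_23791415361
  ⟨V6_23774105664_ok, V6_22717141056_ok, V6_21643399233_ok, V6_21626884161_ok, V6_20569919553_ok, V6_20569661505_ok, trivial⟩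
  ⟨W_23724298304_ok, W_23724040256_ok, W_23707525184_ok, W_23707267136_ok, W_22667333696_ok, W_22633787456_ok, W_21593337920_ok, W_21576822848_ok, W_20536373312_ok, W_20519858240_ok, W_19495923776_ok, W_19479408704_ok, trivial⟩ C_23791415361
theorem L_23791415424 : HH 127 (nat_lit 23791415424, nat_lit 100) := top_sound R_23791415424
  ⟨V6_23740821504_ok, V6_22700371968_ok, V6_21643407360_ok, V6_20569927680_ok, trivial⟩
  ⟨W_23724302336_ok, W_23707525184_ok, W_22700367872_ok, W_20569923584_ok, W_20553150464_ok, W_19496185856_ok, W_19479404672_ok, W_19462889600_ok, W_18422440064_ok, W_18405924992_ok, trivial⟩ C_23791415424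
theorem L_23791419456 : HH 127 (nat_lit 23791419456, nat_lit 131) := top_sound R_23791419456
  ⟨V6_22650568704_ok, V6_20553154560_ok, V6_19496189952_ok, V6_18422448192_ok, trivial⟩
  ⟨W_23757590528_ok, W_23741075456_ok, W_23740817408_ok, W_23740813376_ok, W_23724302336_ok, W_23724298304_ok, W_23707525184_ok, W_23707271168_ok, W_22683848768_ok, W_22667333696_ok, W_20569923584_ok, W_20553150464_ok, W_19496185856_ok, W_18422448128_ok, trivial⟩ C_23791419456
theorem L_23791423488 : HH 127 (nat_lit 23791423488, nat_lit 50) := top_sound R_23791423488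
  ⟨V6_20519866368_ok, V6_19462901760_ok, V6_18405937152_ok, V6_17348972544_ok, trivial⟩
  ⟨W_23741075456_ok, W_23724302336_ok, W_22700883968_ok, W_22684110848_ok, W_21643919360_ok, W_21576826880_ok, W_19446124544_ok, trivial⟩ C_23791423488
theorem L_23791673409 : HH 127 (nat_lit 23791673409, nat_lit 39) := top_sound R_23791673409
  ⟨V6_21643399233_ok, V6_21643141185_ok, V6_21577080897_ok, V6_20536889409_ok, V6_19496702016_ok, trivial⟩
  ⟨W_23773843520_ok, W_23757070400_ok, W_23740813376_ok, W_23740555328_ok, W_23724040256_ok, W_22683590720_ok, W_22667333696_ok, W_22650560576_ok, W_21643141184_ok, W_21593595968_ok, W_21577080896_ok, trivial⟩ C_23791673409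
theorem L_23791673472 : HH 127 (nat_lit 23791673472, nat_lit 110) := top_sound R_23791673472
  ⟨V6_23724564480_ok, V6_19496706048_ok, trivial⟩
  ⟨W_23773847552_ok, W_23757332480_ok, W_23757070400_ok, W_23740817408_ok, W_23740293248_ok, W_23723778176_ok, W_22716882944_ok, W_22700367872_ok, W_22683328640_ok, W_22666813568_ok, W_20569923584_ok, W_20569399424_ok, W_19479404672_ok, W_19462889600_ok, W_18422440064_ok, W_18405924992_ok, trivial⟩ C_23791673472
theorem L_23791677504 : HH 127 (nat_lit 23791677504, nat_lit 188) := top_sound R_23791677504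
  ⟨V6_23741337600_ok, V6_22717141056_ok, V6_20570443776_ok, V6_19496706048_ok, trivial⟩
  ⟨W_23757332480_ok, W_23740817408_ok, W_23724560384_ok, W_23724044288_ok, W_22667595776_ok, W_22650822656_ok, W_21577084928_ok, W_21577080896_ok, W_20569923584_ok, W_20569665536_ok, W_20553150464_ok, W_20536893440_ok, W_20520120320_ok, W_20520116288_ok, W_19496185856_ok, W_19463155712_ok, trivial⟩ C_23791677504
theorem L_23791681536 : HH 127 (nat_lit 23791681536, nat_lit 185) := top_sound R_23791681536
  ⟨V6_20570443776_ok, V6_19496706048_ok, V6_19496189952_ok, trivial⟩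
  ⟨W_23774363648_ok, W_23757848576_ok, W_23741075456_ok, W_23740817408_ok, W_23724560384_ok, W_23724302336_ok, W_23724044288_ok, W_22683852800_ok, W_22667595776_ok, W_22667337728_ok, W_22650822656_ok, W_22650564608_ok, W_21627404288_ok, W_21577084928_ok, W_20536893440_ok, W_20503347200_ok, W_19446382592_ok, trivial⟩ C_23791681536
theorem L_23791931457 : HH 127 (nat_lit 23791931457, nat_lit 17) := top_sound R_23791931457
  ⟨V6_18423222336_ok, trivial⟩
  ⟨W_23773843520_ok, W_23757328448_ok, W_23740813376_ok, W_22683848768_ok, W_22667333696_ok, W_21593854016_ok, trivial⟩ C_23791931457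
theorem L_23791935552 : HH 127 (nat_lit 23791935552, nat_lit 170) := top_sound R_23791935552
  ⟨V6_19496706048_ok, V6_18423226368_ok, V6_18423222336_ok, trivial⟩
  ⟨W_23790620672_ok, W_23773847552_ok, W_23773843520_ok, W_23757332480_ok, W_23757328448_ok, W_23757070400_ok, W_23741075456_ok, W_23740817408_ok, W_23740813376_ok, W_23740555328_ok, W_22716882944_ok, W_22716878912_ok, W_22700105792_ok, W_22683590720_ok, W_22667595776_ok, W_22667333696_ok, W_21594116096_ok, W_20536893440_ok, W_20520378368_ok, W_20520374336_ok, W_20520116288_ok, W_19463413760_ok, W_19463409728_ok, W_19446636608_ok, trivial⟩ C_23791935552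
theorem L_23791939584 : HH 127 (nat_lit 23791939584, nat_lit 194) := top_sound R_23791939584
  ⟨V6_19496964096_ok, V6_19496706048_ok, V6_18423226368_ok, trivial⟩
  ⟨W_23790878720_ok, W_23774363648_ok, W_23757848576_ok, W_23757590528_ok, W_23757332480_ok, W_23741333504_ok, W_23741075456_ok, W_23740817408_ok, W_23740559360_ok, W_22700367872_ok, W_22684368896_ok, W_22683852800_ok, W_22683594752_ok, W_22667595776_ok, W_22667337728_ok, W_21627404288_ok, W_21594116096_ok, W_20569665536_ok, W_20520120320_ok, W_19446640640_ok, trivial⟩ C_23791939584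
theorem L_23792193600 : HH 127 (nat_lit 23792193600, nat_lit 68) := top_sound R_23792193600
  ⟨V6_23790620736_ok, V6_18423484416_ok, V6_18406707264_ok, V6_17349742656_ok, trivial⟩
  ⟨W_23773843520_ok, W_23757590528_ok, W_23757328448_ok, W_22717140992_ok, W_22700625920_ok, W_22684110848_ok, W_21626884160_ok, trivial⟩ C_23792193600
theorem L_23792197632 : HH 127 (nat_lit 23792197632, nat_lit 173) := top_sound R_23792197632
  ⟨V6_21611151360_ok, V6_20554186752_ok, V6_18423226368_ok, V6_18406711296_ok, trivial⟩
  ⟨W_23790878720_ok, W_23790620672_ok, W_23774363648_ok, W_23773847552_ok, W_23757848576_ok, W_23757332480_ok, W_22716882944_ok, W_22700367872_ok, W_22684368896_ok, W_22683852800_ok, W_21627404288_ok, W_21610889216_ok, W_20537409536_ok, W_20537151488_ok, W_19463671808_ok, trivial⟩ C_23792197632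
theorem L_23792455680 : HH 127 (nat_lit 23792455680, nat_lit 80) := top_sound R_23792455680
  ⟨V6_19496964096_ok, V6_18423484416_ok, trivial⟩
  ⟨W_23790878720_ok, W_23790620672_ok, W_23774363648_ok, W_22717399040_ok, W_22717140992_ok, W_22700883968_ok, W_17350000640_ok, trivial⟩ C_23792455680
theorem L_23792713728 : HH 127 (nat_lit 23792713728, nat_lit 28) := top_sound R_23792713728
  ⟨V6_22717661184_ok, trivial⟩
  ⟨W_23790878720_ok, W_22717399040_ok, W_16276520960_ok, trivial⟩ C_23792713728
theorem L_23807664258 : HH 127 (nat_lit 23807664258, nat_lit 4) := top_sound R_23807664258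
  ⟨V6_23723778177_ok, V6_23723516034_ok, V6_20552622210_ok, trivial⟩
  ⟨W_19512434816_ok, W_19495919744_ok, trivial⟩ C_23807664258
theorem L_23807668353 : HH 127 (nat_lit 23807668353, nat_lit 8) := top_sound R_23807668353
  ⟨V6_20536111233_ok, V6_19495923777_ok, trivial⟩
  ⟨W_23740555328_ok, W_19512696896_ok, trivial⟩ C_23807668353
theorem L_23807668416 : HH 127 (nat_lit 23807668416, nat_lit 4) := top_sound R_23807668416
  ⟨V6_19479146688_ok, V6_17365217472_ok, trivial⟩
  ⟨W_23740559360_ok, W_22683594752_ok, W_18422182016_ok, trivial⟩ C_23807668416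
theorem L_23807926401 : HH 127 (nat_lit 23807926401, nat_lit 28) := top_sound R_23807926401
  ⟨V6_22650298497_ok, V6_20553146433_ok, V6_18439217217_ok, trivial⟩
  ⟨W_23757070400_ok, W_23740555328_ok, W_23740293248_ok, W_23724040256_ok, W_23707263104_ok, W_22700105792_ok, W_21643141184_ok, W_20569399424_ok, W_19512434816_ok, W_19495919744_ok, trivial⟩ C_23807926401
theorem L_23807930433 : HH 127 (nat_lit 23807930433, nat_lit 28) := top_sound R_23807930433
  ⟨V6_20569919553_ok, V6_19512954945_ok, V6_19495923777_ok, V6_18439217217_ok, trivial⟩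
  ⟨W_23757328448_ok, W_23740813376_ok, W_23740555328_ok, W_23724040256_ok, W_23707267136_ok, W_22683590720_ok, W_22667075648_ok, W_22666817600_ok, W_22650302528_ok, W_21593337920_ok, trivial⟩ C_23807930433
theorem L_23807930496 : HH 127 (nat_lit 23807930496, nat_lit 76) := top_sound R_23807930496
  ⟨V6_20569927680_ok, V6_19512963072_ok, trivial⟩
  ⟨W_23740817408_ok, W_23740559360_ok, W_23724044288_ok, W_23724040256_ok, W_23723778176_ok, W_23707267136_ok, W_23707263104_ok, W_22700367872_ok, W_22683852800_ok, W_22683590720_ok, W_22650298496_ok, W_19512696896_ok, W_19495919744_ok, W_18438955136_ok, trivial⟩ C_23807930496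
theorem L_23807934528 : HH 127 (nat_lit 23807934528, nat_lit 84) := top_sound R_23807934528
  ⟨V6_23724048384_ok, V6_18422448192_ok, V6_17365483584_ok, trivial⟩
  ⟨W_23757590528_ok, W_23740817408_ok, W_23724044288_ok, W_23724040256_ok, W_23707267136_ok, W_23690494016_ok, W_22700625920_ok, W_22683848768_ok, W_22667075648_ok, W_22650306560_ok, W_22650302528_ok, W_21626884160_ok, W_21593341952_ok, W_21593337920_ok, trivial⟩ C_23807934528
theorem L_23808188481 : HH 127 (nat_lit 23808188481, nat_lit 41) := top_sound R_23808188481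
  ⟨V6_21643141185_ok, V6_20586696768_ok, V6_18439217217_ok, trivial⟩
  ⟨W_23773843520_ok, W_23757070400_ok, W_23740813376_ok, W_23740555328_ok, W_23724298304_ok, W_23724040256_ok, W_23707525184_ok, W_22716878912_ok, W_22700105792_ok, W_22667333696_ok, W_22650560576_ok, W_21659914304_ok, W_19512696896_ok, trivial⟩ C_23808188481
theorem L_23808188544 : HH 127 (nat_lit 23808188544, nat_lit 94) := top_sound R_23808188544
  ⟨V6_20586700800_ok, V6_19513221120_ok, trivial⟩
  ⟨W_23757332480_ok, W_23757070400_ok, W_23740555328_ok, W_23740293248_ok, W_23724302336_ok, W_23723778176_ok, W_23707525184_ok, W_23707263104_ok, W_22716882944_ok, W_22700367872_ok, W_22683852800_ok, W_22683590720_ok, W_22683328640_ok, W_22667337728_ok, W_22650560576_ok, W_22650298496_ok, W_20569399424_ok, W_18438955136_ok, trivial⟩ C_23808188544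
theorem L_23808192576 : HH 127 (nat_lit 23808192576, nat_lit 166) := top_sound R_23808192576
  ⟨V6_22717141056_ok, V6_21660176448_ok, V6_19513221120_ok, V6_19512963072_ok, trivial⟩
  ⟨W_23757332480_ok, W_23741075456_ok, W_23740817408_ok, W_23724302336_ok, W_23724044288_ok, W_23707525184_ok, W_23707267136_ok, W_20586696704_ok, W_20586438656_ok, W_20569923584_ok, W_20553150464_ok, W_19496185856_ok, W_18439221248_ok, trivial⟩ C_23808192576
theorem L_23808196608 : HH 127 (nat_lit 23808196608, nat_lit 136) := top_sound R_23808196608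
  ⟨V6_22650568704_ok, V6_19513221120_ok, V6_18439225344_ok, trivial⟩
  ⟨W_23774363648_ok, W_23757848576_ok, W_23740817408_ok, W_21660434432_ok, W_20586696704_ok, W_20569923584_ok, W_20553150464_ok, W_17365483520_ok, trivial⟩ C_23808196608
theorem L_23808446529 : HH 127 (nat_lit 23808446529, nat_lit 18) := top_sound R_23808446529
  ⟨V6_20536889409_ok, V6_18439475265_ok, V6_17365995585_ok, trivial⟩
  ⟨W_23773843520_ok, W_23740813376_ok, W_23724298304_ok, W_22733393984_ok, W_22700363840_ok, W_22683848768_ok, W_22667333696_ok, trivial⟩ C_23808446529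
theorem L_23808450624 : HH 127 (nat_lit 23808450624, nat_lit 195) := top_sound R_23808450624
  ⟨V6_19513221120_ok, V6_19496706048_ok, V6_18439741440_ok, trivial⟩
  ⟨W_23790620672_ok, W_23773847552_ok, W_23773843520_ok, W_23757332480_ok, W_23757328448_ok, W_23757070400_ok, W_23741075456_ok, W_23740817408_ok, W_23740813376_ok, W_23740555328_ok, W_23724560384_ok, W_23724302336_ok, W_23724298304_ok, W_23724040256_ok, W_22733656064_ok, W_22716882944_ok, W_22716878912_ok, W_22700367872_ok, W_22683852800_ok, W_22667595776_ok, W_22667337728_ok, W_22667333696_ok, W_22667075648_ok, W_22650822656_ok, W_22650560576_ok, W_21577080896_ok, W_20586438656_ok, W_20520116288_ok, trivial⟩ C_23808450624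
theorem L_23808454656 : HH 127 (nat_lit 23808454656, nat_lit 219) := top_sound R_23808454656
  ⟨V6_19513479168_ok, V6_19513221120_ok, V6_18439741440_ok, trivial⟩
  ⟨W_23790878720_ok, W_23774363648_ok, W_23757848576_ok, W_23757332480_ok, W_23741333504_ok, W_23741075456_ok, W_23740817408_ok, W_23740559360_ok, W_23724560384_ok, W_23724302336_ok, W_23724044288_ok, W_22700367872_ok, W_22684368896_ok, W_22683852800_ok, W_22683594752_ok, W_22667595776_ok, W_22667337728_ok, W_22650822656_ok, W_22650564608_ok, W_21660434432_ok, W_21627404288_ok, W_21577084928_ok, W_20520120320_ok, trivial⟩ C_23808454656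
theorem L_23808708672 : HH 127 (nat_lit 23808708672, nat_lit 101) := top_sound R_23808708672
  ⟨V6_23807135808_ok, V6_22667857920_ok, V6_18439999488_ok, V6_18423222336_ok, trivial⟩
  ⟨W_23790620672_ok, W_23773843520_ok, W_23757590528_ok, W_23757328448_ok, W_23741075456_ok, W_22733656064_ok, W_22733393984_ok, W_22717140992_ok, W_22684110848_ok, W_22683848768_ok, W_22667595776_ok, W_22667333696_ok, W_21594116096_ok, W_21593854016_ok, W_20520374336_ok, trivial⟩ C_23808708672
theorem L_23808712704 : HH 127 (nat_lit 23808712704, nat_lit 214) := top_sound R_23808712704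
  ⟨V6_19513479168_ok, V6_19496964096_ok, V6_18439741440_ok, trivial⟩
  ⟨W_23790878720_ok, W_23790620672_ok, W_23774363648_ok, W_23757848576_ok, W_23757332480_ok, W_23741333504_ok, W_23741075456_ok, W_23740817408_ok, W_22716882944_ok, W_22700367872_ok, W_22684368896_ok, W_22683852800_ok, W_22667595776_ok, W_22667337728_ok, W_21659918336_ok, W_21627404288_ok, W_21610889216_ok, W_21594116096_ok, W_20520378368_ok, trivial⟩ C_23808712704
theorem L_23808970752 : HH 127 (nat_lit 23808970752, nat_lit 140) := top_sound R_23808970752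
  ⟨V6_21610893312_ok, V6_18439999488_ok, V6_18423484416_ok, trivial⟩
  ⟨W_23790878720_ok, W_23790620672_ok, W_23774363648_ok, W_23757848576_ok, W_22733914112_ok, W_22733656064_ok, W_21660434432_ok, W_21610889216_ok, W_20586696704_ok, W_20537409536_ok, trivial⟩ C_23808970752
theorem L_23809228800 : HH 127 (nat_lit 23809228800, nat_lit 50) := top_sound R_23809228800
  ⟨V6_22717661184_ok, V6_18423742464_ok, trivial⟩
  ⟨W_23790878720_ok, W_23774363648_ok, W_21627404288_ok, W_17350000640_ok, trivial⟩ C_23809228800
theorem L_23824179330 : HH 127 (nat_lit 23824179330, nat_lit 4) := top_sound R_23824179330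
  ⟨V6_23723516034_ok, V6_22666551426_ok, V6_20552622210_ok, trivial⟩
  ⟨W_19512434816_ok, W_18455470208_ok, trivial⟩ C_23824179330
theorem L_23824441473 : HH 127 (nat_lit 23824441473, nat_lit 15) := top_sound R_23824441473
  ⟨V6_23723778177_ok, V6_18455732352_ok, trivial⟩
  ⟨W_23757070400_ok, W_23740555328_ok, W_23740293248_ok, W_23723778176_ok, W_22700105792_ok, W_22683590720_ok, trivial⟩ C_23824441473
theorem L_23824445505 : HH 127 (nat_lit 23824445505, nat_lit 12) := top_sound R_23824445505
  ⟨V6_20569661505_ok, V6_19495923777_ok, trivial⟩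
  ⟨W_23757328448_ok, W_22700363840_ok, W_22666817600_ok, W_20586434624_ok, trivial⟩ C_23824445505
theorem L_23824445568 : HH 127 (nat_lit 23824445568, nat_lit 24) := top_sound R_23824445568
  ⟨V6_21643407360_ok, V6_18455732352_ok, trivial⟩
  ⟨W_23757332480_ok, W_23740559360_ok, W_23723778176_ok, W_22700367872_ok, W_22683590720_ok, W_16308252800_ok, trivial⟩ C_23824445568
theorem L_23824703553 : HH 127 (nat_lit 23824703553, nat_lit 29) := top_sound R_23824703553
  ⟨V6_20553146433_ok, V6_19512954945_ok, V6_18439217217_ok, trivial⟩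
  ⟨W_23773843520_ok, W_23757328448_ok, W_23757070400_ok, W_23740813376_ok, W_23724040256_ok, W_22716878912_ok, W_22700105792_ok, W_21643141184_ok, W_19529211968_ok, trivial⟩ C_23824703553
theorem L_23824703616 : HH 127 (nat_lit 23824703616, nat_lit 81) := top_sound R_23824703616
  ⟨V6_21676695552_ok, V6_20586700800_ok, trivial⟩
  ⟨W_23757332480_ok, W_23757070400_ok, W_23740817408_ok, W_23740555328_ok, W_23740293248_ok, W_23724040256_ok, W_23707263104_ok, W_22716882944_ok, W_22700367872_ok, W_22683852800_ok, W_18422440064_ok, W_17381990528_ok, trivial⟩ C_23824703616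
theorem L_23824707648 : HH 127 (nat_lit 23824707648, nat_lit 115) := top_sound R_23824707648
  ⟨V6_19529732160_ok, V6_19512963072_ok, V6_18455998464_ok, trivial⟩
  ⟨W_23757590528_ok, W_23757332480_ok, W_23757328448_ok, W_23740817408_ok, W_23740813376_ok, W_23740559360_ok, W_23740555328_ok, W_23724044288_ok, W_23724040256_ok, W_23707267136_ok, W_22700367872_ok, W_22683852800_ok, W_22683594752_ok, W_22683590720_ok, W_22667079680_ok, W_22666817600_ok, W_22650302528_ok, W_20603211776_ok, trivial⟩ C_23824707648
theorem L_23824711680 : HH 127 (nat_lit 23824711680, nat_lit 91) := top_sound R_23824711680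
  ⟨V6_22667083776_ok, V6_18455998464_ok, V6_17382260736_ok, trivial⟩
  ⟨W_23774363648_ok, W_23757590528_ok, W_23740817408_ok, W_23724044288_ok, W_22650306560_ok, W_21660434432_ok, W_20586696704_ok, trivial⟩ C_23824711680
theorem L_23824961601 : HH 127 (nat_lit 23824961601, nat_lit 16) := top_sound R_23824961601
  ⟨V6_21610369089_ok, V6_18439475265_ok, V6_17382510657_ok, trivial⟩
  ⟨W_23773843520_ok, W_23724298304_ok, W_22733393984_ok, W_22716878912_ok, W_22700363840_ok, W_22683848768_ok, W_21659914304_ok, trivial⟩ C_23824961601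
theorem L_23824965696 : HH 127 (nat_lit 23824965696, nat_lit 171) := top_sound R_23824965696
  ⟨V6_21676695552_ok, V6_19513221120_ok, V6_18456256512_ok, trivial⟩
  ⟨W_23790620672_ok, W_23773847552_ok, W_23773843520_ok, W_23757590528_ok, W_23757332480_ok, W_23757328448_ok, W_23757070400_ok, W_23741075456_ok, W_23740817408_ok, W_23740813376_ok, W_23740555328_ok, W_23724302336_ok, W_23724298304_ok, W_23724040256_ok, W_23707525184_ok, W_22716882944_ok, W_22716878912_ok, W_22683852800_ok, W_22683590720_ok, W_22667337728_ok, W_22667333696_ok, W_22667075648_ok, W_22650560576_ok, W_21676691456_ok, W_20603211776_ok, trivial⟩ C_23824965696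
theorem L_23824969728 : HH 127 (nat_lit 23824969728, nat_lit 175) := top_sound R_23824969728
  ⟨V6_19513221120_ok, V6_18456256512_ok, V6_18455998464_ok, trivial⟩
  ⟨W_23790878720_ok, W_23774363648_ok, W_23757848576_ok, W_23757590528_ok, W_23757332480_ok, W_23741075456_ok, W_23740817408_ok, W_23740559360_ok, W_23724302336_ok, W_23724044288_ok, W_22733914112_ok, W_22700367872_ok, W_22683852800_ok, W_22667337728_ok, W_22667079680_ok, W_22650564608_ok, W_20569665536_ok, W_19512700928_ok, W_18455736320_ok, trivial⟩ C_23824969728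
theorem L_23825223744 : HH 127 (nat_lit 23825223744, nat_lit 97) := top_sound R_23825223744
  ⟨V6_22667595840_ok, V6_18456514560_ok, V6_18456252480_ok, trivial⟩
  ⟨W_23773843520_ok, W_23757590528_ok, W_23757328448_ok, W_23741075456_ok, W_23740813376_ok, W_23724298304_ok, W_22733656064_ok, W_22733393984_ok, W_22717140992_ok, W_22684110848_ok, W_22667595776_ok, W_22667333696_ok, W_21676691456_ok, trivial⟩ C_23825223744
theorem L_23825227776 : HH 127 (nat_lit 23825227776, nat_lit 242) := top_sound R_23825227776
  ⟨V6_21676695552_ok, V6_19513479168_ok, V6_19513221120_ok, V6_18456256512_ok, trivial⟩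
  ⟨W_23807393792_ok, W_23790878720_ok, W_23790620672_ok, W_23774363648_ok, W_23773847552_ok, W_23757848576_ok, W_23757332480_ok, W_23741333504_ok, W_23741075456_ok, W_23740817408_ok, W_23724560384_ok, W_23724302336_ok, W_22750429184_ok, W_22733914112_ok, W_22650822656_ok, W_21627404288_ok, W_20586696704_ok, W_20536893440_ok, W_19529732096_ok, trivial⟩ C_23825227776
theorem L_23825485824 : HH 127 (nat_lit 23825485824, nat_lit 168) := top_sound R_23825485824
  ⟨V6_20603473920_ok, V6_19496964096_ok, V6_17383034880_ok, trivial⟩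
  ⟨W_23807393792_ok, W_23807135744_ok, W_23790878720_ok, W_23790620672_ok, W_23757848576_ok, W_23741333504_ok, W_22750429184_ok, W_22750171136_ok, W_22733914112_ok, W_22667595776_ok, W_21676949504_ok, W_21676691456_ok, W_21610889216_ok, W_21594116096_ok, W_20586696704_ok, trivial⟩ C_23825485824
theorem L_23825743872 : HH 127 (nat_lit 23825743872, nat_lit 88) := top_sound R_23825743872
  ⟨V6_22717661184_ok, V6_21611151360_ok, V6_20554186752_ok, V6_18456772608_ok, trivial⟩
  ⟨W_23790878720_ok, W_23774363648_ok, W_23757848576_ok, W_21676949504_ok, W_21610889216_ok, W_20537409536_ok, W_19480444928_ok, trivial⟩ C_23825743872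
theorem L_23840956545 : HH 127 (nat_lit 23840956545, nat_lit 8) := top_sound R_23840956545
  ⟨V6_21643141185_ok, V6_18472247424_ok, trivial⟩
  ⟨W_23757070400_ok, W_23740293248_ok, W_22700105792_ok, trivial⟩ C_23840956545
theorem L_23841218625 : HH 127 (nat_lit 23841218625, nat_lit 17) := top_sound R_23841218625
  ⟨V6_20569661505_ok, V6_19546247232_ok, trivial⟩
  ⟨W_23773843520_ok, W_23757070400_ok, W_23740555328_ok, W_22700105792_ok, W_21643141184_ok, trivial⟩ C_23841218625
theorem L_23841218688 : HH 127 (nat_lit 23841218688, nat_lit 40) := top_sound R_23841218688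
  ⟨V6_21676695552_ok, V6_18455732352_ok, trivial⟩
  ⟨W_23757332480_ok, W_23740555328_ok, W_23740293248_ok, W_22700367872_ok, W_20586438656_ok, trivial⟩ C_23841218688
theorem L_23841222720 : HH 127 (nat_lit 23841222720, nat_lit 43) := top_sound R_23841222720
  ⟨V6_22700371968_ok, V6_20603211840_ok, V6_19546247232_ok, trivial⟩
  ⟨W_23757332480_ok, W_19529474048_ok, W_18472509440_ok, W_17398771712_ok, trivial⟩ C_23841222720
theorem L_23841476673 : HH 127 (nat_lit 23841476673, nat_lit 12) := top_sound R_23841476673
  ⟨V6_19546247232_ok, V6_19512954945_ok, trivial⟩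
  ⟨W_23773843520_ok, W_23740813376_ok, W_22733393984_ok, W_21626884160_ok, trivial⟩ C_23841476673
theorem L_23841480768 : HH 127 (nat_lit 23841480768, nat_lit 128) := top_sound R_23841480768
  ⟨V6_20603473920_ok, V6_20586700800_ok, V6_19529732160_ok, trivial⟩
  ⟨W_23790620672_ok, W_23773843520_ok, W_23757332480_ok, W_23757328448_ok, W_23757070400_ok, W_23740817408_ok, W_23740813376_ok, W_23740555328_ok, W_22716882944_ok, W_22700367872_ok, W_22683852800_ok, W_22683590720_ok, W_21676691456_ok, W_21659918336_ok, W_19545989120_ok, trivial⟩ C_23841480768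
theorem L_23841484800 : HH 127 (nat_lit 23841484800, nat_lit 124) := top_sound R_23841484800
  ⟨V6_20620247040_ok, V6_19512963072_ok, V6_18455998464_ok, trivial⟩
  ⟨W_23790878720_ok, W_23774363648_ok, W_23757590528_ok, W_23757332480_ok, W_23740817408_ok, W_23724044288_ok, W_22733914112_ok, W_22700367872_ok, W_22683852800_ok, W_19546247168_ok, trivial⟩ C_23841484800

theorem H_31 : AllH 127 tb31 :=
  ⟨L_23758127169, L_23758127232, L_23758131264, L_23758135296, L_23758381185, L_23758385217, L_23758385280, L_23758389312, L_23758393344, L_23758643265, L_23758643328, L_23758647360, L_23758651392, L_23774376066, L_23774376129, L_23774380161, L_23774380224, L_23774634114, L_23774638209, L_23774638272, L_23774642241, L_23774642304, L_23774646336, L_23774896257, L_23774900289, L_23774900352, L_23774904384, L_23774908416, L_23775158337, L_23775158400, L_23775162432, L_23775166464, L_23775416385, L_23775420480, L_23775424512, L_23775678528, L_23775682560, L_23790891138, L_23790891201, L_23791149186, L_23791153281, L_23791153344, L_23791157313,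 L_23791157376, L_23791411329, L_23791415361, L_23791415424, L_23791419456, L_23791423488, L_23791673409, L_23791673472, L_23791677504, L_23791681536, L_23791931457, L_23791935552, L_23791939584, L_23792193600, L_23792197632, L_23792455680, L_23792713728, L_23807664258, L_23807668353, L_23807668416, L_23807926401, L_23807930433, L_23807930496, L_23807934528, L_23808188481, L_23808188544, L_23808192576, L_23808196608, L_23808446529, L_23808450624, L_23808454656, L_23808708672, L_23808712704, L_23808970752, L_23809228800, L_23824179330, L_23824441473, L_23824445505, L_23824445568, L_23824703553, L_23824703616, L_23824707648, L_23824711680, L_23824961601, L_23824965696, L_23824969728, L_23825223744, L_23825227776, L_23825485824, L_23825743872, L_23840956545, L_23841218625, L_23841218688, L_23841222720, L_23841476673, L_23841480768, L_23841484800, trivial⟩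

theorem L_23841738816 : HH 127 (nat_lit 23841738816, nat_lit 86) := top_sound R_23841738816
  ⟨V6_20603473920_ok, V6_18456252480_ok, trivial⟩
  ⟨W_23773843520_ok, W_23757590528_ok, W_23757328448_ok, W_23741075456_ok, W_23740813376_ok, W_23724298304_ok, W_22733656064_ok, W_22717140992_ok, W_22683848768_ok, W_22667333696_ok, W_21693206528_ok, W_21676691456_ok, W_19545985088_ok, trivial⟩ C_23841738816
theorem L_23841742848 : HH 127 (nat_lit 23841742848, nat_lit 191) := top_sound R_23841742848
  ⟨V6_20603473920_ok, V6_19513221120_ok, V6_18456256512_ok, trivial⟩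
  ⟨W_23807393792_ok, W_23790878720_ok, W_23790620672_ok, W_23773847552_ok, W_23757848576_ok, W_23757332480_ok, W_23741075456_ok, W_23740817408_ok, W_23724302336_ok, W_22750429184_ok, W_22733914112_ok, W_22667337728_ok, W_21693464576_ok, W_21676691456_ok, W_20586696704_ok, W_19546247168_ok, trivial⟩ C_23841742848
theorem L_23842000896 : HH 127 (nat_lit 23842000896, nat_lit 169) := top_sound R_23842000896
  ⟨V6_20570443776_ok, V6_19513479168_ok, V6_18456514560_ok, V6_17399549952_ok, trivial⟩
  ⟨W_23790878720_ok, W_23790620672_ok, W_23757848576_ok, W_23741333504_ok, W_23741075456_ok, W_23724560384_ok, W_22766944256_ok, W_22750429184_ok, W_22750171136_ok, W_22733914112_ok, W_22684368896_ok, W_21693464576_ok, W_21693206528_ok, W_21676949504_ok, W_21676691456_ok, W_19546247168_ok, trivial⟩ C_23842000896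
theorem L_23842258944 : HH 127 (nat_lit 23842258944, nat_lit 89) := top_sound R_23842258944
  ⟨V6_23741595648_ok, V6_21693726720_ok, V6_20620247040_ok, V6_18456772608_ok, trivial⟩
  ⟨W_23823908864_ok, W_23790878720_ok, W_23757848576_ok, W_23741333504_ok, W_22766944256_ok, W_22684368896_ok, W_22667853824_ok, W_21610889216_ok, W_20619984896_ok, trivial⟩ C_23842258944
theorem L_23857733697 : HH 127 (nat_lit 23857733697, nat_lit 6) := top_sound R_23857733697
  ⟨V6_22700105793_ok, V6_21643141185_ok, V6_17415282753_ok, trivial⟩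
  ⟨W_23773843520_ok, W_19545985088_ok, W_18489020480_ok, trivial⟩ C_23857733697
theorem L_23857733760 : HH 127 (nat_lit 23857733760, nat_lit 22) := top_sound R_23857733760
  ⟨V6_21676695552_ok, trivial⟩
  ⟨W_23773847552_ok, W_23757070400_ok, W_23740293248_ok, W_22683328640_ok, W_20569399424_ok, W_17415282752_ok, trivial⟩ C_23857733760
theorem L_23857991745 : HH 127 (nat_lit 23857991745, nat_lit 7) := top_sound R_23857991745
  ⟨V6_23807135808_ok, V6_23757328449_ok, V6_21643399233_ok, V6_19545985089_ok, V6_18472505409_ok, trivial⟩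
  ⟨W_18472505408_ok, W_17415540800_ok, trivial⟩ C_23857991745
theorem L_23857995840 : HH 127 (nat_lit 23857995840, nat_lit 68) := top_sound R_23857995840
  ⟨V6_22717141056_ok, V6_21676695552_ok, V6_20603211840_ok, V6_19546247232_ok, trivial⟩
  ⟨W_23757070400_ok, W_19546247168_ok, W_19529474048_ok, W_18489282560_ok, W_18489024512_ok, W_18472509440_ok, W_17415544832_ok, trivial⟩ C_23857995840
theorem L_23857999872 : HH 127 (nat_lit 23857999872, nat_lit 42) := top_sound R_23857999872
  ⟨V6_22700371968_ok, V6_21693726720_ok, V6_21643407360_ok, trivial⟩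
  ⟨W_23790878720_ok, W_18489282560_ok, W_18472509440_ok, W_17415544832_ok, trivial⟩ C_23857999872
theorem L_23858253888 : HH 127 (nat_lit 23858253888, nat_lit 59) := top_sound R_23858253888
  ⟨V6_20603473920_ok, V6_19546247232_ok, trivial⟩
  ⟨W_23790620672_ok, W_23773843520_ok, W_23757590528_ok, W_23757328448_ok, W_23740813376_ok, W_22733656064_ok, W_22733393984_ok, W_22717140992_ok, W_21693206528_ok, trivial⟩ C_23858253888
theorem L_23858257920 : HH 127 (nat_lit 23858257920, nat_lit 149) := top_sound R_23858257920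
  ⟨V6_21676695552_ok, V6_20603473920_ok, V6_20586700800_ok, trivial⟩
  ⟨W_23790878720_ok, W_23790620672_ok, W_23774363648_ok, W_23773847552_ok, W_23757332480_ok, W_23740817408_ok, W_22750429184_ok, W_22733914112_ok, W_22683852800_ok, W_21676949504_ok, W_20636499968_ok, W_19563020288_ok, trivial⟩ C_23858257920
theorem L_23858515968 : HH 127 (nat_lit 23858515968, nat_lit 135) := top_sound R_23858515968
  ⟨V6_23823912960_ok, V6_22766948352_ok, V6_21709983744_ok, V6_21693726720_ok, V6_21693468672_ok, V6_20620247040_ok, V6_20603473920_ok, trivial⟩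
  ⟨W_23757848576_ok, W_23741075456_ok, W_22766944256_ok, W_20586696704_ok, W_19546247168_ok, W_19529732096_ok, W_18489282560_ok, W_18472767488_ok, W_17416060928_ok, trivial⟩ C_23858515968
theorem L_23858774016 : HH 127 (nat_lit 23858774016, nat_lit 93) := top_sound R_23858774016
  ⟨V6_22783721472_ok, V6_22717661184_ok, V6_21693726720_ok, V6_20620247040_ok, trivial⟩
  ⟨W_23840423936_ok, W_23790878720_ok, W_23774363648_ok, W_23757848576_ok, W_23741333504_ok, W_20619984896_ok, W_19563020288_ok, W_17416060928_ok, trivial⟩ C_23858774016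
theorem L_23874506817 : HH 127 (nat_lit 23874506817, nat_lit 2) := top_sound R_23874506817
  ⟨V6_18505797696_ok, trivial⟩
  ⟨W_23773843520_ok, trivial⟩ C_23874506817
theorem L_23874510912 : HH 127 (nat_lit 23874510912, nat_lit 29) := top_sound R_23874510912
  ⟨V6_23790620736_ok, V6_19562766336_ok, V6_18505797696_ok, trivial⟩
  ⟨W_23773847552_ok, W_22716882944_ok, W_21659918336_ok, trivial⟩ C_23874510912
theorem L_23874768960 : HH 127 (nat_lit 23874768960, nat_lit 34) := top_sound R_23874768960
  ⟨V6_20603211840_ok, V6_19579277376_ok, V6_19546247232_ok, V6_18505797696_ok, trivial⟩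
  ⟨W_23790620672_ok, W_22717140992_ok, W_21693206528_ok, W_19579277312_ok, W_16358576192_ok, trivial⟩ C_23874768960
theorem L_23874772992 : HH 127 (nat_lit 23874772992, nat_lit 76) := top_sound R_23874772992
  ⟨V6_23790624768_ok, V6_21693726720_ok, V6_21693468672_ok, V6_21676695552_ok, trivial⟩
  ⟨W_23790878720_ok, W_21676949504_ok, W_19563020288_ok, W_19529474048_ok, W_17432317952_ok, W_17415544832_ok, trivial⟩ C_23874772992
theorem L_23875031040 : HH 127 (nat_lit 23875031040, nat_lit 100) := top_sound R_23875031040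
  ⟨V6_21693468672_ok, V6_20620247040_ok, V6_20603473920_ok, trivial⟩
  ⟨W_23823908864_ok, W_23807393792_ok, W_23807135744_ok, W_23790878720_ok, W_23774363648_ok, W_23757590528_ok, W_22766944256_ok, W_21676949504_ok, W_19563020288_ok, W_16358838272_ok, trivial⟩ C_23875031040
theorem L_23875289088 : HH 127 (nat_lit 23875289088, nat_lit 69) := top_sound R_23875289088
  ⟨V6_22717661184_ok, V6_21726756864_ok, V6_20620247040_ok, trivial⟩
  ⟨W_23790878720_ok, W_23774363648_ok, W_23757848576_ok, W_20653015040_ok, W_17432576000_ok, W_17416060928_ok, W_16359096320_ok, trivial⟩ C_23875289088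
theorem L_23891021889 : HH 127 (nat_lit 23891021889, nat_lit 1) := top_sound R_23891021889
  ⟨V6_17448570945_ok, trivial⟩
  ⟨W_22733393984_ok, trivial⟩ C_23891021889
theorem L_23891284032 : HH 127 (nat_lit 23891284032, nat_lit 14) := top_sound R_23891284032
  ⟨V6_23790620736_ok, V6_18522574848_ok, V6_18505797696_ok, trivial⟩
  ⟨W_23790620672_ok, W_23773843520_ok, W_17448833024_ok, W_17432055872_ok, trivial⟩ C_23891284032
theorem L_23891288064 : HH 127 (nat_lit 23891288064, nat_lit 37) := top_sound R_23891288064
  ⟨V6_19596312576_ok, V6_19562766336_ok, V6_17448837120_ok, trivial⟩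
  ⟨W_23807393792_ok, W_23790620672_ok, W_23773847552_ok, W_22716882944_ok, trivial⟩ C_23891288064
theorem L_23891546112 : HH 127 (nat_lit 23891546112, nat_lit 55) := top_sound R_23891546112
  ⟨V6_21726756864_ok, V6_21709983744_ok, V6_21693726720_ok, V6_19596312576_ok, V6_18522832896_ok, V6_18522574848_ok, trivial⟩
  ⟨W_23790878720_ok, W_23790620672_ok, W_20603211776_ok, W_18489282560_ok, trivial⟩ C_23891546112
theorem L_23891804160 : HH 127 (nat_lit 23891804160, nat_lit 58) := top_sound R_23891804160
  ⟨V6_23857201152_ok, V6_22800236544_ok, V6_21726756864_ok, V6_20620247040_ok, V6_18522832896_ok, V6_17449353216_ok, trivial⟩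
  ⟨W_23790878720_ok, W_23774363648_ok, W_21676949504_ok, W_17449091072_ok, W_17432576000_ok, trivial⟩ C_23891804160
theorem L_23907799104 : HH 127 (nat_lit 23907799104, nat_lit 2) := top_sound R_23907799104
  ⟨V6_18539089920_ok, trivial⟩
  ⟨W_23807135744_ok, trivial⟩ C_23907799104
theorem L_23908061184 : HH 127 (nat_lit 23908061184, nat_lit 28) := top_sound R_23908061184
  ⟨V6_21693468672_ok, V6_19596312576_ok, trivial⟩
  ⟨W_23823908864_ok, W_23807135744_ok, W_22766944256_ok, W_21709979648_ok, W_20653015040_ok, W_20636241920_ok, trivial⟩ C_23908061184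
theorem L_23908319232 : HH 127 (nat_lit 23908319232, nat_lit 32) := top_sound R_23908319232
  ⟨V6_21693726720_ok, V6_19596312576_ok, trivial⟩
  ⟨W_23823908864_ok, W_23790878720_ok, W_21726494720_ok, W_19612565504_ok, W_18522570752_ok, trivial⟩ C_23908319232
theorem L_23924576256 : HH 127 (nat_lit 23924576256, nat_lit 5) := top_sound R_23924576256
  ⟨V6_23823912960_ok, V6_21709983744_ok, trivial⟩
  ⟨W_23823908864_ok, trivial⟩ C_23924576256
theorem L_23924834304 : HH 127 (nat_lit 23924834304, nat_lit 20) := top_sound R_23924834304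
  ⟨V6_21726756864_ok, V6_19629342720_ok, V6_19612827648_ok, V6_19596312576_ok, trivial⟩
  ⟨W_23840423936_ok, W_23807393792_ok, W_21726494720_ok, trivial⟩ C_23924834304
theorem L_23941349376 : HH 127 (nat_lit 23941349376, nat_lit 7) := top_sound R_23941349376
  ⟨V6_22800236544_ok, V6_21726756864_ok, trivial⟩
  ⟨W_22766944256_ok, W_20669530112_ok, trivial⟩ C_23941349376
theorem L_23957864448 : HH 127 (nat_lit 23957864448, nat_lit 4) := top_sound R_23957864448
  ⟨V6_23857201152_ok, trivial⟩
  ⟨W_23840423936_ok, trivial⟩ C_23957864448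
theorem L_24781013250 : HH 127 (nat_lit 24781013250, nat_lit 1) := top_sound R_24781013250
  ⟨V6_19395526914_ok, trivial⟩
  ⟨W_22616752256_ok, trivial⟩ C_24781013250
theorem L_24797790402 : HH 127 (nat_lit 24797790402, nat_lit 1) := top_sound R_24797790402
  ⟨V6_20502818946_ok, trivial⟩
  ⟨W_22616752256_ok, trivial⟩ C_24797790402
theorem L_24797790465 : HH 127 (nat_lit 24797790465, nat_lit 3) := top_sound R_24797790465
  ⟨V6_19429081344_ok, trivial⟩
  ⟨W_23690494016_ok, W_22633529408_ok, W_22616752256_ok, trivial⟩ C_24797790465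
theorem L_24798052482 : HH 127 (nat_lit 24798052482, nat_lit 2) := top_sound R_24798052482
  ⟨V6_21576556674_ok, trivial⟩
  ⟨W_20502823040_ok, trivial⟩ C_24798052482
theorem L_24798052545 : HH 127 (nat_lit 24798052545, nat_lit 3) := top_sound R_24798052545
  ⟨V6_20503085121_ok, trivial⟩
  ⟨W_21576564800_ok, trivial⟩ C_24798052545
theorem L_24798052608 : HH 127 (nat_lit 24798052608, nat_lit 4) := top_sound R_24798052608
  ⟨V6_19429081344_ok, trivial⟩
  ⟨W_23707271168_ok, W_21576826880_ok, trivial⟩ C_24798052608
theorem L_24798056577 : HH 127 (nat_lit 24798056577, nat_lit 2) := top_sound R_24798056577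
  ⟨V6_19429347393_ok, trivial⟩
  ⟨W_21576818816_ok, trivial⟩ C_24798056577
theorem L_24798056640 : HH 127 (nat_lit 24798056640, nat_lit 1) := top_sound R_24798056640
  ⟨V6_19429347456_ok, trivial⟩
  ⟨W_22633787456_ok, trivial⟩ C_24798056640
theorem L_24798310530 : HH 127 (nat_lit 24798310530, nat_lit 3) := top_sound R_24798310530
  ⟨V6_21576556674_ok, trivial⟩
  ⟨W_20503339136_ok, trivial⟩ C_24798310530
theorem L_24798310593 : HH 127 (nat_lit 24798310593, nat_lit 1) := top_sound R_24798310593
  ⟨V6_18355859649_ok, trivial⟩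
  ⟨W_22650302528_ok, trivial⟩ C_24798310593
theorem L_24798314625 : HH 127 (nat_lit 24798314625, nat_lit 8) := top_sound R_24798314625
  ⟨V6_21577080960_ok, trivial⟩
  ⟨W_23724040256_ok, W_21576564800_ok, W_20503085120_ok, trivial⟩ C_24798314625
theorem L_24798314688 : HH 127 (nat_lit 24798314688, nat_lit 10) := top_sound R_24798314688
  ⟨V6_21577089024_ok, trivial⟩
  ⟨W_23724044288_ok, W_22650306560_ok, W_21576560768_ok, W_20503081088_ok, trivial⟩ C_24798314688
theorem L_24798318657 : HH 127 (nat_lit 24798318657, nat_lit 2) := top_sound R_24798318657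
  ⟨V6_21577080897_ok, V6_19429347393_ok, trivial⟩
  ⟨W_21577080896_ok, trivial⟩ C_24798318657
theorem L_24798318720 : HH 127 (nat_lit 24798318720, nat_lit 12) := top_sound R_24798318720
  ⟨V6_20503351296_ok, V6_19429347456_ok, trivial⟩
  ⟨W_23724302336_ok, W_22650822656_ok, W_20503339136_ok, trivial⟩ C_24798318720
theorem L_24798322752 : HH 127 (nat_lit 24798322752, nat_lit 8) := top_sound R_24798322752
  ⟨V6_18355871808_ok, trivial⟩
  ⟨W_23724560384_ok, W_22650822656_ok, trivial⟩ C_24798322752
theorem L_24814567554 : HH 127 (nat_lit 24814567554, nat_lit 4) := top_sound R_24814567554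
  ⟨V6_23690485890_ok, V6_21576556674_ok, trivial⟩
  ⟨W_22616752256_ok, W_19445858432_ok, trivial⟩ C_24814567554
theorem L_24814567617 : HH 127 (nat_lit 24814567617, nat_lit 5) := top_sound R_24814567617
  ⟨V6_20502823104_ok, trivial⟩
  ⟨W_23707267136_ok, W_21593337920_ok, trivial⟩ C_24814567617
theorem L_24814567680 : HH 127 (nat_lit 24814567680, nat_lit 8) := top_sound R_24814567680
  ⟨V6_19429081344_ok, V6_18372116736_ok, trivial⟩
  ⟨W_24764235776_ok, W_23690494016_ok, W_22650306560_ok, trivial⟩ C_24814567680
theorem L_24814825602 : HH 127 (nat_lit 24814825602, nat_lit 3) := top_sound R_24814825602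
  ⟨V6_21576556674_ok, trivial⟩
  ⟨W_20519596160_ok, W_20503081088_ok, trivial⟩ C_24814825602
theorem L_24814825665 : HH 127 (nat_lit 24814825665, nat_lit 3) := top_sound R_24814825665
  ⟨V6_21576560769_ok, trivial⟩
  ⟨W_22666817600_ok, W_22633787456_ok, W_18372374720_ok, trivial⟩ C_24814825665
theorem L_24814829697 : HH 127 (nat_lit 24814829697, nat_lit 13) := top_sound R_24814829697
  ⟨V6_21576564801_ok, V6_21576560769_ok, V6_21560049792_ok, V6_21559787649_ok, V6_20503085121_ok, trivial⟩
  ⟨W_23724040256_ok, W_22667075648_ok, W_22633787456_ok, W_21593595968_ok, trivial⟩ C_24814829697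
theorem L_24814829760 : HH 127 (nat_lit 24814829760, nat_lit 16) := top_sound R_24814829760
  ⟨V6_22667083776_ok, trivial⟩
  ⟨W_23724044288_ok, W_21593341952_ok, W_19446116480_ok, W_19429343360_ok, W_19429081280_ok, W_18372374720_ok, trivial⟩ C_24814829760
theorem L_24814833729 : HH 127 (nat_lit 24814833729, nat_lit 5) := top_sound R_24814833729
  ⟨V6_19429347393_ok, V6_18372382785_ok, trivial⟩
  ⟨W_24781262912_ok, W_23724298304_ok, W_22667333696_ok, trivial⟩ C_24814833729
theorem L_24814833792 : HH 127 (nat_lit 24814833792, nat_lit 10) := top_sound R_24814833792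
  ⟨V6_19429347456_ok, V6_18372382848_ok, trivial⟩
  ⟨W_23724302336_ok, W_22667337728_ok, W_22633787456_ok, trivial⟩ C_24814833792
theorem L_24815083650 : HH 127 (nat_lit 24815083650, nat_lit 4) := top_sound R_24815083650
  ⟨V6_19446374529_ok, trivial⟩
  ⟨W_24797257856_ok, W_23740293248_ok, W_23723778176_ok, trivial⟩ C_24815083650
theorem L_24815087745 : HH 127 (nat_lit 24815087745, nat_lit 14) := top_sound R_24815087745
  ⟨V6_21576818817_ok, V6_19446374529_ok, trivial⟩
  ⟨W_24797519936_ok, W_22667075648_ok, W_19446378560_ok, trivial⟩ C_24815087745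
theorem L_24815087808 : HH 127 (nat_lit 24815087808, nat_lit 12) := top_sound R_24815087808
  ⟨V6_22650826752_ok, trivial⟩
  ⟨W_21593337920_ok, W_20520120320_ok, trivial⟩ C_24815087808
theorem L_24815091777 : HH 127 (nat_lit 24815091777, nat_lit 13) := top_sound R_24815091777
  ⟨V6_22667595840_ok, V6_20503343169_ok, trivial⟩
  ⟨W_24797777984_ok, W_23724040256_ok, W_21576564800_ok, W_18372640832_ok, trivial⟩ C_24815091777
theorem L_24815091840 : HH 127 (nat_lit 24815091840, nat_lit 45) := top_sound R_24815091840
  ⟨V6_21593862144_ok, V6_21577089024_ok, trivial⟩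
  ⟨W_24797782016_ok, W_23740817408_ok, W_23724302336_ok, W_22650306560_ok, W_22650298496_ok, W_21593341952_ok, W_21576564800_ok, W_21576560768_ok, W_20503339136_ok, trivial⟩ C_24815091840
theorem L_24815095872 : HH 127 (nat_lit 24815095872, nat_lit 32) := top_sound R_24815095872
  ⟨V6_20519866368_ok, V6_20503351296_ok, V6_19446386688_ok, trivial⟩
  ⟨W_23741075456_ok, W_23724560384_ok, W_23724302336_ok, W_21593854016_ok, W_21593595968_ok, W_21576822848_ok, trivial⟩ C_24815095872
theorem L_24815099904 : HH 127 (nat_lit 24815099904, nat_lit 19) := top_sound R_24815099904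
  ⟨V6_19446386688_ok, V6_19429613568_ok, trivial⟩
  ⟨W_24798298112_ok, W_23741333504_ok, W_22667595776_ok, trivial⟩ C_24815099904
theorem L_24815345793 : HH 127 (nat_lit 24815345793, nat_lit 6) := top_sound R_24815345793
  ⟨V6_19446636609_ok, V6_18372894849_ok, trivial⟩
  ⟨W_24814035008_ok, W_23740293248_ok, W_21593333888_ok, trivial⟩ C_24815345793
theorem L_24815349825 : HH 127 (nat_lit 24815349825, nat_lit 10) := top_sound R_24815349825
  ⟨V6_20520374337_ok, V6_18372898881_ok, trivial⟩
  ⟨W_24814293056_ok, W_23740555328_ok, W_22667075648_ok, W_22666817600_ok, trivial⟩ C_24815349825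
theorem L_24815349888 : HH 127 (nat_lit 24815349888, nat_lit 22) := top_sound R_24815349888
  ⟨V6_21594120192_ok, V6_20520382464_ok, trivial⟩
  ⟨W_24814297088_ok, W_23740817408_ok, W_23740559360_ok, W_23740555328_ok, W_21593337920_ok, trivial⟩ C_24815349888
theorem L_24815353920 : HH 127 (nat_lit 24815353920, nat_lit 34) := top_sound R_24815353920
  ⟨V6_20520382464_ok, V6_19446644736_ok, trivial⟩
  ⟨W_23741075456_ok, W_23740817408_ok, W_23740813376_ok, W_21593341952_ok, W_21593337920_ok, trivial⟩ C_24815353920
theorem L_24815357952 : HH 127 (nat_lit 24815357952, nat_lit 19) := top_sound R_24815357952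
  ⟨V6_19446386688_ok, V6_18372907008_ok, trivial⟩
  ⟨W_24814813184_ok, W_22667337728_ok, W_21594116096_ok, trivial⟩ C_24815357952
theorem L_24831340674 : HH 127 (nat_lit 24831340674, nat_lit 4) := top_sound R_24831340674
  ⟨V6_21576556674_ok, V6_20502818946_ok, trivial⟩
  ⟨W_20536369280_ok, trivial⟩ C_24831340674
theorem L_24831340737 : HH 127 (nat_lit 24831340737, nat_lit 2) := top_sound R_24831340737
  ⟨V6_18388889793_ok, trivial⟩
  ⟨W_23707267136_ok, W_22666817600_ok, trivial⟩ C_24831340737
theorem L_24831344769 : HH 127 (nat_lit 24831344769, nat_lit 15) := top_sound R_24831344769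
  ⟨V6_23690494080_ok, V6_22650298497_ok, V6_21559787649_ok, V6_19462635585_ok, trivial⟩
  ⟨W_23724040256_ok, W_22667075648_ok, W_20536373312_ok, trivial⟩ C_24831344769
theorem L_24831344832 : HH 127 (nat_lit 24831344832, nat_lit 19) := top_sound R_24831344832
  ⟨V6_21610119168_ok, trivial⟩
  ⟨W_24781008896_ok, W_24764235776_ok, W_23724044288_ok, W_23707267136_ok, W_23690494016_ok, W_22650306560_ok, W_22650302528_ok, W_22616752256_ok, trivial⟩ C_24831344832
theorem L_24831598722 : HH 127 (nat_lit 24831598722, nat_lit 7) := top_sound R_24831598722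
  ⟨V6_21576818817_ok, V6_21576556674_ok, trivial⟩
  ⟨W_23740293248_ok, W_19462889600_ok, trivial⟩ C_24831598722
theorem L_24831602817 : HH 127 (nat_lit 24831602817, nat_lit 19) := top_sound R_24831602817
  ⟨V6_23723778177_ok, V6_22650298497_ok, V6_22633525377_ok, V6_21593075841_ok, V6_21576818817_ok, V6_21576560769_ok, V6_20536111233_ok, trivial⟩
  ⟨W_24781004864_ok, W_22683590720_ok, W_21593595968_ok, W_20536373312_ok, trivial⟩ C_24831602817
theorem L_24831602880 : HH 127 (nat_lit 24831602880, nat_lit 14) := top_sound R_24831602880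
  ⟨V6_22683856896_ok, trivial⟩
  ⟨W_24781008896_ok, W_20536635392_ok, W_19446116480_ok, trivial⟩ C_24831602880
theorem L_24831606849 : HH 127 (nat_lit 24831606849, nat_lit 19) := top_sound R_24831606849
  ⟨V6_22667333697_ok, V6_22633529409_ok, V6_21610369089_ok, V6_21576564801_ok, V6_20503085121_ok, V6_19462635585_ok, trivial⟩
  ⟨W_23724040256_ok, W_22683848768_ok, W_21610369088_ok, W_20536373312_ok, trivial⟩ C_24831606849
theorem L_24831606912 : HH 127 (nat_lit 24831606912, nat_lit 56) := top_sound R_24831606912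
  ⟨V6_22667083776_ok, V6_22650568704_ok, V6_21610119168_ok, trivial⟩
  ⟨W_24797782016_ok, W_24781004864_ok, W_23724302336_ok, W_22683852800_ok, W_22650298496_ok, W_20536635392_ok, W_19462889600_ok, trivial⟩ C_24831606912
theorem L_24831610944 : HH 127 (nat_lit 24831610944, nat_lit 27) := top_sound R_24831610944
  ⟨V6_20519866368_ok, V6_20503089216_ok, V6_19462901760_ok, trivial⟩
  ⟨W_24781262912_ok, W_23741075456_ok, W_23707525184_ok, W_22684110848_ok, W_22667333696_ok, W_18389159936_ok, trivial⟩ C_24831610944
theorem L_24831860865 : HH 127 (nat_lit 24831860865, nat_lit 22) := top_sound R_24831860865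
  ⟨V6_21576818817_ok, V6_19446374529_ok, V6_18389409921_ok, trivial⟩
  ⟨W_24797257856_ok, W_23757070400_ok, W_23740555328_ok, W_23740293248_ok, W_23724040256_ok, W_22683590720_ok, W_21577080896_ok, trivial⟩ C_24831860865
theorem L_24831864897 : HH 127 (nat_lit 24831864897, nat_lit 22) := top_sound R_24831864897
  ⟨V6_21610631232_ok, V6_20503343169_ok, trivial⟩
  ⟨W_24797777984_ok, W_24797519936_ok, W_23724040256_ok, W_22683590720_ok, W_21593337920_ok, W_20536373312_ok, trivial⟩ C_24831864897
theorem L_24831864960 : HH 127 (nat_lit 24831864960, nat_lit 70) := top_sound R_24831864960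
  ⟨V6_23724564480_ok, V6_22683856896_ok, V6_22650826752_ok, trivial⟩
  ⟨W_24814297088_ok, W_23757332480_ok, W_23723778176_ok, W_20536893440_ok, W_20503339136_ok, W_19463155712_ok, W_19462889600_ok, W_19446374528_ok, W_19446116480_ok, trivial⟩ C_24831864960
theorem L_24831868992 : HH 127 (nat_lit 24831868992, nat_lit 95) := top_sound R_24831868992
  ⟨V6_22683856896_ok, V6_22667595840_ok, V6_21610119168_ok, V6_21577089024_ok, trivial⟩
  ⟨W_24814555136_ok, W_24797782016_ok, W_23724560384_ok, W_22667595776_ok, W_22650822656_ok, W_20536893440_ok, W_19463155712_ok, W_19446382592_ok, trivial⟩ C_24831868992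
theorem L_24831873024 : HH 127 (nat_lit 24831873024, nat_lit 59) := top_sound R_24831873024
  ⟨V6_21577089024_ok, V6_19446386688_ok, V6_18389422080_ok, trivial⟩
  ⟨W_24814813184_ok, W_23741075456_ok, W_23724302336_ok, W_22684368896_ok, W_22684110848_ok, W_22650822656_ok, trivial⟩ C_24831873024
theorem L_24832122945 : HH 127 (nat_lit 24832122945, nat_lit 18) := top_sound R_24832122945
  ⟨V6_24814035009_ok, V6_21610369089_ok, V6_20536889409_ok, V6_20520374337_ok, V6_19446636609_ok, trivial⟩
  ⟨W_24830808128_ok, W_24814293056_ok, W_23757070400_ok, W_19463151680_ok, trivial⟩ C_24832122945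
theorem L_24832123008 : HH 127 (nat_lit 24832123008, nat_lit 46) := top_sound R_24832123008
  ⟨V6_24814035072_ok, V6_20537155584_ok, trivial⟩
  ⟨W_24814297088_ok, W_22683852800_ok, W_20536893440_ok, trivial⟩ C_24832123008
theorem L_24832127040 : HH 127 (nat_lit 24832127040, nat_lit 83) := top_sound R_24832127040
  ⟨V6_21594120192_ok, V6_20537155584_ok, V6_20520382464_ok, trivial⟩
  ⟨W_24814555136_ok, W_23757332480_ok, W_23741075456_ok, W_23740817408_ok, W_23740813376_ok, W_23740559360_ok, W_22683852800_ok, W_22683848768_ok, W_22683590720_ok, W_22667333696_ok, W_22666817600_ok, trivial⟩ C_24832127040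
theorem L_24832131072 : HH 127 (nat_lit 24832131072, nat_lit 80) := top_sound R_24832131072
  ⟨V6_21610119168_ok, V6_20537155584_ok, trivial⟩
  ⟨W_24814555136_ok, W_23757848576_ok, W_23741333504_ok, W_23740817408_ok, W_22667595776_ok, W_21610889216_ok, W_17315938304_ok, trivial⟩ C_24832131072
theorem L_24832380993 : HH 127 (nat_lit 24832380993, nat_lit 3) := top_sound R_24832380993
  ⟨V6_23757328449_ok, V6_18389930049_ok, trivial⟩
  ⟨W_19463409728_ok, trivial⟩ C_24832380993
theorem L_24832385088 : HH 127 (nat_lit 24832385088, nat_lit 47) := top_sound R_24832385088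
  ⟨V6_20537155584_ok, trivial⟩
  ⟨W_24831070208_ok, W_24830812160_ok, W_23757590528_ok, W_23757332480_ok, W_23757070400_ok, W_19463671808_ok, trivial⟩ C_24832385088
theorem L_24832389120 : HH 127 (nat_lit 24832389120, nat_lit 57) := top_sound R_24832389120
  ⟨V6_21611151360_ok, V6_20537155584_ok, trivial⟩
  ⟨W_24831328256_ok, W_24831070208_ok, W_23757848576_ok, W_23757332480_ok, W_22683594752_ok, W_20537409536_ok, W_17316196352_ok, trivial⟩ C_24832389120
theorem L_24847855746 : HH 127 (nat_lit 24847855746, nat_lit 1) := top_sound R_24847855746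
  ⟨V6_18405404802_ok, trivial⟩
  ⟨W_23723778176_ok, trivial⟩ C_24847855746
theorem L_24848113794 : HH 127 (nat_lit 24848113794, nat_lit 7) := top_sound R_24848113794
  ⟨V6_22650298497_ok, V6_21576556674_ok, trivial⟩
  ⟨W_23740293248_ok, W_19479404672_ok, trivial⟩ C_24848113794
theorem L_24848117889 : HH 127 (nat_lit 24848117889, nat_lit 18) := top_sound R_24848117889
  ⟨V6_22633525377_ok, V6_21576560769_ok, V6_20553146433_ok, V6_20536111233_ok, trivial⟩
  ⟨W_24797519936_ok, W_23740555328_ok, W_22683590720_ok, W_19479408704_ok, trivial⟩ C_24848117889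
theorem L_24848117952 : HH 127 (nat_lit 24848117952, nat_lit 13) := top_sound R_24848117952
  ⟨V6_22700371968_ok, trivial⟩
  ⟨W_24781008896_ok, W_23707267136_ok, W_20553150464_ok, trivial⟩ C_24848117952
theorem L_24848121921 : HH 127 (nat_lit 24848121921, nat_lit 15) := top_sound R_24848121921
  ⟨V6_21626884161_ok, V6_18405670977_ok, trivial⟩
  ⟨W_24781004864_ok, W_23740813376_ok, W_23724040256_ok, W_23707267136_ok, W_23690494016_ok, W_22633529408_ok, W_21576564800_ok, trivial⟩ C_24848121921
theorem L_24848121984 : HH 127 (nat_lit 24848121984, nat_lit 48) := top_sound R_24848121984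
  ⟨V6_23690494080_ok, V6_20553154560_ok, V6_18405671040_ok, trivial⟩
  ⟨W_24797782016_ok, W_24781008896_ok, W_24781004864_ok, W_24764235776_ok, W_23724044288_ok, W_23724040256_ok, W_23707271168_ok, W_23707267136_ok, W_22683852800_ok, W_22650302528_ok, W_22650298496_ok, trivial⟩ C_24848121984
theorem L_24848375937 : HH 127 (nat_lit 24848375937, nat_lit 24) := top_sound R_24848375937
  ⟨V6_22700105793_ok, V6_22650298497_ok, V6_21576818817_ok, V6_20553146433_ok, trivial⟩
  ⟨W_23757070400_ok, W_23740555328_ok, W_22683590720_ok, W_22667075648_ok, W_21593595968_ok, trivial⟩ C_24848375937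
theorem L_24848379969 : HH 127 (nat_lit 24848379969, nat_lit 27) := top_sound R_24848379969
  ⟨V6_24781262913_ok, V6_22667333697_ok, V6_21626884161_ok, V6_21610369089_ok, V6_20553404481_ok, V6_20553146433_ok, trivial⟩
  ⟨W_24814293056_ok, W_24797519936_ok, W_24781004864_ok, W_23740555328_ok, W_23724040256_ok, W_22683590720_ok, W_20552888384_ok, W_19479408704_ok, trivial⟩ C_24848379969
theorem L_24848380032 : HH 127 (nat_lit 24848380032, nat_lit 73) := top_sound R_24848380032
  ⟨V6_23740821504_ok, V6_22700371968_ok, V6_22683856896_ok, trivial⟩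
  ⟨W_24814297088_ok, W_23724302336_ok, W_23723778176_ok, W_22700367872_ok, W_22683852800_ok, W_20536635392_ok, W_19479404672_ok, W_19462889600_ok, W_18405924992_ok, trivial⟩ C_24848380032
theorem L_24848384064 : HH 127 (nat_lit 24848384064, nat_lit 94) := top_sound R_24848384064
  ⟨V6_22667083776_ok, V6_22650568704_ok, V6_21610119168_ok, V6_20553154560_ok, trivial⟩
  ⟨W_24814555136_ok, W_24797782016_ok, W_24781262912_ok, W_23757590528_ok, W_23741075456_ok, W_23740817408_ok, W_23740813376_ok, W_23724302336_ok, W_22683848768_ok, W_22667333696_ok, W_20553150464_ok, W_19479412736_ok, trivial⟩ C_24848384064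
theorem L_24848388096 : HH 127 (nat_lit 24848388096, nat_lit 36) := top_sound R_24848388096
  ⟨V6_20519866368_ok, V6_19462901760_ok, V6_18405937152_ok, trivial⟩
  ⟨W_24814813184_ok, W_24798040064_ok, W_23724302336_ok, W_22684110848_ok, W_17332195328_ok, trivial⟩ C_24848388096

theorem H_32 : AllH 127 tb32 :=
  ⟨L_23841738816, L_23841742848, L_23842000896, L_23842258944, L_23857733697, L_23857733760, L_23857991745, L_23857995840, L_23857999872, L_23858253888, L_23858257920, L_23858515968, L_23858774016, L_23874506817, L_23874510912, L_23874768960, L_23874772992, L_23875031040, L_23875289088, L_23891021889, L_23891284032, L_23891288064, L_23891546112, L_23891804160, L_23907799104, L_23908061184, L_23908319232, L_23924576256, L_23924834304, L_23941349376, L_23957864448, L_24781013250, L_24797790402, L_24797790465, L_24798052482, L_24798052545, L_24798052608, L_24798056577, L_24798056640, L_24798310530, L_24798310593, L_24798314625, L_24798314688, L_24798318657, L_24798318720, L_24798322752, L_24814567554, L_24814567617, L_24814567680,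 L_24814825602, L_24814825665, L_24814829697, L_24814829760, L_24814833729, L_24814833792, L_24815083650, L_24815087745, L_24815087808, L_24815091777, L_24815091840, L_24815095872, L_24815099904, L_24815345793, L_24815349825, L_24815349888, L_24815353920, L_24815357952, L_24831340674, L_24831340737, L_24831344769, L_24831344832, L_24831598722, L_24831602817, L_24831602880, L_24831606849, L_24831606912, L_24831610944, L_24831860865, L_24831864897, L_24831864960, L_24831868992, L_24831873024, L_24832122945, L_24832123008, L_24832127040, L_24832131072, L_24832380993, L_24832385088, L_24832389120, L_24847855746, L_24848113794, L_24848117889, L_24848117952, L_24848121921, L_24848121984, L_24848375937, L_24848379969, L_24848380032, L_24848384064, L_24848388096, trivial⟩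

theorem L_24848638017 : HH 127 (nat_lit 24848638017, nat_lit 29) := top_sound R_24848638017
  ⟨V6_22700105793_ok, V6_21626884161_ok, V6_21577080897_ok, V6_20553146433_ok, V6_20536889409_ok, V6_19479924801_ok, trivial⟩
  ⟨W_24814293056_ok, W_24797519936_ok, W_23773843520_ok, W_23757070400_ok, W_23724040256_ok, W_21577080896_ok, W_19463151680_ok, trivial⟩ C_24848638017
theorem L_24848638080 : HH 127 (nat_lit 24848638080, nat_lit 77) := top_sound R_24848638080
  ⟨V6_24847589376_ok, V6_24831074304_ok, V6_24814035072_ok, V6_24798044160_ok, V6_23724564480_ok, trivial⟩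
  ⟨W_22683852800_ok, W_22650822656_ok, W_20536893440_ok, W_20503339136_ok, W_19479404672_ok, W_19462889600_ok, W_19446374528_ok, W_18405924992_ok, W_17332445312_ok, trivial⟩ C_24848638080
theorem L_24848642112 : HH 127 (nat_lit 24848642112, nat_lit 133) := top_sound R_24848642112
  ⟨V6_24831070272_ok, V6_24798302208_ok, V6_23774105664_ok, V6_23741337600_ok, V6_22667595840_ok, V6_22650826752_ok, V6_21627408384_ok, trivial⟩
  ⟨W_24831070208_ok, W_24814297088_ok, W_24797782016_ok, W_24797523968_ok, W_23724302336_ok, W_22650822656_ok, W_21577084928_ok, W_21577080896_ok, W_20553150464_ok, W_20536893440_ok, W_20536635392_ok, W_20520120320_ok, W_19463155712_ok, trivial⟩ C_24848642112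
theorem L_24848646144 : HH 127 (nat_lit 24848646144, nat_lit 128) := top_sound R_24848646144
  ⟨V6_23724048384_ok, V6_22650826752_ok, V6_21627408384_ok, V6_21577089024_ok, V6_20553154560_ok, trivial⟩
  ⟨W_24814813184_ok, W_24814555136_ok, W_24798298112_ok, W_23774363648_ok, W_23757848576_ok, W_23741333504_ok, W_23741075456_ok, W_23724302336_ok, W_22667595776_ok, W_20536893440_ok, W_19463155712_ok, trivial⟩ C_24848646144
theorem L_24848896065 : HH 127 (nat_lit 24848896065, nat_lit 11) := top_sound R_24848896065
  ⟨V6_23757328449_ok, V6_20520374337_ok, V6_19479924801_ok, trivial⟩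
  ⟨W_24830808128_ok, W_24814293056_ok, W_19479924800_ok, trivial⟩ C_24848896065
theorem L_24848900160 : HH 127 (nat_lit 24848900160, nat_lit 115) := top_sound R_24848900160
  ⟨V6_21610893312_ok, V6_21594120192_ok, V6_20537155584_ok, V6_19480186944_ok, trivial⟩
  ⟨W_24830812160_ok, W_24814555136_ok, W_24814293056_ok, W_23773847552_ok, W_23773843520_ok, W_23757332480_ok, W_23757070400_ok, W_23741075456_ok, W_23740817408_ok, W_23740813376_ok, W_23740555328_ok, W_22700367872_ok, W_22683852800_ok, W_22683590720_ok, W_22667333696_ok, trivial⟩ C_24848900160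
theorem L_24848904192 : HH 127 (nat_lit 24848904192, nat_lit 129) := top_sound R_24848904192
  ⟨V6_22667857920_ok, V6_21627408384_ok, V6_21610893312_ok, V6_21594120192_ok, V6_20520382464_ok, trivial⟩
  ⟨W_24847843328_ok, W_24831070208_ok, W_24814813184_ok, W_24814297088_ok, W_23774363648_ok, W_23757848576_ok, W_23757332480_ok, W_23741333504_ok, W_23740817408_ok, W_23740559360_ok, W_22667853824_ok, W_21610889216_ok, W_20553150464_ok, W_18389676032_ok, trivial⟩ C_24848904192
theorem L_24849158208 : HH 127 (nat_lit 24849158208, nat_lit 43) := top_sound R_24849158208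
  ⟨V6_23774105664_ok, V6_19480186944_ok, V6_18406707264_ok, trivial⟩
  ⟨W_24847585280_ok, W_24831070208_ok, W_23757590528_ok, W_22684110848_ok, W_19463671808_ok, trivial⟩ C_24849158208
theorem L_24849162240 : HH 127 (nat_lit 24849162240, nat_lit 102) := top_sound R_24849162240
  ⟨V6_20554186752_ok, V6_20537155584_ok, V6_18406711296_ok, trivial⟩
  ⟨W_24831328256_ok, W_24830812160_ok, W_23774363648_ok, W_23773847552_ok, W_23757848576_ok, W_23757590528_ok, W_23757332480_ok, W_22700367872_ok, W_20537409536_ok, trivial⟩ C_24849162240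
theorem L_24849420288 : HH 127 (nat_lit 24849420288, nat_lit 34) := top_sound R_24849420288
  ⟨V6_21627408384_ok, trivial⟩
  ⟨W_24847843328_ok, W_24847585280_ok, W_23774363648_ok, W_18406965248_ok, W_17333227520_ok, trivial⟩ C_24849420288
theorem L_24864628866 : HH 127 (nat_lit 24864628866, nat_lit 4) := top_sound R_24864628866
  ⟨V6_23723516034_ok, V6_22666551426_ok, V6_20552622210_ok, trivial⟩
  ⟨W_23723778176_ok, W_19495919744_ok, trivial⟩ C_24864628866
theorem L_24864632961 : HH 127 (nat_lit 24864632961, nat_lit 6) := top_sound R_24864632961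
  ⟨V6_21593075841_ok, V6_19495923777_ok, trivial⟩
  ⟨W_24797519936_ok, W_23723778176_ok, W_21609848960_ok, trivial⟩ C_24864632961
theorem L_24864633024 : HH 127 (nat_lit 24864633024, nat_lit 2) := top_sound R_24864633024
  ⟨V6_19479146688_ok, trivial⟩
  ⟨W_23740559360_ok, trivial⟩ C_24864633024
theorem L_24864891009 : HH 127 (nat_lit 24864891009, nat_lit 24) := top_sound R_24864891009
  ⟨V6_19496181888_ok, trivial⟩
  ⟨W_24814035008_ok, W_24797519936_ok, W_24797257856_ok, W_24781004864_ok, W_24764227712_ok, W_23757070400_ok, W_23724040256_ok, W_23707263104_ok, W_22683328640_ok, W_21643141184_ok, trivial⟩ C_24864891009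
theorem L_24864895041 : HH 127 (nat_lit 24864895041, nat_lit 21) := top_sound R_24864895041
  ⟨V6_20569919553_ok, V6_20553146433_ok, V6_19495923777_ok, trivial⟩
  ⟨W_24814293056_ok, W_24797519936_ok, W_24781004864_ok, W_23740813376_ok, W_23724040256_ok, W_23707267136_ok, W_22667075648_ok, W_22666817600_ok, trivial⟩ C_24864895041
theorem L_24864895104 : HH 127 (nat_lit 24864895104, nat_lit 62) := top_sound R_24864895104
  ⟨V6_22700371968_ok, V6_20569927680_ok, trivial⟩
  ⟨W_24797782016_ok, W_24781008896_ok, W_24781004864_ok, W_24764227712_ok, W_23757332480_ok, W_23740817408_ok, W_23723778176_ok, W_22700367872_ok, W_22683852800_ok, W_18422440064_ok, trivial⟩ C_24864895104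
theorem L_24864899136 : HH 127 (nat_lit 24864899136, nat_lit 70) := top_sound R_24864899136
  ⟨V6_23724048384_ok, V6_19496189952_ok, V6_18422448192_ok, trivial⟩
  ⟨W_24814555136_ok, W_24797782016_ok, W_24781008896_ok, W_24764235776_ok, W_23757590528_ok, W_23740817408_ok, W_23740813376_ok, W_23724044288_ok, W_23724040256_ok, W_23707267136_ok, W_23690494016_ok, W_22683848768_ok, W_22667075648_ok, W_22650306560_ok, trivial⟩ C_24864899136
theorem L_24865153089 : HH 127 (nat_lit 24865153089, nat_lit 31) := top_sound R_24865153089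
  ⟨V6_22717141056_ok, V6_21626884161_ok, V6_21610369089_ok, V6_20569919553_ok, V6_20569661505_ok, trivial⟩
  ⟨W_24814293056_ok, W_24797777984_ok, W_24797519936_ok, W_24781262912_ok, W_24781004864_ok, W_23773843520_ok, W_23757070400_ok, W_23740813376_ok, W_23724298304_ok, W_23724040256_ok, W_23707525184_ok, W_22700105792_ok, W_22667333696_ok, trivial⟩ C_24865153089
theorem L_24865153152 : HH 127 (nat_lit 24865153152, nat_lit 80) := top_sound R_24865153152
  ⟨V6_24847589376_ok, V6_24831074304_ok, V6_24814035072_ok, V6_24798044160_ok, V6_23790624768_ok, trivial⟩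
  ⟨W_23773847552_ok, W_23707525184_ok, W_22716882944_ok, W_20569923584_ok, W_20569399424_ok, W_19495919744_ok, W_19479404672_ok, W_19462889600_ok, W_18422440064_ok, W_18405924992_ok, W_17348960384_ok, trivial⟩ C_24865153152
theorem L_24865157184 : HH 127 (nat_lit 24865157184, nat_lit 130) := top_sound R_24865157184
  ⟨V6_23774105664_ok, V6_22717141056_ok, V6_22683856896_ok, V6_21643407360_ok, V6_20569927680_ok, trivial⟩
  ⟨W_24814555136_ok, W_24814297088_ok, W_24798040064_ok, W_24797782016_ok, W_24797523968_ok, W_24781266944_ok, W_24781262912_ok, W_24781008896_ok, W_23741075456_ok, W_23724302336_ok, W_23707525184_ok, W_22700367872_ok, W_20569923584_ok, W_20553150464_ok, W_19496185856_ok, W_19495923776_ok, trivial⟩ C_24865157184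
theorem L_24865161216 : HH 127 (nat_lit 24865161216, nat_lit 113) := top_sound R_24865161216
  ⟨V6_22650568704_ok, V6_20569927680_ok, V6_19496189952_ok, trivial⟩
  ⟨W_24814555136_ok, W_24798040064_ok, W_24797782016_ok, W_24781266944_ok, W_23774363648_ok, W_23757848576_ok, W_23757590528_ok, W_23741075456_ok, W_23740817408_ok, W_20569923584_ok, trivial⟩ C_24865161216
theorem L_24865411137 : HH 127 (nat_lit 24865411137, nat_lit 11) := top_sound R_24865411137
  ⟨V6_19496439873_ok, V6_19479924801_ok, trivial⟩
  ⟨W_24814293056_ok, W_23773843520_ok, W_23740813376_ok, W_22700363840_ok, trivial⟩ C_24865411137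
theorem L_24865415232 : HH 127 (nat_lit 24865415232, nat_lit 156) := top_sound R_24865415232
  ⟨V6_22717141056_ok, V6_20570443776_ok, V6_19496706048_ok, trivial⟩
  ⟨W_24831070208_ok, W_24830812160_ok, W_24814555136_ok, W_24814293056_ok, W_24814035008_ok, W_24797782016_ok, W_24797777984_ok, W_23790620672_ok, W_23773847552_ok, W_23757332480_ok, W_23757070400_ok, W_23741075456_ok, W_23740817408_ok, W_23724560384_ok, W_23724302336_ok, W_22716882944_ok, W_22700367872_ok, W_22683852800_ok, W_22650822656_ok, W_21577080896_ok, W_20520116288_ok, trivial⟩ C_24865415232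
theorem L_24865419264 : HH 127 (nat_lit 24865419264, nat_lit 179) := top_sound R_24865419264
  ⟨V6_24798302208_ok, V6_20570443776_ok, V6_19496706048_ok, trivial⟩
  ⟨W_24814813184_ok, W_24814297088_ok, W_24798298112_ok, W_24797782016_ok, W_23790878720_ok, W_23757332480_ok, W_23741333504_ok, W_23740817408_ok, W_23724044288_ok, W_21577084928_ok, W_20569923584_ok, W_20569665536_ok, W_20553150464_ok, W_20536893440_ok, W_19496185856_ok, trivial⟩ C_24865419264
theorem L_24865673280 : HH 127 (nat_lit 24865673280, nat_lit 74) := top_sound R_24865673280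
  ⟨V6_22667857920_ok, V6_19496964096_ok, V6_18423222336_ok, trivial⟩
  ⟨W_24831070208_ok, W_24814555136_ok, W_24814293056_ok, W_23773843520_ok, W_23757590528_ok, W_23757328448_ok, W_23741075456_ok, W_23740813376_ok, W_22667595776_ok, W_22667333696_ok, W_20520374336_ok, trivial⟩ C_24865673280
theorem L_24865677312 : HH 127 (nat_lit 24865677312, nat_lit 174) := top_sound R_24865677312
  ⟨V6_23741595648_ok, V6_20570443776_ok, V6_19496706048_ok, trivial⟩
  ⟨W_24864358400_ok, W_24847843328_ok, W_24831070208_ok, W_24830812160_ok, W_24814813184_ok, W_24814555136_ok, W_24814297088_ok, W_23790620672_ok, W_23773847552_ok, W_23757848576_ok, W_23757332480_ok, W_23741333504_ok, W_23741075456_ok, W_23740817408_ok, W_22716882944_ok, W_22667853824_ok, W_22667595776_ok, W_22667337728_ok, W_21610889216_ok, W_21594116096_ok, trivial⟩ C_24865677312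
theorem L_24865935360 : HH 127 (nat_lit 24865935360, nat_lit 108) := top_sound R_24865935360
  ⟨V6_21610893312_ok, V6_20554186752_ok, V6_19496964096_ok, V6_18423484416_ok, trivial⟩
  ⟨W_24864358400_ok, W_24864100352_ok, W_24831070208_ok, W_23790878720_ok, W_23790620672_ok, W_23757848576_ok, W_22684368896_ok, W_21610889216_ok, W_20537409536_ok, W_19480444928_ok, trivial⟩ C_24865935360
theorem L_24866193408 : HH 127 (nat_lit 24866193408, nat_lit 38) := top_sound R_24866193408
  ⟨V6_22717661184_ok, V6_18423742464_ok, trivial⟩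
  ⟨W_24864358400_ok, W_24847843328_ok, W_23790878720_ok, W_17350000640_ok, trivial⟩ C_24866193408
theorem L_24881143938 : HH 127 (nat_lit 24881143938, nat_lit 3) := top_sound R_24881143938
  ⟨V6_23723516034_ok, V6_20552622210_ok, trivial⟩
  ⟨W_20569399424_ok, trivial⟩ C_24881143938
theorem L_24881406081 : HH 127 (nat_lit 24881406081, nat_lit 14) := top_sound R_24881406081
  ⟨V6_23723778177_ok, V6_22700105793_ok, V6_21643141185_ok, V6_20569661505_ok, trivial⟩
  ⟨W_24797519936_ok, W_23757070400_ok, W_19512696896_ok, trivial⟩ C_24881406081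
theorem L_24881410113 : HH 127 (nat_lit 24881410113, nat_lit 8) := top_sound R_24881410113
  ⟨V6_21643399233_ok, V6_19495923777_ok, trivial⟩
  ⟨W_24814293056_ok, W_24797519936_ok, W_23740555328_ok, W_22666817600_ok, trivial⟩ C_24881410113
theorem L_24881410176 : HH 127 (nat_lit 24881410176, nat_lit 21) := top_sound R_24881410176
  ⟨V6_22700371968_ok, V6_21643407360_ok, trivial⟩
  ⟨W_24797519936_ok, W_23723778176_ok, W_20586438656_ok, W_19495919744_ok, W_18438955136_ok, trivial⟩ C_24881410176
theorem L_24881668161 : HH 127 (nat_lit 24881668161, nat_lit 26) := top_sound R_24881668161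
  ⟨V6_21643399233_ok, V6_21643141185_ok, V6_21626884161_ok, V6_19512954945_ok, V6_18439217217_ok, trivial⟩
  ⟨W_24814293056_ok, W_24797519936_ok, W_24781004864_ok, W_23773843520_ok, W_23757070400_ok, W_23740813376_ok, W_23740555328_ok, W_23724040256_ok, W_22683590720_ok, trivial⟩ C_24881668161
theorem L_24881668224 : HH 127 (nat_lit 24881668224, nat_lit 69) := top_sound R_24881668224
  ⟨V6_23790624768_ok, V6_20586700800_ok, trivial⟩
  ⟨W_24830812160_ok, W_24814297088_ok, W_24797782016_ok, W_24781004864_ok, W_24764227712_ok, W_23773847552_ok, W_23757332480_ok, W_23757070400_ok, W_23740817408_ok, W_23740293248_ok, W_23724040256_ok, W_23723778176_ok, W_23707263104_ok, W_22683328640_ok, W_22650298496_ok, W_18438955136_ok, trivial⟩ C_24881668224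
theorem L_24881672256 : HH 127 (nat_lit 24881672256, nat_lit 102) := top_sound R_24881672256
  ⟨V6_20569927680_ok, V6_19512963072_ok, trivial⟩
  ⟨W_24814293056_ok, W_24797777984_ok, W_24797519936_ok, W_24781008896_ok, W_24781004864_ok, W_23774105600_ok, W_23757590528_ok, W_23757332480_ok, W_23740817408_ok, W_23740813376_ok, W_23740555328_ok, W_23724044288_ok, W_23707267136_ok, W_22700367872_ok, W_22683852800_ok, trivial⟩ C_24881672256
theorem L_24881676288 : HH 127 (nat_lit 24881676288, nat_lit 75) := top_sound R_24881676288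
  ⟨V6_22667083776_ok, V6_19496189952_ok, V6_18439225344_ok, trivial⟩
  ⟨W_23774363648_ok, W_23757590528_ok, W_21660434432_ok, W_20586696704_ok, trivial⟩ C_24881676288
theorem L_24881926209 : HH 127 (nat_lit 24881926209, nat_lit 14) := top_sound R_24881926209
  ⟨V6_24781262913_ok, V6_19512954945_ok, V6_18439475265_ok, trivial⟩
  ⟨W_24830808128_ok, W_24814293056_ok, W_24797777984_ok, W_23773843520_ok, W_23740813376_ok, W_22733393984_ok, W_22667333696_ok, trivial⟩ C_24881926209
theorem L_24881930304 : HH 127 (nat_lit 24881930304, nat_lit 147) := top_sound R_24881930304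
  ⟨V6_21660176448_ok, V6_20586700800_ok, V6_19513221120_ok, trivial⟩
  ⟨W_24831070208_ok, W_24830812160_ok, W_24814555136_ok, W_24814297088_ok, W_24814293056_ok, W_24798040064_ok, W_24797782016_ok, W_24797777984_ok, W_24797519936_ok, W_24781262912_ok, W_24781004864_ok, W_23757332480_ok, W_23757070400_ok, W_23741075456_ok, W_23740817408_ok, W_23724302336_ok, W_23707525184_ok, W_22716882944_ok, W_22700367872_ok, W_22683852800_ok, W_21659918336_ok, trivial⟩ C_24881930304
theorem L_24881934336 : HH 127 (nat_lit 24881934336, nat_lit 154) := top_sound R_24881934336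
  ⟨V6_20586700800_ok, V6_19513221120_ok, V6_19512963072_ok, trivial⟩
  ⟨W_24831328256_ok, W_24831070208_ok, W_24814555136_ok, W_24814297088_ok, W_24798040064_ok, W_24797782016_ok, W_24781008896_ok, W_23790878720_ok, W_23774363648_ok, W_23757848576_ok, W_23757332480_ok, W_23741075456_ok, W_23740817408_ok, W_23740559360_ok, W_23724302336_ok, W_22733914112_ok, W_22683594752_ok, W_21660434432_ok, W_19512700928_ok, trivial⟩ C_24881934336
theorem L_24882188352 : HH 127 (nat_lit 24882188352, nat_lit 85) := top_sound R_24882188352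
  ⟨V6_24880877568_ok, V6_24798302208_ok, V6_22667595840_ok, V6_19513479168_ok, trivial⟩
  ⟨W_24864100352_ok, W_24847585280_ok, W_24831070208_ok, W_24830808128_ok, W_24814293056_ok, W_24797777984_ok, W_23807135744_ok, W_23790620672_ok, W_23773843520_ok, W_23757328448_ok, W_23740813376_ok, W_22733393984_ok, W_22667595776_ok, W_21659914304_ok, W_20586696704_ok, trivial⟩ C_24882188352
theorem L_24882192384 : HH 127 (nat_lit 24882192384, nat_lit 204) := top_sound R_24882192384
  ⟨V6_24798302208_ok, V6_19513221120_ok, V6_19496706048_ok, V6_18439741440_ok, trivial⟩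
  ⟨W_24864358400_ok, W_24847585280_ok, W_24830812160_ok, W_24814813184_ok, W_24814297088_ok, W_24798298112_ok, W_24797782016_ok, W_23807393792_ok, W_23790878720_ok, W_23790620672_ok, W_23773847552_ok, W_23741333504_ok, W_23724560384_ok, W_22733914112_ok, W_22733656064_ok, W_22716882944_ok, W_22650822656_ok, W_21660434432_ok, W_21659918336_ok, W_20586438656_ok, trivial⟩ C_24882192384
theorem L_24882450432 : HH 127 (nat_lit 24882450432, nat_lit 143) := top_sound R_24882450432
  ⟨V6_23741595648_ok, V6_22667857920_ok, V6_19513479168_ok, V6_19496964096_ok, trivial⟩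
  ⟨W_24864358400_ok, W_24864100352_ok, W_24847843328_ok, W_24831070208_ok, W_24814813184_ok, W_24814555136_ok, W_23790878720_ok, W_23790620672_ok, W_23757848576_ok, W_23741333504_ok, W_23741075456_ok, W_22733656064_ok, W_22667853824_ok, W_22667595776_ok, W_21610889216_ok, W_21594116096_ok, trivial⟩ C_24882450432
theorem L_24882708480 : HH 127 (nat_lit 24882708480, nat_lit 69) := top_sound R_24882708480
  ⟨V6_22717661184_ok, V6_21611151360_ok, V6_20554186752_ok, trivial⟩
  ⟨W_24864358400_ok, W_24847843328_ok, W_23790878720_ok, W_23774363648_ok, W_21610889216_ok, W_20537409536_ok, trivial⟩ C_24882708480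
theorem L_24897921153 : HH 127 (nat_lit 24897921153, nat_lit 8) := top_sound R_24897921153
  ⟨V6_24814035072_ok, V6_22700105793_ok, trivial⟩
  ⟨W_19529211968_ok, W_19512434816_ok, W_18455470208_ok, trivial⟩ C_24897921153
theorem L_24898183233 : HH 127 (nat_lit 24898183233, nat_lit 15) := top_sound R_24898183233
  ⟨V6_20603211840_ok, V6_20569661505_ok, trivial⟩
  ⟨W_24814293056_ok, W_24814035008_ok, W_23757070400_ok, W_23740555328_ok, W_22683590720_ok, trivial⟩ C_24898183233
theorem L_24898183296 : HH 127 (nat_lit 24898183296, nat_lit 40) := top_sound R_24898183296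
  ⟨V6_21676695552_ok, V6_18455732352_ok, trivial⟩
  ⟨W_24830812160_ok, W_24814297088_ok, W_24814035008_ok, W_24797519936_ok, W_24797257856_ok, W_23757332480_ok, W_23757070400_ok, W_23740293248_ok, W_23723778176_ok, W_22683328640_ok, W_17381990528_ok, trivial⟩ C_24898183296
theorem L_24898187328 : HH 127 (nat_lit 24898187328, nat_lit 38) := top_sound R_24898187328
  ⟨V6_21660176448_ok, V6_21643407360_ok, V6_20603211840_ok, trivial⟩
  ⟨W_24831070208_ok, W_24814297088_ok, W_24814293056_ok, W_24797519936_ok, W_23757332480_ok, W_23740559360_ok, W_22700367872_ok, trivial⟩ C_24898187328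
theorem L_24898441281 : HH 127 (nat_lit 24898441281, nat_lit 9) := top_sound R_24898441281
  ⟨V6_20569919553_ok, V6_19512954945_ok, trivial⟩
  ⟨W_24830808128_ok, W_24814293056_ok, W_23773843520_ok, W_23740813376_ok, W_22733393984_ok, trivial⟩ C_24898441281
theorem L_24898445376 : HH 127 (nat_lit 24898445376, nat_lit 120) := top_sound R_24898445376
  ⟨V6_21676695552_ok, V6_20586700800_ok, V6_19529732160_ok, trivial⟩
  ⟨W_24831070208_ok, W_24814555136_ok, W_24814297088_ok, W_24814293056_ok, W_24797782016_ok, W_24797777984_ok, W_24797519936_ok, W_24781004864_ok, W_23773847552_ok, W_23773843520_ok, W_23757332480_ok, W_23757070400_ok, W_23740817408_ok, W_23740813376_ok, W_23740555328_ok, W_22733656064_ok, W_22716882944_ok, W_22683590720_ok, W_19529211968_ok, trivial⟩ C_24898445376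
theorem L_24898449408 : HH 127 (nat_lit 24898449408, nat_lit 117) := top_sound R_24898449408
  ⟨V6_22683856896_ok, V6_19512963072_ok, V6_18455998464_ok, trivial⟩
  ⟨W_24831070208_ok, W_24814297088_ok, W_24797782016_ok, W_24781008896_ok, W_23790878720_ok, W_23774363648_ok, W_22733914112_ok, W_21676949504_ok, W_21660434432_ok, W_19529474048_ok, trivial⟩ C_24898449408
theorem L_24898703424 : HH 127 (nat_lit 24898703424, nat_lit 76) := top_sound R_24898703424
  ⟨V6_23790620736_ok, V6_21660176448_ok, V6_19529732160_ok, V6_18456252480_ok, trivial⟩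
  ⟨W_24847585280_ok, W_24831070208_ok, W_24814555136_ok, W_24798040064_ok, W_24797777984_ok, W_24781262912_ok, W_23757590528_ok, W_23741075456_ok, W_22733656064_ok, W_22684110848_ok, W_22667333696_ok, trivial⟩ C_24898703424
theorem L_24898707456 : HH 127 (nat_lit 24898707456, nat_lit 183) := top_sound R_24898707456
  ⟨V6_21676695552_ok, V6_20603473920_ok, V6_19513221120_ok, V6_18456256512_ok, trivial⟩
  ⟨W_24830812160_ok, W_24814555136_ok, W_24814297088_ok, W_24798040064_ok, W_24797782016_ok, W_23790878720_ok, W_23790620672_ok, W_23774363648_ok, W_23773847552_ok, W_23757848576_ok, W_23757332480_ok, W_23741075456_ok, W_23740817408_ok, W_23724302336_ok, W_22750429184_ok, W_22733914112_ok, W_22667337728_ok, trivial⟩ C_24898707456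
theorem L_24898965504 : HH 127 (nat_lit 24898965504, nat_lit 159) := top_sound R_24898965504
  ⟨V6_23741337600_ok, V6_20603473920_ok, V6_19513479168_ok, V6_18456514560_ok, trivial⟩
  ⟨W_24880873472_ok, W_24864358400_ok, W_24864100352_ok, W_24814813184_ok, W_24798298112_ok, W_23823908864_ok, W_23807135744_ok, W_23790878720_ok, W_23790620672_ok, W_23741333504_ok, W_22750429184_ok, W_22750171136_ok, W_21676949504_ok, W_20586696704_ok, W_19529732096_ok, trivial⟩ C_24898965504
theorem L_24899223552 : HH 127 (nat_lit 24899223552, nat_lit 86) := top_sound R_24899223552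
  ⟨V6_24831590400_ok, V6_22717661184_ok, V6_18456772608_ok, trivial⟩
  ⟨W_24864358400_ok, W_23790878720_ok, W_23741333504_ok, W_21676949504_ok, W_21610889216_ok, W_18456510464_ok, trivial⟩ C_24899223552
theorem L_24914698305 : HH 127 (nat_lit 24914698305, nat_lit 7) := top_sound R_24914698305
  ⟨V6_24814035009_ok, V6_22700105793_ok, V6_21643141185_ok, V6_19545985089_ok, trivial⟩
  ⟨W_24830808128_ok, W_21659914304_ok, W_19545985088_ok, trivial⟩ C_24914698305
theorem L_24914698368 : HH 127 (nat_lit 24914698368, nat_lit 20) := top_sound R_24914698368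
  ⟨V6_21676695552_ok, trivial⟩
  ⟨W_24830812160_ok, W_24814035008_ok, W_24797257856_ok, W_23757070400_ok, W_23740293248_ok, W_20569399424_ok, trivial⟩ C_24914698368
theorem L_24914956353 : HH 127 (nat_lit 24914956353, nat_lit 5) := top_sound R_24914956353
  ⟨V6_21643399233_ok, V6_19545985089_ok, V6_18472505409_ok, trivial⟩
  ⟨W_24814293056_ok, W_23773843520_ok, W_20619464768_ok, trivial⟩ C_24914956353
theorem L_24914960448 : HH 127 (nat_lit 24914960448, nat_lit 68) := top_sound R_24914960448
  ⟨V6_21693468672_ok, V6_21676695552_ok, V6_20603211840_ok, V6_19546247232_ok, trivial⟩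
  ⟨W_24831070208_ok, W_24830812160_ok, W_24814297088_ok, W_24814293056_ok, W_23773847552_ok, W_23757332480_ok, W_23757070400_ok, W_23740555328_ok, W_22700367872_ok, W_22683590720_ok, trivial⟩ C_24914960448
theorem L_24914964480 : HH 127 (nat_lit 24914964480, nat_lit 46) := top_sound R_24914964480
  ⟨V6_22700371968_ok, V6_21693726720_ok, V6_21643407360_ok, trivial⟩
  ⟨W_24847843328_ok, W_24814297088_ok, W_23790878720_ok, W_19546247168_ok, W_17398771712_ok, trivial⟩ C_24914964480
theorem L_24915218496 : HH 127 (nat_lit 24915218496, nat_lit 60) := top_sound R_24915218496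
  ⟨V6_20603473920_ok, V6_19546247232_ok, trivial⟩
  ⟨W_24847585280_ok, W_24831070208_ok, W_24814555136_ok, W_24814293056_ok, W_24797777984_ok, W_23790620672_ok, W_23740813376_ok, W_22717140992_ok, W_22683848768_ok, trivial⟩ C_24915218496
theorem L_24915222528 : HH 127 (nat_lit 24915222528, nat_lit 143) := top_sound R_24915222528
  ⟨V6_21676695552_ok, V6_20603473920_ok, V6_20586700800_ok, trivial⟩
  ⟨W_24864358400_ok, W_24847843328_ok, W_24831070208_ok, W_24814297088_ok, W_24797782016_ok, W_23807393792_ok, W_23790878720_ok, W_23740817408_ok, W_21693464576_ok, W_21676949504_ok, W_20619984896_ok, W_18472509440_ok, trivial⟩ C_24915222528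
theorem L_24915480576 : HH 127 (nat_lit 24915480576, nat_lit 136) := top_sound R_24915480576
  ⟨V6_24880877568_ok, V6_22766948352_ok, V6_21693726720_ok, V6_21693468672_ok, V6_20620247040_ok, V6_20603473920_ok, trivial⟩
  ⟨W_24880873472_ok, W_24814813184_ok, W_24814555136_ok, W_24798040064_ok, W_23757848576_ok, W_23741075456_ok, W_20586696704_ok, W_19546247168_ok, W_19529732096_ok, W_18472767488_ok, trivial⟩ C_24915480576
theorem L_24915738624 : HH 127 (nat_lit 24915738624, nat_lit 88) := top_sound R_24915738624
  ⟨V6_24897650688_ok, V6_22717661184_ok, V6_21693726720_ok, V6_20620247040_ok, trivial⟩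
  ⟨W_24864358400_ok, W_24798298112_ok, W_23790878720_ok, W_23757848576_ok, W_23741333504_ok, W_21676949504_ok, W_20619984896_ok, trivial⟩ C_24915738624
theorem L_24931471425 : HH 127 (nat_lit 24931471425, nat_lit 2) := top_sound R_24931471425
  ⟨V6_23807135808_ok, V6_19545985089_ok, trivial⟩
  ⟨W_23773843520_ok, trivial⟩ C_24931471425
theorem L_24931475520 : HH 127 (nat_lit 24931475520, nat_lit 31) := top_sound R_24931475520
  ⟨V6_21676695552_ok, V6_19562766336_ok, trivial⟩
  ⟨W_24847585280_ok, W_24830812160_ok, W_24830808128_ok, W_24814035008_ok, W_23790620672_ok, W_23757070400_ok, trivial⟩ C_24931475520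
theorem L_24931733568 : HH 127 (nat_lit 24931733568, nat_lit 34) := top_sound R_24931733568
  ⟨V6_23774105664_ok, V6_20603211840_ok, V6_19546247232_ok, trivial⟩
  ⟨W_24864100352_ok, W_24847585280_ok, W_24831070208_ok, W_24814293056_ok, W_23790620672_ok, W_22733393984_ok, W_21693206528_ok, W_20619464768_ok, trivial⟩ C_24931733568
theorem L_24931737600 : HH 127 (nat_lit 24931737600, nat_lit 82) := top_sound R_24931737600
  ⟨V6_24847589376_ok, V6_23790624768_ok, V6_21693726720_ok, V6_21676695552_ok, trivial⟩
  ⟨W_24847843328_ok, W_23790878720_ok, W_19563020288_ok, W_19546247168_ok, W_18489282560_ok, W_18489024512_ok, W_17415544832_ok, trivial⟩ C_24931737600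
theorem L_24931995648 : HH 127 (nat_lit 24931995648, nat_lit 107) := top_sound R_24931995648
  ⟨V6_21693726720_ok, V6_21693468672_ok, V6_20620247040_ok, V6_20603473920_ok, trivial⟩
  ⟨W_24880873472_ok, W_24864358400_ok, W_24847843328_ok, W_24831328256_ok, W_24831070208_ok, W_24814555136_ok, W_23807135744_ok, W_23790878720_ok, W_22766944256_ok, W_19563020288_ok, W_18489282560_ok, trivial⟩ C_24931995648
theorem L_24932253696 : HH 127 (nat_lit 24932253696, nat_lit 77) := top_sound R_24932253696
  ⟨V6_24831590400_ok, V6_22717661184_ok, V6_20620247040_ok, trivial⟩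
  ⟨W_24864358400_ok, W_23840423936_ok, W_21709979648_ok, W_21676949504_ok, W_20619984896_ok, W_19563020288_ok, W_17416060928_ok, trivial⟩ C_24932253696
theorem L_24948248640 : HH 127 (nat_lit 24948248640, nat_lit 16) := top_sound R_24948248640
  ⟨V6_21693468672_ok, trivial⟩
  ⟨W_24847585280_ok, W_24830808128_ok, W_23807135744_ok, W_23773843520_ok, W_22733393984_ok, W_17432055872_ok, trivial⟩ C_24948248640
theorem L_24948252672 : HH 127 (nat_lit 24948252672, nat_lit 37) := top_sound R_24948252672
  ⟨V6_24847589376_ok, V6_21676695552_ok, V6_19562766336_ok, trivial⟩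
  ⟨W_24864358400_ok, W_22750429184_ok, W_20636499968_ok, W_19579535360_ok, trivial⟩ C_24948252672
theorem L_24948510720 : HH 127 (nat_lit 24948510720, nat_lit 65) := top_sound R_24948510720
  ⟨V6_24864362496_ok, V6_21726756864_ok, V6_21693726720_ok, V6_21693468672_ok, trivial⟩
  ⟨W_24880873472_ok, W_24847843328_ok, W_23790878720_ok, W_20653015040_ok, W_19563020288_ok, W_18489282560_ok, W_17432317952_ok, trivial⟩ C_24948510720
theorem L_24948768768 : HH 127 (nat_lit 24948768768, nat_lit 59) := top_sound R_24948768768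
  ⟨V6_22800236544_ok, V6_21726756864_ok, V6_21693726720_ok, V6_20620247040_ok, trivial⟩
  ⟨W_24864358400_ok, W_24847843328_ok, W_24831328256_ok, W_23774363648_ok, W_17432576000_ok, trivial⟩ C_24948768768
theorem L_24964763712 : HH 127 (nat_lit 24964763712, nat_lit 2) := top_sound R_24964763712
  ⟨V6_23807135808_ok, V6_19579277376_ok, trivial⟩
  ⟨W_24864100352_ok, trivial⟩ C_24964763712
theorem L_24965025792 : HH 127 (nat_lit 24965025792, nat_lit 34) := top_sound R_24965025792
  ⟨V6_24864362496_ok, V6_19596312576_ok, V6_18522574848_ok, trivial⟩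
  ⟨W_24880873472_ok, W_24864358400_ok, W_22766944256_ok, W_21709979648_ok, W_20653015040_ok, W_17448833024_ok, trivial⟩ C_24965025792
theorem L_24965283840 : HH 127 (nat_lit 24965283840, nat_lit 39) := top_sound R_24965283840
  ⟨V6_21693726720_ok, V6_19596312576_ok, V6_18522832896_ok, trivial⟩
  ⟨W_24864358400_ok, W_24847843328_ok, W_23840423936_ok, W_23823908864_ok, W_17449091072_ok, trivial⟩ C_24965283840
theorem L_24981540864 : HH 127 (nat_lit 24981540864, nat_lit 9) := top_sound R_24981540864
  ⟨V6_24880877568_ok, V6_19612827648_ok, V6_18539089920_ok, trivial⟩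
  ⟨W_21709979648_ok, W_20653015040_ok, trivial⟩ C_24981540864
theorem L_24981798912 : HH 127 (nat_lit 24981798912, nat_lit 23) := top_sound R_24981798912
  ⟨V6_24881135616_ok, V6_19596312576_ok, trivial⟩
  ⟨W_23840423936_ok, W_21726494720_ok, W_20636499968_ok, W_19612565504_ok, W_18522570752_ok, trivial⟩ C_24981798912
theorem L_24998313984 : HH 127 (nat_lit 24998313984, nat_lit 10) := top_sound R_24998313984
  ⟨V6_21726756864_ok, V6_19629342720_ok, V6_19612827648_ok, trivial⟩
  ⟨W_24880873472_ok, W_23840423936_ok, trivial⟩ C_24998313984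
theorem L_25014829056 : HH 127 (nat_lit 25014829056, nat_lit 2) := top_sound R_25014829056
  ⟨V6_22800236544_ok, trivial⟩
  ⟨W_20669530112_ok, trivial⟩ C_25014829056
theorem L_25837977858 : HH 127 (nat_lit 25837977858, nat_lit 1) := top_sound R_25837977858
  ⟨V6_19395526914_ok, trivial⟩
  ⟨W_22616752256_ok, trivial⟩ C_25837977858
theorem L_25854755073 : HH 127 (nat_lit 25854755073, nat_lit 1) := top_sound R_25854755073
  ⟨V6_19412304129_ok, trivial⟩
  ⟨W_23690494016_ok, trivial⟩ C_25854755073
theorem L_25855017153 : HH 127 (nat_lit 25855017153, nat_lit 1) := top_sound R_25855017153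
  ⟨V6_21559787649_ok, trivial⟩
  ⟨W_22633787456_ok, trivial⟩ C_25855017153
theorem L_25871532162 : HH 127 (nat_lit 25871532162, nat_lit 3) := top_sound R_25871532162
  ⟨V6_21576556674_ok, trivial⟩
  ⟨W_22616752256_ok, W_20502823040_ok, trivial⟩ C_25871532162
theorem L_25871532225 : HH 127 (nat_lit 25871532225, nat_lit 2) := top_sound R_25871532225
  ⟨V6_21559787649_ok, trivial⟩
  ⟨W_23690494016_ok, W_22616752256_ok, trivial⟩ C_25871532225
theorem L_25871532288 : HH 127 (nat_lit 25871532288, nat_lit 6) := top_sound R_25871532288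
  ⟨V6_19429081344_ok, trivial⟩
  ⟨W_24764235776_ok, W_22650306560_ok, trivial⟩ C_25871532288
theorem L_25871790210 : HH 127 (nat_lit 25871790210, nat_lit 1) := top_sound R_25871790210
  ⟨V6_20502818946_ok, trivial⟩
  ⟨W_23723778176_ok, trivial⟩ C_25871790210
theorem L_25871790273 : HH 127 (nat_lit 25871790273, nat_lit 1) := top_sound R_25871790273
  ⟨V6_22633525377_ok, trivial⟩
  ⟨W_22633787456_ok, trivial⟩ C_25871790273
theorem L_25871794305 : HH 127 (nat_lit 25871794305, nat_lit 6) := top_sound R_25871794305
  ⟨V6_21576818817_ok, V6_21559787649_ok, trivial⟩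
  ⟨W_23724040256_ok, W_23707525184_ok, W_22633787456_ok, trivial⟩ C_25871794305
theorem L_25871794368 : HH 127 (nat_lit 25871794368, nat_lit 6) := top_sound R_25871794368
  ⟨V6_21560049792_ok, V6_20502823104_ok, trivial⟩
  ⟨W_24781008896_ok, W_22650564608_ok, W_22633787456_ok, trivial⟩ C_25871794368
theorem L_25871798337 : HH 127 (nat_lit 25871798337, nat_lit 2) := top_sound R_25871798337
  ⟨V6_19429347393_ok, trivial⟩
  ⟨W_24781262912_ok, W_23724298304_ok, trivial⟩ C_25871798337
theorem L_25871798400 : HH 127 (nat_lit 25871798400, nat_lit 3) := top_sound R_25871798400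
  ⟨V6_19429347456_ok, trivial⟩
  ⟨W_23724302336_ok, trivial⟩ C_25871798400
theorem L_25872048258 : HH 127 (nat_lit 25872048258, nat_lit 4) := top_sound R_25872048258
  ⟨V6_23723516034_ok, V6_21576556674_ok, trivial⟩
  ⟨W_21576818816_ok, W_20503339136_ok, trivial⟩ C_25872048258
theorem L_25872052353 : HH 127 (nat_lit 25872052353, nat_lit 5) := top_sound R_25872052353
  ⟨V6_21576818817_ok, trivial⟩
  ⟨W_24797519936_ok, W_21577080896_ok, trivial⟩ C_25872052353
theorem L_25872052416 : HH 127 (nat_lit 25872052416, nat_lit 3) := top_sound R_25872052416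
  ⟨V6_19429601472_ok, trivial⟩
  ⟨W_23724044288_ok, trivial⟩ C_25872052416
theorem L_25872056385 : HH 127 (nat_lit 25872056385, nat_lit 3) := top_sound R_25872056385
  ⟨V6_20503343169_ok, V6_20503085121_ok, trivial⟩
  ⟨W_23724040256_ok, trivial⟩ C_25872056385
theorem L_25872056448 : HH 127 (nat_lit 25872056448, nat_lit 20) := top_sound R_25872056448
  ⟨V6_21577089024_ok, trivial⟩
  ⟨W_24797782016_ok, W_23724044288_ok, W_23724040256_ok, W_22650298496_ok, W_21576564800_ok, trivial⟩ C_25872056448
theorem L_25872060480 : HH 127 (nat_lit 25872060480, nat_lit 10) := top_sound R_25872060480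
  ⟨V6_20503351296_ok, V6_20503089216_ok, trivial⟩
  ⟨W_24798040064_ok, W_23724302336_ok, trivial⟩ C_25872060480
theorem L_25872064512 : HH 127 (nat_lit 25872064512, nat_lit 11) := top_sound R_25872064512
  ⟨V6_19429613568_ok, trivial⟩
  ⟨W_24798298112_ok, W_23724560384_ok, W_18355871744_ok, trivial⟩ C_25872064512
theorem L_25888305282 : HH 127 (nat_lit 25888305282, nat_lit 2) := top_sound R_25888305282
  ⟨V6_23690485890_ok, V6_20502818946_ok, trivial⟩
  ⟨W_23723778176_ok, W_22666813568_ok, trivial⟩ C_25888305282

theorem H_33 : AllH 127 tb33 :=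
  ⟨L_24848638017, L_24848638080, L_24848642112, L_24848646144, L_24848896065, L_24848900160, L_24848904192, L_24849158208, L_24849162240, L_24849420288, L_24864628866, L_24864632961, L_24864633024, L_24864891009, L_24864895041, L_24864895104, L_24864899136, L_24865153089, L_24865153152, L_24865157184, L_24865161216, L_24865411137, L_24865415232, L_24865419264, L_24865673280, L_24865677312, L_24865935360, L_24866193408, L_24881143938, L_24881406081, L_24881410113, L_24881410176, L_24881668161, L_24881668224, L_24881672256, L_24881676288, L_24881926209, L_24881930304, L_24881934336, L_24882188352, L_24882192384, L_24882450432, L_24882708480, L_24897921153, L_24898183233, L_24898183296, L_24898187328, L_24898441281, L_24898445376, L_24898449408, L_24898703424, L_24898707456, L_24898965504, L_24899223552, L_24914698305, L_24914698368, L_24914956353, L_24914960448, L_24914964480, L_24915218496, L_24915222528, L_24915480576, L_24915738624, L_24931471425, L_24931475520, L_24931733568, L_24931737600, L_24931995648, L_24932253696,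 L_24948248640, L_24948252672, L_24948510720, L_24948768768, L_24964763712, L_24965025792, L_24965283840, L_24981540864, L_24981798912, L_24998313984, L_25014829056, L_25837977858, L_25854755073, L_25855017153, L_25871532162, L_25871532225, L_25871532288, L_25871790210, L_25871790273, L_25871794305, L_25871794368, L_25871798337, L_25871798400, L_25872048258, L_25872052353, L_25872052416, L_25872056385, L_25872056448, L_25872060480, L_25872064512, L_25888305282, trivial⟩

theorem L_25888305345 : HH 127 (nat_lit 25888305345, nat_lit 1) := top_sound R_25888305345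
  ⟨V6_21593075841_ok, trivial⟩
  ⟨W_23707267136_ok, trivial⟩ C_25888305345
theorem L_25888309377 : HH 127 (nat_lit 25888309377, nat_lit 9) := top_sound R_25888309377
  ⟨V6_22650298497_ok, V6_21576564801_ok, V6_21559787649_ok, trivial⟩
  ⟨W_25837969472_ok, W_24764227712_ok, W_23690494016_ok, W_22667075648_ok, trivial⟩ C_25888309377
theorem L_25888309440 : HH 127 (nat_lit 25888309440, nat_lit 11) := top_sound R_25888309440
  ⟨V6_24764235840_ok, V6_23690494080_ok, V6_20502823104_ok, trivial⟩
  ⟨W_23724044288_ok, W_21593341952_ok, trivial⟩ C_25888309440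
theorem L_25888563330 : HH 127 (nat_lit 25888563330, nat_lit 3) := top_sound R_25888563330
  ⟨V6_21576556674_ok, trivial⟩
  ⟨W_24797257856_ok, W_23740293248_ok, trivial⟩ C_25888563330
theorem L_25888567425 : HH 127 (nat_lit 25888567425, nat_lit 10) := top_sound R_25888567425
  ⟨V6_22633525377_ok, V6_21593075841_ok, V6_21576818817_ok, V6_21576560769_ok, trivial⟩
  ⟨W_25854484544_ok, W_24797519936_ok, W_23740555328_ok, W_21593595968_ok, trivial⟩ C_25888567425
theorem L_25888567488 : HH 127 (nat_lit 25888567488, nat_lit 8) := top_sound R_25888567488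
  ⟨V6_23740821504_ok, trivial⟩
  ⟨W_24797523968_ok, W_24781008896_ok, W_23707267136_ok, W_22633787456_ok, W_19446116480_ok, W_18372374720_ok, trivial⟩ C_25888567488
theorem L_25888571457 : HH 127 (nat_lit 25888571457, nat_lit 11) := top_sound R_25888571457
  ⟨V6_24781262913_ok, V6_23740813377_ok, V6_22667333697_ok, V6_22633529409_ok, V6_21576564801_ok, V6_20503085121_ok, trivial⟩
  ⟨W_25854742592_ok, W_23724040256_ok, W_21593595968_ok, trivial⟩ C_25888571457
theorem L_25888571520 : HH 127 (nat_lit 25888571520, nat_lit 28) := top_sound R_25888571520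
  ⟨V6_22667083776_ok, V6_22650568704_ok, trivial⟩
  ⟨W_24797782016_ok, W_23740817408_ok, W_23724040256_ok, W_23707267136_ok, W_22667075648_ok, W_22650298496_ok, trivial⟩ C_25888571520
theorem L_25888575552 : HH 127 (nat_lit 25888575552, nat_lit 13) := top_sound R_25888575552
  ⟨V6_20503089216_ok, V6_19446124608_ok, trivial⟩
  ⟨W_24781266944_ok, W_24781262912_ok, W_23741075456_ok, W_22667333696_ok, trivial⟩ C_25888575552
theorem L_25888825473 : HH 127 (nat_lit 25888825473, nat_lit 11) := top_sound R_25888825473
  ⟨V6_21576818817_ok, V6_19446374529_ok, trivial⟩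
  ⟨W_25870999616_ok, W_24814035008_ok, W_24797519936_ok, W_22667075648_ok, trivial⟩ C_25888825473
theorem L_25888829505 : HH 127 (nat_lit 25888829505, nat_lit 10) := top_sound R_25888829505
  ⟨V6_22667595840_ok, trivial⟩
  ⟨W_24797519936_ok, W_23724040256_ok, W_21593337920_ok, trivial⟩ C_25888829505
theorem L_25888829568 : HH 127 (nat_lit 25888829568, nat_lit 34) := top_sound R_25888829568
  ⟨V6_21593862144_ok, V6_21577080960_ok, trivial⟩
  ⟨W_25871261696_ok, W_24814297088_ok, W_24797782016_ok, W_24797519936_ok, W_23724044288_ok, W_23724040256_ok, W_22650298496_ok, W_20503339136_ok, trivial⟩ C_25888829568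
theorem L_25888833600 : HH 127 (nat_lit 25888833600, nat_lit 46) := top_sound R_25888833600
  ⟨V6_21593862144_ok, V6_21577089024_ok, trivial⟩
  ⟨W_25871519744_ok, W_24798040064_ok, W_24797782016_ok, W_23740817408_ok, W_23740813376_ok, W_23724298304_ok, W_23724044288_ok, W_22650306560_ok, W_21576564800_ok, trivial⟩ C_25888833600
theorem L_25888837632 : HH 127 (nat_lit 25888837632, nat_lit 27) := top_sound R_25888837632
  ⟨V6_20503351296_ok, V6_19446386688_ok, trivial⟩
  ⟨W_24814813184_ok, W_24798298112_ok, W_23741075456_ok, W_23724302336_ok, trivial⟩ C_25888837632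
theorem L_25889087553 : HH 127 (nat_lit 25889087553, nat_lit 8) := top_sound R_25889087553
  ⟨V6_20520374337_ok, V6_19446636609_ok, trivial⟩
  ⟨W_24814035008_ok, W_23740813376_ok, W_23740555328_ok, trivial⟩ C_25889087553
theorem L_25889087616 : HH 127 (nat_lit 25889087616, nat_lit 12) := top_sound R_25889087616
  ⟨V6_24814035072_ok, V6_21594120192_ok, trivial⟩
  ⟨W_25887776768_ok, W_24814297088_ok, W_23740555328_ok, trivial⟩ C_25889087616
theorem L_25889091648 : HH 127 (nat_lit 25889091648, nat_lit 32) := top_sound R_25889091648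
  ⟨V6_22667857920_ok, V6_21594120192_ok, V6_20520382464_ok, trivial⟩
  ⟨W_25888034816_ok, W_24814297088_ok, W_24814293056_ok, W_23740817408_ok, W_23740555328_ok, W_22666817600_ok, W_21593337920_ok, trivial⟩ C_25889091648
theorem L_25889095680 : HH 127 (nat_lit 25889095680, nat_lit 24) := top_sound R_25889095680
  ⟨V6_22667083776_ok, V6_19446644736_ok, trivial⟩
  ⟨W_25888292864_ok, W_24814555136_ok, W_23741075456_ok, trivial⟩ C_25889095680
theorem L_25905078402 : HH 127 (nat_lit 25905078402, nat_lit 6) := top_sound R_25905078402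
  ⟨V6_22650298497_ok, V6_21576556674_ok, trivial⟩
  ⟨W_24764227712_ok, W_20536369280_ok, trivial⟩ C_25905078402
theorem L_25905082497 : HH 127 (nat_lit 25905082497, nat_lit 12) := top_sound R_25905082497
  ⟨V6_22650298497_ok, V6_22633525377_ok, V6_21593075841_ok, V6_21576560769_ok, V6_20536111233_ok, trivial⟩
  ⟨W_25837969472_ok, W_22683590720_ok, W_22667075648_ok, trivial⟩ C_25905082497
theorem L_25905082560 : HH 127 (nat_lit 25905082560, nat_lit 6) := top_sound R_25905082560
  ⟨V6_24764231808_ok, V6_19462631616_ok, trivial⟩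
  ⟨W_24797523968_ok, W_20536373312_ok, trivial⟩ C_25905082560
theorem L_25905086529 : HH 127 (nat_lit 25905086529, nat_lit 8) := top_sound R_25905086529
  ⟨V6_21576564801_ok, V6_19462635585_ok, trivial⟩
  ⟨W_25854742592_ok, W_25837969472_ok, W_23740813376_ok, W_22683848768_ok, trivial⟩ C_25905086529
theorem L_25905086592 : HH 127 (nat_lit 25905086592, nat_lit 36) := top_sound R_25905086592
  ⟨V6_22667083776_ok, V6_21610119168_ok, trivial⟩
  ⟨W_25854746624_ok, W_24781008896_ok, W_24781004864_ok, W_24764235776_ok, W_24764227712_ok, W_23707271168_ok, W_22683852800_ok, W_22650298496_ok, trivial⟩ C_25905086592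
theorem L_25905340545 : HH 127 (nat_lit 25905340545, nat_lit 17) := top_sound R_25905340545
  ⟨V6_24814035072_ok, V6_24814035009_ok, V6_22650298497_ok, V6_21576818817_ok, trivial⟩
  ⟨W_25854484544_ok, W_24781004864_ok, W_23757070400_ok, W_23724040256_ok, W_23707525184_ok, W_22667075648_ok, trivial⟩ C_25905340545
theorem L_25905344577 : HH 127 (nat_lit 25905344577, nat_lit 17) := top_sound R_25905344577
  ⟨V6_25855004736_ok, V6_24831070272_ok, V6_24781262913_ok, V6_23757328449_ok, V6_22667333697_ok, V6_22666817601_ok, V6_21610369089_ok, trivial⟩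
  ⟨W_23724040256_ok, W_22667333696_ok, W_21593337920_ok, W_20536373312_ok, trivial⟩ C_25905344577
theorem L_25905344640 : HH 127 (nat_lit 25905344640, nat_lit 46) := top_sound R_25905344640
  ⟨V6_23740821504_ok, V6_22683856896_ok, trivial⟩
  ⟨W_25871261696_ok, W_23723778176_ok, W_22683852800_ok, W_22683590720_ok, W_20536635392_ok, W_19462889600_ok, trivial⟩ C_25905344640
theorem L_25905348672 : HH 127 (nat_lit 25905348672, nat_lit 61) := top_sound R_25905348672
  ⟨V6_22667083776_ok, V6_22650568704_ok, V6_21610119168_ok, trivial⟩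
  ⟨W_25871519744_ok, W_25854746624_ok, W_25854742592_ok, W_24798040064_ok, W_24797777984_ok, W_24781262912_ok, W_24781004864_ok, W_23741075456_ok, W_23740813376_ok, W_23724302336_ok, W_23724298304_ok, W_23707267136_ok, W_22683852800_ok, trivial⟩ C_25905348672
theorem L_25905352704 : HH 127 (nat_lit 25905352704, nat_lit 20) := top_sound R_25905352704
  ⟨V6_24831590400_ok, V6_19462901760_ok, trivial⟩
  ⟨W_24814813184_ok, W_24798040064_ok, W_24781266944_ok, W_23724302336_ok, trivial⟩ C_25905352704
theorem L_25905602625 : HH 127 (nat_lit 25905602625, nat_lit 15) := top_sound R_25905602625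
  ⟨V6_24814035009_ok, V6_21610631232_ok, V6_21577080897_ok, trivial⟩
  ⟨W_25887772736_ok, W_25870999616_ok, W_24814293056_ok, W_24797777984_ok, W_24797519936_ok, W_23724040256_ok, W_21577080896_ok, trivial⟩ C_25905602625
theorem L_25905602688 : HH 127 (nat_lit 25905602688, nat_lit 55) := top_sound R_25905602688
  ⟨V6_25904553984_ok, V6_24831074304_ok, V6_23724564480_ok, trivial⟩
  ⟨W_23740293248_ok, W_22683852800_ok, W_20536893440_ok, W_20503339136_ok, W_19462889600_ok, W_19446374528_ok, trivial⟩ C_25905602688
theorem L_25905606720 : HH 127 (nat_lit 25905606720, nat_lit 81) := top_sound R_25905606720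
  ⟨V6_23724564480_ok, V6_22683856896_ok, V6_22667595840_ok, V6_22650826752_ok, trivial⟩
  ⟨W_25888034816_ok, W_25871519744_ok, W_25871261696_ok, W_24831070208_ok, W_24814293056_ok, W_24797777984_ok, W_23757332480_ok, W_21577080896_ok, W_20536893440_ok, W_19463155712_ok, trivial⟩ C_25905606720
theorem L_25905610752 : HH 127 (nat_lit 25905610752, nat_lit 88) := top_sound R_25905610752
  ⟨V6_25872039936_ok, V6_22683856896_ok, V6_21610119168_ok, V6_21577089024_ok, trivial⟩
  ⟨W_25888292864_ok, W_25871777792_ok, W_23757848576_ok, W_23741333504_ok, W_22667595776_ok, W_20536893440_ok, W_19463155712_ok, trivial⟩ C_25905610752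
theorem L_25905860673 : HH 127 (nat_lit 25905860673, nat_lit 6) := top_sound R_25905860673
  ⟨V6_20536889409_ok, V6_20520374337_ok, trivial⟩
  ⟨W_25887772736_ok, W_24814293056_ok, W_23740813376_ok, trivial⟩ C_25905860673
theorem L_25905864768 : HH 127 (nat_lit 25905864768, nat_lit 67) := top_sound R_25905864768
  ⟨V6_25904549952_ok, V6_21610893312_ok, V6_20537155584_ok, trivial⟩
  ⟨W_25888034816_ok, W_25887776768_ok, W_25887772736_ok, W_24830812160_ok, W_24814555136_ok, W_24814297088_ok, W_24814293056_ok, W_23757070400_ok, W_23741075456_ok, W_23740817408_ok, W_23740813376_ok, trivial⟩ C_25905864768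
theorem L_25905868800 : HH 127 (nat_lit 25905868800, nat_lit 74) := top_sound R_25905868800
  ⟨V6_21610893312_ok, V6_20537155584_ok, trivial⟩
  ⟨W_25888034816_ok, W_24814555136_ok, W_24814297088_ok, W_23757848576_ok, W_23757332480_ok, W_23741333504_ok, W_23740559360_ok, W_22684368896_ok, trivial⟩ C_25905868800
theorem L_25906122816 : HH 127 (nat_lit 25906122816, nat_lit 15) := top_sound R_25906122816
  ⟨V6_21610631232_ok, trivial⟩
  ⟨W_24831070208_ok, W_19463671808_ok, trivial⟩ C_25906122816
theorem L_25906126848 : HH 127 (nat_lit 25906126848, nat_lit 55) := top_sound R_25906126848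
  ⟨V6_21611151360_ok, V6_20537155584_ok, trivial⟩
  ⟨W_25904807936_ok, W_24831070208_ok, W_24830812160_ok, W_23757848576_ok, W_23757332480_ok, W_20537409536_ok, trivial⟩ C_25906126848
theorem L_25921593474 : HH 127 (nat_lit 25921593474, nat_lit 3) := top_sound R_25921593474
  ⟨V6_23723516034_ok, V6_20552622210_ok, trivial⟩
  ⟨W_21609848960_ok, trivial⟩ C_25921593474
theorem L_25921597569 : HH 127 (nat_lit 25921597569, nat_lit 4) := top_sound R_25921597569
  ⟨V6_22666817601_ok, V6_21593075841_ok, V6_20536111233_ok, trivial⟩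
  ⟨W_22683590720_ok, trivial⟩ C_25921597569
theorem L_25921597632 : HH 127 (nat_lit 25921597632, nat_lit 2) := top_sound R_25921597632
  ⟨V6_19479146688_ok, trivial⟩
  ⟨W_23740559360_ok, trivial⟩ C_25921597632
theorem L_25921855617 : HH 127 (nat_lit 25921855617, nat_lit 18) := top_sound R_25921855617
  ⟨V6_22700105793_ok, V6_22650298497_ok, V6_20553146433_ok, trivial⟩
  ⟨W_25870999616_ok, W_23757070400_ok, W_23740555328_ok, W_22700105792_ok, W_22683590720_ok, trivial⟩ C_25921855617
theorem L_25921859649 : HH 127 (nat_lit 25921859649, nat_lit 15) := top_sound R_25921859649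
  ⟨V6_22666817601_ok, V6_21626884161_ok, V6_20553146433_ok, trivial⟩
  ⟨W_25854742592_ok, W_25854484544_ok, W_25837969472_ok, W_24814293056_ok, W_24797519936_ok, W_24781004864_ok, W_23724040256_ok, W_23707267136_ok, W_22666817600_ok, trivial⟩ C_25921859649
theorem L_25921859712 : HH 127 (nat_lit 25921859712, nat_lit 45) := top_sound R_25921859712
  ⟨V6_22700371968_ok, V6_22683856896_ok, trivial⟩
  ⟨W_25871261696_ok, W_25854746624_ok, W_25837969472_ok, W_24797782016_ok, W_24781004864_ok, W_24764227712_ok, W_22683852800_ok, W_19479404672_ok, trivial⟩ C_25921859712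
theorem L_25921863744 : HH 127 (nat_lit 25921863744, nat_lit 52) := top_sound R_25921863744
  ⟨V6_21610119168_ok, V6_20553154560_ok, trivial⟩
  ⟨W_25871519744_ok, W_25854746624_ok, W_25854742592_ok, W_25837973504_ok, W_25837969472_ok, W_24797782016_ok, W_24781008896_ok, W_24781004864_ok, W_24764235776_ok, W_23757590528_ok, W_23740813376_ok, W_23690494016_ok, W_21626884160_ok, trivial⟩ C_25921863744
theorem L_25922117697 : HH 127 (nat_lit 25922117697, nat_lit 23) := top_sound R_25922117697
  ⟨V6_22700105793_ok, V6_21610369089_ok, V6_20553404481_ok, V6_20553146433_ok, trivial⟩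
  ⟨W_25887772736_ok, W_25870999616_ok, W_25854742592_ok, W_25854484544_ok, W_24814293056_ok, W_24797519936_ok, W_24781004864_ok, W_23757070400_ok, W_23724040256_ok, W_22667333696_ok, trivial⟩ C_25922117697
theorem L_25922117760 : HH 127 (nat_lit 25922117760, nat_lit 57) := top_sound R_25922117760
  ⟨V6_24847589376_ok, V6_24831074304_ok, V6_24798044160_ok, trivial⟩
  ⟨W_25854222464_ok, W_24830812160_ok, W_23773847552_ok, W_23740293248_ok, W_22683852800_ok, W_22683328640_ok, W_19479404672_ok, W_19462889600_ok, W_18405924992_ok, trivial⟩ C_25922117760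
theorem L_25922121792 : HH 127 (nat_lit 25922121792, nat_lit 93) := top_sound R_25922121792
  ⟨V6_24831070272_ok, V6_24781271040_ok, V6_23774105664_ok, V6_23740821504_ok, V6_22700371968_ok, V6_22683856896_ok, trivial⟩
  ⟨W_25888034816_ok, W_25871519744_ok, W_25871261696_ok, W_25854746624_ok, W_24831070208_ok, W_24814555136_ok, W_24814297088_ok, W_24814293056_ok, W_24798040064_ok, W_24797782016_ok, W_24781262912_ok, W_24781008896_ok, W_23741075456_ok, W_23724302336_ok, W_23707525184_ok, W_22700367872_ok, W_20553150464_ok, trivial⟩ C_25922121792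
theorem L_25922125824 : HH 127 (nat_lit 25922125824, nat_lit 78) := top_sound R_25922125824
  ⟨V6_22667083776_ok, V6_22650568704_ok, V6_21610119168_ok, V6_20553154560_ok, trivial⟩
  ⟨W_25871519744_ok, W_25854746624_ok, W_24814555136_ok, W_24798040064_ok, W_24781008896_ok, W_23774363648_ok, W_23757848576_ok, W_23757590528_ok, W_23741075456_ok, W_23724302336_ok, trivial⟩ C_25922125824
theorem L_25922375745 : HH 127 (nat_lit 25922375745, nat_lit 8) := top_sound R_25922375745
  ⟨V6_20536889409_ok, V6_19479924801_ok, trivial⟩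
  ⟨W_25887772736_ok, W_24814293056_ok, W_24797777984_ok, W_23740813376_ok, W_23724298304_ok, trivial⟩ C_25922375745
theorem L_25922379840 : HH 127 (nat_lit 25922379840, nat_lit 109) := top_sound R_25922379840
  ⟨V6_24847589376_ok, V6_24798302208_ok, V6_23724564480_ok, V6_22667595840_ok, V6_21627408384_ok, trivial⟩
  ⟨W_25904549888_ok, W_25887776768_ok, W_25871519744_ok, W_25870999616_ok, W_24831070208_ok, W_24830812160_ok, W_24814297088_ok, W_24814293056_ok, W_24797782016_ok, W_23773847552_ok, W_22667595776_ok, W_22650822656_ok, W_21577080896_ok, W_20536893440_ok, trivial⟩ C_25922379840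
theorem L_25922383872 : HH 127 (nat_lit 25922383872, nat_lit 127) := top_sound R_25922383872
  ⟨V6_23741337600_ok, V6_22683856896_ok, V6_22650826752_ok, V6_21627408384_ok, trivial⟩
  ⟨W_25871777792_ok, W_24847843328_ok, W_24831070208_ok, W_24814813184_ok, W_24798298112_ok, W_24797782016_ok, W_23757848576_ok, W_23741333504_ok, W_20553150464_ok, W_20536893440_ok, W_19463155712_ok, trivial⟩ C_25922383872
theorem L_25922637888 : HH 127 (nat_lit 25922637888, nat_lit 51) := top_sound R_25922637888
  ⟨V6_24847585344_ok, V6_22667857920_ok, V6_19480186944_ok, trivial⟩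
  ⟨W_25904549888_ok, W_24814555136_ok, W_23757590528_ok, W_19480186880_ok, trivial⟩ C_25922637888
theorem L_25922641920 : HH 127 (nat_lit 25922641920, nat_lit 112) := top_sound R_25922641920
  ⟨V6_21627408384_ok, V6_21594120192_ok, V6_20537155584_ok, trivial⟩
  ⟨W_25921323008_ok, W_24847843328_ok, W_24831070208_ok, W_24830812160_ok, W_24814813184_ok, W_24814297088_ok, W_23773847552_ok, W_23757848576_ok, W_23741333504_ok, W_22667853824_ok, W_22667595776_ok, W_21610889216_ok, W_21594116096_ok, trivial⟩ C_25922641920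
theorem L_25922899968 : HH 127 (nat_lit 25922899968, nat_lit 64) := top_sound R_25922899968
  ⟨V6_21627408384_ok, V6_20554186752_ok, trivial⟩
  ⟨W_25921323008_ok, W_25904549888_ok, W_24831070208_ok, W_23774363648_ok, W_23757848576_ok, W_20537409536_ok, trivial⟩ C_25922899968
theorem L_25923158016 : HH 127 (nat_lit 25923158016, nat_lit 14) := top_sound R_25923158016
  ⟨V6_20554186752_ok, V6_19480707072_ok, trivial⟩
  ⟨W_23774363648_ok, trivial⟩ C_25923158016
theorem L_25938108546 : HH 127 (nat_lit 25938108546, nat_lit 4) := top_sound R_25938108546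
  ⟨V6_24814035072_ok, trivial⟩
  ⟨W_25854222464_ok, W_20569399424_ok, trivial⟩ C_25938108546
theorem L_25938370689 : HH 127 (nat_lit 25938370689, nat_lit 11) := top_sound R_25938370689
  ⟨V6_22700105793_ok, V6_21643141185_ok, V6_20569661505_ok, trivial⟩
  ⟨W_25870999616_ok, W_25854484544_ok, W_23757070400_ok, W_21643141184_ok, trivial⟩ C_25938370689
theorem L_25938374721 : HH 127 (nat_lit 25938374721, nat_lit 7) := top_sound R_25938374721
  ⟨V6_21643399233_ok, V6_19495923777_ok, trivial⟩
  ⟨W_24814293056_ok, W_24797519936_ok, W_23740555328_ok, trivial⟩ C_25938374721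
theorem L_25938374784 : HH 127 (nat_lit 25938374784, nat_lit 15) := top_sound R_25938374784
  ⟨V6_22700371968_ok, trivial⟩
  ⟨W_25871261696_ok, W_25854484544_ok, W_24814297088_ok, W_24797519936_ok, W_19495919744_ok, trivial⟩ C_25938374784
theorem L_25938632769 : HH 127 (nat_lit 25938632769, nat_lit 19) := top_sound R_25938632769
  ⟨V6_21643141185_ok, V6_20569661505_ok, V6_20553146433_ok, trivial⟩
  ⟨W_25887772736_ok, W_25870999616_ok, W_25854742592_ok, W_25854484544_ok, W_25837969472_ok, W_24814293056_ok, W_24797777984_ok, W_24781004864_ok, W_23773843520_ok, W_23757070400_ok, W_23740813376_ok, trivial⟩ C_25938632769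
theorem L_25938632832 : HH 127 (nat_lit 25938632832, nat_lit 61) := top_sound R_25938632832
  ⟨V6_24847589376_ok, V6_24831074304_ok, V6_23790624768_ok, trivial⟩
  ⟨W_24764227712_ok, W_22683852800_ok, W_20569923584_ok, W_19495919744_ok, W_19479404672_ok, W_18422440064_ok, trivial⟩ C_25938632832
theorem L_25938636864 : HH 127 (nat_lit 25938636864, nat_lit 79) := top_sound R_25938636864
  ⟨V6_22700371968_ok, V6_21643407360_ok, V6_20569927680_ok, trivial⟩
  ⟨W_25888034816_ok, W_25871261696_ok, W_25854746624_ok, W_25854742592_ok, W_25837969472_ok, W_24831070208_ok, W_24814555136_ok, W_24814297088_ok, W_24814293056_ok, W_24797782016_ok, W_24797777984_ok, W_24781008896_ok, W_23740817408_ok, W_22683852800_ok, trivial⟩ C_25938636864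
theorem L_25938640896 : HH 127 (nat_lit 25938640896, nat_lit 68) := top_sound R_25938640896
  ⟨V6_22667083776_ok, V6_20553154560_ok, V6_19496189952_ok, trivial⟩
  ⟨W_25854746624_ok, W_24814555136_ok, W_24797782016_ok, W_24764235776_ok, W_23774363648_ok, W_23757590528_ok, W_22717399040_ok, trivial⟩ C_25938640896
theorem L_25938890817 : HH 127 (nat_lit 25938890817, nat_lit 9) := top_sound R_25938890817
  ⟨V6_21643399233_ok, V6_19496439873_ok, trivial⟩
  ⟨W_25887772736_ok, W_25854742592_ok, W_24814293056_ok, W_24797777984_ok, W_24781262912_ok, W_23740813376_ok, trivial⟩ C_25938890817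
theorem L_25938894912 : HH 127 (nat_lit 25938894912, nat_lit 117) := top_sound R_25938894912
  ⟨V6_25921327104_ok, V6_25904553984_ok, V6_24864362496_ok, V6_24847589376_ok, V6_24831070272_ok, V6_23790624768_ok, V6_23790620736_ok, V6_23774105664_ok, V6_22717141056_ok, trivial⟩
  ⟨W_24831070208_ok, W_24830812160_ok, W_24814297088_ok, W_24798040064_ok, W_24797782016_ok, W_24781266944_ok, W_24781262912_ok, W_23773847552_ok, W_23724302336_ok, W_23707525184_ok, W_22716882944_ok, W_22683852800_ok, W_20569923584_ok, trivial⟩ C_25938894912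
theorem L_25938898944 : HH 127 (nat_lit 25938898944, nat_lit 122) := top_sound R_25938898944
  ⟨V6_24831590400_ok, V6_22717661184_ok, V6_21643407360_ok, V6_20569927680_ok, trivial⟩
  ⟨W_25871777792_ok, W_25871519744_ok, W_24831070208_ok, W_24797782016_ok, W_24781266944_ok, W_23790878720_ok, W_23757848576_ok, W_20569923584_ok, W_20553150464_ok, W_19496185856_ok, trivial⟩ C_25938898944
theorem L_25939152960 : HH 127 (nat_lit 25939152960, nat_lit 62) := top_sound R_25939152960
  ⟨V6_22667595840_ok, V6_20570443776_ok, trivial⟩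
  ⟨W_25904549888_ok, W_25887772736_ok, W_25871519744_ok, W_24864100352_ok, W_24831070208_ok, W_24814555136_ok, W_24814293056_ok, W_24798040064_ok, W_24797777984_ok, W_23790620672_ok, W_23773843520_ok, W_23757328448_ok, W_23724560384_ok, W_23724298304_ok, trivial⟩ C_25939152960
theorem L_25939156992 : HH 127 (nat_lit 25939156992, nat_lit 171) := top_sound R_25939156992
  ⟨V6_23741337600_ok, V6_20570443776_ok, V6_19496706048_ok, trivial⟩
  ⟨W_25921323008_ok, W_25904549888_ok, W_25887776768_ok, W_25871777792_ok, W_25871519744_ok, W_24864358400_ok, W_24847843328_ok, W_24831070208_ok, W_24830812160_ok, W_24814813184_ok, W_24814297088_ok, W_24798298112_ok, W_24797782016_ok, W_23790878720_ok, W_23790620672_ok, W_23773847552_ok, W_23757332480_ok, W_23724302336_ok, W_22716882944_ok, W_22650822656_ok, trivial⟩ C_25939156992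
theorem L_25939415040 : HH 127 (nat_lit 25939415040, nat_lit 113) := top_sound R_25939415040
  ⟨V6_23741595648_ok, V6_21610893312_ok, V6_20570443776_ok, V6_19496964096_ok, trivial⟩
  ⟨W_25921323008_ok, W_25888292864_ok, W_25888034816_ok, W_24864358400_ok, W_24831070208_ok, W_24814555136_ok, W_23790878720_ok, W_23790620672_ok, W_23757848576_ok, W_23741333504_ok, W_21610889216_ok, trivial⟩ C_25939415040
theorem L_25939673088 : HH 127 (nat_lit 25939673088, nat_lit 59) := top_sound R_25939673088
  ⟨V6_22717661184_ok, V6_21611151360_ok, V6_20554186752_ok, trivial⟩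
  ⟨W_25921323008_ok, W_24864358400_ok, W_24847843328_ok, W_23790878720_ok, W_20537409536_ok, trivial⟩ C_25939673088
theorem L_25954885761 : HH 127 (nat_lit 25954885761, nat_lit 7) := top_sound R_25954885761
  ⟨V6_25854222465_ok, V6_24814035009_ok, V6_22700105793_ok, V6_21643141185_ok, trivial⟩
  ⟨W_25870999616_ok, W_20569399424_ok, W_19512434816_ok, trivial⟩ C_25954885761
theorem L_25955147841 : HH 127 (nat_lit 25955147841, nat_lit 13) := top_sound R_25955147841
  ⟨V6_22700105793_ok, V6_21643399233_ok, V6_21643141185_ok, V6_20569661505_ok, trivial⟩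
  ⟨W_25887772736_ok, W_25870999616_ok, W_25854484544_ok, W_24797519936_ok, W_19512696896_ok, trivial⟩ C_25955147841
theorem L_25955147904 : HH 127 (nat_lit 25955147904, nat_lit 34) := top_sound R_25955147904
  ⟨V6_24831074304_ok, V6_23790624768_ok, trivial⟩
  ⟨W_25854222464_ok, W_21659918336_ok, W_20586438656_ok, W_20569399424_ok, W_19512696896_ok, W_19495919744_ok, trivial⟩ C_25955147904
theorem L_25955151936 : HH 127 (nat_lit 25955151936, nat_lit 33) := top_sound R_25955151936
  ⟨V6_21660176448_ok, V6_21643407360_ok, trivial⟩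
  ⟨W_25888034816_ok, W_25871261696_ok, W_25854484544_ok, W_24814297088_ok, W_24814293056_ok, W_24797523968_ok, W_24797519936_ok, W_23757332480_ok, trivial⟩ C_25955151936
theorem L_25955405889 : HH 127 (nat_lit 25955405889, nat_lit 7) := top_sound R_25955405889
  ⟨V6_20569919553_ok, V6_19512954945_ok, trivial⟩
  ⟨W_25887772736_ok, W_25854742592_ok, W_24814293056_ok, W_23773843520_ok, W_22733393984_ok, trivial⟩ C_25955405889
theorem L_25955409984 : HH 127 (nat_lit 25955409984, nat_lit 103) := top_sound R_25955409984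
  ⟨V6_23790624768_ok, V6_21660176448_ok, V6_20586700800_ok, trivial⟩
  ⟨W_25904549888_ok, W_25888034816_ok, W_25871519744_ok, W_25870999616_ok, W_25854746624_ok, W_25854742592_ok, W_25837969472_ok, W_24831070208_ok, W_24797782016_ok, W_22733656064_ok, W_22683852800_ok, W_20586696704_ok, trivial⟩ C_25955409984
theorem L_25955414016 : HH 127 (nat_lit 25955414016, nat_lit 100) := top_sound R_25955414016
  ⟨V6_23740821504_ok, V6_20569927680_ok, V6_19512963072_ok, trivial⟩
  ⟨W_25888292864_ok, W_25888034816_ok, W_25871519744_ok, W_25871261696_ok, W_25854746624_ok, W_24831070208_ok, W_24781008896_ok, W_23790878720_ok, W_22733914112_ok, W_22700367872_ok, W_21660434432_ok, trivial⟩ C_25955414016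
theorem L_25955668032 : HH 127 (nat_lit 25955668032, nat_lit 66) := top_sound R_25955668032
  ⟨V6_24880877568_ok, V6_23790620736_ok, V6_22717141056_ok, V6_21660176448_ok, V6_20586696768_ok, trivial⟩
  ⟨W_25904549888_ok, W_25888034816_ok, W_25871519744_ok, W_25854742592_ok, W_24814555136_ok, W_24814293056_ok, W_24798040064_ok, W_24797777984_ok, W_24781262912_ok, W_23741075456_ok, W_22684110848_ok, trivial⟩ C_25955668032
theorem L_25955672064 : HH 127 (nat_lit 25955672064, nat_lit 155) := top_sound R_25955672064
  ⟨V6_24847589376_ok, V6_20586700800_ok, V6_19513221120_ok, trivial⟩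
  ⟨W_25904807936_ok, W_25904549888_ok, W_25888292864_ok, W_25871777792_ok, W_25871519744_ok, W_25871261696_ok, W_25854746624_ok, W_24864358400_ok, W_24847843328_ok, W_24831070208_ok, W_24830812160_ok, W_24814813184_ok, W_24814297088_ok, W_24798040064_ok, W_24797782016_ok, W_24781266944_ok, W_23807393792_ok, W_23773847552_ok, W_23757848576_ok, W_23724302336_ok, W_21659918336_ok, trivial⟩ C_25955672064
theorem L_25955930112 : HH 127 (nat_lit 25955930112, nat_lit 135) := top_sound R_25955930112
  ⟨V6_24880877568_ok, V6_21627408384_ok, V6_20570443776_ok, V6_19513479168_ok, trivial⟩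
  ⟨W_25921323008_ok, W_25904549888_ok, W_25888292864_ok, W_25888034816_ok, W_25871777792_ok, W_25871519744_ok, W_24864358400_ok, W_24831070208_ok, W_24814813184_ok, W_24814555136_ok, W_24798298112_ok, W_24798040064_ok, W_23807135744_ok, W_23757848576_ok, W_23741333504_ok, W_23724560384_ok, W_22667595776_ok, trivial⟩ C_25955930112
theorem L_25956188160 : HH 127 (nat_lit 25956188160, nat_lit 67) := top_sound R_25956188160
  ⟨V6_25938100224_ok, V6_24881135616_ok, V6_22717661184_ok, trivial⟩
  ⟨W_25888292864_ok, W_24814813184_ok, W_23757848576_ok, W_23741333504_ok, W_21627404288_ok, W_21610889216_ok, trivial⟩ C_25956188160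
theorem L_25971662913 : HH 127 (nat_lit 25971662913, nat_lit 5) := top_sound R_25971662913
  ⟨V6_22700105793_ok, V6_21643141185_ok, trivial⟩
  ⟨W_25887772736_ok, W_24830808128_ok, W_21659914304_ok, trivial⟩ C_25971662913
theorem L_25971662976 : HH 127 (nat_lit 25971662976, nat_lit 22) := top_sound R_25971662976
  ⟨V6_24814035072_ok, V6_21676695552_ok, trivial⟩
  ⟨W_25887776768_ok, W_25870999616_ok, W_24830812160_ok, W_23757070400_ok, W_23740293248_ok, trivial⟩ C_25971662976
theorem L_25971920961 : HH 127 (nat_lit 25971920961, nat_lit 5) := top_sound R_25971920961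
  ⟨V6_20603211840_ok, trivial⟩
  ⟨W_25887772736_ok, W_24830808128_ok, W_23773843520_ok, W_22733393984_ok, trivial⟩ C_25971920961
theorem L_25971925056 : HH 127 (nat_lit 25971925056, nat_lit 61) := top_sound R_25971925056
  ⟨V6_22717141056_ok, V6_21676695552_ok, V6_21660176448_ok, V6_20603211840_ok, trivial⟩
  ⟨W_25904549888_ok, W_25888034816_ok, W_25887776768_ok, W_25871261696_ok, W_25870999616_ok, W_25854484544_ok, W_24830812160_ok, W_24814297088_ok, W_24797519936_ok, W_23773847552_ok, W_23757332480_ok, W_23757070400_ok, trivial⟩ C_25971925056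
theorem L_25971929088 : HH 127 (nat_lit 25971929088, nat_lit 39) := top_sound R_25971929088
  ⟨V6_24831074304_ok, V6_21643407360_ok, trivial⟩
  ⟨W_21676949504_ok, W_20603211776_ok, W_20569665536_ok, W_19529474048_ok, trivial⟩ C_25971929088
theorem L_25972183104 : HH 127 (nat_lit 25972183104, nat_lit 51) := top_sound R_25972183104
  ⟨V6_20603473920_ok, V6_20586696768_ok, trivial⟩
  ⟨W_25904549888_ok, W_25888034816_ok, W_25887772736_ok, W_25871519744_ok, W_24847585280_ok, W_24831070208_ok, W_24814555136_ok, W_24814293056_ok, W_24797777984_ok, W_23757328448_ok, W_23740813376_ok, trivial⟩ C_25972183104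
theorem L_25972187136 : HH 127 (nat_lit 25972187136, nat_lit 140) := top_sound R_25972187136
  ⟨V6_24847589376_ok, V6_20603473920_ok, V6_20586700800_ok, trivial⟩
  ⟨W_25887776768_ok, W_25871519744_ok, W_25871261696_ok, W_25854746624_ok, W_24864358400_ok, W_24847843328_ok, W_24831070208_ok, W_24814297088_ok, W_24797782016_ok, W_23790878720_ok, W_22750429184_ok, W_21676949504_ok, W_21660434432_ok, trivial⟩ C_25972187136
theorem L_25972445184 : HH 127 (nat_lit 25972445184, nat_lit 123) := top_sound R_25972445184
  ⟨V6_24897650688_ok, V6_24831590400_ok, V6_23823912960_ok, V6_22717661184_ok, V6_20603473920_ok, trivial⟩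
  ⟨W_25904549888_ok, W_25871777792_ok, W_25871519744_ok, W_24864358400_ok, W_24831070208_ok, W_24798040064_ok, W_23790878720_ok, W_23757848576_ok, W_20586696704_ok, W_19529732096_ok, trivial⟩ C_25972445184
theorem L_25972703232 : HH 127 (nat_lit 25972703232, nat_lit 90) := top_sound R_25972703232
  ⟨V6_25971130368_ok, V6_25954615296_ok, V6_25872039936_ok, V6_24897650688_ok, V6_24831590400_ok, V6_22717661184_ok, trivial⟩
  ⟨W_25888292864_ok, W_24864358400_ok, W_24798298112_ok, W_23790878720_ok, W_23757848576_ok, W_23741333504_ok, W_18456510464_ok, trivial⟩ C_25972703232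
theorem L_25988436033 : HH 127 (nat_lit 25988436033, nat_lit 2) := top_sound R_25988436033
  ⟨V6_23807135808_ok, V6_19545985089_ok, trivial⟩
  ⟨W_25887772736_ok, W_24830808128_ok, trivial⟩ C_25988436033
theorem L_25988440128 : HH 127 (nat_lit 25988440128, nat_lit 30) := top_sound R_25988440128
  ⟨V6_21693468672_ok, V6_21676695552_ok, trivial⟩
  ⟨W_25904549888_ok, W_25887776768_ok, W_25887772736_ok, W_25870999616_ok, W_24830812160_ok, W_24814035008_ok, W_23757070400_ok, W_18472247360_ok, trivial⟩ C_25988440128
theorem L_25988698176 : HH 127 (nat_lit 25988698176, nat_lit 33) := top_sound R_25988698176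
  ⟨V6_24831070272_ok, V6_22766948352_ok, V6_20603211840_ok, V6_19546247232_ok, trivial⟩
  ⟨W_25888034816_ok, W_25887772736_ok, W_24847585280_ok, W_24831070208_ok, W_23790620672_ok, trivial⟩ C_25988698176
theorem L_25988702208 : HH 127 (nat_lit 25988702208, nat_lit 79) := top_sound R_25988702208
  ⟨V6_24831074304_ok, V6_21693726720_ok, V6_21693468672_ok, V6_21676695552_ok, trivial⟩
  ⟨W_25921323008_ok, W_25887776768_ok, W_24864358400_ok, W_24847843328_ok, W_23790878720_ok, W_19529474048_ok, W_18472509440_ok, trivial⟩ C_25988702208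
theorem L_25988960256 : HH 127 (nat_lit 25988960256, nat_lit 105) := top_sound R_25988960256
  ⟨V6_21693726720_ok, V6_21693468672_ok, V6_20620247040_ok, V6_20603473920_ok, trivial⟩
  ⟨W_25921323008_ok, W_25921064960_ok, W_25904807936_ok, W_25904549888_ok, W_25888292864_ok, W_25888034816_ok, W_25871519744_ok, W_24864358400_ok, W_24831328256_ok, W_24831070208_ok, W_24814555136_ok, W_23790878720_ok, trivial⟩ C_25988960256
theorem L_25989218304 : HH 127 (nat_lit 25989218304, nat_lit 73) := top_sound R_25989218304
  ⟨V6_25971130368_ok, V6_24914165760_ok, V6_22717661184_ok, V6_20620247040_ok, trivial⟩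
  ⟨W_25888292864_ok, W_25871777792_ok, W_24864358400_ok, W_24847843328_ok, W_24814813184_ok, W_23757848576_ok, W_20619984896_ok, trivial⟩ C_25989218304
theorem L_26005213248 : HH 127 (nat_lit 26005213248, nat_lit 15) := top_sound R_26005213248
  ⟨V6_21693468672_ok, trivial⟩
  ⟨W_25921064960_ok, W_25904549888_ok, W_25887772736_ok, W_24847585280_ok, W_24830808128_ok, trivial⟩ C_26005213248
theorem L_26005217280 : HH 127 (nat_lit 26005217280, nat_lit 44) := top_sound R_26005217280
  ⟨V6_24847589376_ok, V6_23790624768_ok, V6_21676695552_ok, trivial⟩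
  ⟨W_23807393792_ok, W_21693464576_ok, W_20636499968_ok, W_19562762240_ok, W_18489024512_ok, trivial⟩ C_26005217280
theorem L_26005475328 : HH 127 (nat_lit 26005475328, nat_lit 64) := top_sound R_26005475328
  ⟨V6_24864362496_ok, V6_22783721472_ok, V6_21693726720_ok, V6_21693468672_ok, trivial⟩
  ⟨W_25921323008_ok, W_25921064960_ok, W_24847843328_ok, W_23790878720_ok, W_19563020288_ok, W_18489282560_ok, trivial⟩ C_26005475328
theorem L_26005733376 : HH 127 (nat_lit 26005733376, nat_lit 67) := top_sound R_26005733376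
  ⟨V6_25971130368_ok, V6_23857201152_ok, V6_22783721472_ok, V6_21693726720_ok, V6_20620247040_ok, trivial⟩
  ⟨W_25921323008_ok, W_25888292864_ok, W_24864358400_ok, W_24847843328_ok, W_23790878720_ok, W_21709979648_ok, trivial⟩ C_26005733376

theorem H_34 : AllH 127 tb34 :=
  ⟨L_25888305345, L_25888309377, L_25888309440, L_25888563330, L_25888567425, L_25888567488, L_25888571457, L_25888571520, L_25888575552, L_25888825473, L_25888829505, L_25888829568, L_25888833600, L_25888837632, L_25889087553, L_25889087616, L_25889091648, L_25889095680, L_25905078402, L_25905082497, L_25905082560, L_25905086529, L_25905086592, L_25905340545, L_25905344577, L_25905344640, L_25905348672, L_25905352704, L_25905602625, L_25905602688, L_25905606720, L_25905610752, L_25905860673, L_25905864768, L_25905868800, L_25906122816, L_25906126848, L_25921593474, L_25921597569, L_25921597632, L_25921855617, L_25921859649, L_25921859712, L_25921863744, L_25922117697, L_25922117760, L_25922121792, L_25922125824, L_25922375745, L_25922379840, L_25922383872,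 L_25922637888, L_25922641920, L_25922899968, L_25923158016, L_25938108546, L_25938370689, L_25938374721, L_25938374784, L_25938632769, L_25938632832, L_25938636864, L_25938640896, L_25938890817, L_25938894912, L_25938898944, L_25939152960, L_25939156992, L_25939415040, L_25939673088, L_25954885761, L_25955147841, L_25955147904, L_25955151936, L_25955405889, L_25955409984, L_25955414016, L_25955668032, L_25955672064, L_25955930112, L_25956188160, L_25971662913, L_25971662976, L_25971920961, L_25971925056, L_25971929088, L_25972183104, L_25972187136, L_25972445184, L_25972703232, L_25988436033, L_25988440128, L_25988698176, L_25988702208, L_25988960256, L_25989218304, L_26005213248, L_26005217280, L_26005475328, L_26005733376, trivial⟩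

theorem L_26021728320 : HH 127 (nat_lit 26021728320, nat_lit 3) := top_sound R_26021728320
  ⟨V6_21709983744_ok, trivial⟩
  ⟨W_25921064960_ok, W_22733393984_ok, trivial⟩ C_26021728320
theorem L_26021990400 : HH 127 (nat_lit 26021990400, nat_lit 36) := top_sound R_26021990400
  ⟨V6_24864362496_ok, V6_21726756864_ok, V6_21693468672_ok, trivial⟩
  ⟨W_25921064960_ok, W_24880873472_ok, W_22766944256_ok, W_20653015040_ok, W_20636499968_ok, W_19579535360_ok, trivial⟩ C_26021990400
theorem L_26022248448 : HH 127 (nat_lit 26022248448, nat_lit 43) := top_sound R_26022248448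
  ⟨V6_25921585152_ok, V6_22800236544_ok, V6_21693726720_ok, trivial⟩
  ⟨W_21709979648_ok, W_21676949504_ok, W_20653015040_ok, W_19579535360_ok, W_19563020288_ok, trivial⟩ C_26022248448
theorem L_26038505472 : HH 127 (nat_lit 26038505472, nat_lit 8) := top_sound R_26038505472
  ⟨V6_21726756864_ok, V6_21709983744_ok, trivial⟩
  ⟨W_25937838080_ok, W_24864100352_ok, trivial⟩ C_26038505472
theorem L_26038763520 : HH 127 (nat_lit 26038763520, nat_lit 30) := top_sound R_26038763520
  ⟨V6_25938100224_ok, V6_22800236544_ok, V6_19596312576_ok, trivial⟩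
  ⟨W_21726494720_ok, W_21709979648_ok, W_20636499968_ok, W_19579535360_ok, W_18522570752_ok, trivial⟩ C_26038763520
theorem L_26055278592 : HH 127 (nat_lit 26055278592, nat_lit 11) := top_sound R_26055278592
  ⟨V6_22800236544_ok, V6_21726756864_ok, V6_19612827648_ok, trivial⟩
  ⟨W_25954353152_ok, W_25937838080_ok, W_20669530112_ok, W_19612565504_ok, trivial⟩ C_26055278592
theorem L_26071793664 : HH 127 (nat_lit 26071793664, nat_lit 7) := top_sound R_26071793664
  ⟨V6_23857201152_ok, V6_19629342720_ok, trivial⟩
  ⟨W_23840423936_ok, W_21726494720_ok, trivial⟩ C_26071793664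
theorem L_26911719681 : HH 127 (nat_lit 26911719681, nat_lit 1) := top_sound R_26911719681
  ⟨V6_20469268737_ok, trivial⟩
  ⟨W_23690494016_ok, trivial⟩ C_26911719681
theorem L_26928496770 : HH 127 (nat_lit 26928496770, nat_lit 1) := top_sound R_26928496770
  ⟨V6_23690485890_ok, trivial⟩
  ⟨W_22616752256_ok, trivial⟩ C_26928496770
theorem L_26928496833 : HH 127 (nat_lit 26928496833, nat_lit 1) := top_sound R_26928496833
  ⟨V6_22633525377_ok, trivial⟩
  ⟨W_23690494016_ok, trivial⟩ C_26928496833
theorem L_26928496896 : HH 127 (nat_lit 26928496896, nat_lit 2) := top_sound R_26928496896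
  ⟨V6_23690494080_ok, trivial⟩
  ⟨W_24764235776_ok, trivial⟩ C_26928496896
theorem L_26928758913 : HH 127 (nat_lit 26928758913, nat_lit 1) := top_sound R_26928758913
  ⟨V6_21559787649_ok, trivial⟩
  ⟨W_23707525184_ok, trivial⟩ C_26928758913
theorem L_26928758976 : HH 127 (nat_lit 26928758976, nat_lit 1) := top_sound R_26928758976
  ⟨V6_21560049792_ok, trivial⟩
  ⟨W_24781008896_ok, trivial⟩ C_26928758976
theorem L_26928762945 : HH 127 (nat_lit 26928762945, nat_lit 1) := top_sound R_26928762945
  ⟨V6_24781262913_ok, trivial⟩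
  ⟨W_24781262912_ok, trivial⟩ C_26928762945
theorem L_26945269890 : HH 127 (nat_lit 26945269890, nat_lit 1) := top_sound R_26945269890
  ⟨V6_20502818946_ok, trivial⟩
  ⟨W_24764227712_ok, trivial⟩ C_26945269890
theorem L_26945273985 : HH 127 (nat_lit 26945273985, nat_lit 5) := top_sound R_26945273985
  ⟨V6_22650298497_ok, trivial⟩
  ⟨W_25837969472_ok, W_23690494016_ok, W_21576564800_ok, trivial⟩ C_26945273985
theorem L_26945274048 : HH 127 (nat_lit 26945274048, nat_lit 6) := top_sound R_26945274048
  ⟨V6_20502823104_ok, trivial⟩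
  ⟨W_24781008896_ok, W_23724044288_ok, trivial⟩ C_26945274048
theorem L_26945527938 : HH 127 (nat_lit 26945527938, nat_lit 2) := top_sound R_26945527938
  ⟨V6_23723516034_ok, trivial⟩
  ⟨W_21576818816_ok, trivial⟩ C_26945527938
theorem L_26945532033 : HH 127 (nat_lit 26945532033, nat_lit 5) := top_sound R_26945532033
  ⟨V6_22633525377_ok, V6_21576818817_ok, trivial⟩
  ⟨W_24797519936_ok, W_24781004864_ok, W_23707267136_ok, trivial⟩ C_26945532033
theorem L_26945532096 : HH 127 (nat_lit 26945532096, nat_lit 2) := top_sound R_26945532096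
  ⟨V6_24781271040_ok, trivial⟩
  ⟨W_24797523968_ok, W_23707267136_ok, trivial⟩ C_26945532096
theorem L_26945536065 : HH 127 (nat_lit 26945536065, nat_lit 4) := top_sound R_26945536065
  ⟨V6_20503085121_ok, trivial⟩
  ⟨W_25854742592_ok, W_24781262912_ok, W_24781004864_ok, trivial⟩ C_26945536065
theorem L_26945536128 : HH 127 (nat_lit 26945536128, nat_lit 13) := top_sound R_26945536128
  ⟨V6_22650568704_ok, V6_21560049792_ok, trivial⟩
  ⟨W_24797782016_ok, W_23707525184_ok, W_23707267136_ok, W_23707263104_ok, W_22650298496_ok, trivial⟩ C_26945536128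
theorem L_26945540160 : HH 127 (nat_lit 26945540160, nat_lit 4) := top_sound R_26945540160
  ⟨V6_20503089216_ok, trivial⟩
  ⟨W_24798040064_ok, W_24781262912_ok, trivial⟩ C_26945540160
theorem L_26945790081 : HH 127 (nat_lit 26945790081, nat_lit 5) := top_sound R_26945790081
  ⟨V6_21577080897_ok, V6_21576818817_ok, trivial⟩
  ⟨W_25870999616_ok, W_21577080896_ok, trivial⟩ C_26945790081
theorem L_26945794113 : HH 127 (nat_lit 26945794113, nat_lit 2) := top_sound R_26945794113
  ⟨V6_20503343169_ok, trivial⟩
  ⟨W_24797519936_ok, trivial⟩ C_26945794113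
theorem L_26945794176 : HH 127 (nat_lit 26945794176, nat_lit 14) := top_sound R_26945794176
  ⟨V6_22650826752_ok, trivial⟩
  ⟨W_24797782016_ok, W_24797519936_ok, W_23724044288_ok, trivial⟩ C_26945794176
theorem L_26945798208 : HH 127 (nat_lit 26945798208, nat_lit 17) := top_sound R_26945798208
  ⟨V6_24798302208_ok, V6_21577089024_ok, trivial⟩
  ⟨W_25871519744_ok, W_24797782016_ok, W_21576564800_ok, trivial⟩ C_26945798208
theorem L_26945802240 : HH 127 (nat_lit 26945802240, nat_lit 11) := top_sound R_26945802240
  ⟨V6_20503351296_ok, trivial⟩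
  ⟨W_25871777792_ok, W_23724302336_ok, trivial⟩ C_26945802240
theorem L_26962043010 : HH 127 (nat_lit 26962043010, nat_lit 4) := top_sound R_26962043010
  ⟨V6_23690485890_ok, V6_21576556674_ok, trivial⟩
  ⟨W_26911187072_ok, W_24764227712_ok, W_23740293248_ok, trivial⟩ C_26962043010
theorem L_26962047105 : HH 127 (nat_lit 26962047105, nat_lit 6) := top_sound R_26962047105
  ⟨V6_22666817601_ok, V6_22633525377_ok, V6_21593075841_ok, V6_21576560769_ok, trivial⟩
  ⟨W_25837969472_ok, W_24764227712_ok, W_23724040256_ok, trivial⟩ C_26962047105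
theorem L_26962047168 : HH 127 (nat_lit 26962047168, nat_lit 4) := top_sound R_26962047168
  ⟨V6_26911715328_ok, V6_24764231808_ok, trivial⟩
  ⟨W_21593337920_ok, trivial⟩ C_26962047168
theorem L_26962051137 : HH 127 (nat_lit 26962051137, nat_lit 6) := top_sound R_26962051137
  ⟨V6_24764235840_ok, V6_23740813377_ok, V6_22633529409_ok, V6_21576564801_ok, trivial⟩
  ⟨W_23740813376_ok, W_23724040256_ok, trivial⟩ C_26962051137
theorem L_26962051200 : HH 127 (nat_lit 26962051200, nat_lit 21) := top_sound R_26962051200
  ⟨V6_23690494080_ok, V6_22667083776_ok, trivial⟩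
  ⟨W_26911711232_ok, W_24797782016_ok, W_24764235776_ok, W_23724040256_ok, W_22650298496_ok, trivial⟩ C_26962051200
theorem L_26962305153 : HH 127 (nat_lit 26962305153, nat_lit 9) := top_sound R_26962305153
  ⟨V6_22650298497_ok, V6_21576818817_ok, trivial⟩
  ⟨W_26927964224_ok, W_25870999616_ok, W_21593595968_ok, trivial⟩ C_26962305153
theorem L_26962309185 : HH 127 (nat_lit 26962309185, nat_lit 9) := top_sound R_26962309185
  ⟨V6_26928484416_ok, V6_25855004736_ok, V6_24781262913_ok, V6_23740813377_ok, V6_22667333697_ok, V6_22666817601_ok, trivial⟩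
  ⟨W_24814293056_ok, W_21593337920_ok, W_20519858240_ok, trivial⟩ C_26962309185
theorem L_26962309248 : HH 127 (nat_lit 26962309248, nat_lit 24) := top_sound R_26962309248
  ⟨V6_24781271040_ok, V6_23740821504_ok, trivial⟩
  ⟨W_25871261696_ok, W_25854484544_ok, W_24797782016_ok, W_24797523968_ok, W_24781008896_ok, W_24781004864_ok, W_23723778176_ok, W_23707525184_ok, W_23707267136_ok, W_23707263104_ok, W_22666813568_ok, trivial⟩ C_26962309248
theorem L_26962313280 : HH 127 (nat_lit 26962313280, nat_lit 32) := top_sound R_26962313280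
  ⟨V6_23724048384_ok, V6_22667083776_ok, trivial⟩
  ⟨W_26928484352_ok, W_25871519744_ok, W_25854742592_ok, W_24814555136_ok, W_24798040064_ok, W_23741075456_ok, W_23740813376_ok, W_22667333696_ok, trivial⟩ C_26962313280
theorem L_26962317312 : HH 127 (nat_lit 26962317312, nat_lit 9) := top_sound R_26962317312
  ⟨V6_20519866368_ok, trivial⟩
  ⟨W_25871777792_ok, W_24798040064_ok, W_19446124544_ok, trivial⟩ C_26962317312
theorem L_26962567233 : HH 127 (nat_lit 26962567233, nat_lit 8) := top_sound R_26962567233
  ⟨V6_22667595840_ok, trivial⟩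
  ⟨W_25870999616_ok, W_24797519936_ok, W_23724040256_ok, trivial⟩ C_26962567233
theorem L_26962567296 : HH 127 (nat_lit 26962567296, nat_lit 26) := top_sound R_26962567296
  ⟨V6_23724564480_ok, V6_21577080960_ok, trivial⟩
  ⟨W_25887776768_ok, W_25870999616_ok, W_24814297088_ok, W_23740817408_ok, W_23740293248_ok, trivial⟩ C_26962567296
theorem L_26962571328 : HH 127 (nat_lit 26962571328, nat_lit 40) := top_sound R_26962571328
  ⟨V6_22667595840_ok, V6_21593862144_ok, trivial⟩
  ⟨W_25888034816_ok, W_25871261696_ok, W_24814297088_ok, W_24814293056_ok, W_24797782016_ok, W_24797777984_ok, W_24797523968_ok, W_24797519936_ok, W_23724302336_ok, trivial⟩ C_26962571328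
theorem L_26962575360 : HH 127 (nat_lit 26962575360, nat_lit 42) := top_sound R_26962575360
  ⟨V6_25872039936_ok, V6_22667083776_ok, V6_21577089024_ok, trivial⟩
  ⟨W_25888292864_ok, W_23741333504_ok, W_23740817408_ok, W_22667595776_ok, trivial⟩ C_26962575360
theorem L_26962825281 : HH 127 (nat_lit 26962825281, nat_lit 3) := top_sound R_26962825281
  ⟨V6_20520374337_ok, trivial⟩
  ⟨W_25887772736_ok, W_24814293056_ok, trivial⟩ C_26962825281
theorem L_26962829376 : HH 127 (nat_lit 26962829376, nat_lit 24) := top_sound R_26962829376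
  ⟨V6_22667857920_ok, V6_22667595840_ok, trivial⟩
  ⟨W_25887776768_ok, W_24814555136_ok, W_24814297088_ok, W_24814293056_ok, W_24814035008_ok, trivial⟩ C_26962829376
theorem L_26962833408 : HH 127 (nat_lit 26962833408, nat_lit 26) := top_sound R_26962833408
  ⟨V6_22667857920_ok, V6_20520382464_ok, trivial⟩
  ⟨W_25888292864_ok, W_25888034816_ok, W_24814297088_ok, W_23741333504_ok, W_23740559360_ok, trivial⟩ C_26962833408
theorem L_26978558082 : HH 127 (nat_lit 26978558082, nat_lit 3) := top_sound R_26978558082
  ⟨V6_23723516034_ok, V6_22666551426_ok, trivial⟩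
  ⟨W_26911187072_ok, W_23740293248_ok, trivial⟩ C_26978558082
theorem L_26978562177 : HH 127 (nat_lit 26978562177, nat_lit 2) := top_sound R_26978562177
  ⟨V6_20536111233_ok, trivial⟩
  ⟨W_24797519936_ok, trivial⟩ C_26978562177
theorem L_26978820225 : HH 127 (nat_lit 26978820225, nat_lit 13) := top_sound R_26978820225
  ⟨V6_24814035072_ok, V6_23723778177_ok, V6_22650298497_ok, trivial⟩
  ⟨W_25837969472_ok, W_24781004864_ok, W_23757070400_ok, W_22667075648_ok, trivial⟩ C_26978820225
theorem L_26978824257 : HH 127 (nat_lit 26978824257, nat_lit 9) := top_sound R_26978824257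
  ⟨V6_24831070272_ok, V6_23757328449_ok, V6_23740813377_ok, V6_22666817601_ok, trivial⟩
  ⟨W_23724040256_ok, W_20536373312_ok, trivial⟩ C_26978824257
theorem L_26978824320 : HH 127 (nat_lit 26978824320, nat_lit 30) := top_sound R_26978824320
  ⟨V6_24764231808_ok, V6_22683856896_ok, trivial⟩
  ⟨W_26911711232_ok, W_25871261696_ok, W_25837969472_ok, W_24814297088_ok, W_23757332480_ok, W_22683590720_ok, trivial⟩ C_26978824320
theorem L_26978828352 : HH 127 (nat_lit 26978828352, nat_lit 36) := top_sound R_26978828352
  ⟨V6_22667083776_ok, V6_21610119168_ok, trivial⟩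
  ⟨W_26911711232_ok, W_25871519744_ok, W_25854742592_ok, W_25837969472_ok, W_24814555136_ok, W_23757590528_ok, W_22683848768_ok, trivial⟩ C_26978828352
theorem L_26979082305 : HH 127 (nat_lit 26979082305, nat_lit 14) := top_sound R_26979082305
  ⟨V6_24831070272_ok, V6_24781262913_ok, V6_23757328449_ok, V6_22667333697_ok, V6_21610369089_ok, trivial⟩
  ⟨W_26928222272_ok, W_25887772736_ok, W_25870999616_ok, W_25854742592_ok, W_24781262912_ok, W_23757070400_ok, W_23724040256_ok, trivial⟩ C_26979082305
theorem L_26979082368 : HH 127 (nat_lit 26979082368, nat_lit 41) := top_sound R_26979082368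
  ⟨V6_25904553984_ok, V6_24831074304_ok, V6_24814035072_ok, trivial⟩
  ⟨W_24797782016_ok, W_23724302336_ok, W_22683852800_ok, W_19462889600_ok, trivial⟩ C_26979082368
theorem L_26979086400 : HH 127 (nat_lit 26979086400, nat_lit 58) := top_sound R_26979086400
  ⟨V6_23740821504_ok, V6_22683856896_ok, trivial⟩
  ⟨W_26928222272_ok, W_25888034816_ok, W_25871261696_ok, W_24831070208_ok, W_24814293056_ok, W_24798040064_ok, W_24781262912_ok, W_23741075456_ok, W_22683852800_ok, trivial⟩ C_26979086400
theorem L_26979090432 : HH 127 (nat_lit 26979090432, nat_lit 53) := top_sound R_26979090432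
  ⟨V6_24831590400_ok, V6_21610119168_ok, trivial⟩
  ⟨W_26928484352_ok, W_25888292864_ok, W_25871519744_ok, W_25854746624_ok, W_24797782016_ok, W_24781008896_ok, W_22683852800_ok, trivial⟩ C_26979090432
theorem L_26979340353 : HH 127 (nat_lit 26979340353, nat_lit 3) := top_sound R_26979340353
  ⟨V6_20536889409_ok, trivial⟩
  ⟨W_25887772736_ok, W_24797777984_ok, W_23724298304_ok, trivial⟩ C_26979340353
theorem L_26979344448 : HH 127 (nat_lit 26979344448, nat_lit 69) := top_sound R_26979344448
  ⟨V6_25904553984_ok, V6_23741337600_ok, V6_23724564480_ok, V6_22667595840_ok, trivial⟩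
  ⟨W_24831070208_ok, W_24830812160_ok, W_24797782016_ok, W_22683852800_ok, W_20536893440_ok, trivial⟩ C_26979344448
theorem L_26979348480 : HH 127 (nat_lit 26979348480, nat_lit 82) := top_sound R_26979348480
  ⟨V6_24798302208_ok, V6_23724564480_ok, V6_22683856896_ok, V6_22650826752_ok, trivial⟩
  ⟨W_25888292864_ok, W_25888034816_ok, W_25871261696_ok, W_24831070208_ok, W_23757848576_ok, W_20536893440_ok, W_19463155712_ok, trivial⟩ C_26979348480
theorem L_26979602496 : HH 127 (nat_lit 26979602496, nat_lit 27) := top_sound R_26979602496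
  ⟨V6_22667857920_ok, V6_21610893312_ok, trivial⟩
  ⟨W_25904549888_ok, W_25888034816_ok, W_25887772736_ok, W_24814555136_ok, W_24814293056_ok, trivial⟩ C_26979602496
theorem L_26979606528 : HH 127 (nat_lit 26979606528, nat_lit 69) := top_sound R_26979606528
  ⟨V6_23741595648_ok, V6_22667857920_ok, V6_21610893312_ok, V6_20537155584_ok, trivial⟩
  ⟨W_25904549888_ok, W_25888292864_ok, W_25888034816_ok, W_25887776768_ok, W_24831328256_ok, W_24830812160_ok, W_24814297088_ok, W_23741333504_ok, trivial⟩ C_26979606528
theorem L_26979864576 : HH 127 (nat_lit 26979864576, nat_lit 31) := top_sound R_26979864576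
  ⟨V6_24831590400_ok, V6_21610893312_ok, trivial⟩
  ⟨W_25904549888_ok, W_24831328256_ok, W_24831070208_ok, trivial⟩ C_26979864576
theorem L_26995073154 : HH 127 (nat_lit 26995073154, nat_lit 2) := top_sound R_26995073154
  ⟨V6_22666551426_ok, V6_20552622210_ok, trivial⟩
  ⟨W_26911187072_ok, W_25854222464_ok, trivial⟩ C_26995073154
theorem L_26995335297 : HH 127 (nat_lit 26995335297, nat_lit 9) := top_sound R_26995335297
  ⟨V6_24814035072_ok, V6_22700105793_ok, trivial⟩
  ⟨W_25870999616_ok, W_23757070400_ok, W_23740555328_ok, trivial⟩ C_26995335297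
theorem L_26995339329 : HH 127 (nat_lit 26995339329, nat_lit 4) := top_sound R_26995339329
  ⟨V6_23774105664_ok, trivial⟩
  ⟨W_26928222272_ok, W_25854484544_ok, W_24814293056_ok, trivial⟩ C_26995339329
theorem L_26995339392 : HH 127 (nat_lit 26995339392, nat_lit 11) := top_sound R_26995339392
  ⟨V6_22700371968_ok, trivial⟩
  ⟨W_26928226304_ok, W_25871261696_ok, W_25854484544_ok, W_24797523968_ok, W_24797519936_ok, W_23723778176_ok, trivial⟩ C_26995339392
theorem L_26995597377 : HH 127 (nat_lit 26995597377, nat_lit 14) := top_sound R_26995597377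
  ⟨V6_22700105793_ok, V6_21626884161_ok, V6_20553146433_ok, trivial⟩
  ⟨W_26928222272_ok, W_25887772736_ok, W_25870999616_ok, W_25854484544_ok, W_25837969472_ok, W_24814293056_ok, W_24797519936_ok, W_23757070400_ok, trivial⟩ C_26995597377
theorem L_26995597440 : HH 127 (nat_lit 26995597440, nat_lit 44) := top_sound R_26995597440
  ⟨V6_24847589376_ok, V6_24831074304_ok, V6_24814035072_ok, trivial⟩
  ⟨W_26911711232_ok, W_24797782016_ok, W_23773847552_ok, W_22683852800_ok, W_19479404672_ok, trivial⟩ C_26995597440
theorem L_26995601472 : HH 127 (nat_lit 26995601472, nat_lit 58) := top_sound R_26995601472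
  ⟨V6_23774105664_ok, V6_22700371968_ok, V6_22683856896_ok, trivial⟩
  ⟨W_26928484352_ok, W_26911711232_ok, W_25871519744_ok, W_25854746624_ok, W_25854742592_ok, W_25837969472_ok, W_24814555136_ok, W_24797782016_ok, W_22683852800_ok, trivial⟩ C_26995601472
theorem L_26995605504 : HH 127 (nat_lit 26995605504, nat_lit 47) := top_sound R_26995605504
  ⟨V6_21610119168_ok, V6_20553154560_ok, trivial⟩
  ⟨W_26911711232_ok, W_25888292864_ok, W_25871519744_ok, W_23774363648_ok, W_23757590528_ok, trivial⟩ C_26995605504
theorem L_26995855425 : HH 127 (nat_lit 26995855425, nat_lit 6) := top_sound R_26995855425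
  ⟨V6_24781262913_ok, V6_20553404481_ok, trivial⟩
  ⟨W_26928222272_ok, W_25887772736_ok, W_24814293056_ok, W_23773843520_ok, trivial⟩ C_26995855425
theorem L_26995859520 : HH 127 (nat_lit 26995859520, nat_lit 84) := top_sound R_26995859520
  ⟨V6_26961518592_ok, V6_26928488448_ok, V6_25921327104_ok, V6_25904553984_ok, V6_25904549952_ok, V6_24847589376_ok, V6_24847585344_ok, V6_24831070272_ok, V6_23774105664_ok, trivial⟩
  ⟨W_24831070208_ok, W_24830812160_ok, W_24798040064_ok, W_24797782016_ok, W_23773847552_ok, W_23724302336_ok, W_22684110848_ok, W_22683852800_ok, trivial⟩ C_26995859520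
theorem L_26995863552 : HH 127 (nat_lit 26995863552, nat_lit 87) := top_sound R_26995863552
  ⟨V6_24831590400_ok, V6_23740821504_ok, V6_22700371968_ok, V6_22683856896_ok, trivial⟩
  ⟨W_25888292864_ok, W_25871777792_ok, W_25871519744_ok, W_25871261696_ok, W_25854746624_ok, W_24847843328_ok, W_24831070208_ok, W_24814813184_ok, W_23757848576_ok, W_20553150464_ok, trivial⟩ C_26995863552
theorem L_26996117568 : HH 127 (nat_lit 26996117568, nat_lit 43) := top_sound R_26996117568
  ⟨V6_22667595840_ok, V6_21627408384_ok, trivial⟩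
  ⟨W_25888034816_ok, W_25887772736_ok, W_25871519744_ok, W_24831070208_ok, W_24814555136_ok, W_24798040064_ok, W_23773843520_ok, trivial⟩ C_26996117568
theorem L_26996121600 : HH 127 (nat_lit 26996121600, nat_lit 118) := top_sound R_26996121600
  ⟨V6_25904553984_ok, V6_24847589376_ok, V6_24798302208_ok, V6_23741337600_ok, V6_21627408384_ok, trivial⟩
  ⟨W_25921323008_ok, W_25871777792_ok, W_24847843328_ok, W_24831070208_ok, W_24814813184_ok, W_24798298112_ok, W_24798040064_ok, W_24797782016_ok, W_23757848576_ok, W_23741333504_ok, W_22650822656_ok, W_20536893440_ok, trivial⟩ C_26996121600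
theorem L_26996379648 : HH 127 (nat_lit 26996379648, nat_lit 74) := top_sound R_26996379648
  ⟨V6_26994806784_ok, V6_23741595648_ok, V6_22667857920_ok, V6_21627408384_ok, trivial⟩
  ⟨W_26994802688_ok, W_25921323008_ok, W_25904549888_ok, W_25888292864_ok, W_24847843328_ok, W_23757848576_ok, W_19480186880_ok, trivial⟩ C_26996379648
theorem L_26996637696 : HH 127 (nat_lit 26996637696, nat_lit 32) := top_sound R_26996637696
  ⟨V6_25921585152_ok, V6_20554186752_ok, trivial⟩
  ⟨W_25921323008_ok, W_25904807936_ok, W_24847843328_ok, trivial⟩ C_26996637696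
theorem L_27011850369 : HH 127 (nat_lit 27011850369, nat_lit 7) := top_sound R_27011850369
  ⟨V6_26911187073_ok, V6_24814035009_ok, V6_22700105793_ok, V6_21643141185_ok, trivial⟩
  ⟨W_23757070400_ok, W_20569399424_ok, trivial⟩ C_27011850369
theorem L_27012112449 : HH 127 (nat_lit 27012112449, nat_lit 9) := top_sound R_27012112449
  ⟨V6_21643399233_ok, V6_21643141185_ok, V6_20569661505_ok, trivial⟩
  ⟨W_26928222272_ok, W_25887772736_ok, W_25870999616_ok, W_25854484544_ok, W_23757070400_ok, trivial⟩ C_27012112449
theorem L_27012112512 : HH 127 (nat_lit 27012112512, nat_lit 29) := top_sound R_27012112512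
  ⟨V6_24814035072_ok, V6_23790624768_ok, trivial⟩
  ⟨W_25871261696_ok, W_23757332480_ok, W_22716882944_ok, W_19495919744_ok, trivial⟩ C_27012112512
theorem L_27012116544 : HH 127 (nat_lit 27012116544, nat_lit 24) := top_sound R_27012116544
  ⟨V6_22700371968_ok, V6_21643407360_ok, trivial⟩
  ⟨W_26944999424_ok, W_26928226304_ok, W_26928222272_ok, W_25871261696_ok, W_25854484544_ok, W_24831070208_ok, W_24814293056_ok, W_24797519936_ok, trivial⟩ C_27012116544
theorem L_27012370497 : HH 127 (nat_lit 27012370497, nat_lit 5) := top_sound R_27012370497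
  ⟨V6_21643399233_ok, V6_20569919553_ok, trivial⟩
  ⟨W_26928222272_ok, W_25887772736_ok, W_25854742592_ok, W_24814293056_ok, trivial⟩ C_27012370497
theorem L_27012374592 : HH 127 (nat_lit 27012374592, nat_lit 82) := top_sound R_27012374592
  ⟨V6_24864362496_ok, V6_24847589376_ok, V6_23790624768_ok, V6_23790620736_ok, V6_23774105664_ok, V6_22717141056_ok, trivial⟩
  ⟨W_26928484352_ok, W_26911711232_ok, W_25871519744_ok, W_25870999616_ok, W_25854746624_ok, W_25837969472_ok, W_24830812160_ok, W_24797782016_ok, W_22683852800_ok, W_20569923584_ok, trivial⟩ C_27012374592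
theorem L_27012378624 : HH 127 (nat_lit 27012378624, nat_lit 83) := top_sound R_27012378624
  ⟨V6_22700371968_ok, V6_22683856896_ok, V6_20569927680_ok, trivial⟩
  ⟨W_26911711232_ok, W_25888292864_ok, W_25888034816_ok, W_25871519744_ok, W_25871261696_ok, W_25854746624_ok, W_24847843328_ok, W_24831070208_ok, W_24797782016_ok, W_24781008896_ok, W_23790878720_ok, trivial⟩ C_27012378624
theorem L_27012632640 : HH 127 (nat_lit 27012632640, nat_lit 48) := top_sound R_27012632640
  ⟨V6_25937842176_ok, V6_24864362496_ok, V6_23790620736_ok, V6_23774105664_ok, V6_22717141056_ok, trivial⟩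
  ⟨W_26928484352_ok, W_26928222272_ok, W_25871519744_ok, W_25854742592_ok, W_24831070208_ok, W_24798040064_ok, W_24781262912_ok, W_22684110848_ok, W_22667333696_ok, trivial⟩ C_27012632640
theorem L_27012636672 : HH 127 (nat_lit 27012636672, nat_lit 127) := top_sound R_27012636672
  ⟨V6_26961518592_ok, V6_26928488448_ok, V6_25904553984_ok, V6_24847589376_ok, V6_24831590400_ok, V6_23790624768_ok, V6_22717661184_ok, trivial⟩
  ⟨W_25871777792_ok, W_24864358400_ok, W_24831070208_ok, W_24830812160_ok, W_24814813184_ok, W_24798040064_ok, W_24781266944_ok, W_23790878720_ok, W_23773847552_ok, W_23757848576_ok, W_22716882944_ok, W_20569923584_ok, trivial⟩ C_27012636672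
theorem L_27012894720 : HH 127 (nat_lit 27012894720, nat_lit 109) := top_sound R_27012894720
  ⟨V6_23741337600_ok, V6_21627408384_ok, V6_20570443776_ok, trivial⟩
  ⟨W_26994802688_ok, W_25921323008_ok, W_25921064960_ok, W_25904549888_ok, W_25888292864_ok, W_25888034816_ok, W_25871777792_ok, W_25871519744_ok, W_24864358400_ok, W_24814813184_ok, W_24798298112_ok, W_24798040064_ok, W_23790878720_ok, W_23741333504_ok, trivial⟩ C_27012894720
theorem L_27013152768 : HH 127 (nat_lit 27013152768, nat_lit 59) := top_sound R_27013152768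
  ⟨V6_27011579904_ok, V6_25938100224_ok, V6_22717661184_ok, trivial⟩
  ⟨W_25888292864_ok, W_23757848576_ok, W_23741333504_ok, W_21627404288_ok, W_21610889216_ok, trivial⟩ C_27013152768
theorem L_27028627521 : HH 127 (nat_lit 27028627521, nat_lit 5) := top_sound R_27028627521
  ⟨V6_22700105793_ok, V6_21643141185_ok, trivial⟩
  ⟨W_26927964224_ok, W_25887772736_ok, W_21659914304_ok, trivial⟩ C_27028627521
theorem L_27028627584 : HH 127 (nat_lit 27028627584, nat_lit 18) := top_sound R_27028627584
  ⟨V6_23790624768_ok, trivial⟩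
  ⟨W_26911187072_ok, W_25887776768_ok, W_21659918336_ok, trivial⟩ C_27028627584
theorem L_27028885569 : HH 127 (nat_lit 27028885569, nat_lit 3) := top_sound R_27028885569
  ⟨V6_23807135808_ok, V6_21643399233_ok, trivial⟩
  ⟨W_21659914304_ok, trivial⟩ C_27028885569
theorem L_27028889664 : HH 127 (nat_lit 27028889664, nat_lit 52) := top_sound R_27028889664
  ⟨V6_23790624768_ok, V6_22717141056_ok, V6_21660176448_ok, trivial⟩
  ⟨W_26928222272_ok, W_25904549888_ok, W_25888034816_ok, W_25887776768_ok, W_25871261696_ok, W_24831070208_ok, W_20586438656_ok, trivial⟩ C_27028889664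
theorem L_27028893696 : HH 127 (nat_lit 27028893696, nat_lit 35) := top_sound R_27028893696
  ⟨V6_25921585152_ok, V6_22700371968_ok, trivial⟩
  ⟨W_24797523968_ok, W_23790878720_ok, W_22733914112_ok, W_20569665536_ok, W_19512700928_ok, trivial⟩ C_27028893696
theorem L_27029147712 : HH 127 (nat_lit 27029147712, nat_lit 44) := top_sound R_27029147712
  ⟨V6_26928484416_ok, V6_23790620736_ok, V6_21660176448_ok, V6_20586696768_ok, trivial⟩
  ⟨W_26928484352_ok, W_26928222272_ok, W_25921064960_ok, W_25904549888_ok, W_25888034816_ok, W_25887772736_ok, W_25871519744_ok, W_25854742592_ok, W_24864100352_ok, W_24814555136_ok, W_24814293056_ok, trivial⟩ C_27029147712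
theorem L_27029151744 : HH 127 (nat_lit 27029151744, nat_lit 116) := top_sound R_27029151744
  ⟨V6_25904553984_ok, V6_24847589376_ok, V6_23790624768_ok, V6_20586700800_ok, trivial⟩
  ⟨W_26911711232_ok, W_25921323008_ok, W_24864358400_ok, W_24831070208_ok, W_23807393792_ok, W_23790878720_ok, W_22733656064_ok, W_21660434432_ok, W_20586696704_ok, trivial⟩ C_27029151744
theorem L_27029409792 : HH 127 (nat_lit 27029409792, nat_lit 105) := top_sound R_27029409792
  ⟨V6_26994806784_ok, V6_25954615296_ok, V6_25937842176_ok, V6_25921327104_ok, V6_24880877568_ok, V6_24864362496_ok, V6_24831590400_ok, V6_22717661184_ok, trivial⟩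
  ⟨W_25888292864_ok, W_25871777792_ok, W_24864358400_ok, W_24831070208_ok, W_24814813184_ok, W_24798040064_ok, W_23790878720_ok, W_23757848576_ok, W_20586696704_ok, trivial⟩ C_27029409792
theorem L_27029667840 : HH 127 (nat_lit 27029667840, nat_lit 72) := top_sound R_27029667840
  ⟨V6_27028094976_ok, V6_25954615296_ok, V6_25872039936_ok, V6_24881135616_ok, V6_22717661184_ok, trivial⟩
  ⟨W_25888292864_ok, W_25871777792_ok, W_24847843328_ok, W_24798298112_ok, W_23790878720_ok, W_23757848576_ok, W_23741333504_ok, trivial⟩ C_27029667840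
theorem L_27045400641 : HH 127 (nat_lit 27045400641, nat_lit 1) := top_sound R_27045400641
  ⟨V6_23807135808_ok, trivial⟩
  ⟨W_25887772736_ok, trivial⟩ C_27045400641
theorem L_27045404736 : HH 127 (nat_lit 27045404736, nat_lit 28) := top_sound R_27045404736
  ⟨V6_26944741440_ok, V6_25904549952_ok, V6_21676695552_ok, trivial⟩
  ⟨W_25904549888_ok, W_23790620672_ok, W_22733656064_ok, W_21659914304_ok, trivial⟩ C_27045404736
theorem L_27045662784 : HH 127 (nat_lit 27045662784, nat_lit 27) := top_sound R_27045662784
  ⟨V6_21660176448_ok, V6_20603211840_ok, trivial⟩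
  ⟨W_26961514496_ok, W_26944999424_ok, W_26928222272_ok, W_25904549888_ok, W_25888034816_ok, W_25887772736_ok, W_24864100352_ok, W_24814293056_ok, trivial⟩ C_27045662784
theorem L_27045666816 : HH 127 (nat_lit 27045666816, nat_lit 74) := top_sound R_27045666816
  ⟨V6_26961518592_ok, V6_24831074304_ok, V6_23790624768_ok, V6_21676695552_ok, trivial⟩
  ⟨W_25921323008_ok, W_23807393792_ok, W_23790878720_ok, W_21676949504_ok, W_20603211776_ok, trivial⟩ C_27045666816

theorem H_35 : AllH 127 tb35 :=
  ⟨L_26021728320, L_26021990400, L_26022248448, L_26038505472, L_26038763520, L_26055278592, L_26071793664, L_26911719681, L_26928496770, L_26928496833, L_26928496896, L_26928758913, L_26928758976, L_26928762945, L_26945269890, L_26945273985, L_26945274048, L_26945527938, L_26945532033, L_26945532096, L_26945536065, L_26945536128, L_26945540160, L_26945790081, L_26945794113, L_26945794176, L_26945798208, L_26945802240, L_26962043010, L_26962047105, L_26962047168, L_26962051137, L_26962051200, L_26962305153, L_26962309185, L_26962309248,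 L_26962313280, L_26962317312, L_26962567233, L_26962567296, L_26962571328, L_26962575360, L_26962825281, L_26962829376, L_26962833408, L_26978558082, L_26978562177, L_26978820225, L_26978824257, L_26978824320, L_26978828352, L_26979082305, L_26979082368, L_26979086400, L_26979090432, L_26979340353, L_26979344448, L_26979348480, L_26979602496, L_26979606528, L_26979864576, L_26995073154, L_26995335297, L_26995339329, L_26995339392, L_26995597377, L_26995597440, L_26995601472, L_26995605504, L_26995855425, L_26995859520, L_26995863552, L_26996117568, L_26996121600, L_26996379648, L_26996637696, L_27011850369, L_27012112449, L_27012112512, L_27012116544, L_27012370497, L_27012374592, L_27012378624, L_27012632640, L_27012636672, L_27012894720, L_27013152768, L_27028627521, L_27028627584, L_27028885569, L_27028889664, L_27028893696, L_27029147712, L_27029151744, L_27029409792, L_27029667840, L_27045400641, L_27045404736, L_27045662784, L_27045666816, trivial⟩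

theorem L_27045924864 : HH 127 (nat_lit 27045924864, nat_lit 96) := top_sound R_27045924864
  ⟨V6_25921327104_ok, V6_24897650688_ok, V6_24864362496_ok, V6_23823912960_ok, V6_20603473920_ok, trivial⟩
  ⟨W_26978029568_ok, W_26928484352_ok, W_25888292864_ok, W_23807135744_ok, W_23790878720_ok, W_20603211776_ok, W_20586696704_ok, W_19529732096_ok, trivial⟩ C_27045924864
theorem L_27046182912 : HH 127 (nat_lit 27046182912, nat_lit 70) := top_sound R_27046182912
  ⟨V6_25971130368_ok, V6_24897650688_ok, V6_24831590400_ok, V6_22717661184_ok, trivial⟩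
  ⟨W_25888292864_ok, W_24864358400_ok, W_23790878720_ok, W_23757848576_ok, W_21676949504_ok, trivial⟩ C_27046182912
theorem L_27062177856 : HH 127 (nat_lit 27062177856, nat_lit 14) := top_sound R_27062177856
  ⟨V6_25904549952_ok, V6_21693468672_ok, trivial⟩
  ⟨W_26961514496_ok, W_25904549888_ok, W_25887772736_ok, W_24864100352_ok, trivial⟩ C_27062177856
theorem L_27062181888 : HH 127 (nat_lit 27062181888, nat_lit 38) := top_sound R_27062181888
  ⟨V6_26961518592_ok, V6_21693468672_ok, V6_21676695552_ok, trivial⟩
  ⟨W_26978287616_ok, W_25921323008_ok, W_25904549888_ok, W_25887776768_ok, W_24830812160_ok, trivial⟩ C_27062181888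
theorem L_27062439936 : HH 127 (nat_lit 27062439936, nat_lit 64) := top_sound R_27062439936
  ⟨V6_24864362496_ok, V6_22766948352_ok, V6_21693726720_ok, V6_21693468672_ok, trivial⟩
  ⟨W_26994802688_ok, W_25921323008_ok, W_24880873472_ok, W_24847843328_ok, W_23790878720_ok, W_21676949504_ok, trivial⟩ C_27062439936
theorem L_27062697984 : HH 127 (nat_lit 27062697984, nat_lit 62) := top_sound R_27062697984
  ⟨V6_27028094976_ok, V6_25954615296_ok, V6_24897650688_ok, V6_21693726720_ok, V6_20620247040_ok, trivial⟩
  ⟨W_25921323008_ok, W_25888292864_ok, W_24847843328_ok, W_23790878720_ok, W_20619984896_ok, trivial⟩ C_27062697984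
theorem L_27078692928 : HH 127 (nat_lit 27078692928, nat_lit 2) := top_sound R_27078692928
  ⟨V6_21709983744_ok, trivial⟩
  ⟨W_25921064960_ok, trivial⟩ C_27078692928
theorem L_27078955008 : HH 127 (nat_lit 27078955008, nat_lit 37) := top_sound R_27078955008
  ⟨V6_24864362496_ok, V6_21709983744_ok, V6_21693468672_ok, trivial⟩
  ⟨W_26994802688_ok, W_24880873472_ok, W_22766944256_ok, W_21709979648_ok, W_21693206528_ok, W_20636499968_ok, trivial⟩ C_27078955008
theorem L_27079213056 : HH 127 (nat_lit 27079213056, nat_lit 45) := top_sound R_27079213056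
  ⟨V6_25921585152_ok, V6_23857201152_ok, V6_21693726720_ok, trivial⟩
  ⟨W_23840423936_ok, W_21709979648_ok, W_21676949504_ok, W_20619984896_ok, W_19563020288_ok, trivial⟩ C_27079213056
theorem L_27095470080 : HH 127 (nat_lit 27095470080, nat_lit 10) := top_sound R_27095470080
  ⟨V6_22766948352_ok, V6_21726756864_ok, trivial⟩
  ⟨W_26994802688_ok, W_26978029568_ok, W_24880873472_ok, trivial⟩ C_27095470080
theorem L_27095728128 : HH 127 (nat_lit 27095728128, nat_lit 29) := top_sound R_27095728128
  ⟨V6_25938100224_ok, V6_23857201152_ok, V6_21726756864_ok, trivial⟩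
  ⟨W_25921323008_ok, W_20636499968_ok, W_19579535360_ok, trivial⟩ C_27095728128
theorem L_27112243200 : HH 127 (nat_lit 27112243200, nat_lit 14) := top_sound R_27112243200
  ⟨V6_22800236544_ok, V6_22783721472_ok, V6_21726756864_ok, trivial⟩
  ⟨W_27011317760_ok, W_26994802688_ok, W_23840423936_ok, W_20669530112_ok, trivial⟩ C_27112243200
theorem L_27128758272 : HH 127 (nat_lit 27128758272, nat_lit 5) := top_sound R_27128758272
  ⟨V6_23857201152_ok, trivial⟩
  ⟨W_27011317760_ok, trivial⟩ C_27128758272
theorem L_27985461378 : HH 127 (nat_lit 27985461378, nat_lit 1) := top_sound R_27985461378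
  ⟨V6_23690485890_ok, trivial⟩
  ⟨W_22616752256_ok, trivial⟩ C_27985461378
theorem L_27985461504 : HH 127 (nat_lit 27985461504, nat_lit 2) := top_sound R_27985461504
  ⟨V6_23690494080_ok, trivial⟩
  ⟨W_24764235776_ok, trivial⟩ C_27985461504
theorem L_28002238593 : HH 127 (nat_lit 28002238593, nat_lit 2) := top_sound R_28002238593
  ⟨V6_21559787649_ok, trivial⟩
  ⟨W_25837969472_ok, W_24764227712_ok, trivial⟩ C_28002238593
theorem L_28002238656 : HH 127 (nat_lit 28002238656, nat_lit 2) := top_sound R_28002238656
  ⟨V6_23690494080_ok, trivial⟩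
  ⟨W_24781008896_ok, trivial⟩ C_28002238656
theorem L_28002496641 : HH 127 (nat_lit 28002496641, nat_lit 1) := top_sound R_28002496641
  ⟨V6_22633525377_ok, trivial⟩
  ⟨W_25854484544_ok, trivial⟩ C_28002496641
theorem L_28002496704 : HH 127 (nat_lit 28002496704, nat_lit 1) := top_sound R_28002496704
  ⟨V6_24781271040_ok, trivial⟩
  ⟨W_23707267136_ok, trivial⟩ C_28002496704
theorem L_28002500673 : HH 127 (nat_lit 28002500673, nat_lit 2) := top_sound R_28002500673
  ⟨V6_24781262913_ok, V6_22633529409_ok, trivial⟩
  ⟨W_24781004864_ok, trivial⟩ C_28002500673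
theorem L_28002500736 : HH 127 (nat_lit 28002500736, nat_lit 2) := top_sound R_28002500736
  ⟨V6_21560049792_ok, trivial⟩
  ⟨W_25854746624_ok, trivial⟩ C_28002500736
theorem L_28019007618 : HH 127 (nat_lit 28019007618, nat_lit 3) := top_sound R_28019007618
  ⟨V6_21576556674_ok, trivial⟩
  ⟨W_26911187072_ok, W_25854222464_ok, W_24764227712_ok, trivial⟩ C_28019007618
theorem L_28019011713 : HH 127 (nat_lit 28019011713, nat_lit 3) := top_sound R_28019011713
  ⟨V6_21576560769_ok, trivial⟩
  ⟨W_25854484544_ok, W_25837969472_ok, W_24764227712_ok, trivial⟩ C_28019011713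
theorem L_28019011776 : HH 127 (nat_lit 28019011776, nat_lit 1) := top_sound R_28019011776
  ⟨V6_24764231808_ok, trivial⟩
  ⟨W_24797523968_ok, trivial⟩ C_28019011776
theorem L_28019015745 : HH 127 (nat_lit 28019015745, nat_lit 2) := top_sound R_28019015745
  ⟨V6_21576564801_ok, trivial⟩
  ⟨W_25854742592_ok, W_25837969472_ok, trivial⟩ C_28019015745
theorem L_28019015808 : HH 127 (nat_lit 28019015808, nat_lit 13) := top_sound R_28019015808
  ⟨V6_23724048384_ok, trivial⟩
  ⟨W_25837969472_ok, W_24797782016_ok, W_22650298496_ok, trivial⟩ C_28019015808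
theorem L_28019269761 : HH 127 (nat_lit 28019269761, nat_lit 5) := top_sound R_28019269761
  ⟨V6_21576818817_ok, trivial⟩
  ⟨W_26927964224_ok, W_25870999616_ok, W_24781004864_ok, trivial⟩ C_28019269761
theorem L_28019273793 : HH 127 (nat_lit 28019273793, nat_lit 4) := top_sound R_28019273793
  ⟨V6_26944999488_ok, V6_25855004736_ok, V6_24781262913_ok, trivial⟩
  ⟨W_23724040256_ok, trivial⟩ C_28019273793
theorem L_28019273856 : HH 127 (nat_lit 28019273856, nat_lit 10) := top_sound R_28019273856
  ⟨V6_24798044160_ok, trivial⟩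
  ⟨W_24797782016_ok, W_23707263104_ok, trivial⟩ C_28019273856
theorem L_28019277888 : HH 127 (nat_lit 28019277888, nat_lit 14) := top_sound R_28019277888
  ⟨V6_23724048384_ok, trivial⟩
  ⟨W_25871519744_ok, W_25854742592_ok, W_24797782016_ok, trivial⟩ C_28019277888
theorem L_28019281920 : HH 127 (nat_lit 28019281920, nat_lit 2) := top_sound R_28019281920
  ⟨V6_24781271040_ok, trivial⟩
  ⟨W_25871777792_ok, trivial⟩ C_28019281920
theorem L_28019531841 : HH 127 (nat_lit 28019531841, nat_lit 1) := top_sound R_28019531841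
  ⟨V6_21577080897_ok, trivial⟩
  ⟨W_24797777984_ok, trivial⟩ C_28019531841
theorem L_28019531904 : HH 127 (nat_lit 28019531904, nat_lit 14) := top_sound R_28019531904
  ⟨V6_21577080960_ok, trivial⟩
  ⟨W_25871261696_ok, W_25870999616_ok, W_24797782016_ok, trivial⟩ C_28019531904
theorem L_28019535936 : HH 127 (nat_lit 28019535936, nat_lit 13) := top_sound R_28019535936
  ⟨V6_24798302208_ok, V6_22650826752_ok, trivial⟩
  ⟨W_25871519744_ok, W_25871261696_ok, W_24797519936_ok, trivial⟩ C_28019535936
theorem L_28019539968 : HH 127 (nat_lit 28019539968, nat_lit 20) := top_sound R_28019539968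
  ⟨V6_21577089024_ok, trivial⟩
  ⟨W_25871777792_ok, W_25871519744_ok, W_24797782016_ok, trivial⟩ C_28019539968
theorem L_28035522690 : HH 127 (nat_lit 28035522690, nat_lit 1) := top_sound R_28035522690
  ⟨V6_22666551426_ok, trivial⟩
  ⟨W_26911187072_ok, trivial⟩ C_28035522690
theorem L_28035526785 : HH 127 (nat_lit 28035526785, nat_lit 1) := top_sound R_28035526785
  ⟨V6_21593075841_ok, trivial⟩
  ⟨W_25854484544_ok, trivial⟩ C_28035526785
theorem L_28035784833 : HH 127 (nat_lit 28035784833, nat_lit 8) := top_sound R_28035784833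
  ⟨V6_24814035009_ok, V6_23723778177_ok, V6_22650298497_ok, trivial⟩
  ⟨W_27984928832_ok, W_25837969472_ok, W_22667075648_ok, trivial⟩ C_28035784833
theorem L_28035788865 : HH 127 (nat_lit 28035788865, nat_lit 5) := top_sound R_28035788865
  ⟨V6_27985190976_ok, V6_26928484416_ok, V6_23740813377_ok, V6_22666817601_ok, trivial⟩
  ⟨W_24814293056_ok, W_21593337920_ok, trivial⟩ C_28035788865
theorem L_28035788928 : HH 127 (nat_lit 28035788928, nat_lit 17) := top_sound R_28035788928
  ⟨V6_23740821504_ok, trivial⟩
  ⟨W_26911711232_ok, W_25871261696_ok, W_25854484544_ok, W_24814297088_ok, W_24764227712_ok, W_23723778176_ok, trivial⟩ C_28035788928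
theorem L_28035792960 : HH 127 (nat_lit 28035792960, nat_lit 21) := top_sound R_28035792960
  ⟨V6_23724048384_ok, V6_22667083776_ok, trivial⟩
  ⟨W_27985448960_ok, W_26928484352_ok, W_26911711232_ok, W_25854742592_ok, W_25837969472_ok, W_24814555136_ok, W_24781004864_ok, trivial⟩ C_28035792960
theorem L_28036046913 : HH 127 (nat_lit 28036046913, nat_lit 8) := top_sound R_28036046913
  ⟨V6_26961514560_ok, V6_25855004736_ok, V6_24814035009_ok, V6_24781262913_ok, V6_23740813377_ok, V6_22667333697_ok, trivial⟩
  ⟨W_26928222272_ok, W_26927964224_ok, W_25870999616_ok, W_23724040256_ok, trivial⟩ C_28036046913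
theorem L_28036046976 : HH 127 (nat_lit 28036046976, nat_lit 21) := top_sound R_28036046976
  ⟨V6_24814035072_ok, V6_24798044160_ok, trivial⟩
  ⟨W_26927964224_ok, W_25887776768_ok, W_25854746624_ok, W_25854222464_ok, W_24814297088_ok, W_24781004864_ok, trivial⟩ C_28036046976
theorem L_28036051008 : HH 127 (nat_lit 28036051008, nat_lit 32) := top_sound R_28036051008
  ⟨V6_24798044160_ok, V6_23740821504_ok, trivial⟩
  ⟨W_28001964032_ok, W_26928222272_ok, W_25888034816_ok, W_25871519744_ok, W_25854742592_ok, W_24814297088_ok, W_24814293056_ok, W_24781262912_ok, W_22667333696_ok, trivial⟩ C_28036051008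
theorem L_28036055040 : HH 127 (nat_lit 28036055040, nat_lit 26) := top_sound R_28036055040
  ⟨V6_24781271040_ok, V6_22667083776_ok, V6_22650568704_ok, trivial⟩
  ⟨W_25871777792_ok, W_25871519744_ok, W_25854746624_ok, W_24814813184_ok, W_24798040064_ok, trivial⟩ C_28036055040
theorem L_28036304961 : HH 127 (nat_lit 28036304961, nat_lit 1) := top_sound R_28036304961
  ⟨V6_23740813377_ok, trivial⟩
  ⟨W_25887772736_ok, trivial⟩ C_28036304961
theorem L_28036309056 : HH 127 (nat_lit 28036309056, nat_lit 34) := top_sound R_28036309056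
  ⟨V6_24798302208_ok, V6_23724564480_ok, V6_22667595840_ok, trivial⟩
  ⟨W_25888034816_ok, W_25887776768_ok, W_25870999616_ok, W_24814297088_ok, W_23740817408_ok, trivial⟩ C_28036309056
theorem L_28036313088 : HH 127 (nat_lit 28036313088, nat_lit 41) := top_sound R_28036313088
  ⟨V6_22650826752_ok, V6_21593862144_ok, trivial⟩
  ⟨W_28018737152_ok, W_25888292864_ok, W_25888034816_ok, W_25871261696_ok, W_24814297088_ok, W_24797782016_ok, trivial⟩ C_28036313088
theorem L_28036567104 : HH 127 (nat_lit 28036567104, nat_lit 13) := top_sound R_28036567104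
  ⟨V6_22667857920_ok, V6_22667595840_ok, trivial⟩
  ⟨W_28034994176_ok, W_25887772736_ok, W_24814555136_ok, trivial⟩ C_28036567104
theorem L_28036571136 : HH 127 (nat_lit 28036571136, nat_lit 21) := top_sound R_28036571136
  ⟨V6_23741595648_ok, V6_22667857920_ok, V6_21594120192_ok, trivial⟩
  ⟨W_25888292864_ok, W_24814813184_ok, W_23741333504_ok, trivial⟩ C_28036571136
theorem L_28052037762 : HH 127 (nat_lit 28052037762, nat_lit 3) := top_sound R_28052037762
  ⟨V6_23723516034_ok, V6_22666551426_ok, trivial⟩
  ⟨W_26911187072_ok, W_23740293248_ok, trivial⟩ C_28052037762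
theorem L_28052299905 : HH 127 (nat_lit 28052299905, nat_lit 6) := top_sound R_28052299905
  ⟨V6_24814035072_ok, trivial⟩
  ⟨W_27984928832_ok, W_26927964224_ok, W_23757070400_ok, trivial⟩ C_28052299905
theorem L_28052303937 : HH 127 (nat_lit 28052303937, nat_lit 3) := top_sound R_28052303937
  ⟨V6_27985190976_ok, V6_23757328449_ok, V6_22666817601_ok, trivial⟩
  ⟨W_22683590720_ok, trivial⟩ C_28052303937
theorem L_28052304000 : HH 127 (nat_lit 28052304000, nat_lit 6) := top_sound R_28052304000
  ⟨V6_24831074304_ok, trivial⟩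
  ⟨W_25871261696_ok, W_23723778176_ok, trivial⟩ C_28052304000
theorem L_28052561985 : HH 127 (nat_lit 28052561985, nat_lit 8) := top_sound R_28052561985
  ⟨V6_24831070272_ok, V6_23757328449_ok, V6_23740813377_ok, trivial⟩
  ⟨W_26928222272_ok, W_25870999616_ok, W_25837969472_ok, W_23757070400_ok, trivial⟩ C_28052561985
theorem L_28052562048 : HH 127 (nat_lit 28052562048, nat_lit 34) := top_sound R_28052562048
  ⟨V6_25904553984_ok, V6_24831074304_ok, trivial⟩
  ⟨W_26911711232_ok, W_25837969472_ok, W_24797782016_ok, W_24764227712_ok, W_22683852800_ok, trivial⟩ C_28052562048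
theorem L_28052566080 : HH 127 (nat_lit 28052566080, nat_lit 37) := top_sound R_28052566080
  ⟨V6_26911715328_ok, V6_24831070272_ok, V6_22683856896_ok, trivial⟩
  ⟨W_28001964032_ok, W_27985448960_ok, W_26928484352_ok, W_26911711232_ok, W_25871519744_ok, W_22683852800_ok, trivial⟩ C_28052566080
theorem L_28052570112 : HH 127 (nat_lit 28052570112, nat_lit 37) := top_sound R_28052570112
  ⟨V6_23724048384_ok, V6_21610119168_ok, trivial⟩
  ⟨W_28002222080_ok, W_26928484352_ok, W_26911711232_ok, W_25888292864_ok, W_24764235776_ok, W_23757590528_ok, trivial⟩ C_28052570112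
theorem L_28052820033 : HH 127 (nat_lit 28052820033, nat_lit 4) := top_sound R_28052820033
  ⟨V6_21610369089_ok, trivial⟩
  ⟨W_26928222272_ok, W_25887772736_ok, W_24814293056_ok, trivial⟩ C_28052820033
theorem L_28052824128 : HH 127 (nat_lit 28052824128, nat_lit 54) := top_sound R_28052824128
  ⟨V6_25904553984_ok, V6_24831074304_ok, V6_24798044160_ok, trivial⟩
  ⟨W_25887772736_ok, W_24831070208_ok, W_24830812160_ok, W_24797782016_ok, W_24781262912_ok, W_22683852800_ok, W_22667333696_ok, trivial⟩ C_28052824128
theorem L_28052828160 : HH 127 (nat_lit 28052828160, nat_lit 56) := top_sound R_28052828160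
  ⟨V6_24831590400_ok, V6_22683856896_ok, trivial⟩
  ⟨W_28018737152_ok, W_28002222080_ok, W_28001964032_ok, W_26928484352_ok, W_25888292864_ok, W_25871777792_ok, W_25871261696_ok, W_25854746624_ok, W_24831070208_ok, W_24797782016_ok, trivial⟩ C_28052828160
theorem L_28053082176 : HH 127 (nat_lit 28053082176, nat_lit 24) := top_sound R_28053082176
  ⟨V6_22667595840_ok, V6_21610631232_ok, trivial⟩
  ⟨W_28034994176_ok, W_28018479104_ok, W_26978029568_ok, W_25904549888_ok, W_25887772736_ok, W_25871519744_ok, W_24798040064_ok, trivial⟩ C_28053082176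
theorem L_28053086208 : HH 127 (nat_lit 28053086208, nat_lit 82) := top_sound R_28053086208
  ⟨V6_25904553984_ok, V6_25872039936_ok, V6_24831590400_ok, V6_23741337600_ok, V6_23724564480_ok, trivial⟩
  ⟨W_25888292864_ok, W_24830812160_ok, W_24798298112_ok, W_24797782016_ok, W_23757848576_ok, W_23741333504_ok, W_20536893440_ok, trivial⟩ C_28053086208
theorem L_28053344256 : HH 127 (nat_lit 28053344256, nat_lit 43) := top_sound R_28053344256
  ⟨V6_24831590400_ok, V6_21610893312_ok, trivial⟩
  ⟨W_28051767296_ok, W_28035252224_ok, W_28034994176_ok, W_26978029568_ok, W_25904549888_ok, W_25888292864_ok, W_25888034816_ok, W_24814813184_ok, trivial⟩ C_28053344256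
theorem L_28053602304 : HH 127 (nat_lit 28053602304, nat_lit 21) := top_sound R_28053602304
  ⟨V6_28052029440_ok, V6_21611151360_ok, trivial⟩
  ⟨W_22684368896_ok, W_20537409536_ok, trivial⟩ C_28053602304
theorem L_28068814977 : HH 127 (nat_lit 28068814977, nat_lit 5) := top_sound R_28068814977
  ⟨V6_26911187073_ok, V6_25854222465_ok, V6_22700105793_ok, trivial⟩
  ⟨W_27984928832_ok, W_23757070400_ok, trivial⟩ C_28068814977
theorem L_28069077057 : HH 127 (nat_lit 28069077057, nat_lit 7) := top_sound R_28069077057
  ⟨V6_23774105664_ok, V6_22700105793_ok, trivial⟩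
  ⟨W_27984928832_ok, W_25870999616_ok, W_23757070400_ok, trivial⟩ C_28069077057
theorem L_28069077120 : HH 127 (nat_lit 28069077120, nat_lit 21) := top_sound R_28069077120
  ⟨V6_24847589376_ok, V6_24814035072_ok, trivial⟩
  ⟨W_27984928832_ok, W_24830812160_ok, W_23757332480_ok, trivial⟩ C_28069077120
theorem L_28069081152 : HH 127 (nat_lit 28069081152, nat_lit 17) := top_sound R_28069081152
  ⟨V6_23774105664_ok, V6_22700371968_ok, trivial⟩
  ⟨W_27985190912_ok, W_26928226304_ok, W_26928222272_ok, W_25888034816_ok, W_25871261696_ok, W_25854484544_ok, trivial⟩ C_28069081152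
theorem L_28069335105 : HH 127 (nat_lit 28069335105, nat_lit 3) := top_sound R_28069335105
  ⟨V6_21626884161_ok, trivial⟩
  ⟨W_26928222272_ok, W_25887772736_ok, W_25854742592_ok, trivial⟩ C_28069335105
theorem L_28069339200 : HH 127 (nat_lit 28069339200, nat_lit 60) := top_sound R_28069339200
  ⟨V6_25921327104_ok, V6_24847589376_ok, V6_24831074304_ok, V6_23774105664_ok, trivial⟩
  ⟨W_27985448960_ok, W_26928484352_ok, W_26911711232_ok, W_25837969472_ok, W_24830812160_ok, W_24797782016_ok, W_23773847552_ok, W_23757070400_ok, W_22683852800_ok, trivial⟩ C_28069339200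
theorem L_28069343232 : HH 127 (nat_lit 28069343232, nat_lit 60) := top_sound R_28069343232
  ⟨V6_23740821504_ok, V6_22700371968_ok, V6_22683856896_ok, trivial⟩
  ⟨W_28018737152_ok, W_27985448960_ok, W_27985190912_ok, W_26911711232_ok, W_25888292864_ok, W_25888034816_ok, W_25871261696_ok, W_25854746624_ok, W_24847843328_ok, W_24831070208_ok, trivial⟩ C_28069343232
theorem L_28069597248 : HH 127 (nat_lit 28069597248, nat_lit 34) := top_sound R_28069597248
  ⟨V6_26994806784_ok, V6_25921327104_ok, V6_24847585344_ok, V6_24831070272_ok, V6_23774105664_ok, trivial⟩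
  ⟨W_26928484352_ok, W_24831070208_ok, W_24798040064_ok, W_22684110848_ok, trivial⟩ C_28069597248
theorem L_28069601280 : HH 127 (nat_lit 28069601280, nat_lit 89) := top_sound R_28069601280
  ⟨V6_28018483200_ok, V6_26961518592_ok, V6_26928488448_ok, V6_25921327104_ok, V6_25904553984_ok, V6_24847589376_ok, V6_24831590400_ok, trivial⟩
  ⟨W_25921323008_ok, W_25888292864_ok, W_25871777792_ok, W_24847843328_ok, W_24831070208_ok, W_24814813184_ok, W_24798040064_ok, W_23773847552_ok, W_23757848576_ok, W_23724302336_ok, trivial⟩ C_28069601280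
theorem L_28069859328 : HH 127 (nat_lit 28069859328, nat_lit 76) := top_sound R_28069859328
  ⟨V6_26994806784_ok, V6_23741337600_ok, V6_21627408384_ok, trivial⟩
  ⟨W_28051767296_ok, W_28035252224_ok, W_28018737152_ok, W_26994802688_ok, W_26978029568_ok, W_25921323008_ok, W_25904549888_ok, W_25888292864_ok, W_25871777792_ok, W_25871519744_ok, W_24847843328_ok, W_24798298112_ok, trivial⟩ C_28069859328
theorem L_28070117376 : HH 127 (nat_lit 28070117376, nat_lit 36) := top_sound R_28070117376
  ⟨V6_25921585152_ok, V6_24831590400_ok, trivial⟩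
  ⟨W_28068282368_ok, W_28051767296_ok, W_22667853824_ok, W_21627404288_ok, W_21610889216_ok, trivial⟩ C_28070117376
theorem L_28085592129 : HH 127 (nat_lit 28085592129, nat_lit 3) := top_sound R_28085592129
  ⟨V6_22700105793_ok, V6_21643141185_ok, trivial⟩
  ⟨W_27984928832_ok, W_26927964224_ok, W_25887772736_ok, trivial⟩ C_28085592129
theorem L_28085592192 : HH 127 (nat_lit 28085592192, nat_lit 17) := top_sound R_28085592192
  ⟨V6_24814035072_ok, V6_23790624768_ok, trivial⟩
  ⟨W_28001705984_ok, W_27984928832_ok, W_26911187072_ok, W_24830812160_ok, W_20569399424_ok, trivial⟩ C_28085592192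
theorem L_28085850177 : HH 127 (nat_lit 28085850177, nat_lit 2) := top_sound R_28085850177
  ⟨V6_21643399233_ok, trivial⟩
  ⟨W_26928222272_ok, W_25887772736_ok, trivial⟩ C_28085850177
theorem L_28085854272 : HH 127 (nat_lit 28085854272, nat_lit 41) := top_sound R_28085854272
  ⟨V6_23790624768_ok, V6_23790620736_ok, V6_22717141056_ok, trivial⟩
  ⟨W_28001964032_ok, W_28001705984_ok, W_27985190912_ok, W_27984928832_ok, W_26928222272_ok, W_25888034816_ok, W_25871261696_ok, W_24831070208_ok, W_23757332480_ok, trivial⟩ C_28085854272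
theorem L_28085858304 : HH 127 (nat_lit 28085858304, nat_lit 25) := top_sound R_28085858304
  ⟨V6_25921585152_ok, V6_21643407360_ok, trivial⟩
  ⟨W_28018737152_ok, W_28001964032_ok, W_26944999424_ok, W_25904807936_ok, W_25871261696_ok, trivial⟩ C_28085858304
theorem L_28086112320 : HH 127 (nat_lit 28086112320, nat_lit 31) := top_sound R_28086112320
  ⟨V6_26928484416_ok, V6_24864362496_ok, V6_22717141056_ok, trivial⟩
  ⟨W_28034994176_ok, W_27985448960_ok, W_26978029568_ok, W_26928484352_ok, W_25888034816_ok, W_25871519744_ok, W_24831070208_ok, trivial⟩ C_28086112320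
theorem L_28086116352 : HH 127 (nat_lit 28086116352, nat_lit 99) := top_sound R_28086116352
  ⟨V6_26961518592_ok, V6_26928488448_ok, V6_25921327104_ok, V6_25904553984_ok, V6_24864362496_ok, V6_24847589376_ok, V6_23790624768_ok, trivial⟩
  ⟨W_26911711232_ok, W_25921323008_ok, W_25888292864_ok, W_24864358400_ok, W_24847843328_ok, W_23790878720_ok, W_22716882944_ok, W_20569923584_ok, trivial⟩ C_28086116352
theorem L_28086374400 : HH 127 (nat_lit 28086374400, nat_lit 84) := top_sound R_28086374400
  ⟨V6_25921327104_ok, V6_24864362496_ok, V6_24831590400_ok, V6_22717661184_ok, trivial⟩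
  ⟨W_28002222080_ok, W_25921323008_ok, W_25888292864_ok, W_25871777792_ok, W_24864358400_ok, W_24847843328_ok, W_23790878720_ok, W_23757848576_ok, trivial⟩ C_28086374400
theorem L_28086632448 : HH 127 (nat_lit 28086632448, nat_lit 63) := top_sound R_28086632448
  ⟨V6_25938100224_ok, V6_25872039936_ok, V6_22717661184_ok, trivial⟩
  ⟨W_24798298112_ok, W_23790878720_ok, W_23757848576_ok, W_23741333504_ok, W_21627404288_ok, trivial⟩ C_28086632448
theorem L_28102365249 : HH 127 (nat_lit 28102365249, nat_lit 1) := top_sound R_28102365249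
  ⟨V6_23807135808_ok, trivial⟩
  ⟨W_25887772736_ok, trivial⟩ C_28102365249
theorem L_28102369344 : HH 127 (nat_lit 28102369344, nat_lit 23) := top_sound R_28102369344
  ⟨V6_23790624768_ok, trivial⟩
  ⟨W_28018479104_ok, W_28001705984_ok, W_27984928832_ok, W_26927964224_ok, W_25887772736_ok, W_22733656064_ok, W_21659914304_ok, trivial⟩ C_28102369344
theorem L_28102627392 : HH 127 (nat_lit 28102627392, nat_lit 23) := top_sound R_28102627392
  ⟨V6_22717141056_ok, V6_21660176448_ok, trivial⟩
  ⟨W_28034994176_ok, W_28018479104_ok, W_28001964032_ok, W_26928222272_ok, W_25904549888_ok, W_24847585280_ok, trivial⟩ C_28102627392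
theorem L_28102631424 : HH 127 (nat_lit 28102631424, nat_lit 62) := top_sound R_28102631424
  ⟨V6_24881135616_ok, V6_24831074304_ok, V6_23790624768_ok, trivial⟩
  ⟨W_27985190912_ok, W_25921323008_ok, W_24864358400_ok, W_24847843328_ok, W_23790878720_ok, W_21659918336_ok, trivial⟩ C_28102631424
theorem L_28102889472 : HH 127 (nat_lit 28102889472, nat_lit 81) := top_sound R_28102889472
  ⟨V6_26994806784_ok, V6_25954615296_ok, V6_25938100224_ok, V6_25937842176_ok, V6_25921327104_ok, V6_24881135616_ok, V6_24880877568_ok, V6_24864362496_ok, trivial⟩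
  ⟨W_28002222080_ok, W_27985448960_ok, W_26928484352_ok, W_25888292864_ok, W_24847843328_ok, W_24831070208_ok, W_23790878720_ok, W_20586696704_ok, trivial⟩ C_28102889472
theorem L_28103147520 : HH 127 (nat_lit 28103147520, nat_lit 58) := top_sound R_28103147520
  ⟨V6_27028094976_ok, V6_24831590400_ok, V6_22717661184_ok, trivial⟩
  ⟨W_28002222080_ok, W_25921323008_ok, W_25888292864_ok, W_25871777792_ok, W_24864358400_ok, W_23790878720_ok, trivial⟩ C_28103147520
theorem L_28119142464 : HH 127 (nat_lit 28119142464, nat_lit 11) := top_sound R_28119142464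
  ⟨V6_24847585344_ok, V6_23823912960_ok, V6_23790620736_ok, trivial⟩
  ⟨W_28018479104_ok, W_21676691456_ok, trivial⟩ C_28119142464
theorem L_28119146496 : HH 127 (nat_lit 28119146496, nat_lit 39) := top_sound R_28119146496
  ⟨V6_23790624768_ok, V6_21676695552_ok, trivial⟩
  ⟨W_28035252224_ok, W_28018479104_ok, W_28001705984_ok, W_24864358400_ok, W_22750429184_ok, trivial⟩ C_28119146496
theorem L_28119404544 : HH 127 (nat_lit 28119404544, nat_lit 55) := top_sound R_28119404544
  ⟨V6_25921327104_ok, V6_24897650688_ok, V6_24881135616_ok, V6_24864362496_ok, trivial⟩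
  ⟨W_28018737152_ok, W_28001964032_ok, W_23790878720_ok, W_21676949504_ok, W_20603211776_ok, trivial⟩ C_28119404544
theorem L_28119662592 : HH 127 (nat_lit 28119662592, nat_lit 62) := top_sound R_28119662592
  ⟨V6_27028094976_ok, V6_25971130368_ok, V6_25954615296_ok, V6_25938100224_ok, V6_24897650688_ok, V6_24881135616_ok, trivial⟩
  ⟨W_28068282368_ok, W_28002222080_ok, W_25888292864_ok, W_24847843328_ok, W_23790878720_ok, W_21676949504_ok, trivial⟩ C_28119662592
theorem L_28135657536 : HH 127 (nat_lit 28135657536, nat_lit 2) := top_sound R_28135657536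
  ⟨V6_22766948352_ok, trivial⟩
  ⟨W_28034994176_ok, W_26978029568_ok, trivial⟩ C_28135657536
theorem L_28135919616 : HH 127 (nat_lit 28135919616, nat_lit 35) := top_sound R_28135919616
  ⟨V6_24864362496_ok, V6_21693468672_ok, trivial⟩
  ⟨W_28035252224_ok, W_28034994176_ok, W_26994802688_ok, W_25921323008_ok, W_24880873472_ok, W_22766944256_ok, trivial⟩ C_28135919616
theorem L_28136177664 : HH 127 (nat_lit 28136177664, nat_lit 42) := top_sound R_28136177664
  ⟨V6_25921585152_ok, V6_24914165760_ok, V6_21693726720_ok, trivial⟩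
  ⟨W_28068282368_ok, W_28018737152_ok, W_23840423936_ok, W_21676949504_ok, W_20619984896_ok, trivial⟩ C_28136177664
theorem L_28152434688 : HH 127 (nat_lit 28152434688, nat_lit 8) := top_sound R_28152434688
  ⟨V6_22783721472_ok, V6_22766948352_ok, trivial⟩
  ⟨W_28051767296_ok, W_28034994176_ok, W_26994802688_ok, W_26978029568_ok, trivial⟩ C_28152434688
theorem L_28152692736 : HH 127 (nat_lit 28152692736, nat_lit 33) := top_sound R_28152692736
  ⟨V6_24914165760_ok, V6_24881135616_ok, V6_23857201152_ok, V6_22783721472_ok, trivial⟩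
  ⟨W_28051767296_ok, W_28035252224_ok, W_25921323008_ok, W_20636499968_ok, trivial⟩ C_28152692736

theorem H_36 : AllH 127 tb36 :=
  ⟨L_27045924864, L_27046182912, L_27062177856, L_27062181888, L_27062439936, L_27062697984, L_27078692928, L_27078955008, L_27079213056, L_27095470080, L_27095728128, L_27112243200, L_27128758272, L_27985461378, L_27985461504, L_28002238593, L_28002238656, L_28002496641, L_28002496704, L_28002500673, L_28002500736, L_28019007618, L_28019011713, L_28019011776, L_28019015745, L_28019015808, L_28019269761, L_28019273793, L_28019273856, L_28019277888, L_28019281920, L_28019531841, L_28019531904, L_28019535936, L_28019539968, L_28035522690, L_28035526785, L_28035784833, L_28035788865, L_28035788928, L_28035792960, L_28036046913, L_28036046976, L_28036051008, L_28036055040, L_28036304961, L_28036309056, L_28036313088, L_28036567104, L_28036571136, L_28052037762, L_28052299905, L_28052303937, L_28052304000, L_28052561985, L_28052562048, L_28052566080, L_28052570112, L_28052820033, L_28052824128, L_28052828160,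 L_28053082176, L_28053086208, L_28053344256, L_28053602304, L_28068814977, L_28069077057, L_28069077120, L_28069081152, L_28069335105, L_28069339200, L_28069343232, L_28069597248, L_28069601280, L_28069859328, L_28070117376, L_28085592129, L_28085592192, L_28085850177, L_28085854272, L_28085858304, L_28086112320, L_28086116352, L_28086374400, L_28086632448, L_28102365249, L_28102369344, L_28102627392, L_28102631424, L_28102889472, L_28103147520, L_28119142464, L_28119146496, L_28119404544, L_28119662592, L_28135657536, L_28135919616, L_28136177664, L_28152434688, L_28152692736, trivial⟩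

theorem L_28169207808 : HH 127 (nat_lit 28169207808, nat_lit 14) := top_sound R_28169207808
  ⟨V6_23857201152_ok, V6_22783721472_ok, V6_21726756864_ok, trivial⟩
  ⟨W_28051767296_ok, W_27011317760_ok, W_26994802688_ok, trivial⟩ C_28169207808
theorem L_28185722880 : HH 127 (nat_lit 28185722880, nat_lit 8) := top_sound R_28185722880
  ⟨V6_23857201152_ok, V6_22800236544_ok, trivial⟩
  ⟨W_28068282368_ok, W_27011317760_ok, trivial⟩ C_28185722880
theorem L_29059203201 : HH 127 (nat_lit 29059203201, nat_lit 1) := top_sound R_29059203201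
  ⟨V6_23690494080_ok, trivial⟩
  ⟨W_25837969472_ok, trivial⟩ C_29059203201
theorem L_29059203264 : HH 127 (nat_lit 29059203264, nat_lit 1) := top_sound R_29059203264
  ⟨V6_23690494080_ok, trivial⟩
  ⟨W_25837973504_ok, trivial⟩ C_29059203264
theorem L_29075972226 : HH 127 (nat_lit 29075972226, nat_lit 1) := top_sound R_29075972226
  ⟨V6_23690485890_ok, trivial⟩
  ⟨W_26911187072_ok, trivial⟩ C_29075972226
theorem L_29075976321 : HH 127 (nat_lit 29075976321, nat_lit 1) := top_sound R_29075976321
  ⟨V6_22633525377_ok, trivial⟩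
  ⟨W_25854484544_ok, trivial⟩ C_29075976321
theorem L_29075980353 : HH 127 (nat_lit 29075980353, nat_lit 1) := top_sound R_29075980353
  ⟨V6_22633529409_ok, trivial⟩
  ⟨W_25854742592_ok, trivial⟩ C_29075980353
theorem L_29075980416 : HH 127 (nat_lit 29075980416, nat_lit 5) := top_sound R_29075980416
  ⟨V6_24764235840_ok, V6_23690494080_ok, trivial⟩
  ⟨W_26911711232_ok, W_25854746624_ok, trivial⟩ C_29075980416
theorem L_29076234369 : HH 127 (nat_lit 29076234369, nat_lit 1) := top_sound R_29076234369
  ⟨V6_25854222465_ok, trivial⟩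
  ⟨W_23707525184_ok, trivial⟩ C_29076234369
theorem L_29076238401 : HH 127 (nat_lit 29076238401, nat_lit 2) := top_sound R_29076238401
  ⟨V6_25855004736_ok, trivial⟩
  ⟨W_24781004864_ok, trivial⟩ C_29076238401
theorem L_29076238464 : HH 127 (nat_lit 29076238464, nat_lit 2) := top_sound R_29076238464
  ⟨V6_24781271040_ok, trivial⟩
  ⟨W_26928226304_ok, W_25854484544_ok, trivial⟩ C_29076238464
theorem L_29076242496 : HH 127 (nat_lit 29076242496, nat_lit 3) := top_sound R_29076242496
  ⟨V6_25855004736_ok, V6_24781271040_ok, trivial⟩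
  ⟨W_26928484352_ok, W_23707271168_ok, trivial⟩ C_29076242496
theorem L_29092487298 : HH 127 (nat_lit 29092487298, nat_lit 1) := top_sound R_29092487298
  ⟨V6_23723516034_ok, trivial⟩
  ⟨W_26911187072_ok, trivial⟩ C_29092487298
theorem L_29092749441 : HH 127 (nat_lit 29092749441, nat_lit 5) := top_sound R_29092749441
  ⟨V6_22650298497_ok, trivial⟩
  ⟨W_27984928832_ok, W_26911187072_ok, W_25870999616_ok, W_25837969472_ok, trivial⟩ C_29092749441
theorem L_29092753473 : HH 127 (nat_lit 29092753473, nat_lit 2) := top_sound R_29092753473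
  ⟨V6_26928484416_ok, trivial⟩
  ⟨W_26928222272_ok, W_25837969472_ok, trivial⟩ C_29092753473
theorem L_29092753536 : HH 127 (nat_lit 29092753536, nat_lit 9) := top_sound R_29092753536
  ⟨V6_26928488448_ok, V6_24764231808_ok, trivial⟩
  ⟨W_24797782016_ok, W_24764227712_ok, W_23723778176_ok, trivial⟩ C_29092753536
theorem L_29092757568 : HH 127 (nat_lit 29092757568, nat_lit 12) := top_sound R_29092757568
  ⟨V6_24764235840_ok, V6_23724048384_ok, trivial⟩
  ⟨W_27985448960_ok, W_26928484352_ok, W_25871519744_ok, W_25854742592_ok, W_25837969472_ok, trivial⟩ C_29092757568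
theorem L_29093011521 : HH 127 (nat_lit 29093011521, nat_lit 3) := top_sound R_29093011521
  ⟨V6_25855004736_ok, V6_24781262913_ok, trivial⟩
  ⟨W_26928222272_ok, W_25870999616_ok, trivial⟩ C_29093011521
theorem L_29093011584 : HH 127 (nat_lit 29093011584, nat_lit 12) := top_sound R_29093011584
  ⟨V6_24798044160_ok, trivial⟩
  ⟨W_28001705984_ok, W_25870999616_ok, W_25854746624_ok, W_25854484544_ok, W_25854222464_ok, W_23707263104_ok, trivial⟩ C_29093011584
theorem L_29093015616 : HH 127 (nat_lit 29093015616, nat_lit 13) := top_sound R_29093015616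
  ⟨V6_24798044160_ok, trivial⟩
  ⟨W_28001964032_ok, W_26928484352_ok, W_26928222272_ok, W_25871519744_ok, W_25854742592_ok, trivial⟩ C_29093015616
theorem L_29093019648 : HH 127 (nat_lit 29093019648, nat_lit 12) := top_sound R_29093019648
  ⟨V6_22650568704_ok, trivial⟩
  ⟨W_28002222080_ok, W_26928484352_ok, W_25854746624_ok, W_24781008896_ok, trivial⟩ C_29093019648
theorem L_29093273664 : HH 127 (nat_lit 29093273664, nat_lit 12) := top_sound R_29093273664
  ⟨V6_26944741440_ok, V6_23724564480_ok, trivial⟩
  ⟨W_28018479104_ok, W_25871519744_ok, W_24797777984_ok, W_23724298304_ok, trivial⟩ C_29093273664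
theorem L_29093277696 : HH 127 (nat_lit 29093277696, nat_lit 18) := top_sound R_29093277696
  ⟨V6_22650826752_ok, trivial⟩
  ⟨W_28018737152_ok, W_26944999424_ok, W_25871777792_ok, W_25871261696_ok, trivial⟩ C_29093277696
theorem L_29109002370 : HH 127 (nat_lit 29109002370, nat_lit 2) := top_sound R_29109002370
  ⟨V6_23723516034_ok, trivial⟩
  ⟨W_29025116288_ok, W_26911187072_ok, trivial⟩ C_29109002370
theorem L_29109264513 : HH 127 (nat_lit 29109264513, nat_lit 4) := top_sound R_29109264513
  ⟨V6_26911187073_ok, V6_24814035009_ok, V6_23723778177_ok, trivial⟩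
  ⟨W_27984928832_ok, W_26927964224_ok, W_25870999616_ok, trivial⟩ C_29109264513
theorem L_29109268545 : HH 127 (nat_lit 29109268545, nat_lit 1) := top_sound R_29109268545
  ⟨V6_22666817601_ok, trivial⟩
  ⟨W_26928222272_ok, trivial⟩ C_29109268545
theorem L_29109268608 : HH 127 (nat_lit 29109268608, nat_lit 3) := top_sound R_29109268608
  ⟨V6_27985190976_ok, V6_26928230400_ok, V6_26911449216_ok, trivial⟩
  ⟨W_25871261696_ok, trivial⟩ C_29109268608
theorem L_29109526593 : HH 127 (nat_lit 29109526593, nat_lit 5) := top_sound R_29109526593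
  ⟨V6_26944741440_ok, V6_23740813377_ok, trivial⟩
  ⟨W_24814293056_ok, W_23740813376_ok, trivial⟩ C_29109526593
theorem L_29109526656 : HH 127 (nat_lit 29109526656, nat_lit 19) := top_sound R_29109526656
  ⟨V6_26961518592_ok, V6_26928488448_ok, V6_24814035072_ok, trivial⟩
  ⟨W_26911711232_ok, W_25887776768_ok, W_24797782016_ok, W_24764227712_ok, trivial⟩ C_29109526656
theorem L_29109530688 : HH 127 (nat_lit 29109530688, nat_lit 22) := top_sound R_29109530688
  ⟨V6_26928484416_ok, V6_26911715328_ok, V6_23740821504_ok, trivial⟩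
  ⟨W_29058928640_ok, W_27985448960_ok, W_27985190912_ok, W_26911711232_ok, W_25888034816_ok, W_25871261696_ok, W_25837969472_ok, W_24814293056_ok, trivial⟩ C_29109530688
theorem L_29109534720 : HH 127 (nat_lit 29109534720, nat_lit 21) := top_sound R_29109534720
  ⟨V6_23724048384_ok, V6_22667083776_ok, trivial⟩
  ⟨W_29059186688_ok, W_28002222080_ok, W_27985448960_ok, W_26911711232_ok, W_25888292864_ok, W_24764235776_ok, trivial⟩ C_29109534720
theorem L_29109784641 : HH 127 (nat_lit 29109784641, nat_lit 2) := top_sound R_29109784641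
  ⟨V6_22667333697_ok, trivial⟩
  ⟨W_26928222272_ok, W_25887772736_ok, trivial⟩ C_29109784641
theorem L_29109788736 : HH 127 (nat_lit 29109788736, nat_lit 30) := top_sound R_29109788736
  ⟨V6_26961518592_ok, V6_26944741440_ok, V6_24798044160_ok, trivial⟩
  ⟨W_29075443712_ok, W_26928484352_ok, W_26928222272_ok, W_24814293056_ok, W_24798040064_ok, W_24797782016_ok, W_24781262912_ok, W_23740813376_ok, W_22667333696_ok, trivial⟩ C_29109788736
theorem L_29109792768 : HH 127 (nat_lit 29109792768, nat_lit 30) := top_sound R_29109792768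
  ⟨V6_24798044160_ok, V6_23740821504_ok, trivial⟩
  ⟨W_29075701760_ok, W_28018737152_ok, W_25888034816_ok, W_25871777792_ok, W_24814813184_ok, W_24798040064_ok, trivial⟩ C_29109792768
theorem L_29110046784 : HH 127 (nat_lit 29110046784, nat_lit 12) := top_sound R_29110046784
  ⟨V6_22667595840_ok, trivial⟩
  ⟨W_28034994176_ok, W_26961514496_ok, W_26944999424_ok, W_24814293056_ok, trivial⟩ C_29110046784
theorem L_29110050816 : HH 127 (nat_lit 29110050816, nat_lit 40) := top_sound R_29110050816
  ⟨V6_23741337600_ok, V6_23724564480_ok, trivial⟩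
  ⟨W_29092216832_ok, W_28035252224_ok, W_28018737152_ok, W_25888292864_ok, W_25887776768_ok, W_25871261696_ok, W_24798298112_ok, trivial⟩ C_29110050816
theorem L_29110308864 : HH 127 (nat_lit 29110308864, nat_lit 16) := top_sound R_29110308864
  ⟨V6_29108736000_ok, V6_23741595648_ok, V6_22667857920_ok, trivial⟩
  ⟨W_29108731904_ok, W_28035252224_ok, W_28034994176_ok, W_25888034816_ok, trivial⟩ C_29110308864
theorem L_29125779585 : HH 127 (nat_lit 29125779585, nat_lit 4) := top_sound R_29125779585
  ⟨V6_24814035072_ok, trivial⟩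
  ⟨W_29025116288_ok, W_27984928832_ok, W_25870999616_ok, trivial⟩ C_29125779585
theorem L_29126041665 : HH 127 (nat_lit 29126041665, nat_lit 4) := top_sound R_29126041665
  ⟨V6_25904549952_ok, V6_24814035009_ok, V6_23757328449_ok, trivial⟩
  ⟨W_27984928832_ok, W_26928222272_ok, W_25870999616_ok, trivial⟩ C_29126041665
theorem L_29126041728 : HH 127 (nat_lit 29126041728, nat_lit 16) := top_sound R_29126041728
  ⟨V6_29041893504_ok, V6_24831074304_ok, trivial⟩
  ⟨W_29058670592_ok, W_24830812160_ok, W_23740293248_ok, W_23723778176_ok, W_22683328640_ok, trivial⟩ C_29126041728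
theorem L_29126045760 : HH 127 (nat_lit 29126045760, nat_lit 10) := top_sound R_29126045760
  ⟨V6_24831074304_ok, trivial⟩
  ⟨W_29058928640_ok, W_27985190912_ok, W_26928222272_ok, W_24831070208_ok, trivial⟩ C_29126045760
theorem L_29126299713 : HH 127 (nat_lit 29126299713, nat_lit 1) := top_sound R_29126299713
  ⟨V6_23757328449_ok, trivial⟩
  ⟨W_26928222272_ok, trivial⟩ C_29126299713
theorem L_29126303808 : HH 127 (nat_lit 29126303808, nat_lit 41) := top_sound R_29126303808
  ⟨V6_25904553984_ok, V6_25904549952_ok, V6_24831074304_ok, trivial⟩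
  ⟨W_29075443712_ok, W_29058928640_ok, W_29058670592_ok, W_27985448960_ok, W_26928484352_ok, W_26911711232_ok, W_25837969472_ok, W_24797782016_ok, W_22683852800_ok, trivial⟩ C_29126303808
theorem L_29126307840 : HH 127 (nat_lit 29126307840, nat_lit 41) := top_sound R_29126307840
  ⟨V6_23740821504_ok, V6_22683856896_ok, trivial⟩
  ⟨W_29075701760_ok, W_29059186688_ok, W_29058928640_ok, W_28018737152_ok, W_28001964032_ok, W_27985448960_ok, W_26928484352_ok, W_26911711232_ok, W_25888292864_ok, W_24831070208_ok, trivial⟩ C_29126307840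
theorem L_29126561856 : HH 127 (nat_lit 29126561856, nat_lit 20) := top_sound R_29126561856
  ⟨V6_28051771392_ok, V6_28035256320_ok, V6_26961514560_ok, V6_26928746496_ok, V6_26928484416_ok, V6_25904549952_ok, V6_24831070272_ok, trivial⟩
  ⟨W_24798040064_ok, W_24781262912_ok, W_22684110848_ok, W_22667333696_ok, trivial⟩ C_29126561856
theorem L_29126565888 : HH 127 (nat_lit 29126565888, nat_lit 62) := top_sound R_29126565888
  ⟨V6_25904553984_ok, V6_24831590400_ok, V6_24831074304_ok, trivial⟩
  ⟨W_29075701760_ok, W_28002222080_ok, W_25888292864_ok, W_25871777792_ok, W_24781266944_ok, W_23757848576_ok, W_23724302336_ok, W_22683852800_ok, trivial⟩ C_29126565888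
theorem L_29126823936 : HH 127 (nat_lit 29126823936, nat_lit 50) := top_sound R_29126823936
  ⟨V6_24831590400_ok, V6_24798302208_ok, V6_23741337600_ok, trivial⟩
  ⟨W_29108731904_ok, W_29092216832_ok, W_25904549888_ok, W_25888292864_ok, W_24831070208_ok, W_23757848576_ok, trivial⟩ C_29126823936
theorem L_29127081984 : HH 127 (nat_lit 29127081984, nat_lit 23) := top_sound R_29127081984
  ⟨V6_24831590400_ok, V6_23741595648_ok, trivial⟩
  ⟨W_29125246976_ok, W_29108731904_ok, W_28035252224_ok, W_21610889216_ok, trivial⟩ C_29127081984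
theorem L_29142556737 : HH 127 (nat_lit 29142556737, nat_lit 3) := top_sound R_29142556737
  ⟨V6_22700105793_ok, trivial⟩
  ⟨W_27984928832_ok, W_26927964224_ok, W_25887772736_ok, trivial⟩ C_29142556737
theorem L_29142556800 : HH 127 (nat_lit 29142556800, nat_lit 13) := top_sound R_29142556800
  ⟨V6_24847589376_ok, V6_24814035072_ok, trivial⟩
  ⟨W_29058670592_ok, W_27984928832_ok, W_26911187072_ok, W_24830812160_ok, trivial⟩ C_29142556800
theorem L_29142814785 : HH 127 (nat_lit 29142814785, nat_lit 1) := top_sound R_29142814785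
  ⟨V6_23757328449_ok, trivial⟩
  ⟨W_26928222272_ok, trivial⟩ C_29142814785
theorem L_29142818880 : HH 127 (nat_lit 29142818880, nat_lit 29) := top_sound R_29142818880
  ⟨V6_24831074304_ok, V6_23774105664_ok, trivial⟩
  ⟨W_29075443712_ok, W_29058670592_ok, W_25904549888_ok, W_24830812160_ok, W_23773847552_ok, trivial⟩ C_29142818880
theorem L_29142822912 : HH 127 (nat_lit 29142822912, nat_lit 20) := top_sound R_29142822912
  ⟨V6_25921585152_ok, V6_22700371968_ok, trivial⟩
  ⟨W_28018737152_ok, W_25904807936_ok, W_25871261696_ok, trivial⟩ C_29142822912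
theorem L_29143076928 : HH 127 (nat_lit 29143076928, nat_lit 23) := top_sound R_29143076928
  ⟨V6_25921327104_ok, V6_23774105664_ok, trivial⟩
  ⟨W_29075443712_ok, W_29058928640_ok, W_28034994176_ok, W_28001964032_ok, W_27985448960_ok, W_26928484352_ok, W_26928222272_ok, W_25854742592_ok, W_24831070208_ok, trivial⟩ C_29143076928
theorem L_29143080960 : HH 127 (nat_lit 29143080960, nat_lit 71) := top_sound R_29143080960
  ⟨V6_26928488448_ok, V6_25921327104_ok, V6_25904553984_ok, V6_24847589376_ok, V6_24831074304_ok, trivial⟩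
  ⟨W_29059186688_ok, W_28002222080_ok, W_26911711232_ok, W_25921323008_ok, W_25888292864_ok, W_24847843328_ok, W_24797782016_ok, W_22683852800_ok, trivial⟩ C_29143080960
theorem L_29143339008 : HH 127 (nat_lit 29143339008, nat_lit 59) := top_sound R_29143339008
  ⟨V6_28068544512_ok, V6_25921585152_ok, V6_25921327104_ok, V6_24831590400_ok, trivial⟩
  ⟨W_26928484352_ok, W_25888292864_ok, W_25871777792_ok, W_24847843328_ok, W_24831070208_ok, W_24798040064_ok, W_23757848576_ok, trivial⟩ C_29143339008
theorem L_29143597056 : HH 127 (nat_lit 29143597056, nat_lit 44) := top_sound R_29143597056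
  ⟨V6_25921585152_ok, V6_25872039936_ok, V6_24831590400_ok, trivial⟩
  ⟨W_29108731904_ok, W_29092216832_ok, W_28068282368_ok, W_28018737152_ok, W_24798298112_ok, W_21627404288_ok, trivial⟩ C_29143597056
theorem L_29159333952 : HH 127 (nat_lit 29159333952, nat_lit 19) := top_sound R_29159333952
  ⟨V6_29058670656_ok, V6_23790624768_ok, V6_23790620736_ok, trivial⟩
  ⟨W_29075443712_ok, W_29058670592_ok, W_28018479104_ok, W_28001705984_ok, W_27984928832_ok, W_26927964224_ok, W_25904549888_ok, W_25887772736_ok, trivial⟩ C_29159333952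
theorem L_29159592000 : HH 127 (nat_lit 29159592000, nat_lit 16) := top_sound R_29159592000
  ⟨V6_28001964096_ok, V6_23790620736_ok, V6_22717141056_ok, trivial⟩
  ⟨W_29075443712_ok, W_28034994176_ok, W_28018479104_ok, W_26978029568_ok, W_25921064960_ok, W_25888034816_ok, trivial⟩ C_29159592000
theorem L_29159596032 : HH 127 (nat_lit 29159596032, nat_lit 51) := top_sound R_29159596032
  ⟨V6_24847589376_ok, V6_24831074304_ok, V6_23790624768_ok, trivial⟩
  ⟨W_29075701760_ok, W_29075443712_ok, W_29058928640_ok, W_29058670592_ok, W_28018737152_ok, W_27985190912_ok, W_25921323008_ok, W_24847843328_ok, W_23790878720_ok, trivial⟩ C_29159596032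
theorem L_29159854080 : HH 127 (nat_lit 29159854080, nat_lit 66) := top_sound R_29159854080
  ⟨V6_29059190784_ok, V6_28051771392_ok, V6_27011579904_ok, V6_26994806784_ok, V6_25938100224_ok, V6_25937842176_ok, V6_25921327104_ok, V6_24864362496_ok, trivial⟩
  ⟨W_29059186688_ok, W_27985448960_ok, W_25888292864_ok, W_24864358400_ok, W_24847843328_ok, W_24831070208_ok, W_23790878720_ok, trivial⟩ C_29159854080
theorem L_29160112128 : HH 127 (nat_lit 29160112128, nat_lit 50) := top_sound R_29160112128
  ⟨V6_24831590400_ok, V6_22717661184_ok, trivial⟩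
  ⟨W_29125246976_ok, W_29108731904_ok, W_29092216832_ok, W_29075701760_ok, W_28068282368_ok, W_28018737152_ok, W_28002222080_ok, W_25921323008_ok, W_24864358400_ok, trivial⟩ C_29160112128
theorem L_29176107072 : HH 127 (nat_lit 29176107072, nat_lit 9) := top_sound R_29176107072
  ⟨V6_24847585344_ok, V6_23790620736_ok, trivial⟩
  ⟨W_29075443712_ok, W_28034994176_ok, W_28018479104_ok, W_24864100352_ok, trivial⟩ C_29176107072
theorem L_29176111104 : HH 127 (nat_lit 29176111104, nat_lit 31) := top_sound R_29176111104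
  ⟨V6_24881135616_ok, V6_23790624768_ok, trivial⟩
  ⟨W_29092216832_ok, W_29075443712_ok, W_29058670592_ok, W_28035252224_ok, W_25921323008_ok, W_25887776768_ok, trivial⟩ C_29176111104
theorem L_29176369152 : HH 127 (nat_lit 29176369152, nat_lit 48) := top_sound R_29176369152
  ⟨V6_26994806784_ok, V6_25954615296_ok, V6_25937842176_ok, V6_24881135616_ok, V6_24880877568_ok, V6_24864362496_ok, trivial⟩
  ⟨W_29108731904_ok, W_29092216832_ok, W_29075701760_ok, W_29058928640_ok, W_28018737152_ok, W_28001964032_ok, W_24847843328_ok, W_23790878720_ok, trivial⟩ C_29176369152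
theorem L_29176627200 : HH 127 (nat_lit 29176627200, nat_lit 49) := top_sound R_29176627200
  ⟨V6_27011579904_ok, V6_25954615296_ok, V6_25938100224_ok, V6_24881135616_ok, trivial⟩
  ⟨W_29075701760_ok, W_29059186688_ok, W_28068282368_ok, W_28002222080_ok, W_25888292864_ok, W_24847843328_ok, W_23790878720_ok, trivial⟩ C_29176627200
theorem L_29192622144 : HH 127 (nat_lit 29192622144, nat_lit 1) := top_sound R_29192622144
  ⟨V6_23807135808_ok, trivial⟩
  ⟨W_28034994176_ok, trivial⟩ C_29192622144
theorem L_29192884224 : HH 127 (nat_lit 29192884224, nat_lit 31) := top_sound R_29192884224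
  ⟨V6_24881135616_ok, V6_24864362496_ok, trivial⟩
  ⟨W_29092216832_ok, W_29075443712_ok, W_28051767296_ok, W_28035252224_ok, W_21676691456_ok, trivial⟩ C_29192884224
theorem L_29193142272 : HH 127 (nat_lit 29193142272, nat_lit 41) := top_sound R_29193142272
  ⟨V6_25971130368_ok, V6_25921585152_ok, V6_24881135616_ok, trivial⟩
  ⟨W_29092216832_ok, W_29075701760_ok, W_28068282368_ok, W_23790878720_ok, W_21676949504_ok, trivial⟩ C_29193142272
theorem L_29209399296 : HH 127 (nat_lit 29209399296, nat_lit 9) := top_sound R_29209399296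
  ⟨V6_29108736000_ok, V6_23823912960_ok, V6_22766948352_ok, trivial⟩
  ⟨W_28051767296_ok, W_28034994176_ok, W_26994802688_ok, trivial⟩ C_29209399296
theorem L_29209657344 : HH 127 (nat_lit 29209657344, nat_lit 29) := top_sound R_29209657344
  ⟨V6_28052029440_ok, V6_24881135616_ok, trivial⟩
  ⟨W_29125246976_ok, W_28068282368_ok, W_24864358400_ok, W_23840423936_ok, W_22766944256_ok, trivial⟩ C_29209657344
theorem L_29226172416 : HH 127 (nat_lit 29226172416, nat_lit 14) := top_sound R_29226172416
  ⟨V6_24897650688_ok, V6_22783721472_ok, trivial⟩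
  ⟨W_29125246976_ok, W_29108731904_ok, W_28068282368_ok, W_26994802688_ok, trivial⟩ C_29226172416
theorem L_29242687488 : HH 127 (nat_lit 29242687488, nat_lit 7) := top_sound R_29242687488
  ⟨V6_23857201152_ok, V6_22800236544_ok, trivial⟩
  ⟨W_29125246976_ok, W_28068282368_ok, trivial⟩ C_29242687488
theorem L_30132936834 : HH 127 (nat_lit 30132936834, nat_lit 1) := top_sound R_30132936834
  ⟨V6_23690485890_ok, trivial⟩
  ⟨W_26911187072_ok, trivial⟩ C_30132936834
theorem L_30132945024 : HH 127 (nat_lit 30132945024, nat_lit 3) := top_sound R_30132945024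
  ⟨V6_23690494080_ok, trivial⟩
  ⟨W_26911711232_ok, trivial⟩ C_30132945024
theorem L_30149714049 : HH 127 (nat_lit 30149714049, nat_lit 2) := top_sound R_30149714049
  ⟨V6_26911187073_ok, V6_25854222465_ok, trivial⟩
  ⟨W_24781004864_ok, trivial⟩ C_30149714049
theorem L_30149718081 : HH 127 (nat_lit 30149718081, nat_lit 1) := top_sound R_30149718081
  ⟨V6_26928484416_ok, trivial⟩
  ⟨W_25837969472_ok, trivial⟩ C_30149718081
theorem L_30149718144 : HH 127 (nat_lit 30149718144, nat_lit 3) := top_sound R_30149718144
  ⟨V6_26911715328_ok, trivial⟩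
  ⟨W_26928226304_ok, W_25854484544_ok, trivial⟩ C_30149718144
theorem L_30149722176 : HH 127 (nat_lit 30149722176, nat_lit 5) := top_sound R_30149722176
  ⟨V6_26911715328_ok, V6_24764235840_ok, trivial⟩
  ⟨W_27985448960_ok, W_26928484352_ok, W_23690494016_ok, trivial⟩ C_30149722176
theorem L_30149976129 : HH 127 (nat_lit 30149976129, nat_lit 2) := top_sound R_30149976129
  ⟨V6_25855004736_ok, trivial⟩
  ⟨W_26928222272_ok, W_26927964224_ok, trivial⟩ C_30149976129
theorem L_30149976192 : HH 127 (nat_lit 30149976192, nat_lit 2) := top_sound R_30149976192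
  ⟨V6_26928488448_ok, trivial⟩
  ⟨W_25854222464_ok, W_23707263104_ok, trivial⟩ C_30149976192
theorem L_30149980224 : HH 127 (nat_lit 30149980224, nat_lit 4) := top_sound R_30149980224
  ⟨V6_25855004736_ok, V6_24781271040_ok, trivial⟩
  ⟨W_28001964032_ok, W_26928226304_ok, W_26928222272_ok, trivial⟩ C_30149980224
theorem L_30149984256 : HH 127 (nat_lit 30149984256, nat_lit 1) := top_sound R_30149984256
  ⟨V6_24781271040_ok, trivial⟩
  ⟨W_28002222080_ok, trivial⟩ C_30149984256
theorem L_30165966978 : HH 127 (nat_lit 30165966978, nat_lit 2) := top_sound R_30165966978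
  ⟨V6_23723516034_ok, trivial⟩
  ⟨W_29025116288_ok, W_26911187072_ok, trivial⟩ C_30165966978
theorem L_30166229121 : HH 127 (nat_lit 30166229121, nat_lit 2) := top_sound R_30166229121
  ⟨V6_23723778177_ok, trivial⟩
  ⟨W_27984928832_ok, W_26927964224_ok, trivial⟩ C_30166229121
theorem L_30166233153 : HH 127 (nat_lit 30166233153, nat_lit 1) := top_sound R_30166233153
  ⟨V6_26944999488_ok, trivial⟩
  ⟨W_26928222272_ok, trivial⟩ C_30166233153
theorem L_30166233216 : HH 127 (nat_lit 30166233216, nat_lit 1) := top_sound R_30166233216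
  ⟨V6_26911449216_ok, trivial⟩
  ⟨W_24797523968_ok, trivial⟩ C_30166233216
theorem L_30166491201 : HH 127 (nat_lit 30166491201, nat_lit 2) := top_sound R_30166491201
  ⟨V6_26944741440_ok, trivial⟩
  ⟨W_26928222272_ok, W_25854742592_ok, trivial⟩ C_30166491201
theorem L_30166491264 : HH 127 (nat_lit 30166491264, nat_lit 13) := top_sound R_30166491264
  ⟨V6_26944741440_ok, V6_26928488448_ok, V6_26911449216_ok, trivial⟩
  ⟨W_29058670592_ok, W_26911711232_ok, W_24797782016_ok, trivial⟩ C_30166491264
theorem L_30166495296 : HH 127 (nat_lit 30166495296, nat_lit 10) := top_sound R_30166495296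
  ⟨V6_26928488448_ok, V6_26911715328_ok, trivial⟩
  ⟨W_26928222272_ok, W_24797782016_ok, trivial⟩ C_30166495296
theorem L_30166499328 : HH 127 (nat_lit 30166499328, nat_lit 14) := top_sound R_30166499328
  ⟨V6_23724048384_ok, trivial⟩
  ⟨W_29059186688_ok, W_28002222080_ok, W_26928484352_ok, W_26911711232_ok, W_24764235776_ok, trivial⟩ C_30166499328
theorem L_30166753344 : HH 127 (nat_lit 30166753344, nat_lit 14) := top_sound R_30166753344
  ⟨V6_26944741440_ok, V6_24798044160_ok, trivial⟩
  ⟨W_29075443712_ok, W_28018479104_ok, W_28001964032_ok, W_26928484352_ok, W_26928222272_ok, W_25854746624_ok, trivial⟩ C_30166753344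
theorem L_30166757376 : HH 127 (nat_lit 30166757376, nat_lit 13) := top_sound R_30166757376
  ⟨V6_24798044160_ok, V6_24781271040_ok, trivial⟩
  ⟨W_28018737152_ok, W_28002222080_ok, W_26928484352_ok, W_24781008896_ok, trivial⟩ C_30166757376
theorem L_30167011392 : HH 127 (nat_lit 30167011392, nat_lit 2) := top_sound R_30167011392
  ⟨V6_24798302208_ok, trivial⟩
  ⟨W_28018479104_ok, trivial⟩ C_30167011392
theorem L_30167015424 : HH 127 (nat_lit 30167015424, nat_lit 20) := top_sound R_30167015424
  ⟨V6_23724564480_ok, trivial⟩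
  ⟨W_29092216832_ok, W_28018737152_ok, W_28018479104_ok, W_26944999424_ok, W_25871261696_ok, trivial⟩ C_30167015424
theorem L_30182744193 : HH 127 (nat_lit 30182744193, nat_lit 3) := top_sound R_30182744193
  ⟨V6_24814035072_ok, trivial⟩
  ⟨W_29025116288_ok, W_27984928832_ok, W_26911187072_ok, trivial⟩ C_30182744193
theorem L_30183006273 : HH 127 (nat_lit 30183006273, nat_lit 2) := top_sound R_30183006273
  ⟨V6_26961514560_ok, V6_24814035009_ok, trivial⟩
  ⟨W_27984928832_ok, W_26928222272_ok, trivial⟩ C_30183006273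
theorem L_30183006336 : HH 127 (nat_lit 30183006336, nat_lit 9) := top_sound R_30183006336
  ⟨V6_29041893504_ok, V6_27985190976_ok, V6_26911449216_ok, V6_24814035072_ok, trivial⟩
  ⟨W_29058670592_ok, W_24814297088_ok, trivial⟩ C_30183006336
theorem L_30183010368 : HH 127 (nat_lit 30183010368, nat_lit 6) := top_sound R_30183010368
  ⟨V6_30132670464_ok, V6_29058932736_ok, V6_28001964096_ok, V6_27985190976_ok, V6_26928230400_ok, trivial⟩
  ⟨W_26928222272_ok, W_25888034816_ok, trivial⟩ C_30183010368
theorem L_30183264321 : HH 127 (nat_lit 30183264321, nat_lit 1) := top_sound R_30183264321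
  ⟨V6_23740813377_ok, trivial⟩
  ⟨W_26928222272_ok, trivial⟩ C_30183264321

theorem H_37 : AllH 127 tb37 :=
  ⟨L_28169207808, L_28185722880, L_29059203201, L_29059203264, L_29075972226, L_29075976321, L_29075980353, L_29075980416, L_29076234369, L_29076238401, L_29076238464, L_29076242496, L_29092487298, L_29092749441, L_29092753473, L_29092753536, L_29092757568, L_29093011521, L_29093011584, L_29093015616, L_29093019648, L_29093273664, L_29093277696, L_29109002370, L_29109264513, L_29109268545, L_29109268608, L_29109526593, L_29109526656, L_29109530688, L_29109534720, L_29109784641, L_29109788736, L_29109792768, L_29110046784, L_29110050816, L_29110308864, L_29125779585, L_29126041665, L_29126041728, L_29126045760, L_29126299713, L_29126303808, L_29126307840, L_29126561856, L_29126565888, L_29126823936, L_29127081984, L_29142556737, L_29142556800, L_29142814785, L_29142818880, L_29142822912, L_29143076928, L_29143080960, L_29143339008, L_29143597056, L_29159333952, L_29159592000, L_29159596032, L_29159854080, L_29160112128,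 L_29176107072, L_29176111104, L_29176369152, L_29176627200, L_29192622144, L_29192884224, L_29193142272, L_29209399296, L_29209657344, L_29226172416, L_29242687488, L_30132936834, L_30132945024, L_30149714049, L_30149718081, L_30149718144, L_30149722176, L_30149976129, L_30149976192, L_30149980224, L_30149984256, L_30165966978, L_30166229121, L_30166233153, L_30166233216, L_30166491201, L_30166491264, L_30166495296, L_30166499328, L_30166753344, L_30166757376, L_30167011392, L_30167015424, L_30182744193, L_30183006273, L_30183006336, L_30183010368, L_30183264321, trivial⟩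

theorem L_30183268416 : HH 127 (nat_lit 30183268416, nat_lit 24) := top_sound R_30183268416
  ⟨V6_26961518592_ok, V6_26961514560_ok, V6_26944741440_ok, V6_26928488448_ok, V6_26928484416_ok, trivial⟩
  ⟨W_30132408320_ok, W_29075443712_ok, W_29058928640_ok, W_27985448960_ok, W_26911711232_ok, W_25887776768_ok, W_24797782016_ok, trivial⟩ C_30183268416
theorem L_30183272448 : HH 127 (nat_lit 30183272448, nat_lit 25) := top_sound R_30183272448
  ⟨V6_26911715328_ok, V6_23740821504_ok, trivial⟩
  ⟨W_30132666368_ok, W_29075701760_ok, W_28018737152_ok, W_28001964032_ok, W_25888292864_ok, W_25871261696_ok, trivial⟩ C_30183272448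
theorem L_30183526464 : HH 127 (nat_lit 30183526464, nat_lit 12) := top_sound R_30183526464
  ⟨V6_28035256320_ok, V6_26961514560_ok, V6_26928484416_ok, V6_25855004736_ok, trivial⟩
  ⟨W_26928484352_ok, W_24798040064_ok, W_22667333696_ok, trivial⟩ C_30183526464
theorem L_30183530496 : HH 127 (nat_lit 30183530496, nat_lit 32) := top_sound R_30183530496
  ⟨V6_26961518592_ok, V6_26928488448_ok, V6_24798044160_ok, trivial⟩
  ⟨W_29075443712_ok, W_28018737152_ok, W_28002222080_ok, W_25888292864_ok, W_25871777792_ok, W_24814813184_ok, trivial⟩ C_30183530496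
theorem L_30183788544 : HH 127 (nat_lit 30183788544, nat_lit 26) := top_sound R_30183788544
  ⟨V6_24798302208_ok, V6_23741337600_ok, trivial⟩
  ⟨W_30165696512_ok, W_29092216832_ok, W_28035252224_ok, W_28034994176_ok, W_28018737152_ok, W_28018479104_ok, W_25871777792_ok, trivial⟩ C_30183788544
theorem L_30184046592 : HH 127 (nat_lit 30184046592, nat_lit 6) := top_sound R_30184046592
  ⟨V6_30182473728_ok, V6_23741595648_ok, trivial⟩
  ⟨W_23741333504_ok, trivial⟩ C_30184046592
theorem L_30199521345 : HH 127 (nat_lit 30199521345, nat_lit 1) := top_sound R_30199521345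
  ⟨V6_24814035009_ok, trivial⟩
  ⟨W_27984928832_ok, trivial⟩ C_30199521345
theorem L_30199521408 : HH 127 (nat_lit 30199521408, nat_lit 11) := top_sound R_30199521408
  ⟨V6_25904553984_ok, trivial⟩
  ⟨W_30115635200_ok, W_29025116288_ok, W_24830812160_ok, trivial⟩ C_30199521408
theorem L_30199779393 : HH 127 (nat_lit 30199779393, nat_lit 1) := top_sound R_30199779393
  ⟨V6_23757328449_ok, trivial⟩
  ⟨W_26928222272_ok, trivial⟩ C_30199779393
theorem L_30199783488 : HH 127 (nat_lit 30199783488, nat_lit 20) := top_sound R_30199783488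
  ⟨V6_24831074304_ok, V6_24831070272_ok, trivial⟩
  ⟨W_30115635200_ok, W_29075443712_ok, W_29058928640_ok, W_29058670592_ok, W_28018479104_ok, W_27984928832_ok, W_25887776768_ok, W_23757070400_ok, trivial⟩ C_30199783488
theorem L_30199787520 : HH 127 (nat_lit 30199787520, nat_lit 11) := top_sound R_30199787520
  ⟨V6_24831074304_ok, trivial⟩
  ⟨W_30132666368_ok, W_29058928640_ok, W_28018737152_ok, W_28001964032_ok, W_27985190912_ok, trivial⟩ C_30199787520
theorem L_30200041536 : HH 127 (nat_lit 30200041536, nat_lit 13) := top_sound R_30200041536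
  ⟨V6_28051771392_ok, V6_28001964096_ok, V6_26961514560_ok, V6_26928484416_ok, V6_25904549952_ok, V6_24831070272_ok, trivial⟩
  ⟨W_30132408320_ok, W_29075443712_ok, W_23757590528_ok, trivial⟩ C_30200041536
theorem L_30200045568 : HH 127 (nat_lit 30200045568, nat_lit 53) := top_sound R_30200045568
  ⟨V6_26961518592_ok, V6_26928488448_ok, V6_25904553984_ok, V6_24831074304_ok, trivial⟩
  ⟨W_30132408320_ok, W_29059186688_ok, W_28018737152_ok, W_28002222080_ok, W_25888292864_ok, W_24831070208_ok, W_22683852800_ok, trivial⟩ C_30200045568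
theorem L_30200303616 : HH 127 (nat_lit 30200303616, nat_lit 39) := top_sound R_30200303616
  ⟨V6_29125509120_ok, V6_29108736000_ok, V6_28052029440_ok, V6_28051771392_ok, V6_26928746496_ok, V6_24831590400_ok, trivial⟩
  ⟨W_26928484352_ok, W_25888292864_ok, W_24831070208_ok, W_24798040064_ok, W_23757848576_ok, trivial⟩ C_30200303616
theorem L_30200561664 : HH 127 (nat_lit 30200561664, nat_lit 33) := top_sound R_30200561664
  ⟨V6_29125509120_ok, V6_25872039936_ok, V6_24831590400_ok, trivial⟩
  ⟨W_30182211584_ok, W_24798298112_ok, W_23757848576_ok, W_23741333504_ok, trivial⟩ C_30200561664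
theorem L_30216298560 : HH 127 (nat_lit 30216298560, nat_lit 14) := top_sound R_30216298560
  ⟨V6_24847589376_ok, V6_24847585344_ok, trivial⟩
  ⟨W_30132408320_ok, W_30115635200_ok, W_29075443712_ok, W_29058670592_ok, W_27984928832_ok, W_25904549888_ok, trivial⟩ C_30216298560
theorem L_30216556608 : HH 127 (nat_lit 30216556608, nat_lit 11) := top_sound R_30216556608
  ⟨V6_28001964096_ok, V6_23774105664_ok, trivial⟩
  ⟨W_28034994176_ok, W_26978029568_ok, W_25921064960_ok, W_25904549888_ok, trivial⟩ C_30216556608
theorem L_30216560640 : HH 127 (nat_lit 30216560640, nat_lit 37) := top_sound R_30216560640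
  ⟨V6_24847589376_ok, V6_24831074304_ok, trivial⟩
  ⟨W_30132666368_ok, W_30132408320_ok, W_30115635200_ok, W_29075443712_ok, W_29058928640_ok, W_29058670592_ok, W_28018737152_ok, W_28001964032_ok, W_26978287616_ok, W_25921323008_ok, trivial⟩ C_30216560640
theorem L_30216818688 : HH 127 (nat_lit 30216818688, nat_lit 48) := top_sound R_30216818688
  ⟨V6_30132928512_ok, V6_29059190784_ok, V6_28068544512_ok, V6_28051771392_ok, V6_26994806784_ok, V6_25921585152_ok, V6_25921327104_ok, trivial⟩
  ⟨W_29059186688_ok, W_27985448960_ok, W_25921323008_ok, W_25888292864_ok, W_24847843328_ok, W_24831070208_ok, trivial⟩ C_30216818688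
theorem L_30217076736 : HH 127 (nat_lit 30217076736, nat_lit 34) := top_sound R_30217076736
  ⟨V6_25921585152_ok, V6_24831590400_ok, trivial⟩
  ⟨W_30149181440_ok, W_29125246976_ok, W_29092216832_ok, W_29075701760_ok, W_28068282368_ok, W_28002222080_ok, W_25871777792_ok, W_24814813184_ok, trivial⟩ C_30217076736
theorem L_30233071680 : HH 127 (nat_lit 30233071680, nat_lit 6) := top_sound R_30233071680
  ⟨V6_26961514560_ok, V6_23790620736_ok, trivial⟩
  ⟨W_30132408320_ok, W_25921064960_ok, W_24864100352_ok, trivial⟩ C_30233071680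
theorem L_30233075712 : HH 127 (nat_lit 30233075712, nat_lit 28) := top_sound R_30233075712
  ⟨V6_24847589376_ok, V6_23790624768_ok, trivial⟩
  ⟨W_30149181440_ok, W_30132408320_ok, W_30115635200_ok, W_29092216832_ok, W_29075443712_ok, W_29058670592_ok, W_28018479104_ok, W_25921323008_ok, trivial⟩ C_30233075712
theorem L_30233333760 : HH 127 (nat_lit 30233333760, nat_lit 37) := top_sound R_30233333760
  ⟨V6_26994806784_ok, V6_25938100224_ok, V6_25937842176_ok, V6_24864362496_ok, trivial⟩
  ⟨W_30132666368_ok, W_30132408320_ok, W_29108731904_ok, W_29092216832_ok, W_29075701760_ok, W_29058928640_ok, W_28018737152_ok, W_23790878720_ok, trivial⟩ C_30233333760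
theorem L_30233591808 : HH 127 (nat_lit 30233591808, nat_lit 46) := top_sound R_30233591808
  ⟨V6_30132928512_ok, V6_27011579904_ok, V6_25938100224_ok, V6_25921585152_ok, trivial⟩
  ⟨W_29059186688_ok, W_28068282368_ok, W_25888292864_ok, W_24864358400_ok, W_23790878720_ok, trivial⟩ C_30233591808
theorem L_30249586752 : HH 127 (nat_lit 30249586752, nat_lit 1) := top_sound R_30249586752
  ⟨V6_23807135808_ok, trivial⟩
  ⟨W_28034994176_ok, trivial⟩ C_30249586752
theorem L_30249848832 : HH 127 (nat_lit 30249848832, nat_lit 26) := top_sound R_30249848832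
  ⟨V6_29108736000_ok, V6_26994806784_ok, V6_24881135616_ok, V6_24880877568_ok, trivial⟩
  ⟨W_30165696512_ok, W_30149181440_ok, W_29108731904_ok, W_29092216832_ok, W_29075443712_ok, W_23790620672_ok, trivial⟩ C_30249848832
theorem L_30250106880 : HH 127 (nat_lit 30250106880, nat_lit 33) := top_sound R_30250106880
  ⟨V6_25921585152_ok, V6_24881135616_ok, trivial⟩
  ⟨W_30182211584_ok, W_30149181440_ok, W_30132666368_ok, W_29125246976_ok, W_29108731904_ok, W_29075701760_ok, W_28068282368_ok, W_22733914112_ok, trivial⟩ C_30250106880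
theorem L_30266363904 : HH 127 (nat_lit 30266363904, nat_lit 6) := top_sound R_30266363904
  ⟨V6_24897650688_ok, V6_23823912960_ok, trivial⟩
  ⟨W_30165696512_ok, W_29108731904_ok, W_28034994176_ok, trivial⟩ C_30266363904
theorem L_30266621952 : HH 127 (nat_lit 30266621952, nat_lit 29) := top_sound R_30266621952
  ⟨V6_25971130368_ok, V6_24897650688_ok, V6_24881135616_ok, trivial⟩
  ⟨W_30182211584_ok, W_30165696512_ok, W_30149181440_ok, W_29125246976_ok, W_29092216832_ok, W_25921323008_ok, trivial⟩ C_30266621952
theorem L_30283137024 : HH 127 (nat_lit 30283137024, nat_lit 14) := top_sound R_30283137024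
  ⟨V6_25971130368_ok, V6_24897650688_ok, trivial⟩
  ⟨W_30165696512_ok, W_29125246976_ok, W_29108731904_ok, W_28051767296_ok, trivial⟩ C_30283137024
theorem L_30299652096 : HH 127 (nat_lit 30299652096, nat_lit 9) := top_sound R_30299652096
  ⟨V6_25971130368_ok, V6_23857201152_ok, trivial⟩
  ⟨W_30182211584_ok, W_29125246976_ok, W_28068282368_ok, trivial⟩ C_30299652096
theorem L_31206678657 : HH 127 (nat_lit 31206678657, nat_lit 1) := top_sound R_31206678657
  ⟨V6_26911187073_ok, trivial⟩
  ⟨W_27984928832_ok, trivial⟩ C_31206678657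
theorem L_31206682752 : HH 127 (nat_lit 31206682752, nat_lit 1) := top_sound R_31206682752
  ⟨V6_24764231808_ok, trivial⟩
  ⟨W_27985190912_ok, trivial⟩ C_31206682752
theorem L_31206686784 : HH 127 (nat_lit 31206686784, nat_lit 2) := top_sound R_31206686784
  ⟨V6_24764235840_ok, trivial⟩
  ⟨W_27985448960_ok, trivial⟩ C_31206686784
theorem L_31222931586 : HH 127 (nat_lit 31222931586, nat_lit 1) := top_sound R_31222931586
  ⟨V6_25854222465_ok, trivial⟩
  ⟨W_29025116288_ok, trivial⟩ C_31222931586
theorem L_31223193729 : HH 127 (nat_lit 31223193729, nat_lit 1) := top_sound R_31223193729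
  ⟨V6_25854222465_ok, trivial⟩
  ⟨W_27984928832_ok, trivial⟩ C_31223193729
theorem L_31223455809 : HH 127 (nat_lit 31223455809, nat_lit 1) := top_sound R_31223455809
  ⟨V6_26928484416_ok, trivial⟩
  ⟨W_27984928832_ok, trivial⟩ C_31223455809
theorem L_31223455872 : HH 127 (nat_lit 31223455872, nat_lit 5) := top_sound R_31223455872
  ⟨V6_26928488448_ok, trivial⟩
  ⟨W_29058670592_ok, W_27984928832_ok, W_26911187072_ok, W_24764227712_ok, trivial⟩ C_31223455872
theorem L_31223459904 : HH 127 (nat_lit 31223459904, nat_lit 5) := top_sound R_31223459904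
  ⟨V6_26928484416_ok, V6_26911715328_ok, trivial⟩
  ⟨W_28001964032_ok, W_26911711232_ok, trivial⟩ C_31223459904
theorem L_31223463936 : HH 127 (nat_lit 31223463936, nat_lit 5) := top_sound R_31223463936
  ⟨V6_26928488448_ok, trivial⟩
  ⟨W_29059186688_ok, W_24764235776_ok, trivial⟩ C_31223463936
theorem L_31223713857 : HH 127 (nat_lit 31223713857, nat_lit 1) := top_sound R_31223713857
  ⟨V6_24781262913_ok, trivial⟩
  ⟨W_26928222272_ok, trivial⟩ C_31223713857
theorem L_31223717952 : HH 127 (nat_lit 31223717952, nat_lit 4) := top_sound R_31223717952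
  ⟨V6_26928484416_ok, V6_25855004736_ok, trivial⟩
  ⟨W_29075443712_ok, W_28001705984_ok, trivial⟩ C_31223717952
theorem L_31223721984 : HH 127 (nat_lit 31223721984, nat_lit 2) := top_sound R_31223721984
  ⟨V6_24781271040_ok, trivial⟩
  ⟨W_28001964032_ok, trivial⟩ C_31223721984
theorem L_31239708801 : HH 127 (nat_lit 31239708801, nat_lit 2) := top_sound R_31239708801
  ⟨V6_26911187073_ok, V6_25854222465_ok, trivial⟩
  ⟨W_25870999616_ok, trivial⟩ C_31239708801
theorem L_31239970881 : HH 127 (nat_lit 31239970881, nat_lit 1) := top_sound R_31239970881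
  ⟨V6_26944999488_ok, trivial⟩
  ⟨W_27984928832_ok, trivial⟩ C_31239970881
theorem L_31239970944 : HH 127 (nat_lit 31239970944, nat_lit 6) := top_sound R_31239970944
  ⟨V6_28018483200_ok, trivial⟩
  ⟨W_26911187072_ok, W_25871261696_ok, trivial⟩ C_31239970944
theorem L_31239974976 : HH 127 (nat_lit 31239974976, nat_lit 2) := top_sound R_31239974976
  ⟨V6_26944999488_ok, V6_26928230400_ok, trivial⟩
  ⟨W_29058928640_ok, W_27985190912_ok, trivial⟩ C_31239974976
theorem L_31240233024 : HH 127 (nat_lit 31240233024, nat_lit 13) := top_sound R_31240233024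
  ⟨V6_28018483200_ok, V6_26944741440_ok, V6_26928484416_ok, trivial⟩
  ⟨W_29058928640_ok, W_27985448960_ok, W_26911711232_ok, W_24797782016_ok, trivial⟩ C_31240233024
theorem L_31240237056 : HH 127 (nat_lit 31240237056, nat_lit 14) := top_sound R_31240237056
  ⟨V6_30132928512_ok, V6_26928488448_ok, V6_26911715328_ok, trivial⟩
  ⟨W_28018737152_ok, W_24797782016_ok, trivial⟩ C_31240237056
theorem L_31240491072 : HH 127 (nat_lit 31240491072, nat_lit 4) := top_sound R_31240491072
  ⟨V6_26928484416_ok, V6_25855004736_ok, trivial⟩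
  ⟨W_29075443712_ok, W_28018479104_ok, trivial⟩ C_31240491072
theorem L_31240495104 : HH 127 (nat_lit 31240495104, nat_lit 17) := top_sound R_31240495104
  ⟨V6_24798044160_ok, trivial⟩
  ⟨W_29092216832_ok, W_29075443712_ok, W_28018737152_ok, W_28002222080_ok, W_26928484352_ok, trivial⟩ C_31240495104
theorem L_31240753152 : HH 127 (nat_lit 31240753152, nat_lit 11) := top_sound R_31240753152
  ⟨V6_24798302208_ok, trivial⟩
  ⟨W_30165696512_ok, W_28018737152_ok, W_28018479104_ok, trivial⟩ C_31240753152
theorem L_31256485953 : HH 127 (nat_lit 31256485953, nat_lit 1) := top_sound R_31256485953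
  ⟨V6_24814035009_ok, trivial⟩
  ⟨W_27984928832_ok, trivial⟩ C_31256485953
theorem L_31256486016 : HH 127 (nat_lit 31256486016, nat_lit 7) := top_sound R_31256486016
  ⟨V6_30098858112_ok, V6_24814035072_ok, trivial⟩
  ⟨W_31172599808_ok, W_25887776768_ok, trivial⟩ C_31256486016
theorem L_31256748096 : HH 127 (nat_lit 31256748096, nat_lit 12) := top_sound R_31256748096
  ⟨V6_26961518592_ok, V6_26944741440_ok, trivial⟩
  ⟨W_30132408320_ok, W_29075443712_ok, W_24814297088_ok, W_24814293056_ok, trivial⟩ C_31256748096
theorem L_31256752128 : HH 127 (nat_lit 31256752128, nat_lit 7) := top_sound R_31256752128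
  ⟨V6_30149443584_ok, V6_30132670464_ok, V6_29058932736_ok, V6_26928230400_ok, trivial⟩
  ⟨W_29058928640_ok, W_25871261696_ok, W_24797523968_ok, trivial⟩ C_31256752128
theorem L_31257006144 : HH 127 (nat_lit 31257006144, nat_lit 8) := top_sound R_31257006144
  ⟨V6_28035256320_ok, V6_26928484416_ok, trivial⟩
  ⟨W_29058928640_ok, W_27985448960_ok, W_26928222272_ok, W_25854742592_ok, W_23740813376_ok, trivial⟩ C_31257006144
theorem L_31257010176 : HH 127 (nat_lit 31257010176, nat_lit 31) := top_sound R_31257010176
  ⟨V6_28035256320_ok, V6_28018483200_ok, V6_26961518592_ok, V6_26928488448_ok, trivial⟩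
  ⟨W_29059186688_ok, W_28018737152_ok, W_28002222080_ok, W_25888292864_ok, W_24797782016_ok, trivial⟩ C_31257010176
theorem L_31257268224 : HH 127 (nat_lit 31257268224, nat_lit 22) := top_sound R_31257268224
  ⟨V6_30182473728_ok, V6_30165958656_ok, V6_30149185536_ok, V6_29108736000_ok, V6_28035256320_ok, V6_26928746496_ok, trivial⟩
  ⟨W_25888292864_ok, W_25871777792_ok, W_24814813184_ok, W_24798040064_ok, trivial⟩ C_31257268224
theorem L_31257526272 : HH 127 (nat_lit 31257526272, nat_lit 16) := top_sound R_31257526272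
  ⟨V6_30165958656_ok, V6_25872039936_ok, trivial⟩
  ⟨W_24814813184_ok, W_24798298112_ok, W_23741333504_ok, trivial⟩ C_31257526272
theorem L_31273263168 : HH 127 (nat_lit 31273263168, nat_lit 10) := top_sound R_31273263168
  ⟨V6_25904553984_ok, V6_25904549952_ok, trivial⟩
  ⟨W_31172599808_ok, W_30132408320_ok, W_30115635200_ok, W_29075443712_ok, W_29058670592_ok, W_27984928832_ok, W_26927964224_ok, W_25887772736_ok, trivial⟩ C_31273263168
theorem L_31273521216 : HH 127 (nat_lit 31273521216, nat_lit 6) := top_sound R_31273521216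
  ⟨V6_24831070272_ok, trivial⟩
  ⟨W_30132408320_ok, W_28034994176_ok, W_28018479104_ok, W_26978029568_ok, trivial⟩ C_31273521216
theorem L_31273525248 : HH 127 (nat_lit 31273525248, nat_lit 27) := top_sound R_31273525248
  ⟨V6_25904553984_ok, V6_24831074304_ok, trivial⟩
  ⟨W_31206146048_ok, W_30132666368_ok, W_30132408320_ok, W_30115635200_ok, W_29092216832_ok, W_29075443712_ok, W_28018737152_ok, W_26978287616_ok, trivial⟩ C_31273525248
theorem L_31273783296 : HH 127 (nat_lit 31273783296, nat_lit 34) := top_sound R_31273783296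
  ⟨V6_30132928512_ok, V6_29125509120_ok, V6_29108736000_ok, V6_29059190784_ok, V6_28052029440_ok, V6_28051771392_ok, V6_28035256320_ok, trivial⟩
  ⟨W_30132408320_ok, W_29059186688_ok, W_26928484352_ok, W_25904549888_ok, W_25888292864_ok, W_24831070208_ok, trivial⟩ C_31273783296
theorem L_31274041344 : HH 127 (nat_lit 31274041344, nat_lit 26) := top_sound R_31274041344
  ⟨V6_29125509120_ok, V6_24831590400_ok, trivial⟩
  ⟨W_30182211584_ok, W_25888292864_ok, W_24831328256_ok, trivial⟩ C_31274041344
theorem L_31290036288 : HH 127 (nat_lit 31290036288, nat_lit 4) := top_sound R_31290036288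
  ⟨V6_24847585344_ok, trivial⟩
  ⟨W_30132408320_ok, W_29075443712_ok, W_28034994176_ok, trivial⟩ C_31290036288
theorem L_31290040320 : HH 127 (nat_lit 31290040320, nat_lit 20) := top_sound R_31290040320
  ⟨V6_25904553984_ok, V6_24847589376_ok, trivial⟩
  ⟨W_31206146048_ok, W_31172599808_ok, W_30132408320_ok, W_30115635200_ok, W_29092216832_ok, W_26978287616_ok, trivial⟩ C_31290040320
theorem L_31290298368 : HH 127 (nat_lit 31290298368, nat_lit 28) := top_sound R_31290298368
  ⟨V6_25921585152_ok, V6_25921327104_ok, trivial⟩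
  ⟨W_31206146048_ok, W_30165696512_ok, W_30149181440_ok, W_30132666368_ok, W_30132408320_ok, W_29092216832_ok, W_29075701760_ok, W_29075443712_ok, W_29058928640_ok, W_28018737152_ok, W_28001964032_ok, trivial⟩ C_31290298368
theorem L_31290556416 : HH 127 (nat_lit 31290556416, nat_lit 32) := top_sound R_31290556416
  ⟨V6_30132928512_ok, V6_29125509120_ok, V6_28068544512_ok, V6_25921585152_ok, trivial⟩
  ⟨W_25921323008_ok, W_25888292864_ok, W_24847843328_ok, trivial⟩ C_31290556416
theorem L_31306813440 : HH 127 (nat_lit 31306813440, nat_lit 21) := top_sound R_31306813440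
  ⟨V6_30149185536_ok, V6_26994806784_ok, V6_24864362496_ok, trivial⟩
  ⟨W_30165696512_ok, W_28051767296_ok, W_24864358400_ok, trivial⟩ C_31306813440
theorem L_31307071488 : HH 127 (nat_lit 31307071488, nat_lit 29) := top_sound R_31307071488
  ⟨V6_25938100224_ok, V6_25921585152_ok, trivial⟩
  ⟨W_31206146048_ok, W_30182211584_ok, W_30149181440_ok, W_30132666368_ok, W_29125246976_ok, W_29092216832_ok, W_29075701760_ok, W_28018737152_ok, trivial⟩ C_31307071488
theorem L_31323328512 : HH 127 (nat_lit 31323328512, nat_lit 6) := top_sound R_31323328512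
  ⟨V6_25937842176_ok, V6_24880877568_ok, trivial⟩
  ⟨W_30165696512_ok, W_29108731904_ok, W_28034994176_ok, trivial⟩ C_31323328512
theorem L_31323586560 : HH 127 (nat_lit 31323586560, nat_lit 24) := top_sound R_31323586560
  ⟨V6_25938100224_ok, V6_24881135616_ok, trivial⟩
  ⟨W_30182211584_ok, W_30165696512_ok, W_30149181440_ok, W_29125246976_ok, W_29108731904_ok, W_29092216832_ok, W_28068282368_ok, trivial⟩ C_31323586560
theorem L_31340101632 : HH 127 (nat_lit 31340101632, nat_lit 13) := top_sound R_31340101632
  ⟨V6_27028094976_ok, V6_24897650688_ok, trivial⟩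
  ⟨W_30182211584_ok, W_30165696512_ok, W_29125246976_ok, W_29108731904_ok, trivial⟩ C_31340101632
theorem L_31356616704 : HH 127 (nat_lit 31356616704, nat_lit 6) := top_sound R_31356616704
  ⟨V6_25971130368_ok, V6_24914165760_ok, trivial⟩
  ⟨W_31239176192_ok, W_29125246976_ok, trivial⟩ C_31356616704
theorem L_32279896194 : HH 127 (nat_lit 32279896194, nat_lit 1) := top_sound R_32279896194
  ⟨V6_26911187073_ok, trivial⟩
  ⟨W_29025116288_ok, trivial⟩ C_32279896194
theorem L_32280420480 : HH 127 (nat_lit 32280420480, nat_lit 3) := top_sound R_32280420480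
  ⟨V6_29058932736_ok, V6_26911449216_ok, trivial⟩
  ⟨W_26911711232_ok, trivial⟩ C_32280420480
theorem L_32280424512 : HH 127 (nat_lit 32280424512, nat_lit 1) := top_sound R_32280424512
  ⟨V6_26911715328_ok, trivial⟩
  ⟨W_29058928640_ok, trivial⟩ C_32280424512
theorem L_32280428544 : HH 127 (nat_lit 32280428544, nat_lit 4) := top_sound R_32280428544
  ⟨V6_30132928512_ok, trivial⟩
  ⟨W_26911711232_ok, W_24764235776_ok, trivial⟩ C_32280428544
theorem L_32296673409 : HH 127 (nat_lit 32296673409, nat_lit 1) := top_sound R_32296673409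
  ⟨V6_25854222465_ok, trivial⟩
  ⟨W_29025116288_ok, trivial⟩ C_32296673409
theorem L_32296935489 : HH 127 (nat_lit 32296935489, nat_lit 1) := top_sound R_32296935489
  ⟨V6_28001964096_ok, trivial⟩
  ⟨W_27984928832_ok, trivial⟩ C_32296935489
theorem L_32296935552 : HH 127 (nat_lit 32296935552, nat_lit 2) := top_sound R_32296935552
  ⟨V6_29041893504_ok, V6_26911449216_ok, trivial⟩
  ⟨W_29058670592_ok, trivial⟩ C_32296935552
theorem L_32296939584 : HH 127 (nat_lit 32296939584, nat_lit 1) := top_sound R_32296939584
  ⟨V6_26928230400_ok, trivial⟩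
  ⟨W_29058928640_ok, trivial⟩ C_32296939584
theorem L_32297197632 : HH 127 (nat_lit 32297197632, nat_lit 6) := top_sound R_32297197632
  ⟨V6_26928488448_ok, V6_26928484416_ok, trivial⟩
  ⟨W_29075443712_ok, W_29058670592_ok, W_27984928832_ok, W_26928222272_ok, trivial⟩ C_32297197632
theorem L_32297201664 : HH 127 (nat_lit 32297201664, nat_lit 5) := top_sound R_32297201664
  ⟨V6_30132928512_ok, V6_26911715328_ok, trivial⟩
  ⟨W_30132666368_ok, W_29059186688_ok, W_29058928640_ok, trivial⟩ C_32297201664
theorem L_32297455680 : HH 127 (nat_lit 32297455680, nat_lit 2) := top_sound R_32297455680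
  ⟨V6_25855004736_ok, trivial⟩
  ⟨W_29075443712_ok, trivial⟩ C_32297455680
theorem L_32297459712 : HH 127 (nat_lit 32297459712, nat_lit 3) := top_sound R_32297459712
  ⟨V6_26928488448_ok, trivial⟩
  ⟨W_30149181440_ok, W_29075443712_ok, trivial⟩ C_32297459712
theorem L_32313450624 : HH 127 (nat_lit 32313450624, nat_lit 6) := top_sound R_32313450624
  ⟨V6_28018483200_ok, trivial⟩
  ⟨W_31172599808_ok, W_30115635200_ok, W_29025116288_ok, W_27984928832_ok, W_25870999616_ok, trivial⟩ C_32313450624
theorem L_32313712704 : HH 127 (nat_lit 32313712704, nat_lit 6) := top_sound R_32313712704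
  ⟨V6_29058670656_ok, V6_28001964096_ok, V6_27985190976_ok, V6_26944741440_ok, trivial⟩
  ⟨W_30132408320_ok, W_29075443712_ok, W_28018479104_ok, trivial⟩ C_32313712704
theorem L_32313716736 : HH 127 (nat_lit 32313716736, nat_lit 3) := top_sound R_32313716736
  ⟨V6_30132670464_ok, V6_29058932736_ok, trivial⟩
  ⟨W_28018737152_ok, trivial⟩ C_32313716736
theorem L_32313970752 : HH 127 (nat_lit 32313970752, nat_lit 3) := top_sound R_32313970752
  ⟨V6_26944999488_ok, V6_26928484416_ok, trivial⟩
  ⟨W_28018479104_ok, trivial⟩ C_32313970752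
theorem L_32313974784 : HH 127 (nat_lit 32313974784, nat_lit 20) := top_sound R_32313974784
  ⟨V6_30132928512_ok, V6_28018483200_ok, V6_26928488448_ok, trivial⟩
  ⟨W_30132666368_ok, W_29059186688_ok, W_28018737152_ok, W_24797782016_ok, trivial⟩ C_32313974784
theorem L_32314232832 : HH 127 (nat_lit 32314232832, nat_lit 10) := top_sound R_32314232832
  ⟨V6_30165958656_ok, V6_30149185536_ok, V6_26928746496_ok, trivial⟩
  ⟨W_30165696512_ok, W_25871777792_ok, W_24798040064_ok, trivial⟩ C_32314232832
theorem L_32314490880 : HH 127 (nat_lit 32314490880, nat_lit 11) := top_sound R_32314490880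
  ⟨V6_30165958656_ok, V6_25872039936_ok, trivial⟩
  ⟨W_31239176192_ok, W_25871777792_ok, W_24798298112_ok, trivial⟩ C_32314490880
theorem L_32330227776 : HH 127 (nat_lit 32330227776, nat_lit 6) := top_sound R_32330227776
  ⟨V6_26961518592_ok, V6_26961514560_ok, trivial⟩
  ⟨W_31172599808_ok, W_30132408320_ok, W_30115635200_ok, W_29075443712_ok, W_27984928832_ok, trivial⟩ C_32330227776
theorem L_32330485824 : HH 127 (nat_lit 32330485824, nat_lit 4) := top_sound R_32330485824
  ⟨V6_28035256320_ok, trivial⟩
  ⟨W_29058928640_ok, W_26928222272_ok, W_24814293056_ok, trivial⟩ C_32330485824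
theorem L_32330489856 : HH 127 (nat_lit 32330489856, nat_lit 16) := top_sound R_32330489856
  ⟨V6_28035256320_ok, V6_28018483200_ok, V6_26961518592_ok, trivial⟩
  ⟨W_31206146048_ok, W_30132666368_ok, W_30115635200_ok, W_29092216832_ok, W_29058928640_ok, W_28018737152_ok, trivial⟩ C_32330489856
theorem L_32330747904 : HH 127 (nat_lit 32330747904, nat_lit 21) := top_sound R_32330747904
  ⟨V6_30182473728_ok, V6_30149185536_ok, V6_30132928512_ok, V6_29108736000_ok, V6_29059190784_ok, V6_28035256320_ok, trivial⟩
  ⟨W_30132666368_ok, W_29059186688_ok, W_28018737152_ok, W_25888292864_ok, trivial⟩ C_32330747904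
theorem L_32331005952 : HH 127 (nat_lit 32331005952, nat_lit 13) := top_sound R_32331005952
  ⟨V6_31255953408_ok, V6_30182473728_ok, V6_30165958656_ok, trivial⟩
  ⟨W_25888292864_ok, W_24814813184_ok, trivial⟩ C_32331005952
theorem L_32347000896 : HH 127 (nat_lit 32347000896, nat_lit 2) := top_sound R_32347000896
  ⟨V6_25904549952_ok, trivial⟩
  ⟨W_30132408320_ok, W_28034994176_ok, trivial⟩ C_32347000896

theorem H_38 : AllH 127 tb38 :=
  ⟨L_30183268416, L_30183272448, L_30183526464, L_30183530496, L_30183788544, L_30184046592, L_30199521345, L_30199521408, L_30199779393, L_30199783488, L_30199787520, L_30200041536, L_30200045568, L_30200303616, L_30200561664, L_30216298560, L_30216556608, L_30216560640, L_30216818688, L_30217076736, L_30233071680, L_30233075712, L_30233333760, L_30233591808, L_30249586752, L_30249848832, L_30250106880, L_30266363904, L_30266621952, L_30283137024, L_30299652096, L_31206678657, L_31206682752, L_31206686784, L_31222931586, L_31223193729, L_31223455809, L_31223455872, L_31223459904, L_31223463936,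 L_31223713857, L_31223717952, L_31223721984, L_31239708801, L_31239970881, L_31239970944, L_31239974976, L_31240233024, L_31240237056, L_31240491072, L_31240495104, L_31240753152, L_31256485953, L_31256486016, L_31256748096, L_31256752128, L_31257006144, L_31257010176, L_31257268224, L_31257526272, L_31273263168, L_31273521216, L_31273525248, L_31273783296, L_31274041344, L_31290036288, L_31290040320, L_31290298368, L_31290556416, L_31306813440, L_31307071488, L_31323328512, L_31323586560, L_31340101632, L_31356616704, L_32279896194, L_32280420480, L_32280424512, L_32280428544, L_32296673409, L_32296935489, L_32296935552, L_32296939584, L_32297197632, L_32297201664, L_32297455680, L_32297459712, L_32313450624, L_32313712704, L_32313716736, L_32313970752, L_32313974784, L_32314232832, L_32314490880, L_32330227776, L_32330485824, L_32330489856, L_32330747904, L_32331005952, L_32347000896, trivial⟩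

theorem L_32347004928 : HH 127 (nat_lit 32347004928, nat_lit 17) := top_sound R_32347004928
  ⟨V6_32246341632_ok, V6_25904553984_ok, trivial⟩
  ⟨W_31206146048_ok, W_31172599808_ok, W_30149181440_ok, W_30132408320_ok, W_26978287616_ok, trivial⟩ C_32347004928
theorem L_32347262976 : HH 127 (nat_lit 32347262976, nat_lit 18) := top_sound R_32347262976
  ⟨V6_28052029440_ok, V6_28035256320_ok, trivial⟩
  ⟨W_32279625728_ok, W_32263110656_ok, W_30132666368_ok, W_25904549888_ok, W_24831070208_ok, trivial⟩ C_32347262976
theorem L_32347521024 : HH 127 (nat_lit 32347521024, nat_lit 26) := top_sound R_32347521024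
  ⟨V6_30198988800_ok, V6_30132928512_ok, V6_29125509120_ok, V6_28052029440_ok, trivial⟩
  ⟨W_32296140800_ok, W_29059186688_ok, W_25904807936_ok, W_25888292864_ok, trivial⟩ C_32347521024
theorem L_32363778048 : HH 127 (nat_lit 32363778048, nat_lit 15) := top_sound R_32363778048
  ⟨V6_30149185536_ok, V6_25921327104_ok, trivial⟩
  ⟨W_31206146048_ok, W_30165696512_ok, W_30149181440_ok, W_30132408320_ok, W_29092216832_ok, trivial⟩ C_32363778048
theorem L_32364036096 : HH 127 (nat_lit 32364036096, nat_lit 22) := top_sound R_32364036096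
  ⟨V6_31206408192_ok, V6_28068544512_ok, V6_25921585152_ok, trivial⟩
  ⟨W_32296140800_ok, W_32279625728_ok, W_30182211584_ok, W_30132666368_ok, W_29125246976_ok, W_25904807936_ok, trivial⟩ C_32364036096
theorem L_32380293120 : HH 127 (nat_lit 32380293120, nat_lit 4) := top_sound R_32380293120
  ⟨V6_29108736000_ok, V6_25937842176_ok, trivial⟩
  ⟨W_32279625728_ok, W_30165696512_ok, trivial⟩ C_32380293120
theorem L_32380551168 : HH 127 (nat_lit 32380551168, nat_lit 22) := top_sound R_32380551168
  ⟨V6_28052029440_ok, V6_25938100224_ok, trivial⟩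
  ⟨W_32296140800_ok, W_30182211584_ok, W_29125246976_ok, W_24864358400_ok, trivial⟩ C_32380551168
theorem L_32397066240 : HH 127 (nat_lit 32397066240, nat_lit 10) := top_sound R_32397066240
  ⟨V6_27011579904_ok, V6_25954615296_ok, trivial⟩
  ⟨W_32296140800_ok, W_31239176192_ok, W_31222661120_ok, W_30182211584_ok, W_30165696512_ok, trivial⟩ C_32397066240
theorem L_32413581312 : HH 127 (nat_lit 32413581312, nat_lit 9) := top_sound R_32413581312
  ⟨V6_27028094976_ok, V6_25971130368_ok, trivial⟩
  ⟨W_32296140800_ok, W_31239176192_ok, W_29125246976_ok, trivial⟩ C_32413581312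
theorem L_33353638017 : HH 127 (nat_lit 33353638017, nat_lit 1) := top_sound R_33353638017
  ⟨V6_26911187073_ok, trivial⟩
  ⟨W_29025116288_ok, trivial⟩ C_33353638017
theorem L_33353900160 : HH 127 (nat_lit 33353900160, nat_lit 1) := top_sound R_33353900160
  ⟨V6_26911449216_ok, trivial⟩
  ⟨W_30115635200_ok, trivial⟩ C_33353900160
theorem L_33354162240 : HH 127 (nat_lit 33354162240, nat_lit 2) := top_sound R_33354162240
  ⟨V6_29059190784_ok, trivial⟩
  ⟨W_29058670592_ok, trivial⟩ C_33354162240
theorem L_33354166272 : HH 127 (nat_lit 33354166272, nat_lit 3) := top_sound R_33354166272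
  ⟨V6_26911715328_ok, trivial⟩
  ⟨W_30132666368_ok, W_29058928640_ok, trivial⟩ C_33354166272
theorem L_33370415232 : HH 127 (nat_lit 33370415232, nat_lit 3) := top_sound R_33370415232
  ⟨V6_32246341632_ok, V6_30098858112_ok, V6_29041893504_ok, trivial⟩
  ⟨W_28001705984_ok, trivial⟩ C_33370415232
theorem L_33370677312 : HH 127 (nat_lit 33370677312, nat_lit 3) := top_sound R_33370677312
  ⟨V6_29058670656_ok, V6_28001964096_ok, V6_27985190976_ok, trivial⟩
  ⟨W_30132408320_ok, W_29075443712_ok, trivial⟩ C_33370677312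
theorem L_33370681344 : HH 127 (nat_lit 33370681344, nat_lit 1) := top_sound R_33370681344
  ⟨V6_26928230400_ok, trivial⟩
  ⟨W_30132666368_ok, trivial⟩ C_33370681344
theorem L_33370935360 : HH 127 (nat_lit 33370935360, nat_lit 2) := top_sound R_33370935360
  ⟨V6_26928484416_ok, trivial⟩
  ⟨W_30132408320_ok, W_29058928640_ok, trivial⟩ C_33370935360
theorem L_33370939392 : HH 127 (nat_lit 33370939392, nat_lit 8) := top_sound R_33370939392
  ⟨V6_26928488448_ok, trivial⟩
  ⟨W_31206146048_ok, W_30149181440_ok, W_30132666368_ok, W_29058670592_ok, trivial⟩ C_33370939392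
theorem L_33371197440 : HH 127 (nat_lit 33371197440, nat_lit 2) := top_sound R_33371197440
  ⟨V6_30149185536_ok, trivial⟩
  ⟨W_28002222080_ok, trivial⟩ C_33371197440
theorem L_33387192384 : HH 127 (nat_lit 33387192384, nat_lit 4) := top_sound R_33387192384
  ⟨V6_26944741440_ok, trivial⟩
  ⟨W_31172599808_ok, W_30132408320_ok, W_29075443712_ok, trivial⟩ C_33387192384
theorem L_33387450432 : HH 127 (nat_lit 33387450432, nat_lit 1) := top_sound R_33387450432
  ⟨V6_26944999488_ok, trivial⟩
  ⟨W_30132408320_ok, trivial⟩ C_33387450432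
theorem L_33387454464 : HH 127 (nat_lit 33387454464, nat_lit 10) := top_sound R_33387454464
  ⟨V6_31206408192_ok, V6_31189377024_ok, V6_28018483200_ok, trivial⟩
  ⟨W_32263110656_ok, W_28018737152_ok, W_25871261696_ok, trivial⟩ C_33387454464
theorem L_33387712512 : HH 127 (nat_lit 33387712512, nat_lit 12) := top_sound R_33387712512
  ⟨V6_30165958656_ok, V6_30132928512_ok, V6_29059190784_ok, trivial⟩
  ⟨W_29059186688_ok, W_28018737152_ok, W_26928484352_ok, trivial⟩ C_33387712512
theorem L_33387970560 : HH 127 (nat_lit 33387970560, nat_lit 8) := top_sound R_33387970560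
  ⟨V6_33369882624_ok, V6_30165958656_ok, trivial⟩
  ⟨W_28018737152_ok, W_25871777792_ok, trivial⟩ C_33387970560
theorem L_33403965504 : HH 127 (nat_lit 33403965504, nat_lit 1) := top_sound R_33403965504
  ⟨V6_26961514560_ok, trivial⟩
  ⟨W_30132408320_ok, trivial⟩ C_33403965504
theorem L_33403969536 : HH 127 (nat_lit 33403969536, nat_lit 10) := top_sound R_33403969536
  ⟨V6_31189377024_ok, V6_26961518592_ok, trivial⟩
  ⟨W_31206146048_ok, W_30132408320_ok, W_29092216832_ok, trivial⟩ C_33403969536
theorem L_33404227584 : HH 127 (nat_lit 33404227584, nat_lit 12) := top_sound R_33404227584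
  ⟨V6_30182473728_ok, V6_29108736000_ok, V6_28035256320_ok, trivial⟩
  ⟨W_32279625728_ok, W_32263110656_ok, W_30132666368_ok, W_30132408320_ok, W_29058928640_ok, W_28018737152_ok, trivial⟩ C_33404227584
theorem L_33404485632 : HH 127 (nat_lit 33404485632, nat_lit 16) := top_sound R_33404485632
  ⟨V6_31206408192_ok, V6_30182473728_ok, V6_30165958656_ok, V6_30132928512_ok, trivial⟩
  ⟨W_32296140800_ok, W_28018737152_ok, W_25888292864_ok, trivial⟩ C_33404485632
theorem L_33420742656 : HH 127 (nat_lit 33420742656, nat_lit 11) := top_sound R_33420742656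
  ⟨V6_30149185536_ok, V6_28052029440_ok, trivial⟩
  ⟨W_33320075264_ok, W_30165696512_ok, W_25904549888_ok, trivial⟩ C_33420742656
theorem L_33421000704 : HH 127 (nat_lit 33421000704, nat_lit 17) := top_sound R_33421000704
  ⟨V6_30198988800_ok, V6_28052029440_ok, trivial⟩
  ⟨W_32263110656_ok, W_28018737152_ok, W_25904807936_ok, trivial⟩ C_33421000704
theorem L_33437257728 : HH 127 (nat_lit 33437257728, nat_lit 3) := top_sound R_33437257728
  ⟨V6_26994806784_ok, trivial⟩
  ⟨W_30165696512_ok, trivial⟩ C_33437257728
theorem L_33437515776 : HH 127 (nat_lit 33437515776, nat_lit 16) := top_sound R_33437515776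
  ⟨V6_28068544512_ok, V6_28052029440_ok, trivial⟩
  ⟨W_33353105408_ok, W_33320075264_ok, W_32296140800_ok, W_25921323008_ok, trivial⟩ C_33437515776
theorem L_33454030848 : HH 127 (nat_lit 33454030848, nat_lit 10) := top_sound R_33454030848
  ⟨V6_28068544512_ok, V6_27011579904_ok, trivial⟩
  ⟨W_33353105408_ok, W_32279625728_ok, W_31239176192_ok, W_29125246976_ok, trivial⟩ C_33454030848
theorem L_33470545920 : HH 127 (nat_lit 33470545920, nat_lit 6) := top_sound R_33470545920
  ⟨V6_30198988800_ok, V6_27028094976_ok, trivial⟩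
  ⟨W_33353105408_ok, W_28068282368_ok, trivial⟩ C_33470545920
theorem L_34393825410 : HH 127 (nat_lit 34393825410, nat_lit 1) := top_sound R_34393825410
  ⟨V6_30098858112_ok, trivial⟩
  ⟨W_29025116288_ok, trivial⟩ C_34393825410
theorem L_34427379840 : HH 127 (nat_lit 34427379840, nat_lit 2) := top_sound R_34427379840
  ⟨V6_30098858112_ok, V6_29041893504_ok, trivial⟩
  ⟨W_29058670592_ok, trivial⟩ C_34427379840
theorem L_34427641920 : HH 127 (nat_lit 34427641920, nat_lit 1) := top_sound R_34427641920
  ⟨V6_27985190976_ok, trivial⟩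
  ⟨W_30132408320_ok, trivial⟩ C_34427641920
theorem L_34427904000 : HH 127 (nat_lit 34427904000, nat_lit 5) := top_sound R_34427904000
  ⟨V6_30132928512_ok, V6_29059190784_ok, trivial⟩
  ⟨W_31206146048_ok, W_29058670592_ok, trivial⟩ C_34427904000
theorem L_34444156992 : HH 127 (nat_lit 34444156992, nat_lit 2) := top_sound R_34444156992
  ⟨V6_30149185536_ok, trivial⟩
  ⟨W_31172599808_ok, W_27984928832_ok, trivial⟩ C_34444156992
theorem L_34444415040 : HH 127 (nat_lit 34444415040, nat_lit 1) := top_sound R_34444415040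
  ⟨V6_28001964096_ok, trivial⟩
  ⟨W_30132408320_ok, trivial⟩ C_34444415040
theorem L_34444419072 : HH 127 (nat_lit 34444419072, nat_lit 4) := top_sound R_34444419072
  ⟨V6_31189377024_ok, V6_30149443584_ok, trivial⟩
  ⟨W_32263110656_ok, W_30132666368_ok, W_29058928640_ok, trivial⟩ C_34444419072
theorem L_34444677120 : HH 127 (nat_lit 34444677120, nat_lit 5) := top_sound R_34444677120
  ⟨V6_30132928512_ok, V6_29059190784_ok, trivial⟩
  ⟨W_31206146048_ok, W_29075443712_ok, trivial⟩ C_34444677120
theorem L_34444935168 : HH 127 (nat_lit 34444935168, nat_lit 1) := top_sound R_34444935168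
  ⟨V6_33369882624_ok, trivial⟩
  ⟨W_28002222080_ok, trivial⟩ C_34444935168
theorem L_34460934144 : HH 127 (nat_lit 34460934144, nat_lit 8) := top_sound R_34460934144
  ⟨V6_28018483200_ok, trivial⟩
  ⟨W_31206146048_ok, W_31172599808_ok, W_30149181440_ok, W_30132408320_ok, trivial⟩ C_34460934144
theorem L_34461192192 : HH 127 (nat_lit 34461192192, nat_lit 6) := top_sound R_34461192192
  ⟨V6_30165958656_ok, trivial⟩
  ⟨W_29058928640_ok, W_28018737152_ok, trivial⟩ C_34461192192
theorem L_34461450240 : HH 127 (nat_lit 34461450240, nat_lit 12) := top_sound R_34461450240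
  ⟨V6_31206408192_ok, V6_30165958656_ok, V6_30132928512_ok, trivial⟩
  ⟨W_33353105408_ok, W_32296140800_ok, W_29059186688_ok, W_28018737152_ok, trivial⟩ C_34461450240
theorem L_34477707264 : HH 127 (nat_lit 34477707264, nat_lit 7) := top_sound R_34477707264
  ⟨V6_28035256320_ok, trivial⟩
  ⟨W_32279625728_ok, W_31206146048_ok, W_30165696512_ok, trivial⟩ C_34477707264
theorem L_34477965312 : HH 127 (nat_lit 34477965312, nat_lit 10) := top_sound R_34477965312
  ⟨V6_30182473728_ok, V6_30165958656_ok, trivial⟩
  ⟨W_33353105408_ok, W_32296140800_ok, W_28018737152_ok, trivial⟩ C_34477965312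
theorem L_34494222336 : HH 127 (nat_lit 34494222336, nat_lit 1) := top_sound R_34494222336
  ⟨V6_28051771392_ok, trivial⟩
  ⟨W_32279625728_ok, trivial⟩ C_34494222336
theorem L_34494480384 : HH 127 (nat_lit 34494480384, nat_lit 14) := top_sound R_34494480384
  ⟨V6_29125509120_ok, V6_28052029440_ok, trivial⟩
  ⟨W_34410070016_ok, W_33353105408_ok, W_33320075264_ok, W_32296140800_ok, W_32263110656_ok, W_30165696512_ok, W_29125246976_ok, trivial⟩ C_34494480384
theorem L_34510995456 : HH 127 (nat_lit 34510995456, nat_lit 7) := top_sound R_34510995456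
  ⟨V6_29125509120_ok, V6_28068544512_ok, trivial⟩
  ⟨W_33353105408_ok, W_32296140800_ok, W_32279625728_ok, W_31239176192_ok, trivial⟩ C_34510995456
theorem L_34527510528 : HH 127 (nat_lit 34527510528, nat_lit 7) := top_sound R_34527510528
  ⟨V6_31255953408_ok, V6_30198988800_ok, trivial⟩
  ⟨W_34410070016_ok, W_33353105408_ok, W_28068282368_ok, trivial⟩ C_34527510528
theorem L_35484344448 : HH 127 (nat_lit 35484344448, nat_lit 1) := top_sound R_35484344448
  ⟨V6_29041893504_ok, trivial⟩
  ⟨W_31172599808_ok, trivial⟩ C_35484344448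
theorem L_35501121600 : HH 127 (nat_lit 35501121600, nat_lit 1) := top_sound R_35501121600
  ⟨V6_29058670656_ok, trivial⟩
  ⟨W_31172599808_ok, trivial⟩ C_35501121600
theorem L_35501383680 : HH 127 (nat_lit 35501383680, nat_lit 2) := top_sound R_35501383680
  ⟨V6_29058932736_ok, trivial⟩
  ⟨W_32263110656_ok, W_30115635200_ok, trivial⟩ C_35501383680
theorem L_35501641728 : HH 127 (nat_lit 35501641728, nat_lit 3) := top_sound R_35501641728
  ⟨V6_29059190784_ok, trivial⟩
  ⟨W_31206146048_ok, trivial⟩ C_35501641728
theorem L_35517898752 : HH 127 (nat_lit 35517898752, nat_lit 4) := top_sound R_35517898752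
  ⟨V6_32246341632_ok, V6_31189377024_ok, V6_30149185536_ok, trivial⟩
  ⟨W_33320075264_ok, W_31206146048_ok, trivial⟩ C_35517898752
theorem L_35518156800 : HH 127 (nat_lit 35518156800, nat_lit 3) := top_sound R_35518156800
  ⟨V6_30149443584_ok, V6_30132670464_ok, trivial⟩
  ⟨W_31206146048_ok, trivial⟩ C_35518156800
theorem L_35518414848 : HH 127 (nat_lit 35518414848, nat_lit 4) := top_sound R_35518414848
  ⟨V6_33369882624_ok, V6_30132928512_ok, trivial⟩
  ⟨W_33353105408_ok, W_31206146048_ok, trivial⟩ C_35518414848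
theorem L_35534671872 : HH 127 (nat_lit 35534671872, nat_lit 4) := top_sound R_35534671872
  ⟨V6_30165958656_ok, trivial⟩
  ⟨W_33320075264_ok, W_30165696512_ok, trivial⟩ C_35534671872
theorem L_35534929920 : HH 127 (nat_lit 35534929920, nat_lit 8) := top_sound R_35534929920
  ⟨V6_31206408192_ok, V6_30165958656_ok, trivial⟩
  ⟨W_33353105408_ok, W_32296140800_ok, W_32279625728_ok, W_30165696512_ok, trivial⟩ C_35534929920
theorem L_35551186944 : HH 127 (nat_lit 35551186944, nat_lit 1) := top_sound R_35551186944
  ⟨V6_29108736000_ok, trivial⟩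
  ⟨W_32279625728_ok, trivial⟩ C_35551186944
theorem L_35551444992 : HH 127 (nat_lit 35551444992, nat_lit 9) := top_sound R_35551444992
  ⟨V6_31255953408_ok, V6_30165958656_ok, trivial⟩
  ⟨W_33353105408_ok, W_33320075264_ok, W_32296140800_ok, W_32279625728_ok, W_31239176192_ok, trivial⟩ C_35551444992
theorem L_35567960064 : HH 127 (nat_lit 35567960064, nat_lit 6) := top_sound R_35567960064
  ⟨V6_30198988800_ok, V6_29125509120_ok, trivial⟩
  ⟨W_35467034624_ok, W_33353105408_ok, W_32296140800_ok, W_32279625728_ok, trivial⟩ C_35567960064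
theorem L_35584475136 : HH 127 (nat_lit 35584475136, nat_lit 5) := top_sound R_35584475136
  ⟨V6_30198988800_ok, trivial⟩
  ⟨W_35467034624_ok, W_33353105408_ok, W_32296140800_ok, trivial⟩ C_35584475136
theorem L_36541309056 : HH 127 (nat_lit 36541309056, nat_lit 1) := top_sound R_36541309056
  ⟨V6_30098858112_ok, trivial⟩
  ⟨W_31172599808_ok, trivial⟩ C_36541309056
theorem L_36574863360 : HH 127 (nat_lit 36574863360, nat_lit 3) := top_sound R_36574863360
  ⟨V6_34393817088_ok, V6_32246341632_ok, V6_31189377024_ok, trivial⟩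
  ⟨W_31206146048_ok, trivial⟩ C_36574863360
theorem L_36575121408 : HH 127 (nat_lit 36575121408, nat_lit 1) := top_sound R_36575121408
  ⟨V6_30132670464_ok, trivial⟩
  ⟨W_32279625728_ok, trivial⟩ C_36575121408
theorem L_36575379456 : HH 127 (nat_lit 36575379456, nat_lit 4) := top_sound R_36575379456
  ⟨V6_30132928512_ok, trivial⟩
  ⟨W_33353105408_ok, W_31206146048_ok, trivial⟩ C_36575379456
theorem L_36591636480 : HH 127 (nat_lit 36591636480, nat_lit 2) := top_sound R_36591636480
  ⟨V6_30149185536_ok, trivial⟩
  ⟨W_33320075264_ok, W_32279625728_ok, trivial⟩ C_36591636480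
theorem L_36591894528 : HH 127 (nat_lit 36591894528, nat_lit 3) := top_sound R_36591894528
  ⟨V6_30149443584_ok, trivial⟩
  ⟨W_33353105408_ok, W_32263110656_ok, trivial⟩ C_36591894528
theorem L_36608409600 : HH 127 (nat_lit 36608409600, nat_lit 7) := top_sound R_36608409600
  ⟨V6_30165958656_ok, trivial⟩
  ⟨W_35467034624_ok, W_33353105408_ok, W_33320075264_ok, W_31239176192_ok, trivial⟩ C_36608409600
theorem L_36624924672 : HH 127 (nat_lit 36624924672, nat_lit 4) := top_sound R_36624924672
  ⟨V6_30182473728_ok, trivial⟩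
  ⟨W_35467034624_ok, W_33353105408_ok, W_32279625728_ok, trivial⟩ C_36624924672
theorem L_36641439744 : HH 127 (nat_lit 36641439744, nat_lit 5) := top_sound R_36641439744
  ⟨V6_30198988800_ok, trivial⟩
  ⟨W_35467034624_ok, W_33353105408_ok, W_32296140800_ok, trivial⟩ C_36641439744
theorem L_37631827968 : HH 127 (nat_lit 37631827968, nat_lit 1) := top_sound R_37631827968
  ⟨V6_32246341632_ok, trivial⟩
  ⟨W_33320075264_ok, trivial⟩ C_37631827968
theorem L_37648601088 : HH 127 (nat_lit 37648601088, nat_lit 1) := top_sound R_37648601088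
  ⟨V6_34393817088_ok, trivial⟩
  ⟨W_32279625728_ok, trivial⟩ C_37648601088
theorem L_37648859136 : HH 127 (nat_lit 37648859136, nat_lit 2) := top_sound R_37648859136
  ⟨V6_31206408192_ok, trivial⟩
  ⟨W_34410070016_ok, W_32263110656_ok, trivial⟩ C_37648859136
theorem L_37665374208 : HH 127 (nat_lit 37665374208, nat_lit 4) := top_sound R_37665374208
  ⟨V6_34393817088_ok, V6_33369882624_ok, V6_33336852480_ok, trivial⟩
  ⟨W_35467034624_ok, W_31206146048_ok, trivial⟩ C_37665374208
theorem L_37681889280 : HH 127 (nat_lit 37681889280, nat_lit 3) := top_sound R_37681889280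
  ⟨V6_36540776448_ok, V6_33369882624_ok, trivial⟩
  ⟨W_31239176192_ok, trivial⟩ C_37681889280
theorem L_37698404352 : HH 127 (nat_lit 37698404352, nat_lit 3) := top_sound R_37698404352
  ⟨V6_36540776448_ok, V6_31255953408_ok, trivial⟩
  ⟨W_37580963840_ok, W_33353105408_ok, trivial⟩ C_37698404352
theorem L_38688792576 : HH 127 (nat_lit 38688792576, nat_lit 1) := top_sound R_38688792576
  ⟨V6_32246341632_ok, trivial⟩
  ⟨W_33320075264_ok, trivial⟩ C_38688792576
theorem L_38722338816 : HH 127 (nat_lit 38722338816, nat_lit 3) := top_sound R_38722338816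
  ⟨V6_36540776448_ok, V6_34393817088_ok, V6_33336852480_ok, trivial⟩
  ⟨W_31206146048_ok, trivial⟩ C_38722338816
theorem L_38738853888 : HH 127 (nat_lit 38738853888, nat_lit 1) := top_sound R_38738853888
  ⟨V6_33369882624_ok, trivial⟩
  ⟨W_35467034624_ok, trivial⟩ C_38738853888
theorem L_38755368960 : HH 127 (nat_lit 38755368960, nat_lit 4) := top_sound R_38755368960
  ⟨V6_38654705664_ok, V6_36540776448_ok, V6_33369882624_ok, trivial⟩
  ⟨W_37580963840_ok, W_31239176192_ok, trivial⟩ C_38755368960
theorem L_39779303424 : HH 127 (nat_lit 39779303424, nat_lit 1) := top_sound R_39779303424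
  ⟨V6_34393817088_ok, trivial⟩
  ⟨W_35467034624_ok, trivial⟩ C_39779303424
theorem L_39795818496 : HH 127 (nat_lit 39795818496, nat_lit 1) := top_sound R_39795818496
  ⟨V6_36540776448_ok, trivial⟩
  ⟨W_32279625728_ok, trivial⟩ C_39795818496
theorem L_39812333568 : HH 127 (nat_lit 39812333568, nat_lit 2) := top_sound R_39812333568
  ⟨V6_33369882624_ok, trivial⟩
  ⟨W_37580963840_ok, W_35467034624_ok, trivial⟩ C_39812333568
theorem L_40836268032 : HH 127 (nat_lit 40836268032, nat_lit 1) := top_sound R_40836268032
  ⟨V6_34393817088_ok, trivial⟩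
  ⟨W_35467034624_ok, trivial⟩ C_40836268032
theorem L_40869298176 : HH 127 (nat_lit 40869298176, nat_lit 2) := top_sound R_40869298176
  ⟨V6_38654705664_ok, V6_36540776448_ok, trivial⟩
  ⟨W_33353105408_ok, trivial⟩ C_40869298176
theorem L_41926262784 : HH 127 (nat_lit 41926262784, nat_lit 1) := top_sound R_41926262784
  ⟨V6_38654705664_ok, trivial⟩
  ⟨W_37580963840_ok, trivial⟩ C_41926262784
theorem L_42983227392 : HH 127 (nat_lit 42983227392, nat_lit 1) := top_sound R_42983227392
  ⟨V6_36540776448_ok, trivial⟩
  ⟨W_37580963840_ok, trivial⟩ C_42983227392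
theorem L_45097156608 : HH 127 (nat_lit 45097156608, nat_lit 1) := top_sound R_45097156608
  ⟨V6_38654705664_ok, trivial⟩
  ⟨W_37580963840_ok, trivial⟩ C_45097156608

theorem H_39 : AllH 127 tb39 :=
  ⟨L_32347004928, L_32347262976, L_32347521024, L_32363778048, L_32364036096, L_32380293120, L_32380551168, L_32397066240, L_32413581312, L_33353638017, L_33353900160, L_33354162240, L_33354166272, L_33370415232, L_33370677312, L_33370681344, L_33370935360, L_33370939392, L_33371197440, L_33387192384, L_33387450432, L_33387454464, L_33387712512, L_33387970560, L_33403965504, L_33403969536, L_33404227584, L_33404485632, L_33420742656, L_33421000704, L_33437257728, L_33437515776, L_33454030848, L_33470545920, L_34393825410, L_34427379840, L_34427641920, L_34427904000, L_34444156992, L_34444415040, L_34444419072, L_34444677120, L_34444935168, L_34460934144, L_34461192192, L_34461450240, L_34477707264, L_34477965312, L_34494222336, L_34494480384, L_34510995456, L_34527510528, L_35484344448, L_35501121600, L_35501383680, L_35501641728,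 L_35517898752, L_35518156800, L_35518414848, L_35534671872, L_35534929920, L_35551186944, L_35551444992, L_35567960064, L_35584475136, L_36541309056, L_36574863360, L_36575121408, L_36575379456, L_36591636480, L_36591894528, L_36608409600, L_36624924672, L_36641439744, L_37631827968, L_37648601088, L_37648859136, L_37665374208, L_37681889280, L_37698404352, L_38688792576, L_38722338816, L_38738853888, L_38755368960, L_39779303424, L_39795818496, L_39812333568, L_40836268032, L_40869298176, L_41926262784, L_42983227392, L_45097156608, trivial⟩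

end Crest.Agent.R187.SN.Top
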