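import Crest.Agent.R187.SN.FwdDef
import Crest.Agent.R187.SN.TD.Ks
import Crest.Agent.R187.SN.TD.W5_0
import Crest.Agent.R187.SN.TD.X4
import Crest.Agent.R187.SN.TD.X5_0

/-!
# Row 187, PLAN S, certificate E3: forward records of level `(6, 5)`, part 3

`F5_<key> : Fwd` = sources (table of level `(6, 4)`, number of rows, quadrature record) and
`W` tables of the table `V5_<key>`; each record is checked by the kernel.
-/

set_option autoImplicit false
set_option Elab.async false
set_option maxRecDepth 100000

namespace Crest.Agent.R187.SN.Fwd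

open Crest.Agent.R187.SN.Top

noncomputable def F5_14077415424 : Fwd := ⟨V5_14077415424, [
  ⟨V4_9782439936, nat_lit 1, [(nat_lit 68, nat_lit 14077415424),
  (nat_lit 90, nat_lit 15151153152), (nat_lit 70, nat_lit 16224890880)]⟩], [
  W5_14077394944, W5_14060621824, W5_14043848704, W5_13003657216, W5_12986884096, W5_11929919488,
  W5_11913146368, W5_10856181760, W5_10839408640, W5_9782444032]⟩

theorem F5_14077415424_chk : fwdChk 5 ks5 F5_14077415424 = true := by decide +kernel

noncomputable def F5_14077411392 : Fwd := ⟨V5_14077411392, [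
  ⟨V4_9782439936, nat_lit 1, [(nat_lit 49, nat_lit 14077411392),
  (nat_lit 116, nat_lit 15151153152), (nat_lit 60, nat_lit 15151149120),
  (nat_lit 123, nat_lit 16224890880)]⟩,
  ⟨V4_11929915392, nat_lit 2, [(nat_lit 118, nat_lit 14077411392),
  (nat_lit 28, nat_lit 15151153152), (nat_lit 109, nat_lit 15151149120),
  (nat_lit 119, nat_lit 16224890880), (nat_lit 37, nat_lit 16224886848),
  (nat_lit 82, nat_lit 17298628608), (nat_lit 36, nat_lit 17298624576),
  (nat_lit 24, nat_lit 18372366336)]⟩], [
  W5_14077136896, W5_14060621824, W5_14060363776, W5_14060359744, W5_14043848704, W5_14043844672,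
  W5_14043590656, W5_14043586624, W5_13003657216, W5_13003399168, W5_13003395136, W5_12986884096,
  W5_12986880064, W5_12986626048, W5_12986622016, W5_12970106944, W5_12969852928, W5_11929919488,
  W5_11929915456, W5_11929661440, W5_11929657408, W5_11913146368, W5_11913142336, W5_11912888320,
  W5_11912884288, W5_11896369216, W5_10856181760, W5_10856177728, W5_10855923712, W5_10855919680,
  W5_10839408640, W5_10839404608, W5_10839146560, W5_9782444032, W5_9782440000, W5_9782181952,
  W5_9765666880, W5_8708702272]⟩

theorem F5_14077411392_chk : fwdChk 5 ks5 F5_14077411392 = true := by decide +kernel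

noncomputable def F5_14077407360 : Fwd := ⟨V5_14077407360, [
  ⟨V4_9782439936, nat_lit 1, [(nat_lit 86, nat_lit 14077407360),
  (nat_lit 104, nat_lit 15151149120), (nat_lit 38, nat_lit 16224890880)]⟩,
  ⟨V4_10855919616, nat_lit 1, [(nat_lit 85, nat_lit 14077407360),
  (nat_lit 25, nat_lit 15151149120), (nat_lit 109, nat_lit 15150887040),
  (nat_lit 96, nat_lit 16224890880), (nat_lit 86, nat_lit 16224628800),
  (nat_lit 70, nat_lit 17298370560)]⟩], [
  W5_14076878848, W5_14060363776, W5_14060105728, W5_14060101696, W5_14043848704, W5_14043590656,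
  W5_14043586624, W5_13003399168, W5_13003141120, W5_13003137088, W5_12986884096, W5_12986626048,
  W5_12986622016, W5_12970106944, W5_12969844864, W5_11929919488, W5_11929661440, W5_11929657408,
  W5_11929399360, W5_11913146368, W5_11913142336, W5_11912884288, W5_11912880256, W5_11896369216,
  W5_10856181760, W5_10856177728, W5_10855919680, W5_10855915648, W5_10839404608, W5_10839400576,
  W5_10839142528, W5_9782440000, W5_9782177920, W5_9765662848]⟩

theorem F5_14077407360_chk : fwdChk 5 ks5 F5_14077407360 = true := by decide +kernel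

noncomputable def F5_14060900352 : Fwd := ⟨V5_14060900352, [
  ⟨V4_12987138048, nat_lit 3, [(nat_lit 107, nat_lit 14060900352),
  (nat_lit 41, nat_lit 15134638080), (nat_lit 126, nat_lit 16208375808),
  (nat_lit 19, nat_lit 17282113536), (nat_lit 123, nat_lit 18355851264),
  (nat_lit 115, nat_lit 19429588992)]⟩], [
  W5_14060879872, W5_14060621824, W5_12987142144, W5_12986884096, W5_11913404416, W5_11913146368,
  W5_10839666688, W5_10839408640, W5_9765928960, W5_8692191232]⟩

theorem F5_14060900352_chk : fwdChk 5 ks5 F5_14060900352 = true := by decide +kernel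

noncomputable def F5_14060892288 : Fwd := ⟨V5_14060892288, [
  ⟨V4_9765924864, nat_lit 1, [(nat_lit 69, nat_lit 14060892288),
  (nat_lit 48, nat_lit 15134634048), (nat_lit 125, nat_lit 16208375808)]⟩,
  ⟨V4_10839662592, nat_lit 2, [(nat_lit 63, nat_lit 14060892288),
  (nat_lit 48, nat_lit 15134634048), (nat_lit 37, nat_lit 15134630016),
  (nat_lit 55, nat_lit 16208375808), (nat_lit 90, nat_lit 16208371776),
  (nat_lit 118, nat_lit 17282113536)]⟩], [
  W5_14060363776, W5_14060105728, W5_14060101696, W5_12986884096, W5_12986626048, W5_12986622016,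
  W5_11913404416, W5_11913146368, W5_11913142336, W5_11912884288, W5_11912880256, W5_10839666688,
  W5_10839662656, W5_10839404608, W5_10839400576, W5_10839142528, W5_9765924928, W5_9765920896,
  W5_9765662848, W5_8692183168]⟩

theorem F5_14060892288_chk : fwdChk 5 ks5 F5_14060892288 = true := by decide +kernel

noncomputable def F5_14060634240 : Fwd := ⟨V5_14060634240, [
  ⟨V4_10839146496, nat_lit 1, [(nat_lit 63, nat_lit 14060634240),
  (nat_lit 26, nat_lit 15134376000), (nat_lit 27, nat_lit 15134113920),
  (nat_lit 110, nat_lit 16208117760), (nat_lit 125, nat_lit 16207855680),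
  (nat_lit 22, nat_lit 17281597440)]⟩], [
  W5_14060363776, W5_14043848704, W5_14043590656, W5_14043586624, W5_12986884096, W5_12986626048,
  W5_12986622016, W5_12970106944, W5_12969852928, W5_12969844864, W5_11913146368, W5_11913142336,
  W5_11912888320, W5_11912884288, W5_11912880256, W5_11896369216, W5_10839408640, W5_10839404608,
  W5_10839400576, W5_10839146560, W5_10839142528, W5_10822369408, W5_9765666880, W5_9765662848,
  W5_9765404800]⟩

theorem F5_14060634240_chk : fwdChk 5 ks5 F5_14060634240 = true := by decide +kernel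

noncomputable def F5_14060372160 : Fwd := ⟨V5_14060372160, [
  ⟨V4_10839146496, nat_lit 1, [(nat_lit 72, nat_lit 14060372160),
  (nat_lit 121, nat_lit 15134113920), (nat_lit 68, nat_lit 16207855680),
  (nat_lit 25, nat_lit 17281597440)]⟩], [
  W5_14043590656, W5_14026817536, W5_12986626048, W5_12969852928, W5_12953075776, W5_11912888320,
  W5_11912884288, W5_11879334016, W5_10839146560, W5_10839142528, W5_10822369408, W5_9765404800,
  W5_8691663040]⟩

theorem F5_14060372160_chk : fwdChk 5 ks5 F5_14060372160 = true := by decide +kernel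

noncomputable def F5_13087801344 : Fwd := ⟨V5_13087801344, [
  ⟨V4_12987138048, nat_lit 3, [(nat_lit 3, nat_lit 13087801344),
  (nat_lit 118, nat_lit 14144765952), (nat_lit 15, nat_lit 15201730560),
  (nat_lit 112, nat_lit 16258695168), (nat_lit 9, nat_lit 17315659776),
  (nat_lit 124, nat_lit 18372624384), (nat_lit 73, nat_lit 19429588992)]⟩,
  ⟨V4_13086228480, nat_lit 2, [(nat_lit 86, nat_lit 13087801344),
  (nat_lit 7, nat_lit 14161281024), (nat_lit 16, nat_lit 15234760704),
  (nat_lit 123, nat_lit 16308240384), (nat_lit 98, nat_lit 17381720064),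
  (nat_lit 83, nat_lit 18455199744), (nat_lit 31, nat_lit 19528679424)]⟩], [
  W5_13086490624, W5_13069975552, W5_13053460480, W5_13036945408, W5_13020430336, W5_13003915264]⟩

theorem F5_13087801344_chk : fwdChk 5 ks5 F5_13087801344 = true := by decide +kernel

noncomputable def F5_13087543296 : Fwd := ⟨V5_13087543296, [
  ⟨V4_12986880000, nat_lit 1, [(nat_lit 63, nat_lit 13087543296),
  (nat_lit 65, nat_lit 14144507904), (nat_lit 61, nat_lit 15201472512),
  (nat_lit 66, nat_lit 16258437120), (nat_lit 62, nat_lit 17315401728),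
  (nat_lit 64, nat_lit 18372366336), (nat_lit 9, nat_lit 19429330944)]⟩,
  ⟨V4_13003653120, nat_lit 1, [(nat_lit 41, nat_lit 13087543296),
  (nat_lit 52, nat_lit 14161281024), (nat_lit 85, nat_lit 14144507904),
  (nat_lit 92, nat_lit 15218245632), (nat_lit 103, nat_lit 15201472512),
  (nat_lit 74, nat_lit 16275210240), (nat_lit 112, nat_lit 16258437120),
  (nat_lit 85, nat_lit 17332174848), (nat_lit 32, nat_lit 17315401728),
  (nat_lit 61, nat_lit 18389139456), (nat_lit 27, nat_lit 18372366336),
  (nat_lit 60, nat_lit 19446104064)]⟩], [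
  W5_13086490624, W5_13069975552, W5_13053460480, W5_13053202432, W5_13036945408, W5_13036687360,
  W5_13020430336, W5_13020172288, W5_13003657216]⟩

theorem F5_13087543296_chk : fwdChk 5 ks5 F5_13087543296 = true := by decide +kernel

noncomputable def F5_13087285248 : Fwd := ⟨V5_13087285248, [
  ⟨V4_12986621952, nat_lit 2, [(nat_lit 95, nat_lit 13087285248),
  (nat_lit 96, nat_lit 14144249856), (nat_lit 94, nat_lit 15201214464),
  (nat_lit 33, nat_lit 16258179072), (nat_lit 31, nat_lit 17315143680),
  (nat_lit 32, nat_lit 18372108288), (nat_lit 68, nat_lit 19429072896)]⟩,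
  ⟨V4_13020168192, nat_lit 3, [(nat_lit 43, nat_lit 13087285248),
  (nat_lit 104, nat_lit 14161022976), (nat_lit 69, nat_lit 14144249856),
  (nat_lit 68, nat_lit 15234760704), (nat_lit 102, nat_lit 15217987584),
  (nat_lit 57, nat_lit 15201214464), (nat_lit 24, nat_lit 16291725312),
  (nat_lit 88, nat_lit 16274952192), (nat_lit 42, nat_lit 16258179072),
  (nat_lit 22, nat_lit 17348689920), (nat_lit 116, nat_lit 17331916800),
  (nat_lit 49, nat_lit 17315143680), (nat_lit 43, nat_lit 18405654528),
  (nat_lit 64, nat_lit 18388881408), (nat_lit 21, nat_lit 19462619136)]⟩], [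
  W5_13069975552, W5_13053460480, W5_13053202432, W5_13036945408, W5_13036687360, W5_13036429312,
  W5_13020172288, W5_13019914240, W5_13003399168]⟩

theorem F5_13087285248_chk : fwdChk 5 ks5 F5_13087285248 = true := by decide +kernel

noncomputable def F5_13087023168 : Fwd := ⟨V5_13087023168, [
  ⟨V4_13003137024, nat_lit 1, [(nat_lit 126, nat_lit 13087023168),
  (nat_lit 59, nat_lit 14160764928), (nat_lit 107, nat_lit 14143987776),
  (nat_lit 17, nat_lit 15217729536), (nat_lit 45, nat_lit 15200952384),
  (nat_lit 46, nat_lit 16274694144), (nat_lit 19, nat_lit 16257916992),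
  (nat_lit 124, nat_lit 17331658752), (nat_lit 91, nat_lit 17314881600),
  (nat_lit 108, nat_lit 18388623360), (nat_lit 32, nat_lit 18371846208),
  (nat_lit 107, nat_lit 19445587968)]⟩], [
  W5_13053202432, W5_13036687360, W5_13036429312, W5_13036425280, W5_13019914240, W5_13019910208,
  W5_13019652160, W5_13003137088]⟩

theorem F5_13087023168_chk : fwdChk 5 ks5 F5_13087023168 = true := by decide +kernel

noncomputable def F5_13086761088 : Fwd := ⟨V5_13086761088, [
  ⟨V4_13019652096, nat_lit 1, [(nat_lit 38, nat_lit 13086761088),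
  (nat_lit 31, nat_lit 14160502848), (nat_lit 10, nat_lit 14143725696),
  (nat_lit 14, nat_lit 15234244608), (nat_lit 114, nat_lit 15217467456),
  (nat_lit 73, nat_lit 15200690304), (nat_lit 52, nat_lit 16291209216),
  (nat_lit 73, nat_lit 16274432064), (nat_lit 55, nat_lit 16257654912),
  (nat_lit 54, nat_lit 17348173824), (nat_lit 29, nat_lit 17331396672),
  (nat_lit 63, nat_lit 17314619520), (nat_lit 120, nat_lit 18405138432),
  (nat_lit 43, nat_lit 18388361280), (nat_lit 13, nat_lit 19462103040)]⟩], [
  W5_13036429312, W5_13019652160, W5_13002875008]⟩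

theorem F5_13086761088_chk : fwdChk 5 ks5 F5_13086761088 = true := by decide +kernel

noncomputable def F5_13071286272 : Fwd := ⟨V5_13071286272, [
  ⟨V4_13053198336, nat_lit 3, [(nat_lit 48, nat_lit 13071286272),
  (nat_lit 86, nat_lit 14144765952), (nat_lit 63, nat_lit 14128250880),
  (nat_lit 9, nat_lit 15218245632), (nat_lit 64, nat_lit 15201730560),
  (nat_lit 62, nat_lit 16291725312), (nat_lit 96, nat_lit 16275210240),
  (nat_lit 111, nat_lit 17365204992), (nat_lit 26, nat_lit 17348689920),
  (nat_lit 44, nat_lit 18438684672), (nat_lit 19, nat_lit 18422169600),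
  (nat_lit 61, nat_lit 19495649280)]⟩], [
  W5_13069975552, W5_13053460480, W5_13036945408, W5_13020430336, W5_13003915264, W5_11979980800,
  W5_11963465728, W5_11946950656]⟩

theorem F5_13071286272_chk : fwdChk 5 ks5 F5_13071286272 = true := by decide +kernel

noncomputable def F5_13071028224 : Fwd := ⟨V5_13071028224, [
  ⟨V4_11995975680, nat_lit 1, [(nat_lit 119, nat_lit 13071028224),
  (nat_lit 17, nat_lit 14144507904), (nat_lit 49, nat_lit 15217987584),
  (nat_lit 110, nat_lit 16291467264), (nat_lit 60, nat_lit 17364946944),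
  (nat_lit 68, nat_lit 18438426624)]⟩,
  ⟨V4_12987138048, nat_lit 3, [(nat_lit 92, nat_lit 13071028224),
  (nat_lit 12, nat_lit 14144765952), (nat_lit 77, nat_lit 14127992832),
  (nat_lit 118, nat_lit 15201730560), (nat_lit 1, nat_lit 15184957440),
  (nat_lit 72, nat_lit 16258695168), (nat_lit 55, nat_lit 16241922048),
  (nat_lit 63, nat_lit 17315659776), (nat_lit 118, nat_lit 17298886656),
  (nat_lit 30, nat_lit 18372624384), (nat_lit 48, nat_lit 18355851264),
  (nat_lit 33, nat_lit 19429588992)]⟩,
  ⟨V4_13053198336, nat_lit 1, [(nat_lit 33, nat_lit 13071028224),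
  (nat_lit 119, nat_lit 14144765952), (nat_lit 107, nat_lit 14144507904),
  (nat_lit 52, nat_lit 14127992832), (nat_lit 99, nat_lit 15218245632),
  (nat_lit 6, nat_lit 15217987584), (nat_lit 2, nat_lit 15201730560),
  (nat_lit 55, nat_lit 15201472512), (nat_lit 104, nat_lit 16291725312),
  (nat_lit 22, nat_lit 16291467264), (nat_lit 58, nat_lit 16275210240),
  (nat_lit 3, nat_lit 16274952192), (nat_lit 6, nat_lit 17365204992),
  (nat_lit 5, nat_lit 17364946944), (nat_lit 87, nat_lit 17348689920),
  (nat_lit 116, nat_lit 17348431872), (nat_lit 104, nat_lit 18438684672),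
  (nat_lit 100, nat_lit 18422169600), (nat_lit 57, nat_lit 18421911552),
  (nat_lit 104, nat_lit 19495649280)]⟩,
  ⟨V4_11979460608, nat_lit 1, [(nat_lit 41, nat_lit 13071028224),
  (nat_lit 16, nat_lit 14144507904), (nat_lit 76, nat_lit 14127992832),
  (nat_lit 67, nat_lit 15217987584), (nat_lit 9, nat_lit 15201472512),
  (nat_lit 121, nat_lit 16291467264), (nat_lit 35, nat_lit 16274952192),
  (nat_lit 114, nat_lit 17364946944), (nat_lit 60, nat_lit 17348431872),
  (nat_lit 84, nat_lit 18421911552)]⟩], [
  W5_13069975552, W5_13053460480, W5_13053202432, W5_13036945408, W5_13036687360, W5_13020430336,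
  W5_13020172288, W5_13003915264, W5_13003657216, W5_12987142144, W5_11996237824, W5_11979980800,
  W5_11979722752, W5_11963465728, W5_11963207680, W5_11946950656, W5_11946692608, W5_11930177536]⟩

theorem F5_13071028224_chk : fwdChk 5 ks5 F5_13071028224 = true := by decide +kernel

noncomputable def F5_13070770176 : Fwd := ⟨V5_13070770176, [
  ⟨V4_13053198336, nat_lit 3, [(nat_lit 48, nat_lit 13070770176),
  (nat_lit 82, nat_lit 14144507904), (nat_lit 91, nat_lit 14144249856),
  (nat_lit 7, nat_lit 14127734784), (nat_lit 122, nat_lit 15218245632),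
  (nat_lit 36, nat_lit 15217987584), (nat_lit 117, nat_lit 15217729536),
  (nat_lit 42, nat_lit 15201472512), (nat_lit 76, nat_lit 15201214464),
  (nat_lit 110, nat_lit 16291725312), (nat_lit 43, nat_lit 16291467264),
  (nat_lit 7, nat_lit 16291209216), (nat_lit 42, nat_lit 16275210240),
  (nat_lit 80, nat_lit 16274952192), (nat_lit 120, nat_lit 16274694144),
  (nat_lit 79, nat_lit 17365204992), (nat_lit 53, nat_lit 17364946944),
  (nat_lit 41, nat_lit 17348689920), (nat_lit 102, nat_lit 17348431872),
  (nat_lit 61, nat_lit 17348173824), (nat_lit 25, nat_lit 18438684672),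
  (nat_lit 71, nat_lit 18422169600), (nat_lit 103, nat_lit 18421911552),
  (nat_lit 97, nat_lit 19495649280)]⟩,
  ⟨V4_11946688512, nat_lit 2, [(nat_lit 104, nat_lit 13070770176),
  (nat_lit 93, nat_lit 14144507904), (nat_lit 108, nat_lit 14127734784),
  (nat_lit 119, nat_lit 15218245632), (nat_lit 13, nat_lit 15201472512),
  (nat_lit 113, nat_lit 15184699392), (nat_lit 35, nat_lit 16275210240),
  (nat_lit 46, nat_lit 16258437120), (nat_lit 26, nat_lit 16241664000),
  (nat_lit 28, nat_lit 17332174848), (nat_lit 21, nat_lit 17315401728),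
  (nat_lit 120, nat_lit 18389139456)]⟩,
  ⟨V4_13019652096, nat_lit 2, [(nat_lit 77, nat_lit 13070770176),
  (nat_lit 59, nat_lit 14144249856), (nat_lit 34, nat_lit 14127734784),
  (nat_lit 4, nat_lit 15217729536), (nat_lit 29, nat_lit 15201214464),
  (nat_lit 57, nat_lit 15184699392), (nat_lit 18, nat_lit 16291209216),
  (nat_lit 54, nat_lit 16274694144), (nat_lit 88, nat_lit 16258179072),
  (nat_lit 123, nat_lit 16241664000), (nat_lit 73, nat_lit 17348173824),
  (nat_lit 14, nat_lit 17331658752), (nat_lit 102, nat_lit 17315143680),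
  (nat_lit 14, nat_lit 18405138432), (nat_lit 19, nat_lit 18388623360),
  (nat_lit 112, nat_lit 19462103040)]⟩], [
  W5_13069975552, W5_13053460480, W5_13053202432, W5_13036945408, W5_13036687360, W5_13036429312,
  W5_13020430336, W5_13020172288, W5_13019914240, W5_13003657216, W5_13003399168, W5_12986884096,
  W5_11996237824, W5_11979980800, W5_11979722752, W5_11979464704, W5_11963465728, W5_11963207680,
  W5_11962949632, W5_11946692608, W5_11946434560, W5_11929919488]⟩

theorem F5_13070770176_chk : fwdChk 5 ks5 F5_13070770176 = true := by decide +kernel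

noncomputable def F5_13070766144 : Fwd := ⟨V5_13070766144, [
  ⟨V4_11995975680, nat_lit 1, [(nat_lit 18, nat_lit 13070766144),
  (nat_lit 90, nat_lit 14144507904), (nat_lit 9, nat_lit 14144245824),
  (nat_lit 10, nat_lit 15217987584), (nat_lit 26, nat_lit 15217725504),
  (nat_lit 103, nat_lit 16291467264), (nat_lit 116, nat_lit 16291205184),
  (nat_lit 46, nat_lit 17364946944), (nat_lit 78, nat_lit 17364684864),
  (nat_lit 66, nat_lit 18438426624)]⟩,
  ⟨V4_11929915392, nat_lit 2, [(nat_lit 89, nat_lit 13070766144),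
  (nat_lit 45, nat_lit 14144507904), (nat_lit 22, nat_lit 14127730752),
  (nat_lit 62, nat_lit 15201472512), (nat_lit 125, nat_lit 15184695360),
  (nat_lit 7, nat_lit 16258437120), (nat_lit 84, nat_lit 16241659968),
  (nat_lit 2, nat_lit 17315401728), (nat_lit 10, nat_lit 17298624576),
  (nat_lit 89, nat_lit 18372366336)]⟩], [
  W5_13053202432, W5_13036687360, W5_13036425280, W5_13020172288, W5_13019910208, W5_13003657216,
  W5_13003395136, W5_12986880064, W5_11996237824, W5_11995975744, W5_11979722752, W5_11963207680,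
  W5_11962945600, W5_11946692608, W5_11946430528, W5_11929915456]⟩

theorem F5_13070766144_chk : fwdChk 5 ks5 F5_13070766144 = true := by decide +kernel

noncomputable def F5_13070512128 : Fwd := ⟨V5_13070512128, [
  ⟨V4_13020168192, nat_lit 3, [(nat_lit 66, nat_lit 13070512128),
  (nat_lit 44, nat_lit 14144249856), (nat_lit 57, nat_lit 14127476736),
  (nat_lit 61, nat_lit 15217987584), (nat_lit 82, nat_lit 15201214464),
  (nat_lit 70, nat_lit 15184441344), (nat_lit 117, nat_lit 16291725312),
  (nat_lit 76, nat_lit 16274952192), (nat_lit 117, nat_lit 16258179072),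
  (nat_lit 59, nat_lit 16241405952), (nat_lit 69, nat_lit 17348689920),
  (nat_lit 107, nat_lit 17331916800), (nat_lit 81, nat_lit 17315143680),
  (nat_lit 36, nat_lit 18405654528), (nat_lit 91, nat_lit 18388881408),
  (nat_lit 77, nat_lit 19462619136)]⟩,
  ⟨V4_11979718656, nat_lit 1, [(nat_lit 95, nat_lit 13070512128),
  (nat_lit 60, nat_lit 14144249856), (nat_lit 115, nat_lit 14143991808),
  (nat_lit 41, nat_lit 14127476736), (nat_lit 48, nat_lit 15217987584),
  (nat_lit 30, nat_lit 15217729536), (nat_lit 109, nat_lit 15201214464),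
  (nat_lit 64, nat_lit 15200956416), (nat_lit 109, nat_lit 16291725312),
  (nat_lit 27, nat_lit 16291467264), (nat_lit 82, nat_lit 16274952192),
  (nat_lit 9, nat_lit 16274694144), (nat_lit 40, nat_lit 17365204992),
  (nat_lit 9, nat_lit 17348689920), (nat_lit 65, nat_lit 17348431872),
  (nat_lit 20, nat_lit 18422169600)]⟩], [
  W5_13053460480, W5_13036945408, W5_13036687360, W5_13020172288, W5_13019914240, W5_13003399168,
  W5_13003141120, W5_12986626048, W5_11979980800, W5_11979722752, W5_11963207680, W5_11962949632,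
  W5_11946434560, W5_11946176512, W5_11929661440]⟩

theorem F5_13070512128_chk : fwdChk 5 ks5 F5_13070512128 = true := by decide +kernel

noncomputable def F5_13070508096 : Fwd := ⟨V5_13070508096, [
  ⟨V4_12986621952, nat_lit 2, [(nat_lit 20, nat_lit 13070508096),
  (nat_lit 8, nat_lit 14144249856), (nat_lit 78, nat_lit 14127472704),
  (nat_lit 84, nat_lit 15201214464), (nat_lit 32, nat_lit 15184437312),
  (nat_lit 105, nat_lit 16258179072), (nat_lit 106, nat_lit 16241401920),
  (nat_lit 60, nat_lit 17315143680), (nat_lit 89, nat_lit 17298366528),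
  (nat_lit 71, nat_lit 18372108288), (nat_lit 104, nat_lit 18355331136),
  (nat_lit 87, nat_lit 19429072896)]⟩,
  ⟨V4_11979460608, nat_lit 1, [(nat_lit 11, nat_lit 13070508096),
  (nat_lit 75, nat_lit 14144249856), (nat_lit 32, nat_lit 14144245824),
  (nat_lit 51, nat_lit 14143987776), (nat_lit 63, nat_lit 14127472704),
  (nat_lit 60, nat_lit 15217987584), (nat_lit 101, nat_lit 15217729536),
  (nat_lit 63, nat_lit 15217725504), (nat_lit 81, nat_lit 15217467456),
  (nat_lit 41, nat_lit 15201214464), (nat_lit 7, nat_lit 15201210432),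
  (nat_lit 112, nat_lit 15200952384), (nat_lit 2, nat_lit 16291467264),
  (nat_lit 71, nat_lit 16291209216), (nat_lit 111, nat_lit 16291205184),
  (nat_lit 39, nat_lit 16274952192), (nat_lit 43, nat_lit 16274694144),
  (nat_lit 14, nat_lit 16274690112), (nat_lit 80, nat_lit 16274432064),
  (nat_lit 9, nat_lit 17364946944), (nat_lit 113, nat_lit 17348431872),
  (nat_lit 63, nat_lit 17348173824), (nat_lit 98, nat_lit 17348169792),
  (nat_lit 14, nat_lit 18421911552)]⟩], [
  W5_13053202432, W5_13036687360, W5_13036429312, W5_13036425280, W5_13020172288, W5_13019914240,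
  W5_13019910208, W5_13019652160, W5_13003399168, W5_13003395136, W5_13003137088, W5_12986622016,
  W5_11996237824, W5_11979722752, W5_11979464704, W5_11963207680, W5_11962949632, W5_11962945600,
  W5_11962687552, W5_11946434560, W5_11946430528, W5_11946172480, W5_11929657408]⟩

theorem F5_13070508096_chk : fwdChk 5 ks5 F5_13070508096 = true := by decide +kernel

noncomputable def F5_13070250048 : Fwd := ⟨V5_13070250048, [
  ⟨V4_11946172416, nat_lit 1, [(nat_lit 27, nat_lit 13070250048),
  (nat_lit 110, nat_lit 14143991808), (nat_lit 92, nat_lit 14143987776),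
  (nat_lit 11, nat_lit 14127214656), (nat_lit 83, nat_lit 15217729536),
  (nat_lit 70, nat_lit 15200956416), (nat_lit 18, nat_lit 15200952384),
  (nat_lit 51, nat_lit 15184179264), (nat_lit 100, nat_lit 16274694144),
  (nat_lit 23, nat_lit 16257921024), (nat_lit 120, nat_lit 16257916992),
  (nat_lit 81, nat_lit 16241143872), (nat_lit 31, nat_lit 17331658752),
  (nat_lit 74, nat_lit 17314885632), (nat_lit 41, nat_lit 17314881600),
  (nat_lit 88, nat_lit 18388623360)]⟩], [
  W5_13036687360, W5_13019914240, W5_13019910208, W5_13003141120, W5_13003137088, W5_11979722752,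
  W5_11962949632, W5_11962945600, W5_11946176512, W5_11946172480, W5_11929399360]⟩

theorem F5_13070250048_chk : fwdChk 5 ks5 F5_13070250048 = true := by decide +kernel

noncomputable def F5_13070246016 : Fwd := ⟨V5_13070246016, [
  ⟨V4_11946172416, nat_lit 1, [(nat_lit 79, nat_lit 13070246016),
  (nat_lit 37, nat_lit 14143987776), (nat_lit 56, nat_lit 14127210624),
  (nat_lit 106, nat_lit 15217729536), (nat_lit 56, nat_lit 15200952384),
  (nat_lit 117, nat_lit 15184175232), (nat_lit 71, nat_lit 16274694144),
  (nat_lit 64, nat_lit 16257916992), (nat_lit 104, nat_lit 16241139840),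
  (nat_lit 59, nat_lit 17331658752), (nat_lit 73, nat_lit 17314881600),
  (nat_lit 90, nat_lit 18388623360)]⟩], [
  W5_13036429312, W5_13019914240, W5_13019652160, W5_13003137088, W5_13002875008, W5_11979464704,
  W5_11962949632, W5_11962687552, W5_11946172480, W5_11945910400]⟩

theorem F5_13070246016_chk : fwdChk 5 ks5 F5_13070246016 = true := by decide +kernel

noncomputable def F5_13054771200 : Fwd := ⟨V5_13054771200, [
  ⟨V4_13053198336, nat_lit 3, [(nat_lit 70, nat_lit 13054771200),
  (nat_lit 21, nat_lit 14128250880), (nat_lit 89, nat_lit 15201730560),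
  (nat_lit 125, nat_lit 16275210240), (nat_lit 122, nat_lit 17348689920),
  (nat_lit 48, nat_lit 18422169600), (nat_lit 35, nat_lit 19495649280)]⟩,
  ⟨V4_10906238976, nat_lit 2, [(nat_lit 56, nat_lit 13054771200),
  (nat_lit 126, nat_lit 14128250880), (nat_lit 120, nat_lit 15201730560),
  (nat_lit 116, nat_lit 16275210240), (nat_lit 94, nat_lit 17348689920)]⟩], [
  W5_13053460480, W5_13036945408, W5_13020430336, W5_11979980800, W5_11963465728, W5_11946950656,
  W5_10906501120, W5_10889986048, W5_10873470976]⟩

theorem F5_13054771200_chk : fwdChk 5 ks5 F5_13054771200 = true := by decide +kernel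

noncomputable def F5_13054513152 : Fwd := ⟨V5_13054513152, [
  ⟨V4_10906238976, nat_lit 2, [(nat_lit 41, nat_lit 13054513152),
  (nat_lit 101, nat_lit 14128250880), (nat_lit 21, nat_lit 14127992832),
  (nat_lit 41, nat_lit 15201730560), (nat_lit 26, nat_lit 15201472512),
  (nat_lit 18, nat_lit 16275210240), (nat_lit 74, nat_lit 16274952192),
  (nat_lit 90, nat_lit 17348689920)]⟩,
  ⟨V4_13053198336, nat_lit 3, [(nat_lit 48, nat_lit 13054513152),
  (nat_lit 38, nat_lit 14128250880), (nat_lit 14, nat_lit 14127992832),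
  (nat_lit 23, nat_lit 15201730560), (nat_lit 18, nat_lit 15201472512),
  (nat_lit 61, nat_lit 16275210240), (nat_lit 72, nat_lit 16274952192),
  (nat_lit 106, nat_lit 17348689920), (nat_lit 63, nat_lit 17348431872),
  (nat_lit 82, nat_lit 18422169600), (nat_lit 10, nat_lit 18421911552),
  (nat_lit 60, nat_lit 19495649280)]⟩,
  ⟨V4_11979460608, nat_lit 1, [(nat_lit 74, nat_lit 13054513152),
  (nat_lit 40, nat_lit 14127992832), (nat_lit 93, nat_lit 15201472512),
  (nat_lit 78, nat_lit 16274952192), (nat_lit 72, nat_lit 17348431872),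
  (nat_lit 115, nat_lit 18421911552)]⟩,
  ⟨V4_10856435712, nat_lit 1, [(nat_lit 99, nat_lit 13054513152),
  (nat_lit 52, nat_lit 14127992832), (nat_lit 58, nat_lit 14111477760),
  (nat_lit 75, nat_lit 15184957440), (nat_lit 113, nat_lit 15168442368),
  (nat_lit 82, nat_lit 16241922048), (nat_lit 67, nat_lit 16225406976),
  (nat_lit 15, nat_lit 17298886656)]⟩], [
  W5_13053460480, W5_13053202432, W5_13036945408, W5_13036687360, W5_13020430336, W5_13020172288,
  W5_13003915264, W5_13003657216, W5_11979980800, W5_11979722752, W5_11963465728, W5_11963207680,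
  W5_11946950656, W5_11946692608, W5_11930177536, W5_10906501120, W5_10906243072, W5_10889986048,
  W5_10889728000, W5_10873470976, W5_10873212928, W5_10856697856]⟩

theorem F5_13054513152_chk : fwdChk 5 ks5 F5_13054513152 = true := by decide +kernel

noncomputable def F5_13054255104 : Fwd := ⟨V5_13054255104, [
  ⟨V4_10905722880, nat_lit 1, [(nat_lit 5, nat_lit 13054255104),
  (nat_lit 29, nat_lit 14127734784), (nat_lit 14, nat_lit 15201214464),
  (nat_lit 24, nat_lit 16274694144), (nat_lit 59, nat_lit 17348173824)]⟩,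
  ⟨V4_10839662592, nat_lit 2, [(nat_lit 114, nat_lit 13054255104),
  (nat_lit 13, nat_lit 14111219712), (nat_lit 43, nat_lit 15168184320),
  (nat_lit 28, nat_lit 16225148928), (nat_lit 123, nat_lit 17282113536)]⟩,
  ⟨V4_12987138048, nat_lit 3, [(nat_lit 10, nat_lit 13054255104),
  (nat_lit 7, nat_lit 14127992832), (nat_lit 91, nat_lit 14111219712),
  (nat_lit 1, nat_lit 15201730560), (nat_lit 90, nat_lit 15184957440),
  (nat_lit 2, nat_lit 15168184320), (nat_lit 81, nat_lit 16258695168),
  (nat_lit 114, nat_lit 16241922048), (nat_lit 48, nat_lit 16225148928),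
  (nat_lit 69, nat_lit 17315659776), (nat_lit 58, nat_lit 17298886656),
  (nat_lit 106, nat_lit 17282113536), (nat_lit 114, nat_lit 18372624384),
  (nat_lit 71, nat_lit 18355851264), (nat_lit 40, nat_lit 19429588992)]⟩,
  ⟨V4_10906238976, nat_lit 2, [(nat_lit 67, nat_lit 13054255104),
  (nat_lit 111, nat_lit 14127992832), (nat_lit 112, nat_lit 14127734784),
  (nat_lit 72, nat_lit 15201730560), (nat_lit 17, nat_lit 15201472512),
  (nat_lit 119, nat_lit 15201214464), (nat_lit 110, nat_lit 16275210240),
  (nat_lit 87, nat_lit 16274952192), (nat_lit 84, nat_lit 17348689920)]⟩,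
  ⟨V4_13053198336, nat_lit 3, [(nat_lit 45, nat_lit 13054255104),
  (nat_lit 74, nat_lit 14127992832), (nat_lit 30, nat_lit 14127734784),
  (nat_lit 28, nat_lit 15201730560), (nat_lit 2, nat_lit 15201472512),
  (nat_lit 98, nat_lit 15201214464), (nat_lit 20, nat_lit 16275210240),
  (nat_lit 16, nat_lit 16274952192), (nat_lit 96, nat_lit 16274694144),
  (nat_lit 82, nat_lit 17348689920), (nat_lit 28, nat_lit 17348431872),
  (nat_lit 83, nat_lit 17348173824), (nat_lit 43, nat_lit 18422169600),
  (nat_lit 124, nat_lit 18421911552), (nat_lit 26, nat_lit 19495649280)]⟩,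
  ⟨V4_10873208832, nat_lit 1, [(nat_lit 41, nat_lit 13054255104),
  (nat_lit 119, nat_lit 14127992832), (nat_lit 77, nat_lit 14111219712),
  (nat_lit 125, nat_lit 15201730560), (nat_lit 1, nat_lit 15184957440),
  (nat_lit 111, nat_lit 15168184320), (nat_lit 100, nat_lit 16258695168),
  (nat_lit 75, nat_lit 16241922048), (nat_lit 102, nat_lit 17315659776)]⟩,
  ⟨V4_11979460608, nat_lit 1, [(nat_lit 79, nat_lit 13054255104),
  (nat_lit 30, nat_lit 14127992832), (nat_lit 103, nat_lit 14127734784),
  (nat_lit 95, nat_lit 15201472512), (nat_lit 36, nat_lit 15201214464),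
  (nat_lit 102, nat_lit 16274952192), (nat_lit 20, nat_lit 16274694144),
  (nat_lit 32, nat_lit 17348431872), (nat_lit 89, nat_lit 17348173824),
  (nat_lit 29, nat_lit 18421911552)]⟩], [
  W5_13053460480, W5_13053202432, W5_13036945408, W5_13036687360, W5_13036429312, W5_13020430336,
  W5_13020172288, W5_13019914240, W5_13003915264, W5_13003657216, W5_13003399168, W5_12987142144,
  W5_12986884096, W5_11979980800, W5_11979722752, W5_11979464704, W5_11963465728, W5_11963207680,
  W5_11962949632, W5_11946950656, W5_11946692608, W5_11946434560, W5_11930177536, W5_11929919488,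
  W5_11913404416, W5_10906501120, W5_10906243072, W5_10905985024, W5_10889986048, W5_10889728000,
  W5_10889469952, W5_10873212928, W5_10872954880, W5_10856439808]⟩

theorem F5_13054255104_chk : fwdChk 5 ks5 F5_13054255104 = true := by decide +kernel



noncomputable def F5_13053993024 : Fwd := ⟨V5_13053993024, [
  ⟨V4_10905722880, nat_lit 1, [(nat_lit 87, nat_lit 13053993024),
  (nat_lit 48, nat_lit 14127734784), (nat_lit 98, nat_lit 14127472704),
  (nat_lit 67, nat_lit 15201214464), (nat_lit 23, nat_lit 15200952384),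
  (nat_lit 43, nat_lit 16274694144), (nat_lit 96, nat_lit 16274432064),
  (nat_lit 28, nat_lit 17348173824)]⟩,
  ⟨V4_11979460608, nat_lit 1, [(nat_lit 84, nat_lit 13053993024),
  (nat_lit 61, nat_lit 14127734784), (nat_lit 100, nat_lit 14127730752),
  (nat_lit 87, nat_lit 14127472704), (nat_lit 119, nat_lit 15201472512),
  (nat_lit 9, nat_lit 15201214464), (nat_lit 50, nat_lit 15201210432),
  (nat_lit 87, nat_lit 15200952384), (nat_lit 112, nat_lit 16274952192),
  (nat_lit 57, nat_lit 16274694144), (nat_lit 88, nat_lit 16274690112),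
  (nat_lit 42, nat_lit 16274432064), (nat_lit 36, nat_lit 17348431872),
  (nat_lit 53, nat_lit 17348173824), (nat_lit 80, nat_lit 17348169792),
  (nat_lit 58, nat_lit 18421911552)]⟩,
  ⟨V4_10872692736, nat_lit 2, [(nat_lit 93, nat_lit 13053993024),
  (nat_lit 99, nat_lit 14127734784), (nat_lit 106, nat_lit 14127472704),
  (nat_lit 55, nat_lit 14110957632), (nat_lit 36, nat_lit 15201214464),
  (nat_lit 64, nat_lit 15184699392), (nat_lit 20, nat_lit 15184437312),
  (nat_lit 11, nat_lit 15167922240), (nat_lit 18, nat_lit 16258179072),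
  (nat_lit 40, nat_lit 16241664000), (nat_lit 110, nat_lit 16241401920),
  (nat_lit 103, nat_lit 17315143680)]⟩,
  ⟨V4_11913142272, nat_lit 1, [(nat_lit 116, nat_lit 13053993024),
  (nat_lit 17, nat_lit 14127734784), (nat_lit 45, nat_lit 14110957632),
  (nat_lit 113, nat_lit 15184699392), (nat_lit 2, nat_lit 15167922240),
  (nat_lit 118, nat_lit 16241664000), (nat_lit 47, nat_lit 16224886848),
  (nat_lit 75, nat_lit 17298628608), (nat_lit 32, nat_lit 17281851456),
  (nat_lit 49, nat_lit 18355593216)]⟩], [
  W5_13053202432, W5_13036687360, W5_13036429312, W5_13036425280, W5_13020172288, W5_13019914240,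
  W5_13019910208, W5_13019652160, W5_13003657216, W5_13003399168, W5_13003395136, W5_13003137088,
  W5_12986884096, W5_12986880064, W5_12986622016, W5_12970106944, W5_11979722752, W5_11979464704,
  W5_11963207680, W5_11962949632, W5_11962945600, W5_11962687552, W5_11946692608, W5_11946434560,
  W5_11946430528, W5_11946172480, W5_11929919488, W5_11929915456, W5_11929657408, W5_11913142336,
  W5_10906243072, W5_10905985024, W5_10905722944, W5_10889728000, W5_10889469952, W5_10889465920,
  W5_10889207872, W5_10872954880, W5_10872950848, W5_10872692800, W5_10856177728]⟩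

theorem F5_13053993024_chk : fwdChk 5 ks5 F5_13053993024 = true := by decide +kernel

noncomputable def F5_13053739008 : Fwd := ⟨V5_13053739008, [
  ⟨V4_10906238976, nat_lit 2, [(nat_lit 118, nat_lit 13053739008),
  (nat_lit 27, nat_lit 14127476736), (nat_lit 47, nat_lit 15201214464),
  (nat_lit 54, nat_lit 16274952192), (nat_lit 40, nat_lit 17348689920)]⟩,
  ⟨V4_12953075712, nat_lit 1, [(nat_lit 18, nat_lit 13053739008),
  (nat_lit 46, nat_lit 14110703616), (nat_lit 35, nat_lit 15167668224),
  (nat_lit 74, nat_lit 16224632832), (nat_lit 25, nat_lit 17281597440),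
  (nat_lit 23, nat_lit 18338562048), (nat_lit 6, nat_lit 19395526656)]⟩,
  ⟨V4_10839146496, nat_lit 1, [(nat_lit 61, nat_lit 13053739008),
  (nat_lit 66, nat_lit 14110703616), (nat_lit 62, nat_lit 15167668224),
  (nat_lit 64, nat_lit 16224632832), (nat_lit 9, nat_lit 17281597440)]⟩,
  ⟨V4_13020168192, nat_lit 2, [(nat_lit 67, nat_lit 13053739008),
  (nat_lit 38, nat_lit 14127476736), (nat_lit 8, nat_lit 14110703616),
  (nat_lit 47, nat_lit 15201214464), (nat_lit 22, nat_lit 15184441344),
  (nat_lit 24, nat_lit 15167668224), (nat_lit 88, nat_lit 16274952192),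
  (nat_lit 40, nat_lit 16258179072), (nat_lit 115, nat_lit 16241405952),
  (nat_lit 34, nat_lit 17348689920), (nat_lit 12, nat_lit 17331916800),
  (nat_lit 68, nat_lit 17315143680), (nat_lit 65, nat_lit 18405654528),
  (nat_lit 114, nat_lit 18388881408), (nat_lit 126, nat_lit 19462619136)]⟩], [
  W5_13036945408, W5_13020172288, W5_13003399168, W5_12986626048, W5_12969852928, W5_11979980800,
  W5_11963207680, W5_11946434560, W5_11929661440, W5_11912888320, W5_10906243072, W5_10889469952,
  W5_10872696832, W5_10855923712]⟩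

theorem F5_13053739008_chk : fwdChk 5 ks5 F5_13053739008 = true := by decide +kernel

noncomputable def F5_13053734976 : Fwd := ⟨V5_13053734976, [
  ⟨V4_10872692736, nat_lit 2, [(nat_lit 84, nat_lit 13053734976),
  (nat_lit 15, nat_lit 14127476736), (nat_lit 22, nat_lit 14127472704),
  (nat_lit 20, nat_lit 14110699584), (nat_lit 94, nat_lit 15201214464),
  (nat_lit 14, nat_lit 15184441344), (nat_lit 62, nat_lit 15184437312),
  (nat_lit 99, nat_lit 15167664192), (nat_lit 52, nat_lit 16258179072),
  (nat_lit 34, nat_lit 16241405952), (nat_lit 36, nat_lit 16241401920),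
  (nat_lit 37, nat_lit 17315143680)]⟩,
  ⟨V4_10855919616, nat_lit 1, [(nat_lit 117, nat_lit 13053734976),
  (nat_lit 18, nat_lit 14127476736), (nat_lit 24, nat_lit 14110699584),
  (nat_lit 43, nat_lit 15184441344), (nat_lit 8, nat_lit 15167664192),
  (nat_lit 103, nat_lit 16241405952), (nat_lit 7, nat_lit 16224628800),
  (nat_lit 75, nat_lit 17298370560)]⟩], [
  W5_13036687360, W5_13020172288, W5_13019914240, W5_13019910208, W5_13003399168, W5_13003395136,
  W5_13003141120, W5_13003137088, W5_12986626048, W5_12986622016, W5_11979722752, W5_11963207680,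
  W5_11962949632, W5_11962945600, W5_11946434560, W5_11946430528, W5_11946176512, W5_11946172480,
  W5_11929661440, W5_11929657408, W5_11929399360, W5_11912884288, W5_10906243072, W5_10905985024,
  W5_10889469952, W5_10889465920, W5_10889211904, W5_10889207872, W5_10872696832, W5_10872692800,
  W5_10855919680]⟩

theorem F5_13053734976_chk : fwdChk 5 ks5 F5_13053734976 = true := by decide +kernel

noncomputable def F5_13053730944 : Fwd := ⟨V5_13053730944, [
  ⟨V4_10905722880, nat_lit 1, [(nat_lit 9, nat_lit 13053730944),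
  (nat_lit 69, nat_lit 14127472704), (nat_lit 15, nat_lit 14127210624),
  (nat_lit 57, nat_lit 15201214464), (nat_lit 38, nat_lit 15200952384),
  (nat_lit 70, nat_lit 15200690304), (nat_lit 35, nat_lit 16274694144),
  (nat_lit 9, nat_lit 16274432064), (nat_lit 69, nat_lit 17348173824)]⟩,
  ⟨V4_10872692736, nat_lit 2, [(nat_lit 85, nat_lit 13053730944),
  (nat_lit 85, nat_lit 14127472704), (nat_lit 71, nat_lit 14110695552),
  (nat_lit 42, nat_lit 15201214464), (nat_lit 79, nat_lit 15184437312),
  (nat_lit 49, nat_lit 15167660160), (nat_lit 51, nat_lit 16258179072),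
  (nat_lit 104, nat_lit 16241401920), (nat_lit 123, nat_lit 17315143680)]⟩], [
  W5_13036429312, W5_13019914240, W5_13019652160, W5_13003399168, W5_13003137088, W5_13002875008,
  W5_12986622016, W5_12969844864, W5_11979464704, W5_11962949632, W5_11962687552, W5_11946434560,
  W5_11946172480, W5_11945910400, W5_11929657408, W5_11912880256, W5_10905985024, W5_10905722944,
  W5_10889469952, W5_10889207872, W5_10872692800, W5_10872430720, W5_10855915648]⟩

theorem F5_13053730944_chk : fwdChk 5 ks5 F5_13053730944 = true := by decide +kernel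

noncomputable def F5_13037998080 : Fwd := ⟨V5_13037998080, [
  ⟨V4_11962945536, nat_lit 2, [(nat_lit 54, nat_lit 13037998080),
  (nat_lit 43, nat_lit 14111477760), (nat_lit 126, nat_lit 15184957440),
  (nat_lit 29, nat_lit 16258437120), (nat_lit 90, nat_lit 17331916800),
  (nat_lit 43, nat_lit 18405396480)]⟩,
  ⟨V4_10873208832, nat_lit 2, [(nat_lit 69, nat_lit 13037998080),
  (nat_lit 11, nat_lit 14111735808), (nat_lit 1, nat_lit 14111477760),
  (nat_lit 112, nat_lit 14094962688), (nat_lit 125, nat_lit 15185215488),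
  (nat_lit 30, nat_lit 15184957440), (nat_lit 89, nat_lit 15168700416),
  (nat_lit 31, nat_lit 15168442368), (nat_lit 34, nat_lit 16258695168),
  (nat_lit 40, nat_lit 16242180096), (nat_lit 62, nat_lit 16241922048),
  (nat_lit 124, nat_lit 17315659776)]⟩], [
  W5_13036945408, W5_13036687360, W5_13020430336, W5_13020172288, W5_11963465728, W5_11963207680,
  W5_11946950656, W5_11946692608, W5_10889986048, W5_10889728000, W5_10873470976, W5_10873212928,
  W5_9816248320, W5_9799991296, W5_9799733248]⟩

theorem F5_13037998080_chk : fwdChk 5 ks5 F5_13037998080 = true := by decide +kernel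

noncomputable def F5_13037740032 : Fwd := ⟨V5_13037740032, [
  ⟨V4_13019652096, nat_lit 2, [(nat_lit 82, nat_lit 13037740032),
  (nat_lit 36, nat_lit 14111219712), (nat_lit 96, nat_lit 14094704640),
  (nat_lit 79, nat_lit 15184699392), (nat_lit 66, nat_lit 15168184320),
  (nat_lit 126, nat_lit 16258179072), (nat_lit 67, nat_lit 16241664000),
  (nat_lit 10, nat_lit 17331658752), (nat_lit 45, nat_lit 17315143680),
  (nat_lit 71, nat_lit 18405138432), (nat_lit 27, nat_lit 18388623360),
  (nat_lit 106, nat_lit 19462103040)]⟩,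
  ⟨V4_10873208832, nat_lit 2, [(nat_lit 35, nat_lit 13037740032),
  (nat_lit 11, nat_lit 14111477760), (nat_lit 37, nat_lit 14111219712),
  (nat_lit 123, nat_lit 14094704640), (nat_lit 67, nat_lit 15185215488),
  (nat_lit 30, nat_lit 15184957440), (nat_lit 41, nat_lit 15168442368),
  (nat_lit 66, nat_lit 15168184320), (nat_lit 35, nat_lit 16258695168),
  (nat_lit 40, nat_lit 16242180096), (nat_lit 19, nat_lit 16241922048),
  (nat_lit 69, nat_lit 17315659776)]⟩,
  ⟨V4_13036683264, nat_lit 2, [(nat_lit 97, nat_lit 13037740032),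
  (nat_lit 73, nat_lit 14111477760), (nat_lit 13, nat_lit 14111219712),
  (nat_lit 87, nat_lit 15185215488), (nat_lit 56, nat_lit 15184957440),
  (nat_lit 35, nat_lit 15184699392), (nat_lit 69, nat_lit 16258695168),
  (nat_lit 4, nat_lit 16258437120), (nat_lit 32, nat_lit 16258179072),
  (nat_lit 116, nat_lit 17332174848), (nat_lit 113, nat_lit 17331916800),
  (nat_lit 61, nat_lit 17331658752), (nat_lit 11, nat_lit 18405654528),
  (nat_lit 94, nat_lit 18405396480), (nat_lit 122, nat_lit 19479134208)]⟩], [
  W5_13036945408, W5_13036687360, W5_13036429312, W5_13020430336, W5_13020172288, W5_13019914240,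
  W5_13003915264, W5_13003657216, W5_13003399168, W5_11963465728, W5_11963207680, W5_11962949632,
  W5_11946950656, W5_11946692608, W5_11946434560, W5_11930177536, W5_11929919488, W5_10889986048,
  W5_10889728000, W5_10889469952, W5_10873470976, W5_10873212928, W5_10872954880, W5_10856697856,
  W5_10856439808, W5_9816248320, W5_9815990272, W5_9799733248, W5_9799475200]⟩

theorem F5_13037740032_chk : fwdChk 5 ks5 F5_13037740032 = true := by decide +kernel

noncomputable def F5_13037736000 : Fwd := ⟨V5_13037736000, [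
  ⟨V4_11962945536, nat_lit 2, [(nat_lit 123, nat_lit 13037736000),
  (nat_lit 97, nat_lit 14111477760), (nat_lit 77, nat_lit 14111215680),
  (nat_lit 121, nat_lit 15184957440), (nat_lit 109, nat_lit 15184695360),
  (nat_lit 114, nat_lit 16258437120), (nat_lit 62, nat_lit 16258175040),
  (nat_lit 115, nat_lit 17331916800), (nat_lit 91, nat_lit 17331654720),
  (nat_lit 81, nat_lit 18405396480)]⟩,
  ⟨V4_9799471104, nat_lit 1, [(nat_lit 107, nat_lit 13037736000),
  (nat_lit 61, nat_lit 14111477760), (nat_lit 71, nat_lit 14111215680),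
  (nat_lit 52, nat_lit 14094700608), (nat_lit 7, nat_lit 15184957440),
  (nat_lit 60, nat_lit 15168442368), (nat_lit 113, nat_lit 15168180288),
  (nat_lit 65, nat_lit 16241922048)]⟩], [
  W5_13036687360, W5_13036425280, W5_13020172288, W5_13019910208, W5_13003657216, W5_13003395136,
  W5_11963207680, W5_11962945600, W5_11946692608, W5_11946430528, W5_11930177536, W5_11929915456,
  W5_10889728000, W5_10889465920, W5_10873212928, W5_10872950848, W5_10856697856, W5_10856435776,
  W5_9816248320, W5_9815986240, W5_9799733248, W5_9799471168, W5_9782956096]⟩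

theorem F5_13037736000_chk : fwdChk 5 ks5 F5_13037736000 = true := by decide +kernel

noncomputable def F5_13037481984 : Fwd := ⟨V5_13037481984, [
  ⟨V4_9815470080, nat_lit 1, [(nat_lit 79, nat_lit 13037481984),
  (nat_lit 80, nat_lit 14110961664), (nat_lit 79, nat_lit 15184441344),
  (nat_lit 91, nat_lit 16257921024)]⟩,
  ⟨V4_12987138048, nat_lit 3, [(nat_lit 124, nat_lit 13037481984),
  (nat_lit 98, nat_lit 14111219712), (nat_lit 48, nat_lit 14094446592),
  (nat_lit 24, nat_lit 15184957440), (nat_lit 44, nat_lit 15168184320),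
  (nat_lit 88, nat_lit 15151411200), (nat_lit 115, nat_lit 16258695168),
  (nat_lit 84, nat_lit 16241922048), (nat_lit 70, nat_lit 16225148928),
  (nat_lit 53, nat_lit 16208375808), (nat_lit 23, nat_lit 17315659776),
  (nat_lit 28, nat_lit 17298886656), (nat_lit 78, nat_lit 17282113536),
  (nat_lit 3, nat_lit 18372624384), (nat_lit 89, nat_lit 18355851264),
  (nat_lit 122, nat_lit 19429588992)]⟩,
  ⟨V4_9765924864, nat_lit 1, [(nat_lit 7, nat_lit 13037481984), (nat_lit 72, nat_lit 14094446592),
  (nat_lit 103, nat_lit 15151411200), (nat_lit 76, nat_lit 16208375808)]⟩,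
  ⟨V4_10873208832, nat_lit 2, [(nat_lit 69, nat_lit 13037481984),
  (nat_lit 122, nat_lit 14111219712), (nat_lit 70, nat_lit 14094446592),
  (nat_lit 68, nat_lit 15184957440), (nat_lit 29, nat_lit 15168184320),
  (nat_lit 4, nat_lit 16258695168), (nat_lit 82, nat_lit 16241922048),
  (nat_lit 34, nat_lit 17315659776)]⟩,
  ⟨V4_10839662592, nat_lit 2, [(nat_lit 42, nat_lit 13037481984),
  (nat_lit 14, nat_lit 14111219712), (nat_lit 83, nat_lit 14094446592),
  (nat_lit 57, nat_lit 15168184320), (nat_lit 7, nat_lit 15151411200),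
  (nat_lit 62, nat_lit 16225148928), (nat_lit 69, nat_lit 16208375808),
  (nat_lit 33, nat_lit 17282113536)]⟩,
  ⟨V4_13036683264, nat_lit 2, [(nat_lit 75, nat_lit 13037481984),
  (nat_lit 36, nat_lit 14111219712), (nat_lit 31, nat_lit 14110961664),
  (nat_lit 110, nat_lit 15184957440), (nat_lit 24, nat_lit 15184699392),
  (nat_lit 122, nat_lit 15184441344), (nat_lit 124, nat_lit 16258695168),
  (nat_lit 27, nat_lit 16258437120), (nat_lit 53, nat_lit 16258179072),
  (nat_lit 100, nat_lit 16257921024), (nat_lit 16, nat_lit 17332174848),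
  (nat_lit 89, nat_lit 17331916800), (nat_lit 26, nat_lit 17331658752),
  (nat_lit 91, nat_lit 18405654528), (nat_lit 124, nat_lit 18405396480),
  (nat_lit 9, nat_lit 19479134208)]⟩], [
  W5_13036945408, W5_13036687360, W5_13020430336, W5_13020172288, W5_13019914240, W5_13003915264,
  W5_13003657216, W5_13003399168, W5_13003141120, W5_12987142144, W5_12986884096, W5_12986626048,
  W5_11963465728, W5_11963207680, W5_11962949632, W5_11946950656, W5_11946692608, W5_11946434560,
  W5_11946176512, W5_11930177536, W5_11929919488, W5_11929661440, W5_11913404416, W5_11913146368,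
  W5_10889986048, W5_10889728000, W5_10889469952, W5_10889211904, W5_10873212928, W5_10872954880,
  W5_10872696832, W5_10856439808, W5_10856181760, W5_10839666688, W5_9816248320, W5_9815990272,
  W5_9815732224, W5_9799475200, W5_9799217152, W5_9782702080]⟩

theorem F5_13037481984_chk : fwdChk 5 ks5 F5_13037481984 = true := by decide +kernel

noncomputable def F5_13037477952 : Fwd := ⟨V5_13037477952, [
  ⟨V4_10839662592, nat_lit 2, [(nat_lit 60, nat_lit 13037477952),
  (nat_lit 80, nat_lit 14111219712), (nat_lit 60, nat_lit 14094442560),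
  (nat_lit 123, nat_lit 15168184320), (nat_lit 94, nat_lit 15151407168),
  (nat_lit 101, nat_lit 16225148928), (nat_lit 9, nat_lit 16208371776),
  (nat_lit 60, nat_lit 17282113536)]⟩,
  ⟨V4_9799471104, nat_lit 1, [(nat_lit 121, nat_lit 13037477952),
  (nat_lit 54, nat_lit 14111219712), (nat_lit 42, nat_lit 14111215680),
  (nat_lit 13, nat_lit 14094442560), (nat_lit 4, nat_lit 15184957440),
  (nat_lit 63, nat_lit 15168184320), (nat_lit 119, nat_lit 15168180288),
  (nat_lit 46, nat_lit 16241922048)]⟩,
  ⟨V4_13019652096, nat_lit 2, [(nat_lit 107, nat_lit 13037477952),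
  (nat_lit 84, nat_lit 14111219712), (nat_lit 67, nat_lit 14110957632),
  (nat_lit 58, nat_lit 14094442560), (nat_lit 35, nat_lit 15184699392),
  (nat_lit 101, nat_lit 15184437312), (nat_lit 96, nat_lit 15168184320),
  (nat_lit 84, nat_lit 15167922240), (nat_lit 41, nat_lit 16258179072),
  (nat_lit 35, nat_lit 16257916992), (nat_lit 85, nat_lit 16241664000),
  (nat_lit 112, nat_lit 16241401920), (nat_lit 121, nat_lit 17331658752),
  (nat_lit 43, nat_lit 17331396672), (nat_lit 44, nat_lit 17315143680),
  (nat_lit 11, nat_lit 17314881600), (nat_lit 56, nat_lit 18405138432),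
  (nat_lit 44, nat_lit 18388623360), (nat_lit 81, nat_lit 18388361280),
  (nat_lit 117, nat_lit 19462103040)]⟩,
  ⟨V4_9799213056, nat_lit 1, [(nat_lit 17, nat_lit 13037477952),
  (nat_lit 28, nat_lit 14111219712), (nat_lit 4, nat_lit 14110957632),
  (nat_lit 30, nat_lit 14094442560), (nat_lit 64, nat_lit 15184699392),
  (nat_lit 5, nat_lit 15168184320), (nat_lit 15, nat_lit 15167922240),
  (nat_lit 115, nat_lit 16241664000)]⟩], [
  W5_13036687360, W5_13036429312, W5_13036425280, W5_13020172288, W5_13019914240, W5_13019910208,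
  W5_13019652160, W5_13003657216, W5_13003399168, W5_13003395136, W5_13003137088, W5_12987142144,
  W5_12986884096, W5_12986880064, W5_12986622016, W5_11963207680, W5_11962949632, W5_11962945600,
  W5_11962687552, W5_11946692608, W5_11946434560, W5_11946430528, W5_11946172480, W5_11930177536,
  W5_11929919488, W5_11929915456, W5_11929657408, W5_11913404416, W5_11913142336, W5_10889728000,
  W5_10889469952, W5_10889465920, W5_10889207872, W5_10873212928, W5_10872954880, W5_10872950848,
  W5_10872692800, W5_10856439808, W5_10856435776, W5_10856177728, W5_10839662656, W5_9816248320,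
  W5_9815990272, W5_9815986240, W5_9815728192, W5_9799475200, W5_9799471168, W5_9799213120,
  W5_9782698048]⟩

theorem F5_13037477952_chk : fwdChk 5 ks5 F5_13037477952 = true := by decide +kernel

noncomputable def F5_13037223936 : Fwd := ⟨V5_13037223936, [
  ⟨V4_10889723904, nat_lit 1, [(nat_lit 116, nat_lit 13037223936),
  (nat_lit 33, nat_lit 14110961664), (nat_lit 1, nat_lit 15184699392),
  (nat_lit 66, nat_lit 16258437120), (nat_lit 63, nat_lit 17332174848)]⟩,
  ⟨V4_13020168192, nat_lit 3, [(nat_lit 45, nat_lit 13037223936),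
  (nat_lit 20, nat_lit 14110961664), (nat_lit 106, nat_lit 14110703616),
  (nat_lit 70, nat_lit 14094188544), (nat_lit 62, nat_lit 15184699392),
  (nat_lit 44, nat_lit 15184441344), (nat_lit 20, nat_lit 15167926272),
  (nat_lit 33, nat_lit 15167668224), (nat_lit 49, nat_lit 16258437120),
  (nat_lit 109, nat_lit 16258179072), (nat_lit 65, nat_lit 16241664000),
  (nat_lit 67, nat_lit 16241405952), (nat_lit 70, nat_lit 17332174848),
  (nat_lit 43, nat_lit 17331916800), (nat_lit 25, nat_lit 17315401728),
  (nat_lit 114, nat_lit 17315143680), (nat_lit 2, nat_lit 18405654528),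
  (nat_lit 15, nat_lit 18389139456), (nat_lit 37, nat_lit 18388881408),
  (nat_lit 39, nat_lit 19462619136)]⟩,
  ⟨V4_9782439936, nat_lit 1, [(nat_lit 111, nat_lit 13037223936),
  (nat_lit 56, nat_lit 14110961664), (nat_lit 69, nat_lit 14094188544),
  (nat_lit 67, nat_lit 15167926272), (nat_lit 103, nat_lit 15151153152),
  (nat_lit 12, nat_lit 16224890880)]⟩], [
  W5_13036945408, W5_13020430336, W5_13020172288, W5_13003657216, W5_13003399168, W5_12986884096,
  W5_12986626048, W5_12969852928, W5_11963465728, W5_11963207680, W5_11946692608, W5_11946434560,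
  W5_11929919488, W5_11929661440, W5_11913146368, W5_11912888320, W5_10889728000, W5_10889469952,
  W5_10872954880, W5_10872696832, W5_10856181760, W5_10855923712, W5_10839408640, W5_9815990272,
  W5_9815732224, W5_9799217152, W5_9798959104, W5_9782444032]⟩

theorem F5_13037223936_chk : fwdChk 5 ks5 F5_13037223936 = true := by decide +kernel

noncomputable def F5_13036961856 : Fwd := ⟨V5_13036961856, [
  ⟨V4_12953075712, nat_lit 1, [(nat_lit 54, nat_lit 13036961856),
  (nat_lit 33, nat_lit 14110703616), (nat_lit 53, nat_lit 14093926464),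
  (nat_lit 58, nat_lit 15167668224), (nat_lit 51, nat_lit 15150891072),
  (nat_lit 29, nat_lit 16224632832), (nat_lit 24, nat_lit 16207855680),
  (nat_lit 31, nat_lit 17281597440), (nat_lit 12, nat_lit 17264820288),
  (nat_lit 48, nat_lit 18338562048), (nat_lit 104, nat_lit 18321784896),
  (nat_lit 86, nat_lit 19395526656)]⟩,
  ⟨V4_10839146496, nat_lit 1, [(nat_lit 1, nat_lit 13036961856),
  (nat_lit 86, nat_lit 14110703616), (nat_lit 1, nat_lit 14093926464),
  (nat_lit 110, nat_lit 15167668224), (nat_lit 82, nat_lit 15150891072),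
  (nat_lit 80, nat_lit 16224632832), (nat_lit 70, nat_lit 16207855680),
  (nat_lit 1, nat_lit 17281597440)]⟩,
  ⟨V4_10889465856, nat_lit 1, [(nat_lit 84, nat_lit 13036961856),
  (nat_lit 102, nat_lit 14110703616), (nat_lit 113, nat_lit 14110699584),
  (nat_lit 75, nat_lit 15184441344), (nat_lit 86, nat_lit 15184437312),
  (nat_lit 60, nat_lit 16258179072), (nat_lit 66, nat_lit 16258175040),
  (nat_lit 23, nat_lit 17331916800)]⟩], [
  W5_13020172288, W5_13003399168, W5_13003395136, W5_12986626048, W5_12986622016, W5_12969852928,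
  W5_12953075776, W5_11963207680, W5_11946434560, W5_11946430528, W5_11929661440, W5_11929657408,
  W5_11912888320, W5_11912884288, W5_10889469952, W5_10889465920, W5_10872696832, W5_10872692800,
  W5_10855923712, W5_10855919680, W5_10839146560, W5_9815732224, W5_9815728192, W5_9798959104,
  W5_9798955072, W5_9782181952]⟩

theorem F5_13036961856_chk : fwdChk 5 ks5 F5_13036961856 = true := by decide +kernel

noncomputable def F5_13021224960 : Fwd := ⟨V5_13021224960, [
  ⟨V4_8726249472, nat_lit 1, [(nat_lit 93, nat_lit 13021224960),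
  (nat_lit 80, nat_lit 14094962688), (nat_lit 58, nat_lit 15168700416)]⟩,
  ⟨V4_8725733376, nat_lit 1, [(nat_lit 57, nat_lit 13021224960),
  (nat_lit 40, nat_lit 14094704640), (nat_lit 56, nat_lit 15168184320)]⟩,
  ⟨V4_13019652096, nat_lit 2, [(nat_lit 25, nat_lit 13021224960),
  (nat_lit 71, nat_lit 14094704640), (nat_lit 59, nat_lit 15168184320),
  (nat_lit 90, nat_lit 16241664000), (nat_lit 98, nat_lit 17315143680),
  (nat_lit 126, nat_lit 18388623360), (nat_lit 76, nat_lit 19462103040)]⟩,
  ⟨V4_10873208832, nat_lit 2, [(nat_lit 126, nat_lit 13021224960),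
  (nat_lit 40, nat_lit 14094962688), (nat_lit 87, nat_lit 14094704640),
  (nat_lit 115, nat_lit 15168700416), (nat_lit 67, nat_lit 15168442368),
  (nat_lit 59, nat_lit 15168184320), (nat_lit 109, nat_lit 16242180096),
  (nat_lit 62, nat_lit 16241922048), (nat_lit 119, nat_lit 17315659776)]⟩], [
  W5_13020430336, W5_13020172288, W5_13019914240, W5_11946950656, W5_11946692608, W5_11946434560,
  W5_10873470976, W5_10873212928, W5_10872954880, W5_9799991296, W5_9799733248, W5_9799475200,
  W5_8725995520]⟩

theorem F5_13021224960_chk : fwdChk 5 ks5 F5_13021224960 = true := by decide +kernel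

noncomputable def F5_13020966912 : Fwd := ⟨V5_13020966912, [
  ⟨V4_8725733376, nat_lit 1, [(nat_lit 45, nat_lit 13020966912),
  (nat_lit 56, nat_lit 14094704640), (nat_lit 75, nat_lit 14094446592),
  (nat_lit 69, nat_lit 15168184320)]⟩,
  ⟨V4_10873208832, nat_lit 2, [(nat_lit 115, nat_lit 13020966912),
  (nat_lit 71, nat_lit 14094704640), (nat_lit 12, nat_lit 14094446592),
  (nat_lit 79, nat_lit 15168442368), (nat_lit 16, nat_lit 15168184320),
  (nat_lit 40, nat_lit 16242180096), (nat_lit 124, nat_lit 16241922048),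
  (nat_lit 115, nat_lit 17315659776)]⟩,
  ⟨V4_11946688512, nat_lit 1, [(nat_lit 68, nat_lit 13020966912),
  (nat_lit 84, nat_lit 14094704640), (nat_lit 40, nat_lit 14094446592),
  (nat_lit 79, nat_lit 15168442368), (nat_lit 44, nat_lit 15168184320),
  (nat_lit 1, nat_lit 15167926272), (nat_lit 22, nat_lit 16242180096),
  (nat_lit 69, nat_lit 16241922048), (nat_lit 96, nat_lit 16241664000),
  (nat_lit 101, nat_lit 17315659776), (nat_lit 76, nat_lit 17315401728),
  (nat_lit 119, nat_lit 18389139456)]⟩,
  ⟨V4_9782439936, nat_lit 1, [(nat_lit 116, nat_lit 13020966912),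
  (nat_lit 69, nat_lit 14094446592), (nat_lit 92, nat_lit 14077931520),
  (nat_lit 86, nat_lit 15167926272), (nat_lit 108, nat_lit 15151411200),
  (nat_lit 41, nat_lit 16224890880)]⟩], [
  W5_13020430336, W5_13020172288, W5_13019914240, W5_13003915264, W5_13003657216, W5_13003399168,
  W5_13003141120, W5_11946950656, W5_11946692608, W5_11946434560, W5_11946176512, W5_11930177536,
  W5_11929919488, W5_11929661440, W5_10873470976, W5_10873212928, W5_10872954880, W5_10872696832,
  W5_10856697856, W5_10856439808, W5_10856181760, W5_9799733248, W5_9799475200, W5_9799217152,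
  W5_9782702080, W5_8725995520, W5_8725737472]⟩

theorem F5_13020966912_chk : fwdChk 5 ks5 F5_13020966912 = true := by decide +kernel

noncomputable def F5_13020962880 : Fwd := ⟨V5_13020962880, [
  ⟨V4_8725733376, nat_lit 1, [(nat_lit 84, nat_lit 13020962880), (nat_lit 9, nat_lit 14094704640),
  (nat_lit 36, nat_lit 14094442560), (nat_lit 105, nat_lit 15168184320)]⟩,
  ⟨V4_13019652096, nat_lit 2, [(nat_lit 46, nat_lit 13020962880),
  (nat_lit 89, nat_lit 14094704640), (nat_lit 103, nat_lit 14094442560),
  (nat_lit 63, nat_lit 15168184320), (nat_lit 79, nat_lit 15167922240),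
  (nat_lit 81, nat_lit 16241664000), (nat_lit 25, nat_lit 16241401920),
  (nat_lit 70, nat_lit 17315143680), (nat_lit 21, nat_lit 17314881600),
  (nat_lit 93, nat_lit 18388623360), (nat_lit 19, nat_lit 18388361280),
  (nat_lit 45, nat_lit 19462103040)]⟩,
  ⟨V4_9799471104, nat_lit 1, [(nat_lit 62, nat_lit 13020962880),
  (nat_lit 63, nat_lit 14094704640), (nat_lit 117, nat_lit 14094700608),
  (nat_lit 126, nat_lit 14094442560), (nat_lit 52, nat_lit 15168442368),
  (nat_lit 85, nat_lit 15168184320), (nat_lit 102, nat_lit 15168180288),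
  (nat_lit 124, nat_lit 16241922048)]⟩], [
  W5_13020172288, W5_13019914240, W5_13019910208, W5_13019652160, W5_13003657216, W5_13003399168,
  W5_13003395136, W5_13003137088, W5_11946692608, W5_11946434560, W5_11946430528, W5_11946172480,
  W5_11930177536, W5_11929919488, W5_11929915456, W5_11929657408, W5_10873212928, W5_10872954880,
  W5_10872950848, W5_10872692800, W5_10856697856, W5_10856439808, W5_10856435776, W5_10856177728,
  W5_9799733248, W5_9799475200, W5_9799471168, W5_9799213120, W5_9782956096, W5_9782698048,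
  W5_8725995520, W5_8725733440]⟩

theorem F5_13020962880_chk : fwdChk 5 ks5 F5_13020962880 = true := by decide +kernel

noncomputable def F5_13020708864 : Fwd := ⟨V5_13020708864, [
  ⟨V4_8725217280, nat_lit 1, [(nat_lit 36, nat_lit 13020708864),
  (nat_lit 95, nat_lit 14094188544), (nat_lit 8, nat_lit 15167668224)]⟩,
  ⟨V4_8692187136, nat_lit 1, [(nat_lit 112, nat_lit 13020708864),
  (nat_lit 5, nat_lit 14077673472), (nat_lit 90, nat_lit 15134638080)]⟩,
  ⟨V4_10873208832, nat_lit 2, [(nat_lit 78, nat_lit 13020708864),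
  (nat_lit 20, nat_lit 14094446592), (nat_lit 16, nat_lit 15168184320),
  (nat_lit 40, nat_lit 16241922048), (nat_lit 119, nat_lit 17315659776)]⟩,
  ⟨V4_8725733376, nat_lit 1, [(nat_lit 38, nat_lit 13020708864),
  (nat_lit 125, nat_lit 14094446592), (nat_lit 69, nat_lit 15168184320)]⟩,
  ⟨V4_12987138048, nat_lit 3, [(nat_lit 95, nat_lit 13020708864),
  (nat_lit 50, nat_lit 14094446592), (nat_lit 103, nat_lit 14077673472),
  (nat_lit 125, nat_lit 15168184320), (nat_lit 93, nat_lit 15151411200),
  (nat_lit 4, nat_lit 15134638080), (nat_lit 10, nat_lit 16241922048),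
  (nat_lit 27, nat_lit 16225148928), (nat_lit 50, nat_lit 16208375808),
  (nat_lit 17, nat_lit 17315659776), (nat_lit 8, nat_lit 17298886656),
  (nat_lit 36, nat_lit 17282113536), (nat_lit 76, nat_lit 18372624384),
  (nat_lit 25, nat_lit 18355851264), (nat_lit 80, nat_lit 19429588992)]⟩,
  ⟨V4_11946688512, nat_lit 2, [(nat_lit 97, nat_lit 13020708864),
  (nat_lit 109, nat_lit 14094446592), (nat_lit 125, nat_lit 14094188544),
  (nat_lit 44, nat_lit 15168184320), (nat_lit 5, nat_lit 15167926272),
  (nat_lit 96, nat_lit 16241922048), (nat_lit 34, nat_lit 16241664000),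
  (nat_lit 25, nat_lit 17315659776), (nat_lit 8, nat_lit 17315401728),
  (nat_lit 111, nat_lit 18389139456)]⟩], [
  W5_13020430336, W5_13020172288, W5_13003915264, W5_13003657216, W5_13003399168, W5_12987142144,
  W5_12986884096, W5_12986626048, W5_11946950656, W5_11946692608, W5_11946434560, W5_11930177536,
  W5_11929919488, W5_11929661440, W5_11913404416, W5_11913146368, W5_11912888320, W5_10873212928,
  W5_10872954880, W5_10872696832, W5_10856439808, W5_10856181760, W5_10855923712, W5_10839666688,
  W5_10839408640, W5_9799475200, W5_9799217152, W5_9798959104, W5_9782702080, W5_9782444032,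
  W5_9765928960, W5_8725737472, W5_8725479424, W5_8708964352]⟩

theorem F5_13020708864_chk : fwdChk 5 ks5 F5_13020708864 = true := by decide +kernel

noncomputable def F5_13020700800 : Fwd := ⟨V5_13020700800, [
  ⟨V4_8725733376, nat_lit 1, [(nat_lit 106, nat_lit 13020700800),
  (nat_lit 28, nat_lit 14094442560), (nat_lit 38, nat_lit 15168184320)]⟩,
  ⟨V4_10839662592, nat_lit 2, [(nat_lit 125, nat_lit 13020700800),
  (nat_lit 42, nat_lit 14094442560), (nat_lit 73, nat_lit 14077665408),
  (nat_lit 107, nat_lit 15168184320), (nat_lit 2, nat_lit 15151407168),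
  (nat_lit 110, nat_lit 15134630016), (nat_lit 25, nat_lit 16225148928),
  (nat_lit 37, nat_lit 16208371776), (nat_lit 123, nat_lit 17282113536)]⟩,
  ⟨V4_9799213056, nat_lit 1, [(nat_lit 29, nat_lit 13020700800),
  (nat_lit 21, nat_lit 14094442560), (nat_lit 82, nat_lit 14094180480),
  (nat_lit 25, nat_lit 15168184320), (nat_lit 111, nat_lit 15167922240),
  (nat_lit 37, nat_lit 16241664000)]⟩], [
  W5_13019914240, W5_13019652160, W5_13003399168, W5_13003137088, W5_13002875008, W5_12986884096,
  W5_12986622016, W5_11946434560, W5_11946172480, W5_11945910400, W5_11929919488, W5_11929657408,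
  W5_11913404416, W5_11913142336, W5_11912880256, W5_10872954880, W5_10872692800, W5_10872430720,
  W5_10856439808, W5_10856177728, W5_10855915648, W5_10839662656, W5_10839400576, W5_9799475200,
  W5_9799213120, W5_9798951040, W5_9782698048, W5_9765920896, W5_8725733440, W5_8725471360]⟩

theorem F5_13020700800_chk : fwdChk 5 ks5 F5_13020700800 = true := by decide +kernel

noncomputable def F5_13020450816 : Fwd := ⟨V5_13020450816, [
  ⟨V4_9799213056, nat_lit 1, [(nat_lit 30, nat_lit 13020450816),
  (nat_lit 12, nat_lit 14094188544), (nat_lit 119, nat_lit 15167926272),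
  (nat_lit 80, nat_lit 16241664000)]⟩], [
  W5_13020430336, W5_13003657216, W5_12986884096, W5_11946692608, W5_11929919488, W5_11913146368,
  W5_10872954880, W5_10856181760, W5_10839408640, W5_9799217152, W5_9782444032, W5_8725479424]⟩

theorem F5_13020450816_chk : fwdChk 5 ks5 F5_13020450816 = true := by decide +kernel

noncomputable def F5_13020184704 : Fwd := ⟨V5_13020184704, [
  ⟨V4_8725217280, nat_lit 1, [(nat_lit 5, nat_lit 13020184704), (nat_lit 78, nat_lit 14093926464),
  (nat_lit 124, nat_lit 15167668224)]⟩,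
  ⟨V4_12953075712, nat_lit 1, [(nat_lit 108, nat_lit 13020184704),
  (nat_lit 15, nat_lit 14093926464), (nat_lit 68, nat_lit 14077149312),
  (nat_lit 95, nat_lit 15167668224), (nat_lit 81, nat_lit 15150891072),
  (nat_lit 54, nat_lit 15134113920), (nat_lit 91, nat_lit 16224632832),
  (nat_lit 44, nat_lit 16207855680), (nat_lit 23, nat_lit 16191078528),
  (nat_lit 31, nat_lit 17281597440), (nat_lit 6, nat_lit 17264820288),
  (nat_lit 12, nat_lit 17248043136), (nat_lit 117, nat_lit 18338562048),
  (nat_lit 78, nat_lit 18321784896), (nat_lit 116, nat_lit 19395526656)]⟩,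
  ⟨V4_10839146496, nat_lit 1, [(nat_lit 64, nat_lit 13020184704),
  (nat_lit 53, nat_lit 14093926464), (nat_lit 77, nat_lit 14077149312),
  (nat_lit 5, nat_lit 15167668224), (nat_lit 63, nat_lit 15150891072),
  (nat_lit 36, nat_lit 15134113920), (nat_lit 89, nat_lit 16224632832),
  (nat_lit 86, nat_lit 16207855680), (nat_lit 1, nat_lit 17281597440)]⟩], [
  W5_13003399168, W5_12986626048, W5_12986622016, W5_12969852928, W5_12969844864, W5_12953075776,
  W5_11946434560, W5_11929661440, W5_11929657408, W5_11912888320, W5_11912884288, W5_11912880256,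
  W5_11879334016, W5_10872696832, W5_10872692800, W5_10855923712, W5_10855919680, W5_10855915648,
  W5_10839146560, W5_10839142528, W5_10822369408, W5_9798959104, W5_9798955072, W5_9798951040,
  W5_9782181952, W5_9782177920, W5_9765404800, W5_8725217344, W5_8708440192]⟩

theorem F5_13020184704_chk : fwdChk 5 ks5 F5_13020184704 = true := by decide +kernel

end Crest.Agent.R187.SN.Fwd
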