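import Crest.Agent.R187.SN.FwdDef
import Crest.Agent.R187.SN.TD.Ks
import Crest.Agent.R187.SN.TD.W5_0
import Crest.Agent.R187.SN.TD.X4
import Crest.Agent.R187.SN.TD.X5_0

/-!
# Row 187, PLAN S, certificate E3: forward records of level `(6, 5)`, part 4

`F5_<key> : Fwd` = sources (table of level `(6, 4)`, number of rows, quadrature record) and
`W` tables of the table `V5_<key>`; each record is checked by the kernel.
-/

set_option autoImplicit false
set_option Elab.async false
set_option maxRecDepth 100000

namespace Crest.Agent.R187.SN.Fwd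

open Crest.Agent.R187.SN.Top

noncomputable def F5_13004193792 : Fwd := ⟨V5_13004193792, [
  ⟨V4_11930173440, nat_lit 1, [(nat_lit 15, nat_lit 13004193792),
  (nat_lit 26, nat_lit 14077931520), (nat_lit 41, nat_lit 14077673472),
  (nat_lit 126, nat_lit 15151669248), (nat_lit 60, nat_lit 15151411200),
  (nat_lit 67, nat_lit 16225406976), (nat_lit 44, nat_lit 16225148928),
  (nat_lit 120, nat_lit 17299144704), (nat_lit 121, nat_lit 17298886656),
  (nat_lit 44, nat_lit 18372624384)]⟩], [
  W5_13003915264, W5_13003657216, W5_13003399168, W5_11930177536, W5_11929919488, W5_11929661440,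
  W5_10856697856, W5_10856439808, W5_10856181760, W5_10855923712, W5_9782702080, W5_9782444032,
  W5_8708964352]⟩

theorem F5_13004193792_chk : fwdChk 5 ks5 F5_13004193792 = true := by decide +kernel

noncomputable def F5_13004189760 : Fwd := ⟨V5_13004189760, [
  ⟨V4_9782439936, nat_lit 1, [(nat_lit 41, nat_lit 13004189760),
  (nat_lit 96, nat_lit 14077931520), (nat_lit 65, nat_lit 14077669440),
  (nat_lit 108, nat_lit 15151411200), (nat_lit 60, nat_lit 15151149120),
  (nat_lit 92, nat_lit 16224890880)]⟩,
  ⟨V4_10855919616, nat_lit 1, [(nat_lit 22, nat_lit 13004189760),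
  (nat_lit 94, nat_lit 14077931520), (nat_lit 29, nat_lit 14077669440),
  (nat_lit 107, nat_lit 15151411200), (nat_lit 117, nat_lit 15151149120),
  (nat_lit 72, nat_lit 16224890880), (nat_lit 38, nat_lit 16224628800),
  (nat_lit 117, nat_lit 17298370560)]⟩], [
  W5_13003657216, W5_13003399168, W5_13003395136, W5_13003141120, W5_13003137088, W5_11930177536,
  W5_11929919488, W5_11929915456, W5_11929661440, W5_11929657408, W5_11929399360, W5_10856697856,
  W5_10856439808, W5_10856435776, W5_10856181760, W5_10856177728, W5_10855919680, W5_9782956096,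
  W5_9782702080, W5_9782698048, W5_9782440000, W5_8708960320]⟩

theorem F5_13004189760_chk : fwdChk 5 ks5 F5_13004189760 = true := by decide +kernel

noncomputable def F5_13003935744 : Fwd := ⟨V5_13003935744, [
  ⟨V4_12987138048, nat_lit 2, [(nat_lit 12, nat_lit 13003935744),
  (nat_lit 63, nat_lit 14077673472), (nat_lit 122, nat_lit 14060900352),
  (nat_lit 60, nat_lit 15151411200), (nat_lit 99, nat_lit 15134638080),
  (nat_lit 32, nat_lit 16225148928), (nat_lit 71, nat_lit 16208375808),
  (nat_lit 8, nat_lit 17298886656), (nat_lit 15, nat_lit 17282113536),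
  (nat_lit 124, nat_lit 18372624384), (nat_lit 109, nat_lit 18355851264),
  (nat_lit 25, nat_lit 19429588992)]⟩,
  ⟨V4_8692187136, nat_lit 1, [(nat_lit 85, nat_lit 13003935744),
  (nat_lit 98, nat_lit 14077673472), (nat_lit 15, nat_lit 14060900352),
  (nat_lit 5, nat_lit 15134638080)]⟩], [
  W5_13003915264, W5_13003657216, W5_12987142144, W5_12986884096, W5_11930177536, W5_11929919488,
  W5_11913404416, W5_11913146368, W5_10856439808, W5_10856181760, W5_10839666688, W5_10839408640,
  W5_9782702080, W5_9782444032, W5_9765928960, W5_8708964352, W5_8692191232]⟩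

theorem F5_13003935744_chk : fwdChk 5 ks5 F5_13003935744 = true := by decide +kernel

noncomputable def F5_13003931712 : Fwd := ⟨V5_13003931712, [
  ⟨V4_8692187136, nat_lit 1, [(nat_lit 65, nat_lit 13003931712),
  (nat_lit 52, nat_lit 14077673472), (nat_lit 60, nat_lit 14060896320),
  (nat_lit 74, nat_lit 15134638080)]⟩,
  ⟨V4_10839662592, nat_lit 2, [(nat_lit 109, nat_lit 13003931712),
  (nat_lit 70, nat_lit 14077673472), (nat_lit 27, nat_lit 14077669440),
  (nat_lit 16, nat_lit 14060896320), (nat_lit 15, nat_lit 15151411200),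
  (nat_lit 8, nat_lit 15151407168), (nat_lit 64, nat_lit 15134638080),
  (nat_lit 102, nat_lit 15134634048), (nat_lit 5, nat_lit 16225148928),
  (nat_lit 105, nat_lit 16208375808), (nat_lit 71, nat_lit 16208371776),
  (nat_lit 36, nat_lit 17282113536)]⟩,
  ⟨V4_10856435712, nat_lit 1, [(nat_lit 29, nat_lit 13003931712),
  (nat_lit 8, nat_lit 14077673472), (nat_lit 101, nat_lit 14077669440),
  (nat_lit 103, nat_lit 15151411200), (nat_lit 69, nat_lit 15151407168),
  (nat_lit 57, nat_lit 16225148928), (nat_lit 50, nat_lit 16225144896),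
  (nat_lit 79, nat_lit 17298886656)]⟩], [
  W5_13003657216, W5_13003399168, W5_13003395136, W5_12987142144, W5_12986884096, W5_12986880064,
  W5_12986626048, W5_12986622016, W5_11930177536, W5_11929919488, W5_11929915456, W5_11929661440,
  W5_11929657408, W5_11913404416, W5_11913146368, W5_11913142336, W5_11912888320, W5_11912884288,
  W5_10856439808, W5_10856435776, W5_10856181760, W5_10856177728, W5_10855923712, W5_10855919680,
  W5_10839666688, W5_10839662656, W5_10839408640, W5_10839404608, W5_10839146560, W5_9782702080,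
  W5_9782698048, W5_9782444032, W5_9782440000, W5_9782181952, W5_9765928960, W5_9765924928,
  W5_9765666880, W5_8708964352, W5_8708960320, W5_8708702272, W5_8692187200]⟩

theorem F5_13003931712_chk : fwdChk 5 ks5 F5_13003931712 = true := by decide +kernel

noncomputable def F5_13003673664 : Fwd := ⟨V5_13003673664, [
  ⟨V4_9782439936, nat_lit 1, [(nat_lit 31, nat_lit 13003673664),
  (nat_lit 94, nat_lit 14077415424), (nat_lit 15, nat_lit 14077411392),
  (nat_lit 116, nat_lit 15151153152), (nat_lit 89, nat_lit 15151149120),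
  (nat_lit 19, nat_lit 16224890880)]⟩], [
  W5_13003657216, W5_12986884096, W5_12986880064, W5_12970106944, W5_11929919488, W5_11929915456,
  W5_11913146368, W5_11913142336, W5_11896369216, W5_10856181760, W5_10856177728, W5_10839408640,
  W5_10839404608, W5_9782444032, W5_9782440000, W5_9765666880, W5_8708702272]⟩

theorem F5_13003673664_chk : fwdChk 5 ks5 F5_13003673664 = true := by decide +kernel



noncomputable def F5_13003665600 : Fwd := ⟨V5_13003665600, [
  ⟨V4_9782439936, nat_lit 1, [(nat_lit 36, nat_lit 13003665600),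
  (nat_lit 68, nat_lit 14077407360), (nat_lit 111, nat_lit 15151149120),
  (nat_lit 4, nat_lit 16224890880)]⟩], [
  W5_13003141120, W5_12986626048, W5_11929661440, W5_11929399360, W5_11913146368, W5_11912884288,
  W5_11896369216, W5_10856181760, W5_10855919680, W5_10839404608, W5_10839142528, W5_9782440000,
  W5_9782177920, W5_9765662848, W5_7634956480]⟩

theorem F5_13003665600_chk : fwdChk 5 ks5 F5_13003665600 = true := by decide +kernel

noncomputable def F5_13003407552 : Fwd := ⟨V5_13003407552, [
  ⟨V4_12953075712, nat_lit 1, [(nat_lit 51, nat_lit 13003407552),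
  (nat_lit 51, nat_lit 14077149312), (nat_lit 20, nat_lit 14060372160),
  (nat_lit 2, nat_lit 15150891072), (nat_lit 31, nat_lit 15134113920),
  (nat_lit 69, nat_lit 15117336768), (nat_lit 116, nat_lit 16224632832),
  (nat_lit 71, nat_lit 16207855680), (nat_lit 28, nat_lit 16191078528),
  (nat_lit 83, nat_lit 16174301376), (nat_lit 115, nat_lit 17281597440),
  (nat_lit 74, nat_lit 17264820288), (nat_lit 63, nat_lit 17248043136),
  (nat_lit 93, nat_lit 18338562048), (nat_lit 37, nat_lit 18321784896),
  (nat_lit 107, nat_lit 19395526656)]⟩], [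
  W5_12986626048, W5_12969852928, W5_12953075776, W5_11929661440, W5_11912888320, W5_11912884288,
  W5_11879334016, W5_10855923712, W5_10855919680, W5_10839146560, W5_10839142528, W5_10822369408,
  W5_9782181952, W5_9782177920, W5_9765404800, W5_8708440192, W5_8691663040]⟩

theorem F5_13003407552_chk : fwdChk 5 ks5 F5_13003407552 = true := by decide +kernel

noncomputable def F5_12987162624 : Fwd := ⟨V5_12987162624, [
  ⟨V4_12987138048, nat_lit 3, [(nat_lit 91, nat_lit 12987162624),
  (nat_lit 42, nat_lit 14060900352), (nat_lit 20, nat_lit 15134638080),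
  (nat_lit 32, nat_lit 16208375808), (nat_lit 56, nat_lit 17282113536),
  (nat_lit 30, nat_lit 18355851264), (nat_lit 80, nat_lit 19429588992)]⟩], [
  W5_12987142144, W5_11913404416, W5_10839666688, W5_9765928960, W5_8692191232]⟩

theorem F5_12987162624_chk : fwdChk 5 ks5 F5_12987162624 = true := by decide +kernel



noncomputable def F5_12987154560 : Fwd := ⟨V5_12987154560, [
  ⟨V4_8692187136, nat_lit 1, [(nat_lit 35, nat_lit 12987154560),
  (nat_lit 38, nat_lit 14060896320), (nat_lit 106, nat_lit 15134638080)]⟩,
  ⟨V4_10839662592, nat_lit 2, [(nat_lit 108, nat_lit 12987154560),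
  (nat_lit 44, nat_lit 14060896320), (nat_lit 111, nat_lit 14060892288),
  (nat_lit 126, nat_lit 15134638080), (nat_lit 35, nat_lit 15134634048),
  (nat_lit 110, nat_lit 15134630016), (nat_lit 3, nat_lit 16208375808),
  (nat_lit 39, nat_lit 16208371776), (nat_lit 104, nat_lit 17282113536)]⟩], [
  W5_12986884096, W5_12986626048, W5_12986622016, W5_11913404416, W5_11913146368, W5_11913142336,
  W5_11912888320, W5_11912884288, W5_11912880256, W5_10839666688, W5_10839662656, W5_10839408640,
  W5_10839404608, W5_10839400576, W5_10839146560, W5_10839142528, W5_9765928960, W5_9765924928,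
  W5_9765920896, W5_9765666880, W5_9765662848, W5_9765404800, W5_8692187200, W5_8692183168,
  W5_7618445440]⟩

theorem F5_12987154560_chk : fwdChk 5 ks5 F5_12987154560 = true := by decide +kernel

noncomputable def F5_12986630400 : Fwd := ⟨V5_12986630400, [
  ⟨V4_10839146496, nat_lit 1, [(nat_lit 62, nat_lit 12986630400),
  (nat_lit 73, nat_lit 14060372160), (nat_lit 109, nat_lit 15134113920),
  (nat_lit 35, nat_lit 16207855680), (nat_lit 106, nat_lit 17281597440)]⟩], [
  W5_12969852928, W5_12953075776, W5_11912888320, W5_11879334016, W5_10839146560, W5_10822369408,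
  W5_9765404800, W5_9731850496, W5_8691663040]⟩

theorem F5_12986630400_chk : fwdChk 5 ks5 F5_12986630400 = true := by decide +kernel

noncomputable def F5_11997548544 : Fwd := ⟨V5_11997548544, [
  ⟨V4_11995975680, nat_lit 1, [(nat_lit 75, nat_lit 11997548544),
  (nat_lit 86, nat_lit 13071028224), (nat_lit 50, nat_lit 14144507904),
  (nat_lit 16, nat_lit 15217987584), (nat_lit 40, nat_lit 16291467264),
  (nat_lit 124, nat_lit 17364946944), (nat_lit 101, nat_lit 18438426624)]⟩,
  ⟨V4_11979460608, nat_lit 1, [(nat_lit 114, nat_lit 11997548544),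
  (nat_lit 99, nat_lit 13071028224), (nat_lit 13, nat_lit 13054513152),
  (nat_lit 62, nat_lit 14144507904), (nat_lit 8, nat_lit 14127992832),
  (nat_lit 110, nat_lit 15217987584), (nat_lit 115, nat_lit 15201472512),
  (nat_lit 44, nat_lit 16291467264), (nat_lit 94, nat_lit 16274952192),
  (nat_lit 7, nat_lit 17364946944), (nat_lit 64, nat_lit 17348431872),
  (nat_lit 8, nat_lit 18421911552)]⟩,
  ⟨V4_11930173440, nat_lit 1, [(nat_lit 14, nat_lit 11997548544),
  (nat_lit 47, nat_lit 13071286272), (nat_lit 117, nat_lit 13071028224),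
  (nat_lit 116, nat_lit 13054513152), (nat_lit 16, nat_lit 14144765952),
  (nat_lit 94, nat_lit 14128250880), (nat_lit 80, nat_lit 14127992832),
  (nat_lit 15, nat_lit 14111477760), (nat_lit 118, nat_lit 15201730560),
  (nat_lit 93, nat_lit 15185215488), (nat_lit 103, nat_lit 15184957440),
  (nat_lit 116, nat_lit 15168442368), (nat_lit 64, nat_lit 16258695168),
  (nat_lit 44, nat_lit 16242180096), (nat_lit 96, nat_lit 16241922048),
  (nat_lit 46, nat_lit 16225406976), (nat_lit 116, nat_lit 17315659776),
  (nat_lit 55, nat_lit 17299144704), (nat_lit 42, nat_lit 17298886656),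
  (nat_lit 24, nat_lit 18372624384)]⟩], [
  W5_11996237824, W5_11979980800, W5_11979722752, W5_11963465728, W5_11963207680, W5_11946950656,
  W5_11946692608, W5_11930177536]⟩

theorem F5_11997548544_chk : fwdChk 5 ks5 F5_11997548544 = true := by decide +kernel

noncomputable def F5_11997290496 : Fwd := ⟨V5_11997290496, [
  ⟨V4_11930173440, nat_lit 1, [(nat_lit 72, nat_lit 11997290496),
  (nat_lit 6, nat_lit 13071028224), (nat_lit 3, nat_lit 13054255104),
  (nat_lit 107, nat_lit 14144765952), (nat_lit 100, nat_lit 14127992832),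
  (nat_lit 98, nat_lit 14111219712), (nat_lit 48, nat_lit 15201730560),
  (nat_lit 102, nat_lit 15184957440), (nat_lit 53, nat_lit 15168184320),
  (nat_lit 26, nat_lit 16258695168), (nat_lit 75, nat_lit 16241922048),
  (nat_lit 82, nat_lit 16225148928), (nat_lit 79, nat_lit 17315659776),
  (nat_lit 114, nat_lit 17298886656), (nat_lit 45, nat_lit 18372624384)]⟩,
  ⟨V4_11979460608, nat_lit 1, [(nat_lit 65, nat_lit 11997290496),
  (nat_lit 93, nat_lit 13071028224), (nat_lit 90, nat_lit 13070770176),
  (nat_lit 91, nat_lit 13054255104), (nat_lit 34, nat_lit 14144507904),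
  (nat_lit 71, nat_lit 14144249856), (nat_lit 10, nat_lit 14127992832),
  (nat_lit 28, nat_lit 14127734784), (nat_lit 51, nat_lit 15217987584),
  (nat_lit 90, nat_lit 15217729536), (nat_lit 26, nat_lit 15201472512),
  (nat_lit 65, nat_lit 15201214464), (nat_lit 117, nat_lit 16291467264),
  (nat_lit 42, nat_lit 16291209216), (nat_lit 16, nat_lit 16274952192),
  (nat_lit 109, nat_lit 16274694144), (nat_lit 22, nat_lit 17364946944),
  (nat_lit 38, nat_lit 17348431872), (nat_lit 95, nat_lit 17348173824),
  (nat_lit 123, nat_lit 18421911552)]⟩], [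
  W5_11996237824, W5_11979980800, W5_11979722752, W5_11979464704, W5_11963465728, W5_11963207680,
  W5_11962949632, W5_11946950656, W5_11946692608, W5_11946434560, W5_11930177536, W5_11929919488,
  W5_11913404416]⟩

theorem F5_11997290496_chk : fwdChk 5 ks5 F5_11997290496 = true := by decide +kernel

noncomputable def F5_11997286464 : Fwd := ⟨V5_11997286464, [
  ⟨V4_11995975680, nat_lit 1, [(nat_lit 64, nat_lit 11997286464),
  (nat_lit 93, nat_lit 13071028224), (nat_lit 61, nat_lit 13070766144),
  (nat_lit 73, nat_lit 14144507904), (nat_lit 24, nat_lit 14144245824),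
  (nat_lit 39, nat_lit 15217987584), (nat_lit 96, nat_lit 15217725504),
  (nat_lit 99, nat_lit 16291467264), (nat_lit 84, nat_lit 16291205184),
  (nat_lit 67, nat_lit 17364946944), (nat_lit 98, nat_lit 17364684864),
  (nat_lit 80, nat_lit 18438426624)]⟩,
  ⟨V4_11913400320, nat_lit 1, [(nat_lit 73, nat_lit 11997286464),
  (nat_lit 74, nat_lit 13071028224), (nat_lit 77, nat_lit 13054251072),
  (nat_lit 43, nat_lit 14127992832), (nat_lit 44, nat_lit 14111215680),
  (nat_lit 76, nat_lit 15184957440), (nat_lit 91, nat_lit 15168180288),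
  (nat_lit 77, nat_lit 16241922048), (nat_lit 26, nat_lit 16225144896),
  (nat_lit 121, nat_lit 17298886656), (nat_lit 14, nat_lit 17282109504),
  (nat_lit 17, nat_lit 18355851264)]⟩,
  ⟨V4_11979460608, nat_lit 1, [(nat_lit 3, nat_lit 11997286464),
  (nat_lit 79, nat_lit 13071028224), (nat_lit 117, nat_lit 13070766144),
  (nat_lit 95, nat_lit 13054251072), (nat_lit 121, nat_lit 14144507904),
  (nat_lit 98, nat_lit 14144245824), (nat_lit 1, nat_lit 14127992832),
  (nat_lit 19, nat_lit 14127730752), (nat_lit 30, nat_lit 15217987584),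
  (nat_lit 17, nat_lit 15217725504), (nat_lit 60, nat_lit 15201472512),
  (nat_lit 20, nat_lit 15201210432), (nat_lit 20, nat_lit 16291467264),
  (nat_lit 56, nat_lit 16291205184), (nat_lit 43, nat_lit 16274952192),
  (nat_lit 38, nat_lit 16274690112), (nat_lit 13, nat_lit 17364946944),
  (nat_lit 56, nat_lit 17348431872), (nat_lit 61, nat_lit 17348169792),
  (nat_lit 54, nat_lit 18421911552)]⟩], [
  W5_11996237824, W5_11995975744, W5_11979722752, W5_11963207680, W5_11962945600, W5_11946692608,
  W5_11946430528, W5_11930177536, W5_11929915456]⟩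

theorem F5_11997286464_chk : fwdChk 5 ks5 F5_11997286464 = true := by decide +kernel

noncomputable def F5_11997032448 : Fwd := ⟨V5_11997032448, [
  ⟨V4_11946688512, nat_lit 2, [(nat_lit 26, nat_lit 11997032448),
  (nat_lit 96, nat_lit 13070770176), (nat_lit 89, nat_lit 13053997056),
  (nat_lit 59, nat_lit 14144507904), (nat_lit 88, nat_lit 14127734784),
  (nat_lit 62, nat_lit 14110961664), (nat_lit 43, nat_lit 15218245632),
  (nat_lit 1, nat_lit 15201472512), (nat_lit 124, nat_lit 15184699392),
  (nat_lit 66, nat_lit 15167926272), (nat_lit 41, nat_lit 16275210240),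
  (nat_lit 103, nat_lit 16258437120), (nat_lit 122, nat_lit 16241664000),
  (nat_lit 100, nat_lit 17332174848), (nat_lit 23, nat_lit 17315401728),
  (nat_lit 55, nat_lit 18389139456)]⟩,
  ⟨V4_11912884224, nat_lit 1, [(nat_lit 3, nat_lit 11997032448),
  (nat_lit 96, nat_lit 13070512128), (nat_lit 64, nat_lit 13053997056),
  (nat_lit 101, nat_lit 14127476736), (nat_lit 98, nat_lit 14110961664),
  (nat_lit 67, nat_lit 15184441344), (nat_lit 115, nat_lit 15167926272),
  (nat_lit 88, nat_lit 16241405952), (nat_lit 6, nat_lit 16224890880),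
  (nat_lit 97, nat_lit 17298370560), (nat_lit 41, nat_lit 17281855488),
  (nat_lit 71, nat_lit 18355335168)]⟩], [
  W5_11979980800, W5_11979722752, W5_11963465728, W5_11963207680, W5_11962949632, W5_11946692608,
  W5_11946434560, W5_11946176512, W5_11929919488, W5_11929661440, W5_11913146368]⟩

theorem F5_11997032448_chk : fwdChk 5 ks5 F5_11997032448 = true := by decide +kernel

noncomputable def F5_11997028416 : Fwd := ⟨V5_11997028416, [
  ⟨V4_11929915392, nat_lit 2, [(nat_lit 76, nat_lit 11997028416),
  (nat_lit 79, nat_lit 13070770176), (nat_lit 100, nat_lit 13070766144),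
  (nat_lit 55, nat_lit 13053993024), (nat_lit 123, nat_lit 14144507904),
  (nat_lit 125, nat_lit 14127734784), (nat_lit 105, nat_lit 14127730752),
  (nat_lit 35, nat_lit 14110957632), (nat_lit 18, nat_lit 15201472512),
  (nat_lit 104, nat_lit 15184699392), (nat_lit 50, nat_lit 15184695360),
  (nat_lit 75, nat_lit 15167922240), (nat_lit 59, nat_lit 16258437120),
  (nat_lit 7, nat_lit 16241664000), (nat_lit 79, nat_lit 16241659968),
  (nat_lit 37, nat_lit 16224886848), (nat_lit 77, nat_lit 17315401728),
  (nat_lit 30, nat_lit 17298628608), (nat_lit 44, nat_lit 17298624576),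
  (nat_lit 51, nat_lit 18372366336)]⟩], [
  W5_11996237824, W5_11979722752, W5_11979464704, W5_11963207680, W5_11962949632, W5_11962945600,
  W5_11962687552, W5_11946692608, W5_11946434560, W5_11946430528, W5_11946172480, W5_11929919488,
  W5_11929915456, W5_11929657408, W5_11913142336]⟩

theorem F5_11997028416_chk : fwdChk 5 ks5 F5_11997028416 = true := by decide +kernel

noncomputable def F5_11996770368 : Fwd := ⟨V5_11996770368, [
  ⟨V4_11912884224, nat_lit 1, [(nat_lit 30, nat_lit 11996770368),
  (nat_lit 100, nat_lit 13070512128), (nat_lit 56, nat_lit 13053734976),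
  (nat_lit 89, nat_lit 14127476736), (nat_lit 32, nat_lit 14110699584),
  (nat_lit 113, nat_lit 15184441344), (nat_lit 20, nat_lit 15167664192),
  (nat_lit 56, nat_lit 16241405952), (nat_lit 42, nat_lit 16224628800),
  (nat_lit 88, nat_lit 17298370560), (nat_lit 91, nat_lit 17281593408),
  (nat_lit 47, nat_lit 18355335168)]⟩,
  ⟨V4_11929657344, nat_lit 1, [(nat_lit 93, nat_lit 11996770368),
  (nat_lit 42, nat_lit 13070512128), (nat_lit 8, nat_lit 13070508096),
  (nat_lit 104, nat_lit 13053734976), (nat_lit 86, nat_lit 14144249856),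
  (nat_lit 65, nat_lit 14127476736), (nat_lit 97, nat_lit 14127472704),
  (nat_lit 110, nat_lit 14110699584), (nat_lit 94, nat_lit 15201214464),
  (nat_lit 79, nat_lit 15184441344), (nat_lit 108, nat_lit 15184437312),
  (nat_lit 123, nat_lit 15167664192), (nat_lit 104, nat_lit 16258179072),
  (nat_lit 17, nat_lit 16241405952), (nat_lit 124, nat_lit 16241401920),
  (nat_lit 46, nat_lit 16224628800), (nat_lit 58, nat_lit 17315143680),
  (nat_lit 36, nat_lit 17298370560), (nat_lit 63, nat_lit 17298366528),
  (nat_lit 32, nat_lit 18372108288)]⟩], [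
  W5_11979722752, W5_11963207680, W5_11962949632, W5_11962945600, W5_11946434560, W5_11946430528,
  W5_11946176512, W5_11946172480, W5_11929661440, W5_11929657408, W5_11929399360, W5_11912884288]⟩

theorem F5_11996770368_chk : fwdChk 5 ks5 F5_11996770368 = true := by decide +kernel

noncomputable def F5_11981291520 : Fwd := ⟨V5_11981291520, [
  ⟨V4_10906238976, nat_lit 1, [(nat_lit 80, nat_lit 11981291520),
  (nat_lit 14, nat_lit 13054771200), (nat_lit 66, nat_lit 14128250880),
  (nat_lit 98, nat_lit 15201730560), (nat_lit 122, nat_lit 16275210240),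
  (nat_lit 29, nat_lit 17348689920)]⟩], [
  W5_11979980800, W5_11963465728, W5_10906501120, W5_10889986048]⟩

theorem F5_11981291520_chk : fwdChk 5 ks5 F5_11981291520 = true := by decide +kernel

noncomputable def F5_11981033472 : Fwd := ⟨V5_11981033472, [
  ⟨V4_10906238976, nat_lit 2, [(nat_lit 16, nat_lit 11981033472),
  (nat_lit 102, nat_lit 13054771200), (nat_lit 79, nat_lit 13054513152),
  (nat_lit 52, nat_lit 14128250880), (nat_lit 51, nat_lit 14127992832),
  (nat_lit 62, nat_lit 15201730560), (nat_lit 2, nat_lit 15201472512),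
  (nat_lit 39, nat_lit 16275210240), (nat_lit 8, nat_lit 16274952192),
  (nat_lit 99, nat_lit 17348689920)]⟩,
  ⟨V4_11979460608, nat_lit 1, [(nat_lit 26, nat_lit 11981033472),
  (nat_lit 124, nat_lit 13054513152), (nat_lit 79, nat_lit 14127992832),
  (nat_lit 56, nat_lit 15201472512), (nat_lit 5, nat_lit 16274952192),
  (nat_lit 49, nat_lit 17348431872), (nat_lit 58, nat_lit 18421911552)]⟩], [
  W5_11979980800, W5_11979722752, W5_11963465728, W5_11963207680, W5_11946950656, W5_11946692608,
  W5_10906501120, W5_10906243072, W5_10889986048, W5_10889728000, W5_10873470976, W5_10873212928]⟩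

theorem F5_11981033472_chk : fwdChk 5 ks5 F5_11981033472 = true := by decide +kernel

noncomputable def F5_11980775424 : Fwd := ⟨V5_11980775424, [
  ⟨V4_10905722880, nat_lit 1, [(nat_lit 98, nat_lit 11980775424),
  (nat_lit 31, nat_lit 13054255104), (nat_lit 17, nat_lit 14127734784),
  (nat_lit 15, nat_lit 15201214464), (nat_lit 121, nat_lit 16274694144),
  (nat_lit 31, nat_lit 17348173824)]⟩,
  ⟨V4_10906238976, nat_lit 2, [(nat_lit 54, nat_lit 11980775424),
  (nat_lit 52, nat_lit 13054513152), (nat_lit 9, nat_lit 13054255104),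
  (nat_lit 8, nat_lit 14128250880), (nat_lit 96, nat_lit 14127992832),
  (nat_lit 35, nat_lit 14127734784), (nat_lit 103, nat_lit 15201730560),
  (nat_lit 22, nat_lit 15201472512), (nat_lit 64, nat_lit 15201214464),
  (nat_lit 27, nat_lit 16275210240), (nat_lit 100, nat_lit 16274952192),
  (nat_lit 73, nat_lit 17348689920)]⟩,
  ⟨V4_11979460608, nat_lit 1, [(nat_lit 90, nat_lit 11980775424),
  (nat_lit 35, nat_lit 13054513152), (nat_lit 58, nat_lit 13054255104),
  (nat_lit 74, nat_lit 14127992832), (nat_lit 56, nat_lit 14127734784),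
  (nat_lit 108, nat_lit 15201472512), (nat_lit 93, nat_lit 15201214464),
  (nat_lit 126, nat_lit 16274952192), (nat_lit 122, nat_lit 16274694144),
  (nat_lit 61, nat_lit 17348431872), (nat_lit 36, nat_lit 17348173824),
  (nat_lit 24, nat_lit 18421911552)]⟩,
  ⟨V4_11979718656, nat_lit 1, [(nat_lit 51, nat_lit 11980775424),
  (nat_lit 37, nat_lit 13054513152), (nat_lit 39, nat_lit 13054255104),
  (nat_lit 84, nat_lit 14128250880), (nat_lit 37, nat_lit 14127992832),
  (nat_lit 22, nat_lit 14127734784), (nat_lit 54, nat_lit 15201730560),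
  (nat_lit 79, nat_lit 15201472512), (nat_lit 51, nat_lit 15201214464),
  (nat_lit 108, nat_lit 16275210240), (nat_lit 6, nat_lit 16274952192),
  (nat_lit 92, nat_lit 16274694144), (nat_lit 105, nat_lit 17348689920),
  (nat_lit 57, nat_lit 17348431872), (nat_lit 48, nat_lit 18422169600)]⟩], [
  W5_11979980800, W5_11979722752, W5_11979464704, W5_11963465728, W5_11963207680, W5_11962949632,
  W5_11946950656, W5_11946692608, W5_11946434560, W5_11930177536, W5_11929919488, W5_10906501120,
  W5_10906243072, W5_10905985024, W5_10889986048, W5_10889728000, W5_10889469952, W5_10873470976,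
  W5_10873212928, W5_10872954880, W5_10856697856, W5_10856439808]⟩

theorem F5_11980775424_chk : fwdChk 5 ks5 F5_11980775424 = true := by decide +kernel

noncomputable def F5_11980771392 : Fwd := ⟨V5_11980771392, [
  ⟨V4_11979460608, nat_lit 1, [(nat_lit 35, nat_lit 11980771392),
  (nat_lit 83, nat_lit 13054513152), (nat_lit 117, nat_lit 13054251072),
  (nat_lit 60, nat_lit 14127992832), (nat_lit 20, nat_lit 14127730752),
  (nat_lit 68, nat_lit 15201472512), (nat_lit 31, nat_lit 15201210432),
  (nat_lit 46, nat_lit 16274952192), (nat_lit 62, nat_lit 16274690112),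
  (nat_lit 117, nat_lit 17348431872), (nat_lit 9, nat_lit 17348169792),
  (nat_lit 64, nat_lit 18421911552)]⟩,
  ⟨V4_10856435712, nat_lit 1, [(nat_lit 37, nat_lit 11980771392),
  (nat_lit 75, nat_lit 13054513152), (nat_lit 119, nat_lit 13054251072),
  (nat_lit 106, nat_lit 13037736000), (nat_lit 78, nat_lit 14127992832),
  (nat_lit 94, nat_lit 14111477760), (nat_lit 68, nat_lit 14111215680),
  (nat_lit 73, nat_lit 14094700608), (nat_lit 2, nat_lit 15184957440),
  (nat_lit 75, nat_lit 15168442368), (nat_lit 106, nat_lit 15168180288),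
  (nat_lit 61, nat_lit 15151665216), (nat_lit 119, nat_lit 16241922048),
  (nat_lit 102, nat_lit 16225406976), (nat_lit 121, nat_lit 16225144896),
  (nat_lit 60, nat_lit 17298886656)]⟩], [
  W5_11979722752, W5_11963207680, W5_11962945600, W5_11946692608, W5_11946430528, W5_11930177536,
  W5_11929915456, W5_10906243072, W5_10889728000, W5_10889465920, W5_10873212928, W5_10872950848,
  W5_10856697856, W5_10856435776]⟩

theorem F5_11980771392_chk : fwdChk 5 ks5 F5_11980771392 = true := by decide +kernel

noncomputable def F5_11980517376 : Fwd := ⟨V5_11980517376, [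
  ⟨V4_10906238976, nat_lit 2, [(nat_lit 112, nat_lit 11980517376),
  (nat_lit 114, nat_lit 13054255104), (nat_lit 87, nat_lit 13053997056),
  (nat_lit 32, nat_lit 14127992832), (nat_lit 11, nat_lit 14127734784),
  (nat_lit 17, nat_lit 14127476736), (nat_lit 6, nat_lit 15201730560),
  (nat_lit 76, nat_lit 15201472512), (nat_lit 38, nat_lit 15201214464),
  (nat_lit 109, nat_lit 16275210240), (nat_lit 73, nat_lit 16274952192),
  (nat_lit 81, nat_lit 17348689920)]⟩,
  ⟨V4_10839662592, nat_lit 2, [(nat_lit 96, nat_lit 11980517376),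
  (nat_lit 12, nat_lit 13054255104), (nat_lit 13, nat_lit 13037481984),
  (nat_lit 109, nat_lit 14111219712), (nat_lit 120, nat_lit 14094446592),
  (nat_lit 88, nat_lit 15168184320), (nat_lit 54, nat_lit 15151411200),
  (nat_lit 69, nat_lit 16225148928), (nat_lit 53, nat_lit 16208375808),
  (nat_lit 37, nat_lit 17282113536)]⟩,
  ⟨V4_10873208832, nat_lit 2, [(nat_lit 27, nat_lit 11980517376),
  (nat_lit 11, nat_lit 13054255104), (nat_lit 103, nat_lit 13037481984),
  (nat_lit 16, nat_lit 14127992832), (nat_lit 79, nat_lit 14111219712),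
  (nat_lit 40, nat_lit 14094446592), (nat_lit 21, nat_lit 15201730560),
  (nat_lit 124, nat_lit 15184957440), (nat_lit 47, nat_lit 15168184320),
  (nat_lit 76, nat_lit 16258695168), (nat_lit 114, nat_lit 16241922048),
  (nat_lit 118, nat_lit 17315659776)]⟩], [
  W5_11979980800, W5_11979722752, W5_11963465728, W5_11963207680, W5_11962949632, W5_11946950656,
  W5_11946692608, W5_11946434560, W5_11946176512, W5_11930177536, W5_11929919488, W5_11929661440,
  W5_11913404416, W5_11913146368, W5_10906501120, W5_10906243072, W5_10905985024, W5_10889986048,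
  W5_10889728000, W5_10889469952, W5_10889211904, W5_10873212928, W5_10872954880, W5_10872696832,
  W5_10856439808, W5_10856181760, W5_10839666688]⟩

theorem F5_11980517376_chk : fwdChk 5 ks5 F5_11980517376 = true := by decide +kernel

noncomputable def F5_11980259328 : Fwd := ⟨V5_11980259328, [
  ⟨V4_10906238976, nat_lit 2, [(nat_lit 89, nat_lit 11980259328),
  (nat_lit 16, nat_lit 13053997056), (nat_lit 4, nat_lit 13053739008),
  (nat_lit 29, nat_lit 14127734784), (nat_lit 49, nat_lit 14127476736),
  (nat_lit 61, nat_lit 15201472512), (nat_lit 89, nat_lit 15201214464),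
  (nat_lit 73, nat_lit 16275210240), (nat_lit 94, nat_lit 16274952192),
  (nat_lit 83, nat_lit 17348689920)]⟩,
  ⟨V4_11946688512, nat_lit 2, [(nat_lit 97, nat_lit 11980259328),
  (nat_lit 1, nat_lit 13053997056), (nat_lit 60, nat_lit 13037223936),
  (nat_lit 103, nat_lit 14127734784), (nat_lit 2, nat_lit 14110961664),
  (nat_lit 10, nat_lit 14094188544), (nat_lit 4, nat_lit 15201472512),
  (nat_lit 53, nat_lit 15184699392), (nat_lit 100, nat_lit 15167926272),
  (nat_lit 38, nat_lit 16275210240), (nat_lit 89, nat_lit 16258437120),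
  (nat_lit 17, nat_lit 16241664000), (nat_lit 126, nat_lit 17332174848),
  (nat_lit 114, nat_lit 17315401728), (nat_lit 80, nat_lit 18389139456)]⟩], [
  W5_11979980800, W5_11963465728, W5_11963207680, W5_11946692608, W5_11946434560, W5_11929919488,
  W5_11929661440, W5_11913146368, W5_11912888320, W5_10906501120, W5_10906243072, W5_10889728000,
  W5_10889469952, W5_10872954880, W5_10872696832, W5_10856181760, W5_10855923712, W5_10839408640]⟩

theorem F5_11980259328_chk : fwdChk 5 ks5 F5_11980259328 = true := by decide +kernel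

noncomputable def F5_11980251264 : Fwd := ⟨V5_11980251264, [
  ⟨V4_10905722880, nat_lit 1, [(nat_lit 25, nat_lit 11980251264),
  (nat_lit 1, nat_lit 13053993024), (nat_lit 3, nat_lit 13053730944),
  (nat_lit 40, nat_lit 14127734784), (nat_lit 16, nat_lit 14127472704),
  (nat_lit 98, nat_lit 14127210624), (nat_lit 114, nat_lit 15201214464),
  (nat_lit 10, nat_lit 15200952384), (nat_lit 94, nat_lit 15200690304),
  (nat_lit 102, nat_lit 16274694144), (nat_lit 119, nat_lit 16274432064),
  (nat_lit 106, nat_lit 17348173824)]⟩], [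
  W5_11979464704, W5_11962949632, W5_11962687552, W5_11946434560, W5_11946172480, W5_11945910400,
  W5_11929919488, W5_11929657408, W5_11913142336, W5_11912880256, W5_10905985024, W5_10905722944,
  W5_10889469952, W5_10889207872, W5_10872954880, W5_10872692800, W5_10872430720, W5_10856177728,
  W5_10855915648, W5_10839400576]⟩

theorem F5_11980251264_chk : fwdChk 5 ks5 F5_11980251264 = true := by decide +kernel

noncomputable def F5_11979997248 : Fwd := ⟨V5_11979997248, [
  ⟨V4_10839146496, nat_lit 1, [(nat_lit 105, nat_lit 11979997248),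
  (nat_lit 24, nat_lit 13053739008), (nat_lit 60, nat_lit 13036961856),
  (nat_lit 69, nat_lit 14110703616), (nat_lit 101, nat_lit 14093926464),
  (nat_lit 105, nat_lit 15167668224), (nat_lit 47, nat_lit 15150891072),
  (nat_lit 38, nat_lit 16224632832), (nat_lit 123, nat_lit 16207855680),
  (nat_lit 104, nat_lit 17281597440)]⟩,
  ⟨V4_10889465856, nat_lit 1, [(nat_lit 85, nat_lit 11979997248),
  (nat_lit 111, nat_lit 13053739008), (nat_lit 24, nat_lit 13053734976),
  (nat_lit 87, nat_lit 13036961856), (nat_lit 92, nat_lit 14127476736),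
  (nat_lit 108, nat_lit 14127472704), (nat_lit 8, nat_lit 14110703616),
  (nat_lit 86, nat_lit 14110699584), (nat_lit 53, nat_lit 15201214464),
  (nat_lit 123, nat_lit 15201210432), (nat_lit 46, nat_lit 15184441344),
  (nat_lit 41, nat_lit 15184437312), (nat_lit 104, nat_lit 16274952192),
  (nat_lit 107, nat_lit 16258179072), (nat_lit 121, nat_lit 16258175040),
  (nat_lit 7, nat_lit 17331916800)]⟩], [
  W5_11963207680, W5_11946434560, W5_11946430528, W5_11929661440, W5_11929657408, W5_11912888320,
  W5_11912884288, W5_10906243072, W5_10889469952, W5_10889465920, W5_10872696832, W5_10872692800,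
  W5_10855923712, W5_10855919680, W5_10839146560]⟩

theorem F5_11979997248_chk : fwdChk 5 ks5 F5_11979997248 = true := by decide +kernel



noncomputable def F5_11964518400 : Fwd := ⟨V5_11964518400, [
  ⟨V4_11962945536, nat_lit 1, [(nat_lit 95, nat_lit 11964518400),
  (nat_lit 52, nat_lit 13037998080), (nat_lit 61, nat_lit 14111477760),
  (nat_lit 21, nat_lit 15184957440), (nat_lit 14, nat_lit 16258437120),
  (nat_lit 43, nat_lit 17331916800), (nat_lit 38, nat_lit 18405396480)]⟩], [
  W5_11963465728, W5_11963207680, W5_10889986048, W5_10889728000, W5_9816248320]⟩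

theorem F5_11964518400_chk : fwdChk 5 ks5 F5_11964518400 = true := by decide +kernel

noncomputable def F5_11964260352 : Fwd := ⟨V5_11964260352, [
  ⟨V4_11962945536, nat_lit 2, [(nat_lit 51, nat_lit 11964260352),
  (nat_lit 34, nat_lit 13037998080), (nat_lit 120, nat_lit 13037740032),
  (nat_lit 124, nat_lit 14111477760), (nat_lit 14, nat_lit 14111219712),
  (nat_lit 86, nat_lit 15184957440), (nat_lit 125, nat_lit 15184699392),
  (nat_lit 25, nat_lit 16258437120), (nat_lit 114, nat_lit 16258179072),
  (nat_lit 4, nat_lit 17331916800), (nat_lit 59, nat_lit 17331658752),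
  (nat_lit 4, nat_lit 18405396480)]⟩,
  ⟨V4_9799213056, nat_lit 1, [(nat_lit 122, nat_lit 11964260352),
  (nat_lit 99, nat_lit 13037740032), (nat_lit 19, nat_lit 13021224960),
  (nat_lit 53, nat_lit 14111219712), (nat_lit 108, nat_lit 14094704640),
  (nat_lit 83, nat_lit 15184699392), (nat_lit 117, nat_lit 15168184320),
  (nat_lit 44, nat_lit 16241664000)]⟩], [
  W5_11963465728, W5_11963207680, W5_11962949632, W5_11946950656, W5_11946692608, W5_11946434560,
  W5_10889986048, W5_10889728000, W5_10889469952, W5_10873470976, W5_10873212928, W5_10872954880,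
  W5_9816248320, W5_9815990272, W5_9799991296, W5_9799733248, W5_9799475200]⟩

theorem F5_11964260352_chk : fwdChk 5 ks5 F5_11964260352 = true := by decide +kernel

noncomputable def F5_11964256320 : Fwd := ⟨V5_11964256320, [
  ⟨V4_11962945536, nat_lit 2, [(nat_lit 7, nat_lit 11964256320),
  (nat_lit 78, nat_lit 13037998080), (nat_lit 104, nat_lit 13037736000),
  (nat_lit 63, nat_lit 14111477760), (nat_lit 126, nat_lit 14111215680),
  (nat_lit 58, nat_lit 15184957440), (nat_lit 1, nat_lit 15184695360),
  (nat_lit 126, nat_lit 16258437120), (nat_lit 23, nat_lit 16258175040),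
  (nat_lit 9, nat_lit 17331916800), (nat_lit 120, nat_lit 17331654720),
  (nat_lit 71, nat_lit 18405396480)]⟩], [
  W5_11963207680, W5_11962945600, W5_11946692608, W5_11946430528, W5_10889728000, W5_10889465920,
  W5_10873212928, W5_10872950848, W5_9816248320, W5_9815986240, W5_9799733248, W5_9799471168]⟩

theorem F5_11964256320_chk : fwdChk 5 ks5 F5_11964256320 = true := by decide +kernel

noncomputable def F5_11964002304 : Fwd := ⟨V5_11964002304, [
  ⟨V4_9815470080, nat_lit 1, [(nat_lit 118, nat_lit 11964002304),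
  (nat_lit 75, nat_lit 13037481984), (nat_lit 17, nat_lit 14110961664),
  (nat_lit 63, nat_lit 15184441344), (nat_lit 62, nat_lit 16257921024)]⟩,
  ⟨V4_10873208832, nat_lit 2, [(nat_lit 15, nat_lit 11964002304),
  (nat_lit 69, nat_lit 13037740032), (nat_lit 43, nat_lit 13037481984),
  (nat_lit 18, nat_lit 13020966912), (nat_lit 125, nat_lit 14111477760),
  (nat_lit 42, nat_lit 14111219712), (nat_lit 95, nat_lit 14094704640),
  (nat_lit 39, nat_lit 14094446592), (nat_lit 115, nat_lit 15185215488),
  (nat_lit 12, nat_lit 15184957440), (nat_lit 118, nat_lit 15168442368),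
  (nat_lit 83, nat_lit 15168184320), (nat_lit 10, nat_lit 16258695168),
  (nat_lit 84, nat_lit 16242180096), (nat_lit 29, nat_lit 16241922048),
  (nat_lit 80, nat_lit 17315659776)]⟩,
  ⟨V4_11962945536, nat_lit 2, [(nat_lit 11, nat_lit 11964002304),
  (nat_lit 51, nat_lit 13037740032), (nat_lit 125, nat_lit 13037481984),
  (nat_lit 41, nat_lit 14111477760), (nat_lit 126, nat_lit 14111219712),
  (nat_lit 123, nat_lit 14110961664), (nat_lit 25, nat_lit 15184957440),
  (nat_lit 91, nat_lit 15184699392), (nat_lit 109, nat_lit 15184441344),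
  (nat_lit 112, nat_lit 16258437120), (nat_lit 40, nat_lit 16258179072),
  (nat_lit 97, nat_lit 16257921024), (nat_lit 46, nat_lit 17331916800),
  (nat_lit 103, nat_lit 17331658752), (nat_lit 115, nat_lit 18405396480)]⟩], [
  W5_11963465728, W5_11963207680, W5_11962949632, W5_11946950656, W5_11946692608, W5_11946434560,
  W5_11946176512, W5_11930177536, W5_11929919488, W5_11929661440, W5_10889986048, W5_10889728000,
  W5_10889469952, W5_10889211904, W5_10873470976, W5_10873212928, W5_10872954880, W5_10872696832,
  W5_10856697856, W5_10856439808, W5_10856181760, W5_9816248320, W5_9815990272, W5_9815732224,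
  W5_9799733248, W5_9799475200, W5_9799217152, W5_9782702080]⟩

theorem F5_11964002304_chk : fwdChk 5 ks5 F5_11964002304 = true := by decide +kernel

noncomputable def F5_11963998272 : Fwd := ⟨V5_11963998272, [
  ⟨V4_11962945536, nat_lit 2, [(nat_lit 41, nat_lit 11963998272),
  (nat_lit 37, nat_lit 13037740032), (nat_lit 69, nat_lit 13037736000),
  (nat_lit 6, nat_lit 13037477952), (nat_lit 114, nat_lit 14111477760),
  (nat_lit 103, nat_lit 14111219712), (nat_lit 58, nat_lit 14111215680),
  (nat_lit 40, nat_lit 14110957632), (nat_lit 114, nat_lit 15184957440),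
  (nat_lit 6, nat_lit 15184699392), (nat_lit 50, nat_lit 15184695360),
  (nat_lit 94, nat_lit 15184437312), (nat_lit 10, nat_lit 16258437120),
  (nat_lit 37, nat_lit 16258179072), (nat_lit 83, nat_lit 16258175040),
  (nat_lit 83, nat_lit 16257916992), (nat_lit 94, nat_lit 17331916800),
  (nat_lit 2, nat_lit 17331658752), (nat_lit 61, nat_lit 17331654720),
  (nat_lit 4, nat_lit 18405396480)]⟩,
  ⟨V4_9799213056, nat_lit 1, [(nat_lit 25, nat_lit 11963998272),
  (nat_lit 21, nat_lit 13037740032), (nat_lit 33, nat_lit 13037477952),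
  (nat_lit 81, nat_lit 13020962880), (nat_lit 18, nat_lit 14111219712),
  (nat_lit 66, nat_lit 14110957632), (nat_lit 38, nat_lit 14094704640),
  (nat_lit 126, nat_lit 14094442560), (nat_lit 5, nat_lit 15184699392),
  (nat_lit 82, nat_lit 15168184320), (nat_lit 91, nat_lit 15167922240),
  (nat_lit 29, nat_lit 16241664000)]⟩], [
  W5_11963207680, W5_11962949632, W5_11962945600, W5_11962687552, W5_11946692608, W5_11946434560,
  W5_11946430528, W5_11946172480, W5_11930177536, W5_11929919488, W5_11929915456, W5_11929657408,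
  W5_10889728000, W5_10889469952, W5_10889465920, W5_10889207872, W5_10873212928, W5_10872954880,
  W5_10872950848, W5_10872692800, W5_10856697856, W5_10856439808, W5_10856435776, W5_10856177728,
  W5_9816248320, W5_9815990272, W5_9815986240, W5_9815728192, W5_9799733248, W5_9799475200,
  W5_9799471168, W5_9799213120, W5_9782956096, W5_9782698048]⟩

theorem F5_11963998272_chk : fwdChk 5 ks5 F5_11963998272 = true := by decide +kernel

noncomputable def F5_11963744256 : Fwd := ⟨V5_11963744256, [
  ⟨V4_10873208832, nat_lit 2, [(nat_lit 91, nat_lit 11963744256),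
  (nat_lit 68, nat_lit 13037481984), (nat_lit 119, nat_lit 13020708864),
  (nat_lit 5, nat_lit 14111219712), (nat_lit 46, nat_lit 14094446592),
  (nat_lit 114, nat_lit 15184957440), (nat_lit 90, nat_lit 15168184320),
  (nat_lit 27, nat_lit 16258695168), (nat_lit 52, nat_lit 16241922048),
  (nat_lit 41, nat_lit 17315659776)]⟩,
  ⟨V4_10839662592, nat_lit 2, [(nat_lit 122, nat_lit 11963744256),
  (nat_lit 69, nat_lit 13037481984), (nat_lit 55, nat_lit 13020708864),
  (nat_lit 113, nat_lit 14111219712), (nat_lit 11, nat_lit 14094446592),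
  (nat_lit 83, nat_lit 14077673472), (nat_lit 28, nat_lit 15168184320),
  (nat_lit 94, nat_lit 15151411200), (nat_lit 104, nat_lit 15134638080),
  (nat_lit 73, nat_lit 16225148928), (nat_lit 113, nat_lit 16208375808),
  (nat_lit 18, nat_lit 17282113536)]⟩,
  ⟨V4_10889723904, nat_lit 1, [(nat_lit 33, nat_lit 11963744256),
  (nat_lit 55, nat_lit 13037481984), (nat_lit 101, nat_lit 13037223936),
  (nat_lit 4, nat_lit 14111219712), (nat_lit 110, nat_lit 14110961664),
  (nat_lit 77, nat_lit 15184957440), (nat_lit 17, nat_lit 15184699392),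
  (nat_lit 18, nat_lit 16258695168), (nat_lit 30, nat_lit 16258437120),
  (nat_lit 23, nat_lit 17332174848)]⟩], [
  W5_11963465728, W5_11963207680, W5_11946950656, W5_11946692608, W5_11946434560, W5_11930177536,
  W5_11929919488, W5_11929661440, W5_11913404416, W5_11913146368, W5_11912888320, W5_10889986048,
  W5_10889728000, W5_10889469952, W5_10873212928, W5_10872954880, W5_10872696832, W5_10856439808,
  W5_10856181760, W5_10855923712, W5_10839666688, W5_10839408640, W5_9816248320, W5_9815990272,
  W5_9815732224, W5_9799475200, W5_9799217152, W5_9798959104, W5_9782702080, W5_9782444032,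
  W5_9765928960]⟩

theorem F5_11963744256_chk : fwdChk 5 ks5 F5_11963744256 = true := by decide +kernel

noncomputable def F5_11963736192 : Fwd := ⟨V5_11963736192, [
  ⟨V4_10839662592, nat_lit 2, [(nat_lit 104, nat_lit 11963736192),
  (nat_lit 53, nat_lit 13037477952), (nat_lit 16, nat_lit 13020700800),
  (nat_lit 1, nat_lit 14111219712), (nat_lit 123, nat_lit 14094442560),
  (nat_lit 56, nat_lit 14077665408), (nat_lit 104, nat_lit 15168184320),
  (nat_lit 116, nat_lit 15151407168), (nat_lit 55, nat_lit 15134630016),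
  (nat_lit 49, nat_lit 16225148928), (nat_lit 4, nat_lit 16208371776),
  (nat_lit 113, nat_lit 17282113536)]⟩], [
  W5_11962949632, W5_11962687552, W5_11946434560, W5_11946172480, W5_11945910400, W5_11929919488,
  W5_11929657408, W5_11913404416, W5_11913142336, W5_11912880256, W5_10889469952, W5_10889207872,
  W5_10872954880, W5_10872692800, W5_10872430720, W5_10856439808, W5_10856177728, W5_10855915648,
  W5_10839662656, W5_10839400576, W5_9815990272, W5_9815728192, W5_9799475200, W5_9799213120,
  W5_9798951040, W5_9782698048, W5_9765920896]⟩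

theorem F5_11963736192_chk : fwdChk 5 ks5 F5_11963736192 = true := by decide +kernel

noncomputable def F5_11963486208 : Fwd := ⟨V5_11963486208, [
  ⟨V4_10889723904, nat_lit 1, [(nat_lit 31, nat_lit 11963486208),
  (nat_lit 3, nat_lit 13037223936), (nat_lit 99, nat_lit 14110961664),
  (nat_lit 108, nat_lit 15184699392), (nat_lit 52, nat_lit 16258437120),
  (nat_lit 31, nat_lit 17332174848)]⟩,
  ⟨V4_9782439936, nat_lit 1, [(nat_lit 58, nat_lit 11963486208),
  (nat_lit 39, nat_lit 13037223936), (nat_lit 46, nat_lit 13020450816),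
  (nat_lit 41, nat_lit 14110961664), (nat_lit 93, nat_lit 14094188544),
  (nat_lit 43, nat_lit 14077415424), (nat_lit 111, nat_lit 15167926272),
  (nat_lit 84, nat_lit 15151153152), (nat_lit 81, nat_lit 16224890880)]⟩], [
  W5_11963465728, W5_11946692608, W5_11929919488, W5_11913146368, W5_10889728000, W5_10872954880,
  W5_10856181760, W5_10839408640, W5_9815990272, W5_9799217152, W5_9782444032]⟩

theorem F5_11963486208_chk : fwdChk 5 ks5 F5_11963486208 = true := by decide +kernel



noncomputable def F5_11963216064 : Fwd := ⟨V5_11963216064, [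
  ⟨V4_9815470080, nat_lit 1, [(nat_lit 72, nat_lit 11963216064),
  (nat_lit 26, nat_lit 13036957824), (nat_lit 77, nat_lit 13036695744),
  (nat_lit 89, nat_lit 14110699584), (nat_lit 67, nat_lit 14110437504),
  (nat_lit 86, nat_lit 15184441344), (nat_lit 74, nat_lit 15184179264),
  (nat_lit 40, nat_lit 16257921024)]⟩], [
  W5_11946176512, W5_11929661440, W5_11929399360, W5_11912884288, W5_10889211904, W5_10872696832,
  W5_10855919680, W5_10839142528, W5_9815732224, W5_9815470144, W5_9798955072, W5_9782177920]⟩

theorem F5_11963216064_chk : fwdChk 5 ks5 F5_11963216064 = true := by decide +kernel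

noncomputable def F5_11947487232 : Fwd := ⟨V5_11947487232, [
  ⟨V4_8726249472, nat_lit 1, [(nat_lit 102, nat_lit 11947487232),
  (nat_lit 50, nat_lit 13021224960), (nat_lit 24, nat_lit 14094962688),
  (nat_lit 85, nat_lit 15168700416)]⟩,
  ⟨V4_8725733376, nat_lit 1, [(nat_lit 56, nat_lit 11947487232),
  (nat_lit 88, nat_lit 13021224960), (nat_lit 27, nat_lit 13020966912),
  (nat_lit 82, nat_lit 14094704640), (nat_lit 62, nat_lit 14094446592),
  (nat_lit 37, nat_lit 15168184320)]⟩,
  ⟨V4_9799471104, nat_lit 1, [(nat_lit 64, nat_lit 11947487232),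
  (nat_lit 63, nat_lit 13021224960), (nat_lit 84, nat_lit 13020966912),
  (nat_lit 12, nat_lit 14094962688), (nat_lit 66, nat_lit 14094704640),
  (nat_lit 68, nat_lit 14094446592), (nat_lit 34, nat_lit 15168442368),
  (nat_lit 36, nat_lit 15168184320), (nat_lit 58, nat_lit 16241922048)]⟩], [
  W5_11946950656, W5_11946692608, W5_11946434560, W5_11946176512, W5_10873470976, W5_10873212928,
  W5_10872954880, W5_10872696832, W5_9799991296, W5_9799733248, W5_9799475200, W5_9799217152,
  W5_8725995520, W5_8725737472]⟩

theorem F5_11947487232_chk : fwdChk 5 ks5 F5_11947487232 = true := by decide +kernel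

noncomputable def F5_11947483200 : Fwd := ⟨V5_11947483200, [
  ⟨V4_8725733376, nat_lit 1, [(nat_lit 102, nat_lit 11947483200),
  (nat_lit 66, nat_lit 13021224960), (nat_lit 122, nat_lit 13020962880),
  (nat_lit 14, nat_lit 14094704640), (nat_lit 118, nat_lit 14094442560),
  (nat_lit 51, nat_lit 15168184320)]⟩,
  ⟨V4_9799213056, nat_lit 1, [(nat_lit 108, nat_lit 11947483200),
  (nat_lit 44, nat_lit 13021224960), (nat_lit 74, nat_lit 13020962880),
  (nat_lit 21, nat_lit 14094704640), (nat_lit 25, nat_lit 14094442560),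
  (nat_lit 77, nat_lit 15168184320), (nat_lit 115, nat_lit 15167922240),
  (nat_lit 88, nat_lit 16241664000)]⟩], [
  W5_11946692608, W5_11946434560, W5_11946430528, W5_11946172480, W5_10873212928, W5_10872954880,
  W5_10872950848, W5_10872692800, W5_9799733248, W5_9799475200, W5_9799471168, W5_9799213120,
  W5_8725995520, W5_8725733440]⟩

theorem F5_11947483200_chk : fwdChk 5 ks5 F5_11947483200 = true := by decide +kernel

noncomputable def F5_11947229184 : Fwd := ⟨V5_11947229184, [
  ⟨V4_8725217280, nat_lit 1, [(nat_lit 90, nat_lit 11947229184),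
  (nat_lit 102, nat_lit 13020708864), (nat_lit 76, nat_lit 14094188544),
  (nat_lit 80, nat_lit 15167668224)]⟩,
  ⟨V4_10873208832, nat_lit 2, [(nat_lit 112, nat_lit 11947229184),
  (nat_lit 83, nat_lit 13020966912), (nat_lit 94, nat_lit 13020708864),
  (nat_lit 44, nat_lit 14094704640), (nat_lit 61, nat_lit 14094446592),
  (nat_lit 115, nat_lit 15168442368), (nat_lit 37, nat_lit 15168184320),
  (nat_lit 67, nat_lit 16242180096), (nat_lit 17, nat_lit 16241922048),
  (nat_lit 100, nat_lit 17315659776)]⟩,
  ⟨V4_8725733376, nat_lit 1, [(nat_lit 63, nat_lit 11947229184),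
  (nat_lit 38, nat_lit 13020966912), (nat_lit 23, nat_lit 13020708864),
  (nat_lit 83, nat_lit 14094704640), (nat_lit 32, nat_lit 14094446592),
  (nat_lit 104, nat_lit 15168184320)]⟩], [
  W5_11946950656, W5_11946692608, W5_11946434560, W5_11930177536, W5_11929919488, W5_11929661440,
  W5_10873470976, W5_10873212928, W5_10872954880, W5_10872696832, W5_10856697856, W5_10856439808,
  W5_10856181760, W5_10855923712, W5_9799733248, W5_9799475200, W5_9799217152, W5_9798959104,
  W5_9782702080, W5_9782444032, W5_8725995520, W5_8725737472, W5_8725479424, W5_8708964352]⟩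

theorem F5_11947229184_chk : fwdChk 5 ks5 F5_11947229184 = true := by decide +kernel

noncomputable def F5_11947221120 : Fwd := ⟨V5_11947221120, [
  ⟨V4_8725733376, nat_lit 1, [(nat_lit 20, nat_lit 11947221120),
  (nat_lit 74, nat_lit 13020962880), (nat_lit 46, nat_lit 13020700800),
  (nat_lit 26, nat_lit 14094704640), (nat_lit 6, nat_lit 14094442560),
  (nat_lit 94, nat_lit 15168184320)]⟩], [
  W5_11946434560, W5_11946172480, W5_11945910400, W5_11929919488, W5_11929657408, W5_10872954880,
  W5_10872692800, W5_10872430720, W5_10856439808, W5_10856177728, W5_10855915648, W5_9799475200,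
  W5_9799213120, W5_9798951040, W5_9782698048, W5_8725995520, W5_8725733440, W5_8725471360]⟩

theorem F5_11947221120_chk : fwdChk 5 ks5 F5_11947221120 = true := by decide +kernel

noncomputable def F5_11946971136 : Fwd := ⟨V5_11946971136, [
  ⟨V4_10873208832, nat_lit 2, [(nat_lit 102, nat_lit 11946971136),
  (nat_lit 100, nat_lit 13020708864), (nat_lit 125, nat_lit 14094446592),
  (nat_lit 44, nat_lit 15168184320), (nat_lit 40, nat_lit 16241922048),
  (nat_lit 102, nat_lit 17315659776)]⟩,
  ⟨V4_8725733376, nat_lit 1, [(nat_lit 105, nat_lit 11946971136),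
  (nat_lit 65, nat_lit 13020708864), (nat_lit 51, nat_lit 14094446592),
  (nat_lit 31, nat_lit 15168184320)]⟩,
  ⟨V4_8692187136, nat_lit 1, [(nat_lit 10, nat_lit 11946971136),
  (nat_lit 98, nat_lit 13020708864), (nat_lit 46, nat_lit 13003935744),
  (nat_lit 78, nat_lit 14077673472), (nat_lit 1, nat_lit 14060900352),
  (nat_lit 25, nat_lit 15134638080)]⟩], [
  W5_11946950656, W5_11946692608, W5_11930177536, W5_11929919488, W5_11913404416, W5_11913146368,
  W5_10873212928, W5_10872954880, W5_10856439808, W5_10856181760, W5_10839666688, W5_10839408640,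
  W5_9799475200, W5_9799217152, W5_9782702080, W5_9782444032, W5_9765928960, W5_8725737472,
  W5_8725479424, W5_8708964352, W5_8692191232]⟩

theorem F5_11946971136_chk : fwdChk 5 ks5 F5_11946971136 = true := by decide +kernel

noncomputable def F5_11946709056 : Fwd := ⟨V5_11946709056, [
  ⟨V4_9799213056, nat_lit 1, [(nat_lit 33, nat_lit 11946709056),
  (nat_lit 25, nat_lit 13020450816), (nat_lit 54, nat_lit 13020446784),
  (nat_lit 109, nat_lit 14094188544), (nat_lit 101, nat_lit 14094184512),
  (nat_lit 29, nat_lit 15167926272), (nat_lit 51, nat_lit 15167922240),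
  (nat_lit 5, nat_lit 16241664000)]⟩], [
  W5_11946692608, W5_11929919488, W5_11929915456, W5_11913146368, W5_11913142336, W5_11896369216,
  W5_10872954880, W5_10872950848, W5_10856181760, W5_10856177728, W5_10839408640, W5_10839404608,
  W5_9799217152, W5_9799213120, W5_9782444032, W5_9782440000, W5_9765666880, W5_8725479424,
  W5_8708702272]⟩

theorem F5_11946709056_chk : fwdChk 5 ks5 F5_11946709056 = true := by decide +kernel

noncomputable def F5_11946442944 : Fwd := ⟨V5_11946442944, [
  ⟨V4_8725217280, nat_lit 1, [(nat_lit 73, nat_lit 11946442944),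
  (nat_lit 34, nat_lit 13020184704), (nat_lit 12, nat_lit 14093926464),
  (nat_lit 14, nat_lit 15167668224)]⟩], [
  W5_11929661440, W5_11912888320, W5_11912884288, W5_11879334016, W5_10872696832, W5_10855923712,
  W5_10855919680, W5_10839146560, W5_10839142528, W5_10822369408, W5_9798959104, W5_9798955072,
  W5_9782181952, W5_9782177920, W5_9765404800, W5_8725217344, W5_8708440192, W5_8691663040]⟩

theorem F5_11946442944_chk : fwdChk 5 ks5 F5_11946442944 = true := by decide +kernel

noncomputable def F5_11930456064 : Fwd := ⟨V5_11930456064, [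
  ⟨V4_11930173440, nat_lit 1, [(nat_lit 95, nat_lit 11930456064),
  (nat_lit 96, nat_lit 13004193792), (nat_lit 55, nat_lit 13003935744),
  (nat_lit 100, nat_lit 14077931520), (nat_lit 116, nat_lit 14077673472),
  (nat_lit 96, nat_lit 15151669248), (nat_lit 16, nat_lit 15151411200),
  (nat_lit 51, nat_lit 16225406976), (nat_lit 16, nat_lit 16225148928),
  (nat_lit 94, nat_lit 17299144704), (nat_lit 16, nat_lit 17298886656),
  (nat_lit 99, nat_lit 18372624384)]⟩], [
  W5_11930177536, W5_11929919488, W5_10856697856, W5_10856439808, W5_10856181760, W5_9782702080,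
  W5_9782444032, W5_8708964352]⟩

theorem F5_11930456064_chk : fwdChk 5 ks5 F5_11930456064 = true := by decide +kernel

noncomputable def F5_11930452032 : Fwd := ⟨V5_11930452032, [
  ⟨V4_9782439936, nat_lit 1, [(nat_lit 26, nat_lit 11930452032), (nat_lit 1, nat_lit 13004193792),
  (nat_lit 69, nat_lit 13004189760), (nat_lit 58, nat_lit 13003931712),
  (nat_lit 38, nat_lit 14077931520), (nat_lit 115, nat_lit 14077673472),
  (nat_lit 45, nat_lit 14077669440), (nat_lit 51, nat_lit 14077411392),
  (nat_lit 47, nat_lit 15151411200), (nat_lit 27, nat_lit 15151153152),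
  (nat_lit 53, nat_lit 15151149120), (nat_lit 12, nat_lit 16224890880)]⟩], [
  W5_11930177536, W5_11929919488, W5_11929915456, W5_11929661440, W5_11929657408, W5_10856697856,
  W5_10856439808, W5_10856435776, W5_10856181760, W5_10856177728, W5_10855923712, W5_10855919680,
  W5_9782956096, W5_9782702080, W5_9782698048, W5_9782444032, W5_9782440000, W5_9782181952,
  W5_8708964352, W5_8708960320, W5_8708702272]⟩

theorem F5_11930452032_chk : fwdChk 5 ks5 F5_11930452032 = true := by decide +kernel

noncomputable def F5_11930198016 : Fwd := ⟨V5_11930198016, [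
  ⟨V4_8692187136, nat_lit 1, [(nat_lit 37, nat_lit 11930198016),
  (nat_lit 109, nat_lit 13003935744), (nat_lit 50, nat_lit 12987162624),
  (nat_lit 112, nat_lit 14077673472), (nat_lit 43, nat_lit 14060900352),
  (nat_lit 10, nat_lit 15134638080)]⟩], [
  W5_11930177536, W5_11913404416, W5_10856439808, W5_10839666688, W5_9782702080, W5_9765928960,
  W5_8708964352, W5_8692191232]⟩

theorem F5_11930198016_chk : fwdChk 5 ks5 F5_11930198016 = true := by decide +kernel

noncomputable def F5_11930193984 : Fwd := ⟨V5_11930193984, [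
  ⟨V4_8692187136, nat_lit 1, [(nat_lit 20, nat_lit 11930193984),
  (nat_lit 78, nat_lit 13003935744), (nat_lit 40, nat_lit 13003931712),
  (nat_lit 66, nat_lit 12987158592), (nat_lit 99, nat_lit 14077673472),
  (nat_lit 19, nat_lit 14060900352), (nat_lit 90, nat_lit 14060896320),
  (nat_lit 14, nat_lit 15134638080)]⟩,
  ⟨V4_10856435712, nat_lit 1, [(nat_lit 102, nat_lit 11930193984),
  (nat_lit 89, nat_lit 13003935744), (nat_lit 96, nat_lit 13003931712),
  (nat_lit 25, nat_lit 14077673472), (nat_lit 49, nat_lit 14077669440),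
  (nat_lit 63, nat_lit 15151411200), (nat_lit 86, nat_lit 15151407168),
  (nat_lit 11, nat_lit 16225148928), (nat_lit 24, nat_lit 16225144896),
  (nat_lit 10, nat_lit 17298886656)]⟩], [
  W5_11930177536, W5_11929919488, W5_11929915456, W5_11913404416, W5_11913146368, W5_11913142336,
  W5_10856439808, W5_10856435776, W5_10856181760, W5_10856177728, W5_10839666688, W5_10839662656,
  W5_10839408640, W5_10839404608, W5_9782702080, W5_9782698048, W5_9782444032, W5_9782440000,
  W5_9765928960, W5_9765924928, W5_9765666880, W5_8708964352, W5_8708960320, W5_8708702272,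
  W5_8692191232, W5_8692187200]⟩

theorem F5_11930193984_chk : fwdChk 5 ks5 F5_11930193984 = true := by decide +kernel

noncomputable def F5_11930189952 : Fwd := ⟨V5_11930189952, [
  ⟨V4_8692187136, nat_lit 1, [(nat_lit 4, nat_lit 11930189952),
  (nat_lit 122, nat_lit 13003931712), (nat_lit 83, nat_lit 12987154560),
  (nat_lit 91, nat_lit 14077673472), (nat_lit 72, nat_lit 14060896320),
  (nat_lit 88, nat_lit 15134638080)]⟩,
  ⟨V4_9782439936, nat_lit 1, [(nat_lit 71, nat_lit 11930189952),
  (nat_lit 63, nat_lit 13003931712), (nat_lit 94, nat_lit 13003927680),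
  (nat_lit 34, nat_lit 13003669632), (nat_lit 60, nat_lit 14077673472),
  (nat_lit 12, nat_lit 14077669440), (nat_lit 55, nat_lit 14077411392),
  (nat_lit 73, nat_lit 14077407360), (nat_lit 115, nat_lit 15151411200),
  (nat_lit 57, nat_lit 15151153152), (nat_lit 39, nat_lit 15151149120),
  (nat_lit 111, nat_lit 16224890880)]⟩], [
  W5_11929919488, W5_11929661440, W5_11929657408, W5_11913404416, W5_11913146368, W5_11913142336,
  W5_11912888320, W5_11912884288, W5_11912880256, W5_10856439808, W5_10856181760, W5_10856177728,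
  W5_10855923712, W5_10855919680, W5_10855915648, W5_10839666688, W5_10839662656, W5_10839408640,
  W5_10839404608, W5_10839400576, W5_10839146560, W5_10839142528, W5_9782702080, W5_9782698048,
  W5_9782444032, W5_9782440000, W5_9782181952, W5_9782177920, W5_9765928960, W5_9765924928,
  W5_9765920896, W5_9765666880, W5_9765662848, W5_9765404800, W5_8708964352, W5_8708960320,
  W5_8708702272, W5_8708440192, W5_8692187200, W5_8692183168, W5_7618445440]⟩

theorem F5_11930189952_chk : fwdChk 5 ks5 F5_11930189952 = true := by decide +kernel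

noncomputable def F5_11930185920 : Fwd := ⟨V5_11930185920, [
  ⟨V4_9765924864, nat_lit 1, [(nat_lit 45, nat_lit 11930185920),
  (nat_lit 98, nat_lit 13003927680), (nat_lit 113, nat_lit 12987150528),
  (nat_lit 12, nat_lit 14077669440), (nat_lit 82, nat_lit 14060892288),
  (nat_lit 79, nat_lit 15151411200), (nat_lit 104, nat_lit 15134634048),
  (nat_lit 36, nat_lit 16208375808)]⟩], [
  W5_11929661440, W5_11929399360, W5_11913146368, W5_11912884288, W5_10856181760, W5_10855919680,
  W5_10839666688, W5_10839404608, W5_10839142528, W5_9782702080, W5_9782440000, W5_9782177920,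
  W5_9765924928, W5_9765662848, W5_8708960320, W5_8692183168, W5_7634956480]⟩

theorem F5_11930185920_chk : fwdChk 5 ks5 F5_11930185920 = true := by decide +kernel

noncomputable def F5_11929927872 : Fwd := ⟨V5_11929927872, [
  ⟨V4_9782439936, nat_lit 1, [(nat_lit 122, nat_lit 11929927872),
  (nat_lit 123, nat_lit 13003669632), (nat_lit 113, nat_lit 13003665600),
  (nat_lit 117, nat_lit 14077411392), (nat_lit 2, nat_lit 14077407360),
  (nat_lit 2, nat_lit 15151153152), (nat_lit 85, nat_lit 15151149120),
  (nat_lit 75, nat_lit 16224890880)]⟩], [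
  W5_11929661440, W5_11913146368, W5_11912888320, W5_11912884288, W5_11896369216, W5_10856181760,
  W5_10855923712, W5_10855919680, W5_10839408640, W5_10839404608, W5_10839146560, W5_10839142528,
  W5_10822369408, W5_9782444032, W5_9782440000, W5_9782181952, W5_9782177920, W5_9765666880,
  W5_9765662848, W5_9765404800, W5_8708702272, W5_8708440192, W5_8691663040, W5_7634956480]⟩

theorem F5_11929927872_chk : fwdChk 5 ks5 F5_11929927872 = true := by decide +kernel

noncomputable def F5_11913420864 : Fwd := ⟨V5_11913420864, [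
  ⟨V4_6544711680, nat_lit 1, [(nat_lit 111, nat_lit 11913420864),
  (nat_lit 35, nat_lit 12987162624)]⟩,
  ⟨V4_8692187136, nat_lit 1, [(nat_lit 64, nat_lit 11913420864),
  (nat_lit 107, nat_lit 12987162624), (nat_lit 124, nat_lit 12987158592),
  (nat_lit 69, nat_lit 14060900352), (nat_lit 123, nat_lit 14060896320),
  (nat_lit 117, nat_lit 15134638080)]⟩], [
  W5_11913404416, W5_10839666688, W5_10839662656, W5_9765928960, W5_9765924928, W5_8692191232,
  W5_8692187200, W5_6544711744]⟩

theorem F5_11913420864_chk : fwdChk 5 ks5 F5_11913420864 = true := by decide +kernel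

noncomputable def F5_11913416832 : Fwd := ⟨V5_11913416832, [
  ⟨V4_8692187136, nat_lit 1, [(nat_lit 12, nat_lit 11913416832),
  (nat_lit 96, nat_lit 12987158592), (nat_lit 40, nat_lit 12987154560),
  (nat_lit 109, nat_lit 14060900352), (nat_lit 45, nat_lit 14060896320),
  (nat_lit 18, nat_lit 15134638080)]⟩], [
  W5_11913404416, W5_11913146368, W5_11913142336, W5_10839666688, W5_10839662656, W5_10839408640,
  W5_10839404608, W5_10839400576, W5_9765928960, W5_9765924928, W5_9765920896, W5_9765666880,
  W5_9765662848, W5_8692191232, W5_8692187200, W5_8692183168, W5_7618445440]⟩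

theorem F5_11913416832_chk : fwdChk 5 ks5 F5_11913416832 = true := by decide +kernel

noncomputable def F5_11913412800 : Fwd := ⟨V5_11913412800, [
  ⟨V4_8692187136, nat_lit 1, [(nat_lit 3, nat_lit 11913412800),
  (nat_lit 111, nat_lit 12987154560), (nat_lit 84, nat_lit 14060896320),
  (nat_lit 98, nat_lit 15134638080)]⟩], [
  W5_11913146368, W5_11912888320, W5_11912884288, W5_10839666688, W5_10839408640, W5_10839404608,
  W5_10839146560, W5_10839142528, W5_9765928960, W5_9765924928, W5_9765666880, W5_9765662848,
  W5_9765404800, W5_8692187200, W5_8692183168, W5_8691663040, W5_7618445440]⟩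

theorem F5_11913412800_chk : fwdChk 5 ks5 F5_11913412800 = true := by decide +kernel

noncomputable def F5_10907811840 : Fwd := ⟨V5_10907811840, [
  ⟨V4_10906238976, nat_lit 1, [(nat_lit 76, nat_lit 10907811840),
  (nat_lit 77, nat_lit 11981291520), (nat_lit 62, nat_lit 13054771200),
  (nat_lit 27, nat_lit 14128250880), (nat_lit 126, nat_lit 15201730560),
  (nat_lit 33, nat_lit 16275210240), (nat_lit 19, nat_lit 17348689920)]⟩], [
  W5_10906501120]⟩

theorem F5_10907811840_chk : fwdChk 5 ks5 F5_10907811840 = true := by decide +kernel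

noncomputable def F5_10907553792 : Fwd := ⟨V5_10907553792, [
  ⟨V4_10906238976, nat_lit 1, [(nat_lit 17, nat_lit 10907553792),
  (nat_lit 107, nat_lit 11981291520), (nat_lit 35, nat_lit 11981033472),
  (nat_lit 5, nat_lit 13054771200), (nat_lit 64, nat_lit 13054513152),
  (nat_lit 9, nat_lit 14128250880), (nat_lit 60, nat_lit 14127992832),
  (nat_lit 23, nat_lit 15201730560), (nat_lit 97, nat_lit 15201472512),
  (nat_lit 68, nat_lit 16275210240), (nat_lit 19, nat_lit 16274952192),
  (nat_lit 1, nat_lit 17348689920)]⟩], [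
  W5_10906501120, W5_10906243072, W5_10889986048, W5_10889728000]⟩

theorem F5_10907553792_chk : fwdChk 5 ks5 F5_10907553792 = true := by decide +kernel

noncomputable def F5_10907295744 : Fwd := ⟨V5_10907295744, [
  ⟨V4_10905722880, nat_lit 1, [(nat_lit 55, nat_lit 10907295744),
  (nat_lit 117, nat_lit 11980775424), (nat_lit 42, nat_lit 13054255104),
  (nat_lit 79, nat_lit 14127734784), (nat_lit 95, nat_lit 15201214464),
  (nat_lit 65, nat_lit 16274694144), (nat_lit 22, nat_lit 17348173824)]⟩,
  ⟨V4_10906238976, nat_lit 2, [(nat_lit 117, nat_lit 10907295744),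
  (nat_lit 26, nat_lit 11981033472), (nat_lit 23, nat_lit 11980775424),
  (nat_lit 121, nat_lit 13054771200), (nat_lit 94, nat_lit 13054513152),
  (nat_lit 4, nat_lit 13054255104), (nat_lit 51, nat_lit 14128250880),
  (nat_lit 111, nat_lit 14127992832), (nat_lit 73, nat_lit 14127734784),
  (nat_lit 6, nat_lit 15201730560), (nat_lit 98, nat_lit 15201472512),
  (nat_lit 109, nat_lit 15201214464), (nat_lit 13, nat_lit 16275210240),
  (nat_lit 80, nat_lit 16274952192), (nat_lit 113, nat_lit 17348689920)]⟩], [
  W5_10906501120, W5_10906243072, W5_10905985024, W5_10889986048, W5_10889728000, W5_10889469952,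
  W5_10873470976, W5_10873212928, W5_10872954880]⟩

theorem F5_10907295744_chk : fwdChk 5 ks5 F5_10907295744 = true := by decide +kernel

noncomputable def F5_10907037696 : Fwd := ⟨V5_10907037696, [
  ⟨V4_10906238976, nat_lit 2, [(nat_lit 56, nat_lit 10907037696),
  (nat_lit 89, nat_lit 11980775424), (nat_lit 30, nat_lit 11980517376),
  (nat_lit 28, nat_lit 13054513152), (nat_lit 116, nat_lit 13054255104),
  (nat_lit 82, nat_lit 13053997056), (nat_lit 83, nat_lit 14128250880),
  (nat_lit 7, nat_lit 14127992832), (nat_lit 43, nat_lit 14127734784),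
  (nat_lit 58, nat_lit 14127476736), (nat_lit 2, nat_lit 15201730560),
  (nat_lit 73, nat_lit 15201472512), (nat_lit 71, nat_lit 15201214464),
  (nat_lit 51, nat_lit 16275210240), (nat_lit 114, nat_lit 16274952192),
  (nat_lit 66, nat_lit 17348689920)]⟩], [
  W5_10906501120, W5_10906243072, W5_10905985024, W5_10889986048, W5_10889728000, W5_10889469952,
  W5_10889211904, W5_10873470976, W5_10873212928, W5_10872954880, W5_10872696832, W5_10856697856,
  W5_10856439808, W5_10856181760]⟩

theorem F5_10907037696_chk : fwdChk 5 ks5 F5_10907037696 = true := by decide +kernel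

noncomputable def F5_10906779648 : Fwd := ⟨V5_10906779648, [
  ⟨V4_10906238976, nat_lit 2, [(nat_lit 54, nat_lit 10906779648),
  (nat_lit 113, nat_lit 11980517376), (nat_lit 38, nat_lit 11980259328),
  (nat_lit 125, nat_lit 13054255104), (nat_lit 63, nat_lit 13053997056),
  (nat_lit 93, nat_lit 13053739008), (nat_lit 60, nat_lit 14127992832),
  (nat_lit 35, nat_lit 14127734784), (nat_lit 112, nat_lit 14127476736),
  (nat_lit 108, nat_lit 15201730560), (nat_lit 81, nat_lit 15201472512),
  (nat_lit 70, nat_lit 15201214464), (nat_lit 7, nat_lit 16275210240),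
  (nat_lit 122, nat_lit 16274952192), (nat_lit 72, nat_lit 17348689920)]⟩,
  ⟨V4_10873208832, nat_lit 2, [(nat_lit 33, nat_lit 10906779648),
  (nat_lit 76, nat_lit 11980517376), (nat_lit 14, nat_lit 11963744256),
  (nat_lit 31, nat_lit 13054255104), (nat_lit 114, nat_lit 13037481984),
  (nat_lit 35, nat_lit 13020708864), (nat_lit 30, nat_lit 14127992832),
  (nat_lit 32, nat_lit 14111219712), (nat_lit 29, nat_lit 14094446592),
  (nat_lit 124, nat_lit 15201730560), (nat_lit 72, nat_lit 15184957440),
  (nat_lit 3, nat_lit 15168184320), (nat_lit 41, nat_lit 16258695168),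
  (nat_lit 62, nat_lit 16241922048), (nat_lit 76, nat_lit 17315659776)]⟩], [
  W5_10906501120, W5_10906243072, W5_10889986048, W5_10889728000, W5_10889469952, W5_10873212928,
  W5_10872954880, W5_10872696832, W5_10856439808, W5_10856181760, W5_10855923712, W5_10839666688,
  W5_10839408640]⟩

theorem F5_10906779648_chk : fwdChk 5 ks5 F5_10906779648 = true := by decide +kernel

noncomputable def F5_10906771584 : Fwd := ⟨V5_10906771584, [
  ⟨V4_10905722880, nat_lit 1, [(nat_lit 90, nat_lit 10906771584),
  (nat_lit 13, nat_lit 11980513344), (nat_lit 24, nat_lit 11980251264),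
  (nat_lit 81, nat_lit 13054255104), (nat_lit 13, nat_lit 13053993024),
  (nat_lit 121, nat_lit 13053730944), (nat_lit 43, nat_lit 14127734784),
  (nat_lit 117, nat_lit 14127472704), (nat_lit 90, nat_lit 14127210624),
  (nat_lit 86, nat_lit 15201214464), (nat_lit 33, nat_lit 15200952384),
  (nat_lit 125, nat_lit 15200690304), (nat_lit 6, nat_lit 16274694144),
  (nat_lit 123, nat_lit 16274432064), (nat_lit 10, nat_lit 17348173824)]⟩,
  ⟨V4_10839662592, nat_lit 1, [(nat_lit 113, nat_lit 10906771584),
  (nat_lit 20, nat_lit 11980513344), (nat_lit 10, nat_lit 11963736192),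
  (nat_lit 18, nat_lit 13054255104), (nat_lit 37, nat_lit 13037477952),
  (nat_lit 115, nat_lit 13020700800), (nat_lit 33, nat_lit 14111219712),
  (nat_lit 86, nat_lit 14094442560), (nat_lit 92, nat_lit 14077665408),
  (nat_lit 2, nat_lit 15168184320), (nat_lit 123, nat_lit 15151407168),
  (nat_lit 104, nat_lit 15134630016), (nat_lit 94, nat_lit 16225148928),
  (nat_lit 126, nat_lit 16208371776), (nat_lit 23, nat_lit 17282113536)]⟩], [
  W5_10905985024, W5_10905722944, W5_10889469952, W5_10889207872, W5_10872954880, W5_10872692800,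
  W5_10872430720, W5_10856439808, W5_10856177728, W5_10855915648, W5_10839662656, W5_10839400576]⟩

theorem F5_10906771584_chk : fwdChk 5 ks5 F5_10906771584 = true := by decide +kernel

noncomputable def F5_10906517568 : Fwd := ⟨V5_10906517568, [
  ⟨V4_10839146496, nat_lit 1, [(nat_lit 59, nat_lit 10906517568),
  (nat_lit 25, nat_lit 11980259328), (nat_lit 69, nat_lit 11979997248),
  (nat_lit 59, nat_lit 11963482176), (nat_lit 23, nat_lit 13053739008),
  (nat_lit 98, nat_lit 13037223936), (nat_lit 100, nat_lit 13036961856),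
  (nat_lit 59, nat_lit 13020446784), (nat_lit 46, nat_lit 14110703616),
  (nat_lit 84, nat_lit 14094188544), (nat_lit 83, nat_lit 14093926464),
  (nat_lit 15, nat_lit 14077411392), (nat_lit 32, nat_lit 15167668224),
  (nat_lit 111, nat_lit 15151153152), (nat_lit 100, nat_lit 15150891072),
  (nat_lit 52, nat_lit 15134376000), (nat_lit 108, nat_lit 16224632832),
  (nat_lit 81, nat_lit 16208117760), (nat_lit 9, nat_lit 16207855680),
  (nat_lit 8, nat_lit 17281597440)]⟩], [
  W5_10906243072, W5_10889728000, W5_10889469952, W5_10889465920, W5_10872954880, W5_10872950848,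
  W5_10872696832, W5_10872692800, W5_10856181760, W5_10856177728, W5_10855923712, W5_10855919680,
  W5_10839408640, W5_10839404608, W5_10839146560]⟩

theorem F5_10906517568_chk : fwdChk 5 ks5 F5_10906517568 = true := by decide +kernel

noncomputable def F5_10906255488 : Fwd := ⟨V5_10906255488, [
  ⟨V4_10839146496, nat_lit 1, [(nat_lit 16, nat_lit 10906255488),
  (nat_lit 86, nat_lit 11979997248), (nat_lit 43, nat_lit 11963220096),
  (nat_lit 52, nat_lit 13053739008), (nat_lit 121, nat_lit 13036961856),
  (nat_lit 50, nat_lit 13020184704), (nat_lit 53, nat_lit 14110703616),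
  (nat_lit 65, nat_lit 14093926464), (nat_lit 40, nat_lit 14077149312),
  (nat_lit 34, nat_lit 15167668224), (nat_lit 59, nat_lit 15150891072),
  (nat_lit 117, nat_lit 15134113920), (nat_lit 74, nat_lit 16224632832),
  (nat_lit 110, nat_lit 16207855680), (nat_lit 10, nat_lit 17281597440)]⟩,
  ⟨V4_10855919616, nat_lit 1, [(nat_lit 87, nat_lit 10906255488),
  (nat_lit 66, nat_lit 11979997248), (nat_lit 101, nat_lit 11979993216),
  (nat_lit 74, nat_lit 11963220096), (nat_lit 116, nat_lit 13053739008),
  (nat_lit 107, nat_lit 13053734976), (nat_lit 55, nat_lit 13036961856),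
  (nat_lit 117, nat_lit 13036957824), (nat_lit 92, nat_lit 13020184704),
  (nat_lit 60, nat_lit 14127476736), (nat_lit 108, nat_lit 14110703616),
  (nat_lit 59, nat_lit 14110699584), (nat_lit 50, nat_lit 14093926464),
  (nat_lit 94, nat_lit 14093922432), (nat_lit 26, nat_lit 14077149312),
  (nat_lit 58, nat_lit 15184441344), (nat_lit 99, nat_lit 15167668224),
  (nat_lit 112, nat_lit 15167664192), (nat_lit 103, nat_lit 15150891072),
  (nat_lit 101, nat_lit 15150887040), (nat_lit 75, nat_lit 16241405952),
  (nat_lit 79, nat_lit 16224632832), (nat_lit 27, nat_lit 16224628800),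
  (nat_lit 83, nat_lit 17298370560)]⟩], [
  W5_10889469952, W5_10872696832, W5_10872692800, W5_10855923712, W5_10855919680, W5_10855915648,
  W5_10839146560, W5_10839142528, W5_10822369408]⟩

theorem F5_10906255488_chk : fwdChk 5 ks5 F5_10906255488 = true := by decide +kernel

noncomputable def F5_10890522624 : Fwd := ⟨V5_10890522624, [
  ⟨V4_9815470080, nat_lit 1, [(nat_lit 5, nat_lit 10890522624),
  (nat_lit 112, nat_lit 11964002304), (nat_lit 20, nat_lit 13037481984),
  (nat_lit 22, nat_lit 14110961664), (nat_lit 87, nat_lit 15184441344),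
  (nat_lit 105, nat_lit 16257921024)]⟩,
  ⟨V4_10889723904, nat_lit 1, [(nat_lit 117, nat_lit 10890522624),
  (nat_lit 106, nat_lit 11964260352), (nat_lit 36, nat_lit 11964002304),
  (nat_lit 11, nat_lit 13037998080), (nat_lit 93, nat_lit 13037740032),
  (nat_lit 79, nat_lit 13037481984), (nat_lit 120, nat_lit 14111735808),
  (nat_lit 27, nat_lit 14111477760), (nat_lit 19, nat_lit 14111219712),
  (nat_lit 24, nat_lit 14110961664), (nat_lit 98, nat_lit 15185215488),
  (nat_lit 34, nat_lit 15184957440), (nat_lit 83, nat_lit 15184699392),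
  (nat_lit 37, nat_lit 16258695168), (nat_lit 94, nat_lit 16258437120),
  (nat_lit 124, nat_lit 17332174848)]⟩], [
  W5_10889986048, W5_10889728000, W5_10889469952, W5_10889211904, W5_10873470976, W5_10873212928,
  W5_10872954880, W5_10872696832, W5_9816248320, W5_9815990272, W5_9815732224, W5_9799991296,
  W5_9799733248, W5_9799475200, W5_9799217152]⟩

theorem F5_10890522624_chk : fwdChk 5 ks5 F5_10890522624 = true := by decide +kernel

noncomputable def F5_10890518592 : Fwd := ⟨V5_10890518592, [
  ⟨V4_9799213056, nat_lit 1, [(nat_lit 118, nat_lit 10890518592),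
  (nat_lit 69, nat_lit 11964260352), (nat_lit 9, nat_lit 11963998272),
  (nat_lit 89, nat_lit 11947483200), (nat_lit 100, nat_lit 13037740032),
  (nat_lit 59, nat_lit 13037477952), (nat_lit 32, nat_lit 13021224960),
  (nat_lit 93, nat_lit 13020962880), (nat_lit 50, nat_lit 14111219712),
  (nat_lit 102, nat_lit 14110957632), (nat_lit 33, nat_lit 14094704640),
  (nat_lit 35, nat_lit 14094442560), (nat_lit 106, nat_lit 15184699392),
  (nat_lit 90, nat_lit 15168184320), (nat_lit 71, nat_lit 15167922240),
  (nat_lit 107, nat_lit 16241664000)]⟩], [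
  W5_10889728000, W5_10889469952, W5_10889465920, W5_10889207872, W5_10873212928, W5_10872954880,
  W5_10872950848, W5_10872692800, W5_9816248320, W5_9815990272, W5_9815986240, W5_9815728192,
  W5_9799733248, W5_9799475200, W5_9799471168, W5_9799213120]⟩

theorem F5_10890518592_chk : fwdChk 5 ks5 F5_10890518592 = true := by decide +kernel

noncomputable def F5_10890006528 : Fwd := ⟨V5_10890006528, [
  ⟨V4_10873208832, nat_lit 2, [(nat_lit 118, nat_lit 10890006528),
  (nat_lit 118, nat_lit 11963744256), (nat_lit 11, nat_lit 11946971136),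
  (nat_lit 3, nat_lit 13037481984), (nat_lit 73, nat_lit 13020708864),
  (nat_lit 64, nat_lit 14111219712), (nat_lit 66, nat_lit 14094446592),
  (nat_lit 68, nat_lit 15184957440), (nat_lit 116, nat_lit 15168184320),
  (nat_lit 120, nat_lit 16258695168), (nat_lit 22, nat_lit 16241922048),
  (nat_lit 94, nat_lit 17315659776)]⟩], [
  W5_10889986048, W5_10889728000, W5_10873212928, W5_10872954880, W5_10856439808, W5_10856181760,
  W5_10839666688, W5_10839408640, W5_9816248320, W5_9815990272, W5_9799475200, W5_9799217152,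
  W5_9782702080, W5_9782444032, W5_9765928960]⟩

theorem F5_10890006528_chk : fwdChk 5 ks5 F5_10890006528 = true := by decide +kernel

noncomputable def F5_10889736384 : Fwd := ⟨V5_10889736384, [
  ⟨V4_9815470080, nat_lit 1, [(nat_lit 65, nat_lit 10889736384),
  (nat_lit 14, nat_lit 11963478144), (nat_lit 4, nat_lit 11963216064),
  (nat_lit 73, nat_lit 13037219904), (nat_lit 37, nat_lit 13036957824),
  (nat_lit 11, nat_lit 13036695744), (nat_lit 101, nat_lit 14110961664),
  (nat_lit 94, nat_lit 14110699584), (nat_lit 47, nat_lit 14110437504),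
  (nat_lit 78, nat_lit 15184441344), (nat_lit 107, nat_lit 15184179264),
  (nat_lit 30, nat_lit 16257921024)]⟩], [
  W5_10889211904, W5_10872696832, W5_10856181760, W5_10855919680, W5_10839404608, W5_10839142528,
  W5_9815732224, W5_9815470144, W5_9799217152, W5_9798955072, W5_9782440000, W5_9782177920,
  W5_9765662848]⟩

theorem F5_10889736384_chk : fwdChk 5 ks5 F5_10889736384 = true := by decide +kernel

noncomputable def F5_10873749504 : Fwd := ⟨V5_10873749504, [
  ⟨V4_8726249472, nat_lit 1, [(nat_lit 105, nat_lit 10873749504),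
  (nat_lit 87, nat_lit 11947487232), (nat_lit 9, nat_lit 13021224960),
  (nat_lit 59, nat_lit 14094962688), (nat_lit 101, nat_lit 15168700416)]⟩,
  ⟨V4_8725217280, nat_lit 1, [(nat_lit 105, nat_lit 10873749504),
  (nat_lit 86, nat_lit 11947229184), (nat_lit 126, nat_lit 13020708864),
  (nat_lit 79, nat_lit 14094188544), (nat_lit 71, nat_lit 15167668224)]⟩,
  ⟨V4_8725733376, nat_lit 1, [(nat_lit 105, nat_lit 10873749504),
  (nat_lit 115, nat_lit 11947487232), (nat_lit 111, nat_lit 11947229184),
  (nat_lit 26, nat_lit 13021224960), (nat_lit 14, nat_lit 13020966912),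
  (nat_lit 6, nat_lit 13020708864), (nat_lit 45, nat_lit 14094704640),
  (nat_lit 96, nat_lit 14094446592), (nat_lit 13, nat_lit 15168184320)]⟩], [
  W5_10873470976, W5_10873212928, W5_10872954880, W5_10872696832, W5_9799991296, W5_9799733248,
  W5_9799475200, W5_9799217152, W5_9798959104, W5_8725995520, W5_8725737472, W5_8725479424]⟩

theorem F5_10873749504_chk : fwdChk 5 ks5 F5_10873749504 = true := by decide +kernel

noncomputable def F5_10873745472 : Fwd := ⟨V5_10873745472, [
  ⟨V4_8725733376, nat_lit 1, [(nat_lit 27, nat_lit 10873745472),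
  (nat_lit 116, nat_lit 11947487232), (nat_lit 98, nat_lit 11947483200),
  (nat_lit 99, nat_lit 11947225152), (nat_lit 8, nat_lit 13021224960),
  (nat_lit 56, nat_lit 13020966912), (nat_lit 14, nat_lit 13020962880),
  (nat_lit 92, nat_lit 13020704832), (nat_lit 32, nat_lit 14094704640),
  (nat_lit 57, nat_lit 14094446592), (nat_lit 5, nat_lit 14094442560),
  (nat_lit 43, nat_lit 15168184320)]⟩], [
  W5_10873212928, W5_10872954880, W5_10872950848, W5_10872696832, W5_10872692800, W5_9799733248,
  W5_9799475200, W5_9799471168, W5_9799217152, W5_9799213120, W5_9798955072, W5_8725995520,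
  W5_8725737472, W5_8725733440]⟩

theorem F5_10873745472_chk : fwdChk 5 ks5 F5_10873745472 = true := by decide +kernel

noncomputable def F5_10873741440 : Fwd := ⟨V5_10873741440, [
  ⟨V4_8725733376, nat_lit 1, [(nat_lit 94, nat_lit 10873741440),
  (nat_lit 126, nat_lit 11947483200), (nat_lit 33, nat_lit 11947221120),
  (nat_lit 25, nat_lit 13021224960), (nat_lit 126, nat_lit 13020962880),
  (nat_lit 3, nat_lit 13020700800), (nat_lit 65, nat_lit 14094704640),
  (nat_lit 42, nat_lit 14094442560), (nat_lit 63, nat_lit 15168184320)]⟩,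
  ⟨V4_9799213056, nat_lit 1, [(nat_lit 59, nat_lit 10873741440),
  (nat_lit 111, nat_lit 11947483200), (nat_lit 26, nat_lit 11947221120),
  (nat_lit 59, nat_lit 13021224960), (nat_lit 91, nat_lit 13020962880),
  (nat_lit 14, nat_lit 13020700800), (nat_lit 34, nat_lit 14094704640),
  (nat_lit 95, nat_lit 14094442560), (nat_lit 52, nat_lit 14094180480),
  (nat_lit 125, nat_lit 15168184320), (nat_lit 26, nat_lit 15167922240),
  (nat_lit 43, nat_lit 16241664000)]⟩], [
  W5_10872954880, W5_10872692800, W5_10872430720, W5_9799475200, W5_9799213120, W5_9798951040,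
  W5_8725995520, W5_8725733440, W5_8725471360]⟩

theorem F5_10873741440_chk : fwdChk 5 ks5 F5_10873741440 = true := by decide +kernel

noncomputable def F5_10873487424 : Fwd := ⟨V5_10873487424, [
  ⟨V4_8725217280, nat_lit 1, [(nat_lit 36, nat_lit 10873487424), (nat_lit 5, nat_lit 11947229184),
  (nat_lit 98, nat_lit 11946967104), (nat_lit 64, nat_lit 13020708864),
  (nat_lit 63, nat_lit 13020446784), (nat_lit 42, nat_lit 14094188544),
  (nat_lit 72, nat_lit 14093926464), (nat_lit 53, nat_lit 15167668224)]⟩,
  ⟨V4_8725733376, nat_lit 1, [(nat_lit 36, nat_lit 10873487424),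
  (nat_lit 67, nat_lit 11947229184), (nat_lit 48, nat_lit 11947225152),
  (nat_lit 49, nat_lit 11946967104), (nat_lit 84, nat_lit 13020966912),
  (nat_lit 113, nat_lit 13020962880), (nat_lit 124, nat_lit 13020708864),
  (nat_lit 33, nat_lit 13020704832), (nat_lit 28, nat_lit 14094704640),
  (nat_lit 101, nat_lit 14094446592), (nat_lit 29, nat_lit 14094442560),
  (nat_lit 58, nat_lit 15168184320)]⟩], [
  W5_10873212928, W5_10872954880, W5_10872950848, W5_10872696832, W5_10872692800, W5_10856697856,
  W5_10856439808, W5_10856435776, W5_10856181760, W5_10856177728, W5_10855923712, W5_10855919680,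
  W5_9799733248, W5_9799475200, W5_9799471168, W5_9799217152, W5_9799213120, W5_9798959104,
  W5_9798955072, W5_9782956096, W5_9782702080, W5_9782698048, W5_9782444032, W5_9782440000,
  W5_9782181952, W5_8725995520, W5_8725737472, W5_8725733440, W5_8725479424, W5_8725217344,
  W5_8708964352, W5_8708960320, W5_8708702272]⟩

theorem F5_10873487424_chk : fwdChk 5 ks5 F5_10873487424 = true := by decide +kernel

noncomputable def F5_10873233408 : Fwd := ⟨V5_10873233408, [
  ⟨V4_10873208832, nat_lit 2, [(nat_lit 46, nat_lit 10873233408),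
  (nat_lit 76, nat_lit 11946971136), (nat_lit 71, nat_lit 13020708864),
  (nat_lit 118, nat_lit 14094446592), (nat_lit 35, nat_lit 15168184320),
  (nat_lit 93, nat_lit 16241922048), (nat_lit 15, nat_lit 17315659776)]⟩,
  ⟨V4_8725733376, nat_lit 1, [(nat_lit 21, nat_lit 10873233408),
  (nat_lit 11, nat_lit 11946971136), (nat_lit 116, nat_lit 13020708864),
  (nat_lit 39, nat_lit 14094446592), (nat_lit 16, nat_lit 15168184320)]⟩], [
  W5_10873212928, W5_10856439808, W5_10839666688, W5_9799475200, W5_9782702080, W5_9765928960,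
  W5_8725737472, W5_8708964352, W5_8692191232]⟩

theorem F5_10873233408_chk : fwdChk 5 ks5 F5_10873233408 = true := by decide +kernel

noncomputable def F5_10873229376 : Fwd := ⟨V5_10873229376, [
  ⟨V4_8725733376, nat_lit 1, [(nat_lit 18, nat_lit 10873229376),
  (nat_lit 27, nat_lit 11946971136), (nat_lit 33, nat_lit 11946967104),
  (nat_lit 123, nat_lit 13020708864), (nat_lit 114, nat_lit 13020704832),
  (nat_lit 63, nat_lit 14094446592), (nat_lit 94, nat_lit 14094442560),
  (nat_lit 81, nat_lit 15168184320)]⟩,
  ⟨V4_8692187136, nat_lit 1, [(nat_lit 119, nat_lit 10873229376),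
  (nat_lit 57, nat_lit 11946971136), (nat_lit 14, nat_lit 11946967104),
  (nat_lit 51, nat_lit 11930193984), (nat_lit 35, nat_lit 13020708864),
  (nat_lit 89, nat_lit 13003935744), (nat_lit 38, nat_lit 13003931712),
  (nat_lit 7, nat_lit 12987158592), (nat_lit 78, nat_lit 14077673472),
  (nat_lit 98, nat_lit 14060900352), (nat_lit 64, nat_lit 14060896320),
  (nat_lit 2, nat_lit 15134638080)]⟩], [
  W5_10873212928, W5_10872954880, W5_10872950848, W5_10856439808, W5_10856435776, W5_10856181760,
  W5_10856177728, W5_10839666688, W5_10839662656, W5_10839408640, W5_10839404608, W5_9799475200,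
  W5_9799471168, W5_9799217152, W5_9799213120, W5_9782702080, W5_9782698048, W5_9782444032,
  W5_9782440000, W5_9765928960, W5_9765924928, W5_9765666880, W5_8725737472, W5_8725733440,
  W5_8725479424, W5_8708964352, W5_8708960320, W5_8708702272, W5_8692191232, W5_8692187200]⟩

theorem F5_10873229376_chk : fwdChk 5 ks5 F5_10873229376 = true := by decide +kernel

noncomputable def F5_10872963264 : Fwd := ⟨V5_10872963264, [
  ⟨V4_8725217280, nat_lit 1, [(nat_lit 7, nat_lit 10872963264), (nat_lit 12, nat_lit 11946705024),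
  (nat_lit 36, nat_lit 11946442944), (nat_lit 61, nat_lit 13020446784),
  (nat_lit 113, nat_lit 13020184704), (nat_lit 90, nat_lit 14094188544),
  (nat_lit 22, nat_lit 14093926464), (nat_lit 78, nat_lit 15167668224)]⟩], [
  W5_10872696832, W5_10856181760, W5_10855923712, W5_10855919680, W5_10839408640, W5_10839404608,
  W5_10839146560, W5_10839142528, W5_10822369408, W5_9799217152, W5_9798959104, W5_9798955072,
  W5_9782444032, W5_9782440000, W5_9782181952, W5_9782177920, W5_9765666880, W5_9765662848,
  W5_9765404800, W5_8725479424, W5_8725217344, W5_8708702272, W5_8708440192, W5_8691663040]⟩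

theorem F5_10872963264_chk : fwdChk 5 ks5 F5_10872963264 = true := by decide +kernel

noncomputable def F5_10872701184 : Fwd := ⟨V5_10872701184, [
  ⟨V4_8725217280, nat_lit 1, [(nat_lit 116, nat_lit 10872701184),
  (nat_lit 32, nat_lit 11946442944), (nat_lit 91, nat_lit 13020184704),
  (nat_lit 38, nat_lit 14093926464), (nat_lit 115, nat_lit 15167668224)]⟩], [
  W5_10855923712, W5_10839146560, W5_10822369408, W5_9798959104, W5_9782181952, W5_9765404800,
  W5_9731850496, W5_8725217344, W5_8708440192, W5_8691663040]⟩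

theorem F5_10872701184_chk : fwdChk 5 ks5 F5_10872701184 = true := by decide +kernel

noncomputable def F5_10856706240 : Fwd := ⟨V5_10856706240, [
  ⟨V4_9782439936, nat_lit 1, [(nat_lit 82, nat_lit 10856706240),
  (nat_lit 75, nat_lit 11930448000), (nat_lit 90, nat_lit 11930185920),
  (nat_lit 104, nat_lit 13004189760), (nat_lit 9, nat_lit 13003927680),
  (nat_lit 3, nat_lit 13003665600), (nat_lit 14, nat_lit 14077931520),
  (nat_lit 61, nat_lit 14077669440), (nat_lit 40, nat_lit 14077407360),
  (nat_lit 4, nat_lit 15151411200), (nat_lit 43, nat_lit 15151149120),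
  (nat_lit 61, nat_lit 16224890880)]⟩], [
  W5_10856181760, W5_10855919680, W5_9782702080, W5_9782440000, W5_9782177920, W5_8708960320,
  W5_7634956480]⟩

theorem F5_10856706240_chk : fwdChk 5 ks5 F5_10856706240 = true := by decide +kernel

noncomputable def F5_10856456256 : Fwd := ⟨V5_10856456256, [
  ⟨V4_8692187136, nat_lit 1, [(nat_lit 115, nat_lit 10856456256),
  (nat_lit 58, nat_lit 11930198016), (nat_lit 54, nat_lit 11930193984),
  (nat_lit 23, nat_lit 11913420864), (nat_lit 69, nat_lit 13003935744),
  (nat_lit 60, nat_lit 13003931712), (nat_lit 20, nat_lit 12987162624),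
  (nat_lit 82, nat_lit 12987158592), (nat_lit 34, nat_lit 14077673472),
  (nat_lit 41, nat_lit 14060900352), (nat_lit 116, nat_lit 14060896320),
  (nat_lit 71, nat_lit 15134638080)]⟩], [
  W5_10856439808, W5_10856435776, W5_10839666688, W5_10839662656, W5_9782702080, W5_9782698048,
  W5_9765928960, W5_9765924928, W5_8708964352, W5_8708960320, W5_8692191232, W5_8692187200]⟩

theorem F5_10856456256_chk : fwdChk 5 ks5 F5_10856456256 = true := by decide +kernel

noncomputable def F5_10856452224 : Fwd := ⟨V5_10856452224, [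
  ⟨V4_8692187136, nat_lit 1, [(nat_lit 37, nat_lit 10856452224),
  (nat_lit 64, nat_lit 11930193984), (nat_lit 4, nat_lit 11930189952),
  (nat_lit 88, nat_lit 11913416832), (nat_lit 43, nat_lit 13003935744),
  (nat_lit 25, nat_lit 13003931712), (nat_lit 40, nat_lit 12987158592),
  (nat_lit 82, nat_lit 12987154560), (nat_lit 70, nat_lit 14077673472),
  (nat_lit 54, nat_lit 14060900352), (nat_lit 59, nat_lit 14060896320),
  (nat_lit 79, nat_lit 15134638080)]⟩], [
  W5_10856439808, W5_10856181760, W5_10856177728, W5_10839666688, W5_10839662656, W5_10839408640,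
  W5_10839404608, W5_10839400576, W5_9782702080, W5_9782698048, W5_9782444032, W5_9782440000,
  W5_9765928960, W5_9765924928, W5_9765920896, W5_9765666880, W5_9765662848, W5_8708964352,
  W5_8708960320, W5_8708702272, W5_8692191232, W5_8692187200, W5_8692183168, W5_7618445440]⟩

theorem F5_10856452224_chk : fwdChk 5 ks5 F5_10856452224 = true := by decide +kernel

noncomputable def F5_10856448192 : Fwd := ⟨V5_10856448192, [
  ⟨V4_8692187136, nat_lit 1, [(nat_lit 30, nat_lit 10856448192),
  (nat_lit 51, nat_lit 11930189952), (nat_lit 1, nat_lit 11913412800),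
  (nat_lit 100, nat_lit 13003931712), (nat_lit 2, nat_lit 12987154560),
  (nat_lit 97, nat_lit 14077673472), (nat_lit 16, nat_lit 14060896320),
  (nat_lit 18, nat_lit 15134638080)]⟩], [
  W5_10856181760, W5_10855923712, W5_10855919680, W5_10839666688, W5_10839408640, W5_10839404608,
  W5_10839146560, W5_10839142528, W5_9782702080, W5_9782444032, W5_9782440000, W5_9782181952,
  W5_9782177920, W5_9765928960, W5_9765924928, W5_9765666880, W5_9765662848, W5_9765404800,
  W5_8708964352, W5_8708960320, W5_8708702272, W5_8708440192, W5_8692187200, W5_8692183168,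
  W5_8691663040, W5_7634956480, W5_7618445440]⟩

theorem F5_10856448192_chk : fwdChk 5 ks5 F5_10856448192 = true := by decide +kernel

noncomputable def F5_10839679104 : Fwd := ⟨V5_10839679104, [
  ⟨V4_6544711680, nat_lit 1, [(nat_lit 126, nat_lit 10839679104),
  (nat_lit 11, nat_lit 11913420864), (nat_lit 1, nat_lit 12987162624)]⟩,
  ⟨V4_8692187136, nat_lit 1, [(nat_lit 90, nat_lit 10839679104),
  (nat_lit 83, nat_lit 11913420864), (nat_lit 33, nat_lit 11913416832),
  (nat_lit 72, nat_lit 12987162624), (nat_lit 22, nat_lit 12987158592),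
  (nat_lit 47, nat_lit 12987154560), (nat_lit 119, nat_lit 14060900352),
  (nat_lit 56, nat_lit 14060896320), (nat_lit 75, nat_lit 15134638080)]⟩], [
  W5_10839666688, W5_10839662656, W5_9765928960, W5_9765924928, W5_9765920896, W5_8692191232,
  W5_8692187200, W5_8692183168, W5_7618445440, W5_6544711744]⟩

theorem F5_10839679104_chk : fwdChk 5 ks5 F5_10839679104 = true := by decide +kernel

noncomputable def F5_10839671040 : Fwd := ⟨V5_10839671040, [
  ⟨V4_8692187136, nat_lit 1, [(nat_lit 50, nat_lit 10839671040),
  (nat_lit 97, nat_lit 11913412800), (nat_lit 2, nat_lit 12987154560),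
  (nat_lit 12, nat_lit 14060896320), (nat_lit 43, nat_lit 15134638080)]⟩], [
  W5_10839408640, W5_10839146560, W5_9765928960, W5_9765666880, W5_9765404800, W5_8692187200,
  W5_8691663040, W5_7618445440]⟩

theorem F5_10839671040_chk : fwdChk 5 ks5 F5_10839671040 = true := by decide +kernel

noncomputable def F5_9816780864 : Fwd := ⟨V5_9816780864, [
  ⟨V4_9815470080, nat_lit 1, [(nat_lit 10, nat_lit 9816780864), (nat_lit 48, nat_lit 10890522624),
  (nat_lit 43, nat_lit 10890260544), (nat_lit 115, nat_lit 11964002304),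
  (nat_lit 75, nat_lit 11963740224), (nat_lit 80, nat_lit 13037481984),
  (nat_lit 110, nat_lit 13037219904), (nat_lit 21, nat_lit 14110961664),
  (nat_lit 72, nat_lit 14110699584), (nat_lit 40, nat_lit 15184441344),
  (nat_lit 56, nat_lit 15184179264), (nat_lit 23, nat_lit 16257921024)]⟩], [
  W5_9816248320, W5_9815990272, W5_9815986240, W5_9815732224, W5_9815728192, W5_9815470144,
  W5_9799733248, W5_9799475200, W5_9799471168, W5_9799217152, W5_9799213120, W5_9798955072]⟩

theorem F5_9816780864_chk : fwdChk 5 ks5 F5_9816780864 = true := by decide +kernel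

noncomputable def F5_9816526848 : Fwd := ⟨V5_9816526848, [
  ⟨V4_9799471104, nat_lit 1, [(nat_lit 101, nat_lit 9816526848),
  (nat_lit 107, nat_lit 10890264576), (nat_lit 38, nat_lit 10890006528),
  (nat_lit 43, nat_lit 10873491456), (nat_lit 126, nat_lit 11964002304),
  (nat_lit 28, nat_lit 11963744256), (nat_lit 41, nat_lit 11947229184),
  (nat_lit 16, nat_lit 11946971136), (nat_lit 69, nat_lit 13037740032),
  (nat_lit 76, nat_lit 13037481984), (nat_lit 107, nat_lit 13020966912),
  (nat_lit 91, nat_lit 13020708864), (nat_lit 32, nat_lit 14111477760),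
  (nat_lit 62, nat_lit 14111219712), (nat_lit 17, nat_lit 14094704640),
  (nat_lit 59, nat_lit 14094446592), (nat_lit 25, nat_lit 15184957440),
  (nat_lit 114, nat_lit 15168442368), (nat_lit 2, nat_lit 15168184320),
  (nat_lit 125, nat_lit 16241922048)]⟩], [
  W5_9816248320, W5_9815990272, W5_9799733248, W5_9799475200, W5_9799217152, W5_9782702080,
  W5_9782444032]⟩

theorem F5_9816526848_chk : fwdChk 5 ks5 F5_9816526848 = true := by decide +kernel

noncomputable def F5_9816256704 : Fwd := ⟨V5_9816256704, [
  ⟨V4_9815470080, nat_lit 1, [(nat_lit 122, nat_lit 9816256704),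
  (nat_lit 17, nat_lit 10889998464), (nat_lit 20, nat_lit 10889736384),
  (nat_lit 61, nat_lit 11963740224), (nat_lit 35, nat_lit 11963478144),
  (nat_lit 97, nat_lit 11963216064), (nat_lit 13, nat_lit 13037481984),
  (nat_lit 47, nat_lit 13037219904), (nat_lit 71, nat_lit 13036957824),
  (nat_lit 81, nat_lit 13036695744), (nat_lit 86, nat_lit 14110961664),
  (nat_lit 91, nat_lit 14110699584), (nat_lit 5, nat_lit 14110437504),
  (nat_lit 34, nat_lit 15184441344), (nat_lit 76, nat_lit 15184179264),
  (nat_lit 44, nat_lit 16257921024)]⟩], [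
  W5_9815732224, W5_9815470144, W5_9799217152, W5_9798955072, W5_9782702080, W5_9782440000,
  W5_9782177920, W5_9765924928, W5_9765662848]⟩

theorem F5_9816256704_chk : fwdChk 5 ks5 F5_9816256704 = true := by decide +kernel

noncomputable def F5_9816002688 : Fwd := ⟨V5_9816002688, [
  ⟨V4_9799213056, nat_lit 1, [(nat_lit 69, nat_lit 9816002688),
  (nat_lit 116, nat_lit 10889744448), (nat_lit 103, nat_lit 10889740416),
  (nat_lit 103, nat_lit 10872967296), (nat_lit 80, nat_lit 11963486208),
  (nat_lit 102, nat_lit 11963482176), (nat_lit 97, nat_lit 11963478144),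
  (nat_lit 10, nat_lit 11946709056), (nat_lit 81, nat_lit 11946705024),
  (nat_lit 47, nat_lit 13037223936), (nat_lit 72, nat_lit 13037219904),
  (nat_lit 111, nat_lit 13037215872), (nat_lit 96, nat_lit 13020450816),
  (nat_lit 91, nat_lit 13020446784), (nat_lit 22, nat_lit 13020442752),
  (nat_lit 7, nat_lit 14110961664), (nat_lit 102, nat_lit 14110957632),
  (nat_lit 21, nat_lit 14094188544), (nat_lit 116, nat_lit 14094184512),
  (nat_lit 56, nat_lit 14094180480), (nat_lit 31, nat_lit 15184699392),
  (nat_lit 52, nat_lit 15167926272), (nat_lit 5, nat_lit 15167922240),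
  (nat_lit 60, nat_lit 16241664000)]⟩], [
  W5_9815990272, W5_9799217152, W5_9799213120, W5_9782444032, W5_9782440000, W5_9765666880,
  W5_9765662848]⟩

theorem F5_9816002688_chk : fwdChk 5 ks5 F5_9816002688 = true := by decide +kernel

noncomputable def F5_9800011776 : Fwd := ⟨V5_9800011776, [
  ⟨V4_8726249472, nat_lit 1, [(nat_lit 89, nat_lit 9800011776), (nat_lit 79, nat_lit 10873749504),
  (nat_lit 117, nat_lit 11947487232), (nat_lit 8, nat_lit 13021224960),
  (nat_lit 66, nat_lit 14094962688), (nat_lit 116, nat_lit 15168700416)]⟩], [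
  W5_9799991296, W5_9799733248, W5_9799475200, W5_9799217152, W5_8725995520, W5_8725737472,
  W5_8725479424]⟩

theorem F5_9800011776_chk : fwdChk 5 ks5 F5_9800011776 = true := by decide +kernel

noncomputable def F5_9800007744 : Fwd := ⟨V5_9800007744, [
  ⟨V4_8725217280, nat_lit 1, [(nat_lit 6, nat_lit 9800007744), (nat_lit 33, nat_lit 10873749504),
  (nat_lit 29, nat_lit 10873487424), (nat_lit 21, nat_lit 11947229184),
  (nat_lit 77, nat_lit 11946967104), (nat_lit 80, nat_lit 13020708864),
  (nat_lit 102, nat_lit 13020446784), (nat_lit 62, nat_lit 14094188544),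
  (nat_lit 74, nat_lit 14093926464), (nat_lit 23, nat_lit 15167668224)]⟩], [
  W5_9799733248, W5_9799475200, W5_9799471168, W5_9799217152, W5_9799213120, W5_9798959104,
  W5_9798955072, W5_8725995520, W5_8725737472, W5_8725733440, W5_8725479424, W5_8725217344]⟩

theorem F5_9800007744_chk : fwdChk 5 ks5 F5_9800007744 = true := by decide +kernel

noncomputable def F5_9799749696 : Fwd := ⟨V5_9799749696, [
  ⟨V4_8725733376, nat_lit 1, [(nat_lit 12, nat_lit 9799749696),
  (nat_lit 100, nat_lit 10873491456), (nat_lit 80, nat_lit 10873487424),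
  (nat_lit 60, nat_lit 10873229376), (nat_lit 3, nat_lit 11947229184),
  (nat_lit 111, nat_lit 11947225152), (nat_lit 8, nat_lit 11946971136),
  (nat_lit 69, nat_lit 11946967104), (nat_lit 40, nat_lit 13020966912),
  (nat_lit 26, nat_lit 13020962880), (nat_lit 126, nat_lit 13020708864),
  (nat_lit 31, nat_lit 13020704832), (nat_lit 38, nat_lit 14094704640),
  (nat_lit 14, nat_lit 14094446592), (nat_lit 99, nat_lit 14094442560),
  (nat_lit 80, nat_lit 15168184320)]⟩], [
  W5_9799733248, W5_9799475200, W5_9799471168, W5_9799217152, W5_9799213120, W5_9782956096,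
  W5_9782702080, W5_9782698048, W5_9782444032, W5_9782440000, W5_8725995520, W5_8725737472,
  W5_8725733440, W5_8725479424, W5_8708964352, W5_8708960320, W5_8708702272]⟩

theorem F5_9799749696_chk : fwdChk 5 ks5 F5_9799749696 = true := by decide +kernel

noncomputable def F5_9799745664 : Fwd := ⟨V5_9799745664, [
  ⟨V4_8725217280, nat_lit 1, [(nat_lit 3, nat_lit 9799745664), (nat_lit 106, nat_lit 10873487424),
  (nat_lit 62, nat_lit 10873225344), (nat_lit 66, nat_lit 11947229184),
  (nat_lit 102, nat_lit 11946967104), (nat_lit 86, nat_lit 11946705024),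
  (nat_lit 121, nat_lit 13020708864), (nat_lit 41, nat_lit 13020446784),
  (nat_lit 56, nat_lit 13020184704), (nat_lit 31, nat_lit 14094188544),
  (nat_lit 111, nat_lit 14093926464), (nat_lit 125, nat_lit 15167668224)]⟩], [
  W5_9799475200, W5_9799217152, W5_9799213120, W5_9798959104, W5_9798955072, W5_9798951040,
  W5_9782702080, W5_9782698048, W5_9782444032, W5_9782440000, W5_9782181952, W5_9782177920,
  W5_8725995520, W5_8725737472, W5_8725733440, W5_8725479424, W5_8725471360, W5_8725217344,
  W5_8708964352, W5_8708960320, W5_8708702272, W5_8708440192]⟩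

theorem F5_9799745664_chk : fwdChk 5 ks5 F5_9799745664 = true := by decide +kernel

noncomputable def F5_9799491648 : Fwd := ⟨V5_9799491648, [
  ⟨V4_8725733376, nat_lit 1, [(nat_lit 68, nat_lit 9799491648), (nat_lit 72, nat_lit 10873233408),
  (nat_lit 112, nat_lit 10873229376), (nat_lit 116, nat_lit 11946971136),
  (nat_lit 52, nat_lit 11946967104), (nat_lit 75, nat_lit 13020708864),
  (nat_lit 98, nat_lit 13020704832), (nat_lit 14, nat_lit 14094446592),
  (nat_lit 67, nat_lit 14094442560), (nat_lit 72, nat_lit 15168184320)]⟩], [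
  W5_9799475200, W5_9799471168, W5_9782702080, W5_9782698048, W5_9765928960, W5_9765924928,
  W5_8725737472, W5_8725733440, W5_8708964352, W5_8708960320, W5_8692191232, W5_8692187200]⟩

theorem F5_9799491648_chk : fwdChk 5 ks5 F5_9799491648 = true := by decide +kernel

noncomputable def F5_9799483584 : Fwd := ⟨V5_9799483584, [
  ⟨V4_8725217280, nat_lit 1, [(nat_lit 87, nat_lit 9799483584), (nat_lit 82, nat_lit 10873225344),
  (nat_lit 43, nat_lit 10872963264), (nat_lit 25, nat_lit 11946967104),
  (nat_lit 100, nat_lit 11946705024), (nat_lit 116, nat_lit 11946442944),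
  (nat_lit 68, nat_lit 13020708864), (nat_lit 88, nat_lit 13020446784),
  (nat_lit 18, nat_lit 13020184704), (nat_lit 53, nat_lit 14094188544),
  (nat_lit 80, nat_lit 14093926464), (nat_lit 71, nat_lit 15167668224)]⟩], [
  W5_9799217152, W5_9798959104, W5_9798955072, W5_9782702080, W5_9782444032, W5_9782440000,
  W5_9782181952, W5_9782177920, W5_9765928960, W5_9765924928, W5_9765666880, W5_9765662848,
  W5_9765404800, W5_8725737472, W5_8725479424, W5_8725217344, W5_8708964352, W5_8708960320,
  W5_8708702272, W5_8708440192, W5_8692187200, W5_8692183168, W5_8691663040]⟩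

theorem F5_9799483584_chk : fwdChk 5 ks5 F5_9799483584 = true := by decide +kernel

noncomputable def F5_9782710464 : Fwd := ⟨V5_9782710464, [
  ⟨V4_8692187136, nat_lit 1, [(nat_lit 80, nat_lit 9782710464),
  (nat_lit 122, nat_lit 10856452224), (nat_lit 37, nat_lit 10856448192),
  (nat_lit 110, nat_lit 10839675072), (nat_lit 96, nat_lit 11930193984),
  (nat_lit 48, nat_lit 11930189952), (nat_lit 33, nat_lit 11913416832),
  (nat_lit 122, nat_lit 11913412800), (nat_lit 17, nat_lit 13003935744),
  (nat_lit 99, nat_lit 13003931712), (nat_lit 24, nat_lit 12987158592),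
  (nat_lit 38, nat_lit 12987154560), (nat_lit 115, nat_lit 14077673472),
  (nat_lit 119, nat_lit 14060900352), (nat_lit 1, nat_lit 14060896320),
  (nat_lit 12, nat_lit 15134638080)]⟩], [
  W5_9782702080, W5_9782444032, W5_9782440000, W5_9765928960, W5_9765924928, W5_9765666880,
  W5_9765662848, W5_8708964352, W5_8708960320, W5_8708702272, W5_8692191232, W5_8692187200,
  W5_8692183168, W5_7634956480, W5_7618445440]⟩

theorem F5_9782710464_chk : fwdChk 5 ks5 F5_9782710464 = true := by decide +kernel

noncomputable def F5_9765937344 : Fwd := ⟨V5_9765937344, [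
  ⟨V4_6544711680, nat_lit 1, [(nat_lit 109, nat_lit 9765937344),
  (nat_lit 69, nat_lit 10839679104), (nat_lit 81, nat_lit 11913420864),
  (nat_lit 79, nat_lit 12987162624)]⟩], [
  W5_9765928960, W5_9765924928, W5_8692191232, W5_8692187200, W5_8692183168, W5_7618445440,
  W5_6544711744]⟩

theorem F5_9765937344_chk : fwdChk 5 ks5 F5_9765937344 = true := by decide +kernel

noncomputable def F5_8726274048 : Fwd := ⟨V5_8726274048, [
  ⟨V4_8726249472, nat_lit 1, [(nat_lit 25, nat_lit 8726274048), (nat_lit 2, nat_lit 9800011776),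
  (nat_lit 32, nat_lit 10873749504), (nat_lit 5, nat_lit 11947487232),
  (nat_lit 39, nat_lit 13021224960), (nat_lit 52, nat_lit 14094962688),
  (nat_lit 46, nat_lit 15168700416)]⟩], [
  W5_8725995520, W5_8725737472]⟩

theorem F5_8726274048_chk : fwdChk 5 ks5 F5_8726274048 = true := by decide +kernel

noncomputable def F5_8726265984 : Fwd := ⟨V5_8726265984, [
  ⟨V4_8725217280, nat_lit 1, [(nat_lit 95, nat_lit 8726265984), (nat_lit 6, nat_lit 9800007744),
  (nat_lit 22, nat_lit 9799745664), (nat_lit 2, nat_lit 10873749504),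
  (nat_lit 20, nat_lit 10873487424), (nat_lit 9, nat_lit 10873225344),
  (nat_lit 102, nat_lit 11947229184), (nat_lit 30, nat_lit 11946967104),
  (nat_lit 19, nat_lit 11946705024), (nat_lit 101, nat_lit 13020708864),
  (nat_lit 47, nat_lit 13020446784), (nat_lit 95, nat_lit 13020184704),
  (nat_lit 99, nat_lit 14094188544), (nat_lit 49, nat_lit 14093926464),
  (nat_lit 104, nat_lit 15167668224)]⟩], [
  W5_8725995520, W5_8725737472, W5_8725733440, W5_8725479424, W5_8725471360, W5_8725217344]⟩

theorem F5_8726265984_chk : fwdChk 5 ks5 F5_8726265984 = true := by decide +kernel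

noncomputable def F5_8725749888 : Fwd := ⟨V5_8725749888, [
  ⟨V4_8725733376, nat_lit 1, [(nat_lit 95, nat_lit 8725749888), (nat_lit 104, nat_lit 9799491648),
  (nat_lit 107, nat_lit 9799487616), (nat_lit 97, nat_lit 10873233408),
  (nat_lit 73, nat_lit 10873229376), (nat_lit 93, nat_lit 10873225344),
  (nat_lit 23, nat_lit 11946971136), (nat_lit 24, nat_lit 11946967104),
  (nat_lit 26, nat_lit 11946963072), (nat_lit 114, nat_lit 13020708864),
  (nat_lit 69, nat_lit 13020704832), (nat_lit 59, nat_lit 13020700800),
  (nat_lit 121, nat_lit 14094446592), (nat_lit 72, nat_lit 14094442560),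
  (nat_lit 4, nat_lit 15168184320)]⟩], [
  W5_8725737472, W5_8725733440, W5_8708964352, W5_8708960320, W5_8692191232, W5_8692187200,
  W5_8692183168]⟩

theorem F5_8725749888_chk : fwdChk 5 ks5 F5_8725749888 = true := by decide +kernel

noncomputable def F5_8725741824 : Fwd := ⟨V5_8725741824, [
  ⟨V4_8725217280, nat_lit 1, [(nat_lit 81, nat_lit 8725741824), (nat_lit 110, nat_lit 9799483584),
  (nat_lit 71, nat_lit 9799221504), (nat_lit 76, nat_lit 10873225344),
  (nat_lit 14, nat_lit 10872963264), (nat_lit 125, nat_lit 10872701184),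
  (nat_lit 36, nat_lit 11946967104), (nat_lit 12, nat_lit 11946705024),
  (nat_lit 72, nat_lit 11946442944), (nat_lit 44, nat_lit 13020708864),
  (nat_lit 28, nat_lit 13020446784), (nat_lit 113, nat_lit 13020184704),
  (nat_lit 22, nat_lit 14094188544), (nat_lit 33, nat_lit 14093926464),
  (nat_lit 36, nat_lit 15167668224)]⟩], [
  W5_8725479424, W5_8725217344, W5_8708964352, W5_8708702272, W5_8708440192, W5_8692187200,
  W5_8691663040]⟩

theorem F5_8725741824_chk : fwdChk 5 ks5 F5_8725741824 = true := by decide +kernel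

noncomputable def F5_8692195584 : Fwd := ⟨V5_8692195584, [
  ⟨V4_6544711680, nat_lit 1, [(nat_lit 71, nat_lit 8692195584), (nat_lit 107, nat_lit 9765937344),
  (nat_lit 21, nat_lit 10839679104), (nat_lit 36, nat_lit 11913420864),
  (nat_lit 25, nat_lit 12987162624)]⟩], [
  W5_8692191232, W5_8692187200, W5_7618445440, W5_6544711744]⟩

theorem F5_8692195584_chk : fwdChk 5 ks5 F5_8692195584 = true := by decide +kernel

noncomputable def F5_6544712064 : Fwd := ⟨V5_6544712064, [
  ⟨V4_6544711680, nat_lit 1, [(nat_lit 124, nat_lit 6544712064),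
  (nat_lit 116, nat_lit 7618453824), (nat_lit 97, nat_lit 8692195584),
  (nat_lit 125, nat_lit 9765937344), (nat_lit 41, nat_lit 10839679104),
  (nat_lit 8, nat_lit 11913420864), (nat_lit 75, nat_lit 12987162624)]⟩], [
  W5_6544711744]⟩

theorem F5_6544712064_chk : fwdChk 5 ks5 F5_6544712064 = true := by decide +kernel

end Crest.Agent.R187.SN.Fwd
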