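import Crest.Agent.R187.SN.FwdInst
import Crest.Agent.R187.SN.RelInst
import Crest.Agent.R187.SN.TD.F1_0
import Crest.Agent.R187.SN.TD.F2_0
import Crest.Agent.R187.SN.TD.F3_0
import Crest.Agent.R187.SN.TD.F4_0
import Crest.Agent.R187.SN.TD.WO5

/-!
# Row 187, PLAN S, certificate E3: the tables of levels `(6, 1), …, (6, 4)` consist of elements of `Spec.D 6 b`
-/

set_option autoImplicit false
set_option maxRecDepth 100000
set_option Elab.async false

namespace Crest.Agent.R187.SN.Top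

open Crest.Agent.R187.SN.Inst Crest.Agent.R187.SN.Fwd

theorem V1_6442450944_ok : Fwd.Has6 Inst.T 1 V1_6442450944 :=
  fwd_sound' relAll_5_0 ks1_ok F1_6442450944
    ⟨V0_0_ok, trivial⟩ ⟨W1_5368709120_ok, trivial⟩ F1_6442450944_chk

theorem V2_12884901888_ok : Fwd.Has6 Inst.T 2 V2_12884901888 :=
  fwd_sound' relAll_5_1 ks2_ok F2_12884901888
    ⟨V1_6442450944_ok, trivial⟩ ⟨W2_10737418240_ok, trivial⟩ F2_12884901888_chk

theorem V2_10770972672_ok : Fwd.Has6 Inst.T 2 V2_10770972672 :=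
  fwd_sound' relAll_5_1 ks2_ok F2_10770972672
    ⟨V1_6442450944_ok, trivial⟩ ⟨W2_10737418240_ok, W2_8623489024_ok, trivial⟩ F2_10770972672_chk

theorem V2_8657043456_ok : Fwd.Has6 Inst.T 2 V2_8657043456 :=
  fwd_sound' relAll_5_1 ks2_ok F2_8657043456
    ⟨V1_6442450944_ok, trivial⟩ ⟨W2_8623489024_ok, W2_6509559808_ok, trivial⟩ F2_8657043456_chk

theorem V2_6543114240_ok : Fwd.Has6 Inst.T 2 V2_6543114240 :=
  fwd_sound' relAll_5_1 ks2_ok F2_6543114240
    ⟨V1_6442450944_ok, trivial⟩ ⟨W2_6509559808_ok, trivial⟩ F2_6543114240_chk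

theorem V3_19327352832_ok : Fwd.Has6 Inst.T 3 V3_19327352832 :=
  fwd_sound' relAll_5_2 ks3_ok F3_19327352832
    ⟨V2_12884901888_ok, trivial⟩ ⟨W3_16106127360_ok, trivial⟩ F3_19327352832_chk

theorem V3_15099494400_ok : Fwd.Has6 Inst.T 3 V3_15099494400 :=
  fwd_sound' relAll_5_2 ks3_ok F3_15099494400
    ⟨V2_8657043456_ok, trivial⟩ ⟨W3_13992198144_ok, W3_12935233536_ok, W3_11878268928_ok, trivial⟩
    F3_15099494400_chk

theorem V3_15066464256_ok : Fwd.Has6 Inst.T 3 V3_15066464256 :=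
  fwd_sound' relAll_5_2 ks3_ok F3_15066464256
    ⟨V2_10770972672_ok, trivial⟩ ⟨W3_13992198144_ok, W3_11845238784_ok, trivial⟩
    F3_15066464256_chk

theorem V3_12985565184_ok : Fwd.Has6 Inst.T 3 V3_12985565184 :=
  fwd_sound' relAll_5_2 ks3_ok F3_12985565184
    ⟨V2_6543114240_ok, V2_12884901888_ok, trivial⟩ ⟨W3_12935233536_ok, W3_11878268928_ok,
    W3_10821304320_ok, W3_9764339712_ok, trivial⟩ F3_12985565184_chk

theorem V3_12952535040_ok : Fwd.Has6 Inst.T 3 V3_12952535040 :=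
  fwd_sound' relAll_5_2 ks3_ok F3_12952535040
    ⟨V2_8657043456_ok, trivial⟩ ⟨W3_12935233536_ok, W3_11878268928_ok, W3_11845238784_ok,
    W3_10804789248_ok, W3_9731309568_ok, trivial⟩ F3_12952535040_chk

theorem V3_11912085504_ok : Fwd.Has6 Inst.T 3 V3_11912085504 :=
  fwd_sound' relAll_5_2 ks3_ok F3_11912085504
    ⟨V2_6543114240_ok, trivial⟩ ⟨W3_11878268928_ok, W3_10821304320_ok, W3_10804789248_ok,
    W3_9764339712_ok, W3_8690860032_ok, trivial⟩ F3_11912085504_chk

theorem V3_11895570432_ok : Fwd.Has6 Inst.T 3 V3_11895570432 :=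
  fwd_sound' relAll_5_2 ks3_ok F3_11895570432
    ⟨V2_10770972672_ok, trivial⟩ ⟨W3_11878268928_ok, W3_11845238784_ok, W3_10821304320_ok,
    W3_10804789248_ok, W3_9731309568_ok, W3_8674344960_ok, trivial⟩ F3_11895570432_chk

theorem V3_10871635968_ok : Fwd.Has6 Inst.T 3 V3_10871635968 :=
  fwd_sound' relAll_5_2 ks3_ok F3_10871635968
    ⟨V2_10770972672_ok, trivial⟩ ⟨W3_10821304320_ok, W3_9764339712_ok, trivial⟩ F3_10871635968_chk

theorem V3_10855120896_ok : Fwd.Has6 Inst.T 3 V3_10855120896 :=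
  fwd_sound' relAll_5_2 ks3_ok F3_10855120896
    ⟨V2_10770972672_ok, trivial⟩ ⟨W3_10821304320_ok, W3_10804789248_ok, W3_9764339712_ok,
    W3_8690860032_ok, trivial⟩ F3_10855120896_chk

theorem V3_10838605824_ok : Fwd.Has6 Inst.T 3 V3_10838605824 :=
  fwd_sound' relAll_5_2 ks3_ok F3_10838605824
    ⟨V2_6543114240_ok, trivial⟩ ⟨W3_10821304320_ok, W3_10804789248_ok, W3_9764339712_ok,
    W3_9731309568_ok, W3_8690860032_ok, W3_8674344960_ok, trivial⟩ F3_10838605824_chk

theorem V3_10805575680_ok : Fwd.Has6 Inst.T 3 V3_10805575680 :=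
  fwd_sound' relAll_5_2 ks3_ok F3_10805575680
    ⟨V2_8657043456_ok, trivial⟩ ⟨W3_10804789248_ok, W3_9731309568_ok, W3_7584350208_ok, trivial⟩
    F3_10805575680_chk

theorem V3_9765126144_ok : Fwd.Has6 Inst.T 3 V3_9765126144 :=
  fwd_sound' relAll_5_2 ks3_ok F3_9765126144
    ⟨V2_6543114240_ok, trivial⟩ ⟨W3_9764339712_ok, W3_9731309568_ok, W3_8690860032_ok,
    W3_8674344960_ok, W3_6543900672_ok, trivial⟩ F3_9765126144_chk

theorem V3_8724676608_ok : Fwd.Has6 Inst.T 3 V3_8724676608 :=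
  fwd_sound' relAll_5_2 ks3_ok F3_8724676608
    ⟨V2_8657043456_ok, trivial⟩ ⟨W3_8690860032_ok, W3_8674344960_ok, trivial⟩ F3_8724676608_chk

theorem V3_8691646464_ok : Fwd.Has6 Inst.T 3 V3_8691646464 :=
  fwd_sound' relAll_5_2 ks3_ok F3_8691646464
    ⟨V2_6543114240_ok, trivial⟩ ⟨W3_8690860032_ok, W3_8674344960_ok, W3_7584350208_ok,
    W3_6543900672_ok, trivial⟩ F3_8691646464_chk

theorem V3_6544687104_ok : Fwd.Has6 Inst.T 3 V3_6544687104 :=
  fwd_sound' relAll_5_2 ks3_ok F3_6544687104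
    ⟨V2_6543114240_ok, trivial⟩ ⟨W3_6543900672_ok, trivial⟩ F3_6544687104_chk

theorem V4_25769803776_ok : Fwd.Has6 Inst.T 4 V4_25769803776 :=
  fwd_sound' relAll_5_3 ks4_ok F4_25769803776
    ⟨V3_19327352832_ok, trivial⟩ ⟨W4_21474836480_ok, trivial⟩ F4_25769803776_chk

theorem V4_21541945344_ok : Fwd.Has6 Inst.T 4 V4_21541945344 :=
  fwd_sound' relAll_5_3 ks4_ok F4_21541945344
    ⟨V3_15099494400_ok, V3_19327352832_ok, trivial⟩ ⟨W4_21474836480_ok, W4_19360907264_ok,
    W4_18303942656_ok, W4_17246978048_ok, trivial⟩ F4_21541945344_chk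

theorem V4_21508915200_ok : Fwd.Has6 Inst.T 4 V4_21508915200 :=
  fwd_sound' relAll_5_3 ks4_ok F4_21508915200
    ⟨V3_15066464256_ok, trivial⟩ ⟨W4_19360907264_ok, W4_17213947904_ok, trivial⟩
    F4_21508915200_chk

theorem V4_20468465664_ok : Fwd.Has6 Inst.T 4 V4_20468465664 :=
  fwd_sound' relAll_5_3 ks4_ok F4_20468465664
    ⟨V3_15099494400_ok, trivial⟩ ⟨W4_19360907264_ok, W4_18303942656_ok, W4_17246978048_ok,
    W4_16173498368_ok, trivial⟩ F4_20468465664_chk

theorem V4_20451950592_ok : Fwd.Has6 Inst.T 4 V4_20451950592 :=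
  fwd_sound' relAll_5_3 ks4_ok F4_20451950592
    ⟨V3_15066464256_ok, trivial⟩ ⟨W4_19360907264_ok, W4_18303942656_ok, W4_17213947904_ok,
    W4_16156983296_ok, trivial⟩ F4_20451950592_chk

theorem V4_19428016128_ok : Fwd.Has6 Inst.T 4 V4_19428016128 :=
  fwd_sound' relAll_5_3 ks4_ok F4_19428016128
    ⟨V3_12985565184_ok, V3_19327352832_ok, trivial⟩ ⟨W4_19360907264_ok, W4_18303942656_ok,
    W4_17246978048_ok, W4_16190013440_ok, W4_15133048832_ok, trivial⟩ F4_19428016128_chk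

theorem V4_19361439744_ok : Fwd.Has6 Inst.T 4 V4_19361439744 :=
  fwd_sound' relAll_5_3 ks4_ok F4_19361439744
    ⟨V3_15066464256_ok, trivial⟩ ⟨W4_17213947904_ok, W4_15066472448_ok, trivial⟩
    F4_19361439744_chk

theorem V4_18371051520_ok : Fwd.Has6 Inst.T 4 V4_18371051520 :=
  fwd_sound' relAll_5_3 ks4_ok F4_18371051520
    ⟨V3_12985565184_ok, trivial⟩ ⟨W4_18303942656_ok, W4_17246978048_ok, W4_16190013440_ok,
    W4_15133048832_ok, W4_14076084224_ok, trivial⟩ F4_18371051520_chk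

theorem V4_18338021376_ok : Fwd.Has6 Inst.T 4 V4_18338021376 :=
  fwd_sound' relAll_5_3 ks4_ok F4_18338021376
    ⟨V3_11895570432_ok, V3_15066464256_ok, trivial⟩ ⟨W4_18303942656_ok, W4_17246978048_ok,
    W4_17213947904_ok, W4_16190013440_ok, W4_16173498368_ok, W4_16156983296_ok, W4_15116533760_ok,
    W4_15100018688_ok, W4_14043054080_ok, trivial⟩ F4_18338021376_chk

theorem V4_18321506304_ok : Fwd.Has6 Inst.T 4 V4_18321506304 :=
  fwd_sound' relAll_5_3 ks4_ok F4_18321506304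
    ⟨V3_12952535040_ok, trivial⟩ ⟨W4_18303942656_ok, W4_17246978048_ok, W4_16173498368_ok,
    W4_16156983296_ok, W4_15100018688_ok, W4_14026539008_ok, trivial⟩ F4_18321506304_chk

theorem V4_17314086912_ok : Fwd.Has6 Inst.T 4 V4_17314086912 :=
  fwd_sound' relAll_5_3 ks4_ok F4_17314086912
    ⟨V3_10871635968_ok, V3_12985565184_ok, trivial⟩ ⟨W4_17246978048_ok, W4_16190013440_ok,
    W4_15133048832_ok, W4_14076084224_ok, W4_13019119616_ok, trivial⟩ F4_17314086912_chk

theorem V4_17281056768_ok : Fwd.Has6 Inst.T 4 V4_17281056768 :=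
  fwd_sound' relAll_5_3 ks4_ok F4_17281056768
    ⟨V3_10838605824_ok, V3_12985565184_ok, V3_15066464256_ok, trivial⟩ ⟨W4_17246978048_ok,
    W4_17213947904_ok, W4_16190013440_ok, W4_16173498368_ok, W4_16156983296_ok, W4_15133048832_ok,
    W4_15116533760_ok, W4_15100018688_ok, W4_14059569152_ok, W4_14043054080_ok, W4_12986089472_ok,
    trivial⟩ F4_17281056768_chk

theorem V4_17248026624_ok : Fwd.Has6 Inst.T 4 V4_17248026624 :=
  fwd_sound' relAll_5_3 ks4_ok F4_17248026624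
    ⟨V3_10805575680_ok, V3_15099494400_ok, trivial⟩ ⟨W4_17246978048_ok, W4_16173498368_ok,
    W4_15100018688_ok, W4_14026539008_ok, W4_12953059328_ok, trivial⟩ F4_17248026624_chk

theorem V4_17247510528_ok : Fwd.Has6 Inst.T 4 V4_17247510528 :=
  fwd_sound' relAll_5_3 ks4_ok F4_17247510528
    ⟨V3_12952535040_ok, trivial⟩ ⟨W4_17213947904_ok, W4_16156983296_ok, W4_15100018688_ok,
    W4_15066472448_ok, W4_14026280960_ok, W4_12952543232_ok, trivial⟩ F4_17247510528_chk

theorem V4_16257122304_ok : Fwd.Has6 Inst.T 4 V4_16257122304 :=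
  fwd_sound' relAll_5_3 ks4_ok F4_16257122304
    ⟨V3_10871635968_ok, trivial⟩ ⟨W4_16190013440_ok, W4_15133048832_ok, W4_14076084224_ok,
    W4_13019119616_ok, trivial⟩ F4_16257122304_chk

theorem V4_16240607232_ok : Fwd.Has6 Inst.T 4 V4_16240607232 :=
  fwd_sound' relAll_5_3 ks4_ok F4_16240607232
    ⟨V3_10871635968_ok, V3_10855120896_ok, trivial⟩ ⟨W4_16190013440_ok, W4_16173498368_ok,
    W4_15133048832_ok, W4_15116533760_ok, W4_14076084224_ok, W4_14059569152_ok, W4_13019119616_ok,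
    W4_13002604544_ok, W4_11945639936_ok, trivial⟩ F4_16240607232_chk

theorem V4_16223834112_ok : Fwd.Has6 Inst.T 4 V4_16223834112 :=
  fwd_sound' relAll_5_3 ks4_ok F4_16223834112
    ⟨V3_10855120896_ok, trivial⟩ ⟨W4_16173498368_ok, W4_15116533760_ok, W4_14059569152_ok,
    W4_13002604544_ok, W4_11928866816_ok, trivial⟩ F4_16223834112_chk

theorem V4_16207319040_ok : Fwd.Has6 Inst.T 4 V4_16207319040 :=
  fwd_sound' relAll_5_3 ks4_ok F4_16207319040
    ⟨V3_10838605824_ok, trivial⟩ ⟨W4_16173498368_ok, W4_16156983296_ok, W4_15116533760_ok,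
    W4_15100018688_ok, W4_14059569152_ok, W4_14043054080_ok, W4_14026280960_ok, W4_12986089472_ok,
    W4_12969316352_ok, W4_11912351744_ok, trivial⟩ F4_16207319040_chk

theorem V4_16190803968_ok : Fwd.Has6 Inst.T 4 V4_16190803968 :=
  fwd_sound' relAll_5_3 ks4_ok F4_16190803968
    ⟨V3_11895570432_ok, trivial⟩ ⟨W4_16173498368_ok, W4_16156983296_ok, W4_15116533760_ok,
    W4_15100018688_ok, W4_14043054080_ok, W4_14026539008_ok, W4_14026280960_ok, W4_12969574400_ok,
    W4_12969316352_ok, W4_11895836672_ok, trivial⟩ F4_16190803968_chk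

theorem V4_16190545920_ok : Fwd.Has6 Inst.T 4 V4_16190545920 :=
  fwd_sound' relAll_5_3 ks4_ok F4_16190545920
    ⟨V3_11895570432_ok, trivial⟩ ⟨W4_16156983296_ok, W4_15100018688_ok, W4_15066472448_ok,
    W4_14043054080_ok, W4_14026280960_ok, W4_12969316352_ok, W4_12952543232_ok, W4_11895578624_ok,
    trivial⟩ F4_16190545920_chk

theorem V4_16174288896_ok : Fwd.Has6 Inst.T 4 V4_16174288896 :=
  fwd_sound' relAll_5_3 ks4_ok F4_16174288896
    ⟨V3_10805575680_ok, trivial⟩ ⟨W4_16173498368_ok, W4_15100018688_ok, W4_14026539008_ok,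
    W4_14026280960_ok, W4_12953059328_ok, W4_11879321600_ok, trivial⟩ F4_16174288896_chk

theorem V4_15200157696_ok : Fwd.Has6 Inst.T 4 V4_15200157696 :=
  fwd_sound' relAll_5_3 ks4_ok F4_15200157696
    ⟨V3_10871635968_ok, V3_12985565184_ok, trivial⟩ ⟨W4_15133048832_ok, W4_14076084224_ok,
    W4_13019119616_ok, W4_10905190400_ok, trivial⟩ F4_15200157696_chk

theorem V4_15183642624_ok : Fwd.Has6 Inst.T 4 V4_15183642624 :=
  fwd_sound' relAll_5_3 ks4_ok F4_15183642624
    ⟨V3_10871635968_ok, V3_10855120896_ok, trivial⟩ ⟨W4_15133048832_ok, W4_15116533760_ok,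
    W4_14076084224_ok, W4_14059569152_ok, W4_13019119616_ok, W4_13002604544_ok, W4_11945639936_ok,
    W4_10888675328_ok, trivial⟩ F4_15183642624_chk

theorem V4_15167127552_ok : Fwd.Has6 Inst.T 4 V4_15167127552 :=
  fwd_sound' relAll_5_3 ks4_ok F4_15167127552
    ⟨V3_8724676608_ok, V3_10871635968_ok, V3_15066464256_ok, V3_10855120896_ok, trivial⟩ ⟨
    W4_15133048832_ok, W4_15116533760_ok, W4_15100018688_ok, W4_14076084224_ok, W4_14059569152_ok,
    W4_14043054080_ok, W4_13019119616_ok, W4_13002604544_ok, W4_12986089472_ok, W4_11945639936_ok,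
    W4_11929124864_ok, W4_10872160256_ok, trivial⟩ F4_15167127552_chk

theorem V4_15150612480_ok : Fwd.Has6 Inst.T 4 V4_15150612480 :=
  fwd_sound' relAll_5_3 ks4_ok F4_15150612480
    ⟨V3_9765126144_ok, V3_10855120896_ok, trivial⟩ ⟨W4_15133048832_ok, W4_15116533760_ok,
    W4_15100018688_ok, W4_14076084224_ok, W4_14059569152_ok, W4_14043054080_ok, W4_14026539008_ok,
    W4_13002604544_ok, W4_12986089472_ok, W4_12969574400_ok, W4_11929124864_ok, W4_11912609792_ok,
    W4_10855645184_ok, trivial⟩ F4_15150612480_chk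

theorem V4_15150354432_ok : Fwd.Has6 Inst.T 4 V4_15150354432 :=
  fwd_sound' relAll_5_3 ks4_ok F4_15150354432
    ⟨V3_15066464256_ok, V3_10855120896_ok, trivial⟩ ⟨W4_15116533760_ok, W4_15100018688_ok,
    W4_14059569152_ok, W4_14043054080_ok, W4_14026280960_ok, W4_13002604544_ok, W4_12986089472_ok,
    W4_12969316352_ok, W4_11929124864_ok, W4_11928866816_ok, W4_11912351744_ok, W4_10855387136_ok,
    trivial⟩ F4_15150354432_chk

theorem V4_15134097408_ok : Fwd.Has6 Inst.T 4 V4_15134097408 :=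
  fwd_sound' relAll_5_3 ks4_ok F4_15134097408
    ⟨V3_8691646464_ok, V3_9765126144_ok, V3_10805575680_ok, V3_12985565184_ok, trivial⟩ ⟨
    W4_15133048832_ok, W4_15116533760_ok, W4_15100018688_ok, W4_14059569152_ok, W4_14043054080_ok,
    W4_14026539008_ok, W4_12986089472_ok, W4_12969574400_ok, W4_12953059328_ok, W4_11912609792_ok,
    W4_11896094720_ok, W4_10839130112_ok, trivial⟩ F4_15134097408_chk

theorem V4_15133581312_ok : Fwd.Has6 Inst.T 4 V4_15133581312 :=
  fwd_sound' relAll_5_3 ks4_ok F4_15133581312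
    ⟨V3_10838605824_ok, V3_15066464256_ok, trivial⟩ ⟨W4_15100018688_ok, W4_15066472448_ok,
    W4_14043054080_ok, W4_14026280960_ok, W4_12986089472_ok, W4_12969316352_ok, W4_12952543232_ok,
    W4_11912351744_ok, W4_11895578624_ok, W4_10838614016_ok, trivial⟩ F4_15133581312_chk

theorem V4_15117324288_ok : Fwd.Has6 Inst.T 4 V4_15117324288 :=
  fwd_sound' relAll_5_3 ks4_ok F4_15117324288
    ⟨V3_10805575680_ok, trivial⟩ ⟨W4_15116533760_ok, W4_15100018688_ok, W4_14043054080_ok,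
    W4_14026539008_ok, W4_14026280960_ok, W4_12969574400_ok, W4_12969316352_ok, W4_12953059328_ok,
    W4_11896094720_ok, W4_11895836672_ok, W4_11879321600_ok, W4_10822356992_ok, trivial⟩
    F4_15117324288_chk

theorem V4_15100551168_ok : Fwd.Has6 Inst.T 4 V4_15100551168 :=
  fwd_sound' relAll_5_3 ks4_ok F4_15100551168
    ⟨V3_10805575680_ok, trivial⟩ ⟨W4_15100018688_ok, W4_14026539008_ok, W4_14026280960_ok,
    W4_12953059328_ok, W4_12952543232_ok, W4_11879321600_ok, W4_10805583872_ok, trivial⟩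
    F4_15100551168_chk

theorem V4_14126678016_ok : Fwd.Has6 Inst.T 4 V4_14126678016 :=
  fwd_sound' relAll_5_3 ks4_ok F4_14126678016
    ⟨V3_10871635968_ok, V3_10855120896_ok, trivial⟩ ⟨W4_14076084224_ok, W4_14059569152_ok,
    W4_13019119616_ok, W4_13002604544_ok, W4_11945639936_ok, W4_10905190400_ok, W4_10888675328_ok,
    trivial⟩ F4_14126678016_chk

theorem V4_14110162944_ok : Fwd.Has6 Inst.T 4 V4_14110162944 :=
  fwd_sound' relAll_5_3 ks4_ok F4_14110162944
    ⟨V3_10871635968_ok, V3_11895570432_ok, trivial⟩ ⟨W4_14076084224_ok, W4_14059569152_ok,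
    W4_14043054080_ok, W4_13019119616_ok, W4_13002604544_ok, W4_12986089472_ok, W4_11945639936_ok,
    W4_11929124864_ok, W4_10888675328_ok, W4_10872160256_ok, trivial⟩ F4_14110162944_chk

theorem V4_14109904896_ok : Fwd.Has6 Inst.T 4 V4_14109904896 :=
  fwd_sound' relAll_5_3 ks4_ok F4_14109904896
    ⟨V3_10855120896_ok, trivial⟩ ⟨W4_14059569152_ok, W4_13002604544_ok, W4_11945639936_ok,
    W4_11928866816_ok, W4_10888675328_ok, trivial⟩ F4_14109904896_chk

theorem V4_14093647872_ok : Fwd.Has6 Inst.T 4 V4_14093647872 :=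
  fwd_sound' relAll_5_3 ks4_ok F4_14093647872
    ⟨V3_8724676608_ok, V3_10871635968_ok, V3_9765126144_ok, trivial⟩ ⟨W4_14076084224_ok,
    W4_14059569152_ok, W4_14043054080_ok, W4_14026539008_ok, W4_13019119616_ok, W4_13002604544_ok,
    W4_12986089472_ok, W4_12969574400_ok, W4_11945639936_ok, W4_11929124864_ok, W4_11912609792_ok,
    W4_10872160256_ok, W4_10855645184_ok, W4_9798680576_ok, trivial⟩ F4_14093647872_chk

theorem V4_14093389824_ok : Fwd.Has6 Inst.T 4 V4_14093389824 :=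
  fwd_sound' relAll_5_3 ks4_ok F4_14093389824
    ⟨V3_8724676608_ok, V3_10855120896_ok, trivial⟩ ⟨W4_14059569152_ok, W4_14043054080_ok,
    W4_14026280960_ok, W4_13002604544_ok, W4_12986089472_ok, W4_12969316352_ok, W4_11945639936_ok,
    W4_11929124864_ok, W4_11928866816_ok, W4_11912351744_ok, W4_10872160256_ok, W4_10855387136_ok,
    W4_9798422528_ok, trivial⟩ F4_14093389824_chk

theorem V4_14077132800_ok : Fwd.Has6 Inst.T 4 V4_14077132800 :=
  fwd_sound' relAll_5_3 ks4_ok F4_14077132800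
    ⟨V3_8691646464_ok, V3_10805575680_ok, V3_9765126144_ok, trivial⟩ ⟨W4_14076084224_ok,
    W4_14059569152_ok, W4_14043054080_ok, W4_14026539008_ok, W4_13002604544_ok, W4_12986089472_ok,
    W4_12969574400_ok, W4_12953059328_ok, W4_11929124864_ok, W4_11912609792_ok, W4_11896094720_ok,
    W4_10855645184_ok, W4_10839130112_ok, W4_9782165504_ok, trivial⟩ F4_14077132800_chk

theorem V4_14076874752_ok : Fwd.Has6 Inst.T 4 V4_14076874752 :=
  fwd_sound' relAll_5_3 ks4_ok F4_14076874752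
    ⟨V3_9765126144_ok, V3_10855120896_ok, trivial⟩ ⟨W4_14059569152_ok, W4_14043054080_ok,
    W4_14026539008_ok, W4_14026280960_ok, W4_13002604544_ok, W4_12986089472_ok, W4_12969574400_ok,
    W4_12969316352_ok, W4_11929124864_ok, W4_11928866816_ok, W4_11912609792_ok, W4_11912351744_ok,
    W4_11895836672_ok, W4_10855645184_ok, W4_10855387136_ok, W4_10838872064_ok, W4_9781907456_ok,
    trivial⟩ F4_14076874752_chk

theorem V4_14060617728_ok : Fwd.Has6 Inst.T 4 V4_14060617728 :=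
  fwd_sound' relAll_5_3 ks4_ok F4_14060617728
    ⟨V3_8691646464_ok, V3_9765126144_ok, trivial⟩ ⟨W4_14059569152_ok, W4_14043054080_ok,
    W4_12986089472_ok, W4_12969574400_ok, W4_11912609792_ok, W4_11896094720_ok, W4_10839130112_ok,
    W4_9765650432_ok, trivial⟩ F4_14060617728_chk

theorem V4_14060359680_ok : Fwd.Has6 Inst.T 4 V4_14060359680 :=
  fwd_sound' relAll_5_3 ks4_ok F4_14060359680
    ⟨V3_8691646464_ok, V3_9765126144_ok, trivial⟩ ⟨W4_14059569152_ok, W4_14043054080_ok,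
    W4_14026539008_ok, W4_14026280960_ok, W4_12986089472_ok, W4_12969574400_ok, W4_12969316352_ok,
    W4_12953059328_ok, W4_11912609792_ok, W4_11912351744_ok, W4_11896094720_ok, W4_11895836672_ok,
    W4_11879321600_ok, W4_10839130112_ok, W4_10838872064_ok, W4_10822356992_ok, W4_9765392384_ok,
    trivial⟩ F4_14060359680_chk

theorem V4_14060101632_ok : Fwd.Has6 Inst.T 4 V4_14060101632 :=
  fwd_sound' relAll_5_3 ks4_ok F4_14060101632
    ⟨V3_9765126144_ok, trivial⟩ ⟨W4_14043054080_ok, W4_14026539008_ok, W4_14026280960_ok,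
    W4_12986089472_ok, W4_12969574400_ok, W4_12969316352_ok, W4_12952543232_ok, W4_11912609792_ok,
    W4_11912351744_ok, W4_11895836672_ok, W4_11895578624_ok, W4_10838872064_ok, W4_10838614016_ok,
    W4_9765134336_ok, trivial⟩ F4_14060101632_chk

theorem V4_14043586560_ok : Fwd.Has6 Inst.T 4 V4_14043586560 :=
  fwd_sound' relAll_5_3 ks4_ok F4_14043586560
    ⟨V3_10805575680_ok, trivial⟩ ⟨W4_14043054080_ok, W4_14026539008_ok, W4_14026280960_ok,
    W4_12969574400_ok, W4_12969316352_ok, W4_12953059328_ok, W4_12952543232_ok, W4_11896094720_ok,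
    W4_11895836672_ok, W4_11895578624_ok, W4_11879321600_ok, W4_10822356992_ok, W4_10805583872_ok,
    W4_9748619264_ok, trivial⟩ F4_14043586560_chk

theorem V4_13086228480_ok : Fwd.Has6 Inst.T 4 V4_13086228480 :=
  fwd_sound' relAll_5_3 ks4_ok F4_13086228480
    ⟨V3_12985565184_ok, trivial⟩ ⟨W4_13019119616_ok, trivial⟩ F4_13086228480_chk

theorem V4_13053198336_ok : Fwd.Has6 Inst.T 4 V4_13053198336 :=
  fwd_sound' relAll_5_3 ks4_ok F4_13053198336
    ⟨V3_12985565184_ok, V3_10871635968_ok, trivial⟩ ⟨W4_13019119616_ok, W4_13002604544_ok,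
    W4_12986089472_ok, W4_11945639936_ok, W4_11929124864_ok, W4_10905190400_ok, W4_10888675328_ok,
    W4_10872160256_ok, trivial⟩ F4_13053198336_chk

theorem V4_13036683264_ok : Fwd.Has6 Inst.T 4 V4_13036683264 :=
  fwd_sound' relAll_5_3 ks4_ok F4_13036683264
    ⟨V3_9765126144_ok, V3_10871635968_ok, trivial⟩ ⟨W4_13019119616_ok, W4_13002604544_ok,
    W4_12986089472_ok, W4_12969574400_ok, W4_11945639936_ok, W4_11929124864_ok, W4_11912609792_ok,
    W4_10888675328_ok, W4_10872160256_ok, W4_10855645184_ok, W4_9798680576_ok, trivial⟩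
    F4_13036683264_chk

theorem V4_13036425216_ok : Fwd.Has6 Inst.T 4 V4_13036425216 :=
  fwd_sound' relAll_5_3 ks4_ok F4_13036425216
    ⟨V3_12952535040_ok, trivial⟩ ⟨W4_13002604544_ok, W4_12986089472_ok, W4_12969316352_ok,
    W4_11945639936_ok, W4_11929124864_ok, W4_11928866816_ok, W4_11912351744_ok, W4_10888675328_ok,
    W4_10872160256_ok, W4_10855387136_ok, W4_9798422528_ok, trivial⟩ F4_13036425216_chk

theorem V4_13020168192_ok : Fwd.Has6 Inst.T 4 V4_13020168192 :=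
  fwd_sound' relAll_5_3 ks4_ok F4_13020168192
    ⟨V3_8724676608_ok, V3_8691646464_ok, V3_10871635968_ok, V3_9765126144_ok, trivial⟩ ⟨
    W4_13019119616_ok, W4_13002604544_ok, W4_12986089472_ok, W4_12969574400_ok, W4_12953059328_ok,
    W4_11945639936_ok, W4_11929124864_ok, W4_11912609792_ok, W4_11896094720_ok, W4_10872160256_ok,
    W4_10855645184_ok, W4_10839130112_ok, W4_9798680576_ok, W4_9782165504_ok, W4_8725200896_ok,
    trivial⟩ F4_13020168192_chk


theorem V4_13019652096_ok : Fwd.Has6 Inst.T 4 V4_13019652096 :=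
  fwd_sound' relAll_5_3 ks4_ok F4_13019652096
    ⟨V3_8724676608_ok, V3_10838605824_ok, trivial⟩ ⟨W4_12986089472_ok, W4_12969316352_ok,
    W4_12952543232_ok, W4_11929124864_ok, W4_11912351744_ok, W4_11895578624_ok, W4_10872160256_ok,
    W4_10855387136_ok, W4_10838614016_ok, W4_9798422528_ok, W4_8724684800_ok, trivial⟩
    F4_13019652096_chk

theorem V4_13003653120_ok : Fwd.Has6 Inst.T 4 V4_13003653120 :=
  fwd_sound' relAll_5_3 ks4_ok F4_13003653120
    ⟨V3_8691646464_ok, trivial⟩ ⟨W4_13002604544_ok, W4_12986089472_ok, W4_12969574400_ok,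
    W4_11929124864_ok, W4_11912609792_ok, W4_11896094720_ok, W4_10855645184_ok, W4_10839130112_ok,
    W4_9782165504_ok, W4_9765650432_ok, trivial⟩ F4_13003653120_chk

theorem V4_13003395072_ok : Fwd.Has6 Inst.T 4 V4_13003395072 :=
  fwd_sound' relAll_5_3 ks4_ok F4_13003395072
    ⟨V3_8691646464_ok, V3_10805575680_ok, trivial⟩ ⟨W4_13002604544_ok, W4_12986089472_ok,
    W4_12969574400_ok, W4_12969316352_ok, W4_12953059328_ok, W4_11929124864_ok, W4_11928866816_ok,
    W4_11912609792_ok, W4_11912351744_ok, W4_11896094720_ok, W4_11895836672_ok, W4_11879321600_ok,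
    W4_10855645184_ok, W4_10855387136_ok, W4_10839130112_ok, W4_10838872064_ok, W4_10822356992_ok,
    W4_9782165504_ok, W4_9781907456_ok, W4_9765392384_ok, W4_8708427776_ok, trivial⟩
    F4_13003395072_chk

theorem V4_13003137024_ok : Fwd.Has6 Inst.T 4 V4_13003137024 :=
  fwd_sound' relAll_5_3 ks4_ok F4_13003137024
    ⟨V3_9765126144_ok, trivial⟩ ⟨W4_12986089472_ok, W4_12969574400_ok, W4_12969316352_ok,
    W4_12952543232_ok, W4_11929124864_ok, W4_11912609792_ok, W4_11912351744_ok, W4_11895836672_ok,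
    W4_11895578624_ok, W4_10855645184_ok, W4_10855387136_ok, W4_10838872064_ok, W4_10838614016_ok,
    W4_9781907456_ok, W4_9765134336_ok, trivial⟩ F4_13003137024_chk

theorem V4_12987138048_ok : Fwd.Has6 Inst.T 4 V4_12987138048 :=
  fwd_sound' relAll_5_3 ks4_ok F4_12987138048
    ⟨V3_6544687104_ok, V3_12985565184_ok, trivial⟩ ⟨W4_12986089472_ok, W4_11912609792_ok,
    W4_10839130112_ok, W4_9765650432_ok, W4_8692170752_ok, trivial⟩ F4_12987138048_chk

theorem V4_12986880000_ok : Fwd.Has6 Inst.T 4 V4_12986880000 :=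
  fwd_sound' relAll_5_3 ks4_ok F4_12986880000
    ⟨V3_8691646464_ok, trivial⟩ ⟨W4_12986089472_ok, W4_12969574400_ok, W4_12969316352_ok,
    W4_11912609792_ok, W4_11912351744_ok, W4_11896094720_ok, W4_11895836672_ok, W4_10839130112_ok,
    W4_10838872064_ok, W4_10822356992_ok, W4_9765650432_ok, W4_9765392384_ok, W4_8691912704_ok,
    trivial⟩ F4_12986880000_chk

theorem V4_12986621952_ok : Fwd.Has6 Inst.T 4 V4_12986621952 :=
  fwd_sound' relAll_5_3 ks4_ok F4_12986621952
    ⟨V3_8691646464_ok, V3_9765126144_ok, trivial⟩ ⟨W4_12986089472_ok, W4_12969574400_ok,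
    W4_12969316352_ok, W4_12953059328_ok, W4_12952543232_ok, W4_11912609792_ok, W4_11912351744_ok,
    W4_11896094720_ok, W4_11895836672_ok, W4_11895578624_ok, W4_11879321600_ok, W4_10839130112_ok,
    W4_10838872064_ok, W4_10838614016_ok, W4_10822356992_ok, W4_10805583872_ok, W4_9765392384_ok,
    W4_9765134336_ok, W4_9748619264_ok, W4_8691654656_ok, trivial⟩ F4_12986621952_chk

theorem V4_12953075712_ok : Fwd.Has6 Inst.T 4 V4_12953075712 :=
  fwd_sound' relAll_5_3 ks4_ok F4_12953075712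
    ⟨V3_10805575680_ok, trivial⟩ ⟨W4_12953059328_ok, W4_11879321600_ok, W4_10805583872_ok,
    W4_8658108416_ok, trivial⟩ F4_12953075712_chk

theorem V4_11995975680_ok : Fwd.Has6 Inst.T 4 V4_11995975680 :=
  fwd_sound' relAll_5_3 ks4_ok F4_11995975680
    ⟨V3_11912085504_ok, trivial⟩ ⟨W4_11945639936_ok, W4_11928866816_ok, trivial⟩
    F4_11995975680_chk

theorem V4_11979718656_ok : Fwd.Has6 Inst.T 4 V4_11979718656 :=
  fwd_sound' relAll_5_3 ks4_ok F4_11979718656
    ⟨V3_10871635968_ok, trivial⟩ ⟨W4_11945639936_ok, W4_11929124864_ok, W4_11912609792_ok,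
    W4_10905190400_ok, W4_10888675328_ok, W4_10872160256_ok, W4_10855645184_ok, trivial⟩
    F4_11979718656_chk

theorem V4_11979460608_ok : Fwd.Has6 Inst.T 4 V4_11979460608 :=
  fwd_sound' relAll_5_3 ks4_ok F4_11979460608
    ⟨V3_11895570432_ok, trivial⟩ ⟨W4_11945639936_ok, W4_11929124864_ok, W4_11928866816_ok,
    W4_11912351744_ok, W4_10888675328_ok, W4_10872160256_ok, W4_10855387136_ok, trivial⟩
    F4_11979460608_chk


theorem V4_11962945536_ok : Fwd.Has6 Inst.T 4 V4_11962945536 :=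
  fwd_sound' relAll_5_3 ks4_ok F4_11962945536
    ⟨V3_9765126144_ok, V3_10855120896_ok, trivial⟩ ⟨W4_11945639936_ok, W4_11929124864_ok,
    W4_11928866816_ok, W4_11912609792_ok, W4_11912351744_ok, W4_11895836672_ok, W4_10888675328_ok,
    W4_10872160256_ok, W4_10855645184_ok, W4_10855387136_ok, W4_10838872064_ok, W4_9798680576_ok,
    W4_9798422528_ok, W4_9781907456_ok, trivial⟩ F4_11962945536_chk

theorem V4_11946688512_ok : Fwd.Has6 Inst.T 4 V4_11946688512 :=
  fwd_sound' relAll_5_3 ks4_ok F4_11946688512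
    ⟨V3_8724676608_ok, V3_10871635968_ok, trivial⟩ ⟨W4_11945639936_ok, W4_11929124864_ok,
    W4_11912609792_ok, W4_11896094720_ok, W4_10872160256_ok, W4_10855645184_ok, W4_10839130112_ok,
    W4_9798680576_ok, W4_9782165504_ok, W4_9765650432_ok, W4_8725200896_ok, trivial⟩
    F4_11946688512_chk

theorem V4_11946430464_ok : Fwd.Has6 Inst.T 4 V4_11946430464 :=
  fwd_sound' relAll_5_3 ks4_ok F4_11946430464
    ⟨V3_8724676608_ok, V3_8691646464_ok, trivial⟩ ⟨W4_11945639936_ok, W4_11929124864_ok,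
    W4_11928866816_ok, W4_11912609792_ok, W4_11912351744_ok, W4_11896094720_ok, W4_11895836672_ok,
    W4_11879321600_ok, W4_10872160256_ok, W4_10855645184_ok, W4_10855387136_ok, W4_10839130112_ok,
    W4_10838872064_ok, W4_10822356992_ok, W4_9798680576_ok, W4_9798422528_ok, W4_9782165504_ok,
    W4_9781907456_ok, W4_9765392384_ok, W4_8725200896_ok, W4_8708427776_ok, trivial⟩
    F4_11946430464_chk

theorem V4_11946172416_ok : Fwd.Has6 Inst.T 4 V4_11946172416 :=
  fwd_sound' relAll_5_3 ks4_ok F4_11946172416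
    ⟨V3_8724676608_ok, trivial⟩ ⟨W4_11929124864_ok, W4_11912609792_ok, W4_11912351744_ok,
    W4_11895836672_ok, W4_11895578624_ok, W4_10872160256_ok, W4_10855645184_ok, W4_10855387136_ok,
    W4_10838872064_ok, W4_10838614016_ok, W4_9798680576_ok, W4_9798422528_ok, W4_9781907456_ok,
    W4_9765134336_ok, W4_8724684800_ok, trivial⟩ F4_11946172416_chk

theorem V4_11930173440_ok : Fwd.Has6 Inst.T 4 V4_11930173440 :=
  fwd_sound' relAll_5_3 ks4_ok F4_11930173440
    ⟨V3_8691646464_ok, trivial⟩ ⟨W4_11929124864_ok, W4_11912609792_ok, W4_10855645184_ok,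
    W4_10839130112_ok, W4_9782165504_ok, W4_9765650432_ok, W4_8692170752_ok, trivial⟩
    F4_11930173440_chk

theorem V4_11929915392_ok : Fwd.Has6 Inst.T 4 V4_11929915392 :=
  fwd_sound' relAll_5_3 ks4_ok F4_11929915392
    ⟨V3_10855120896_ok, V3_8691646464_ok, trivial⟩ ⟨W4_11929124864_ok, W4_11928866816_ok,
    W4_11912609792_ok, W4_11912351744_ok, W4_11896094720_ok, W4_11895836672_ok, W4_10855645184_ok,
    W4_10855387136_ok, W4_10839130112_ok, W4_10838872064_ok, W4_10822356992_ok, W4_9782165504_ok,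
    W4_9781907456_ok, W4_9765650432_ok, W4_9765392384_ok, W4_8708427776_ok, W4_8691912704_ok,
    trivial⟩ F4_11929915392_chk

theorem V4_11929657344_ok : Fwd.Has6 Inst.T 4 V4_11929657344 :=
  fwd_sound' relAll_5_3 ks4_ok F4_11929657344
    ⟨V3_8691646464_ok, trivial⟩ ⟨W4_11929124864_ok, W4_11912609792_ok, W4_11912351744_ok,
    W4_11896094720_ok, W4_11895836672_ok, W4_11895578624_ok, W4_11879321600_ok, W4_10855645184_ok,
    W4_10855387136_ok, W4_10839130112_ok, W4_10838872064_ok, W4_10838614016_ok, W4_10822356992_ok,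
    W4_10805583872_ok, W4_9782165504_ok, W4_9781907456_ok, W4_9765392384_ok, W4_9765134336_ok,
    W4_9748619264_ok, W4_8708427776_ok, W4_8691654656_ok, trivial⟩ F4_11929657344_chk

theorem V4_11913400320_ok : Fwd.Has6 Inst.T 4 V4_11913400320 :=
  fwd_sound' relAll_5_3 ks4_ok F4_11913400320
    ⟨V3_6544687104_ok, trivial⟩ ⟨W4_11912609792_ok, W4_11912351744_ok, W4_10839130112_ok,
    W4_10838872064_ok, W4_9765650432_ok, W4_9765392384_ok, W4_8692170752_ok, W4_8691912704_ok,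
    trivial⟩ F4_11913400320_chk

theorem V4_11913142272_ok : Fwd.Has6 Inst.T 4 V4_11913142272 :=
  fwd_sound' relAll_5_3 ks4_ok F4_11913142272
    ⟨V3_8691646464_ok, trivial⟩ ⟨W4_11912609792_ok, W4_11912351744_ok, W4_11896094720_ok,
    W4_11895836672_ok, W4_11895578624_ok, W4_10839130112_ok, W4_10838872064_ok, W4_10838614016_ok,
    W4_10822356992_ok, W4_9765650432_ok, W4_9765392384_ok, W4_9765134336_ok, W4_9748619264_ok,
    W4_8691912704_ok, W4_8691654656_ok, trivial⟩ F4_11913142272_chk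

theorem V4_11912884224_ok : Fwd.Has6 Inst.T 4 V4_11912884224 :=
  fwd_sound' relAll_5_3 ks4_ok F4_11912884224
    ⟨V3_8691646464_ok, trivial⟩ ⟨W4_11912609792_ok, W4_11896094720_ok, W4_11895836672_ok,
    W4_11879321600_ok, W4_10839130112_ok, W4_10838872064_ok, W4_10822356992_ok, W4_10805583872_ok,
    W4_9765392384_ok, W4_9765134336_ok, W4_9748619264_ok, W4_8691654656_ok, W4_7617916928_ok,
    trivial⟩ F4_11912884224_chk

theorem V4_10906238976_ok : Fwd.Has6 Inst.T 4 V4_10906238976 :=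
  fwd_sound' relAll_5_3 ks4_ok F4_10906238976
    ⟨V3_10805575680_ok, V3_10871635968_ok, trivial⟩ ⟨W4_10905190400_ok, W4_10888675328_ok,
    W4_10872160256_ok, W4_10855645184_ok, W4_10839130112_ok, trivial⟩ F4_10906238976_chk

theorem V4_10905722880_ok : Fwd.Has6 Inst.T 4 V4_10905722880 :=
  fwd_sound' relAll_5_3 ks4_ok F4_10905722880
    ⟨V3_10838605824_ok, trivial⟩ ⟨W4_10872160256_ok, W4_10855387136_ok, W4_10838614016_ok,
    trivial⟩ F4_10905722880_chk

theorem V4_10889723904_ok : Fwd.Has6 Inst.T 4 V4_10889723904 :=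
  fwd_sound' relAll_5_3 ks4_ok F4_10889723904
    ⟨V3_10871635968_ok, trivial⟩ ⟨W4_10888675328_ok, W4_10872160256_ok, W4_10855645184_ok,
    W4_10839130112_ok, W4_9798680576_ok, W4_9782165504_ok, W4_9765650432_ok, trivial⟩
    F4_10889723904_chk

theorem V4_10889465856_ok : Fwd.Has6 Inst.T 4 V4_10889465856 :=
  fwd_sound' relAll_5_3 ks4_ok F4_10889465856
    ⟨V3_10805575680_ok, trivial⟩ ⟨W4_10888675328_ok, W4_10872160256_ok, W4_10855645184_ok,
    W4_10855387136_ok, W4_10839130112_ok, W4_10838872064_ok, W4_10822356992_ok, W4_9798680576_ok,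
    W4_9798422528_ok, W4_9782165504_ok, W4_9781907456_ok, W4_9765392384_ok, trivial⟩
    F4_10889465856_chk

theorem V4_10873208832_ok : Fwd.Has6 Inst.T 4 V4_10873208832 :=
  fwd_sound' relAll_5_3 ks4_ok F4_10873208832
    ⟨V3_10871635968_ok, V3_8724676608_ok, trivial⟩ ⟨W4_10872160256_ok, W4_10855645184_ok,
    W4_10839130112_ok, W4_9798680576_ok, W4_9782165504_ok, W4_9765650432_ok, W4_8725200896_ok,
    W4_8692170752_ok, trivial⟩ F4_10873208832_chk

theorem V4_10872950784_ok : Fwd.Has6 Inst.T 4 V4_10872950784 :=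
  fwd_sound' relAll_5_3 ks4_ok F4_10872950784
    ⟨V3_8724676608_ok, trivial⟩ ⟨W4_10872160256_ok, W4_10855645184_ok, W4_10855387136_ok,
    W4_10839130112_ok, W4_10838872064_ok, W4_10822356992_ok, W4_9798680576_ok, W4_9798422528_ok,
    W4_9782165504_ok, W4_9781907456_ok, W4_9765650432_ok, W4_9765392384_ok, W4_8725200896_ok,
    W4_8708427776_ok, W4_8691912704_ok, trivial⟩ F4_10872950784_chk

theorem V4_10872692736_ok : Fwd.Has6 Inst.T 4 V4_10872692736 :=
  fwd_sound' relAll_5_3 ks4_ok F4_10872692736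
    ⟨V3_8724676608_ok, V3_8691646464_ok, trivial⟩ ⟨W4_10872160256_ok, W4_10855645184_ok,
    W4_10855387136_ok, W4_10839130112_ok, W4_10838872064_ok, W4_10838614016_ok, W4_10822356992_ok,
    W4_10805583872_ok, W4_9798680576_ok, W4_9798422528_ok, W4_9782165504_ok, W4_9781907456_ok,
    W4_9765392384_ok, W4_9765134336_ok, W4_9748619264_ok, W4_8725200896_ok, W4_8724684800_ok,
    W4_8708427776_ok, W4_8691654656_ok, trivial⟩ F4_10872692736_chk

theorem V4_10856435712_ok : Fwd.Has6 Inst.T 4 V4_10856435712 :=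
  fwd_sound' relAll_5_3 ks4_ok F4_10856435712
    ⟨V3_10855120896_ok, trivial⟩ ⟨W4_10855645184_ok, W4_10855387136_ok, W4_10839130112_ok,
    W4_10838872064_ok, W4_9782165504_ok, W4_9781907456_ok, W4_9765650432_ok, W4_9765392384_ok,
    W4_8708427776_ok, W4_8692170752_ok, W4_8691912704_ok, trivial⟩ F4_10856435712_chk

theorem V4_10855919616_ok : Fwd.Has6 Inst.T 4 V4_10855919616 :=
  fwd_sound' relAll_5_3 ks4_ok F4_10855919616
    ⟨V3_8691646464_ok, trivial⟩ ⟨W4_10855645184_ok, W4_10839130112_ok, W4_10838872064_ok,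
    W4_10822356992_ok, W4_10805583872_ok, W4_9782165504_ok, W4_9781907456_ok, W4_9765392384_ok,
    W4_9765134336_ok, W4_9748619264_ok, W4_8708427776_ok, W4_8691654656_ok, W4_7617916928_ok,
    trivial⟩ F4_10855919616_chk

theorem V4_10839662592_ok : Fwd.Has6 Inst.T 4 V4_10839662592 :=
  fwd_sound' relAll_5_3 ks4_ok F4_10839662592
    ⟨V3_6544687104_ok, V3_8691646464_ok, trivial⟩ ⟨W4_10839130112_ok, W4_10838872064_ok,
    W4_10838614016_ok, W4_9765650432_ok, W4_9765392384_ok, W4_9765134336_ok, W4_8692170752_ok,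
    W4_8691912704_ok, W4_8691654656_ok, W4_6544695296_ok, trivial⟩ F4_10839662592_chk

theorem V4_10839146496_ok : Fwd.Has6 Inst.T 4 V4_10839146496 :=
  fwd_sound' relAll_5_3 ks4_ok F4_10839146496
    ⟨V3_8691646464_ok, trivial⟩ ⟨W4_10839130112_ok, W4_10822356992_ok, W4_10805583872_ok,
    W4_9765392384_ok, W4_9748619264_ok, W4_8691654656_ok, W4_8658108416_ok, W4_7617916928_ok,
    trivial⟩ F4_10839146496_chk

theorem V4_9815470080_ok : Fwd.Has6 Inst.T 4 V4_9815470080 :=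
  fwd_sound' relAll_5_3 ks4_ok F4_9815470080
    ⟨V3_9765126144_ok, trivial⟩ ⟨W4_9798680576_ok, W4_9781907456_ok, W4_9765134336_ok, trivial⟩
    F4_9815470080_chk

theorem V4_9799471104_ok : Fwd.Has6 Inst.T 4 V4_9799471104 :=
  fwd_sound' relAll_5_3 ks4_ok F4_9799471104
    ⟨V3_8724676608_ok, trivial⟩ ⟨W4_9798680576_ok, W4_9798422528_ok, W4_9782165504_ok,
    W4_9781907456_ok, W4_9765650432_ok, W4_9765392384_ok, W4_8725200896_ok, W4_8708427776_ok,
    W4_8692170752_ok, W4_8691912704_ok, trivial⟩ F4_9799471104_chk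

theorem V4_9799213056_ok : Fwd.Has6 Inst.T 4 V4_9799213056 :=
  fwd_sound' relAll_5_3 ks4_ok F4_9799213056
    ⟨V3_8724676608_ok, trivial⟩ ⟨W4_9798680576_ok, W4_9798422528_ok, W4_9782165504_ok,
    W4_9781907456_ok, W4_9765650432_ok, W4_9765392384_ok, W4_9765134336_ok, W4_9748619264_ok,
    W4_8725200896_ok, W4_8724684800_ok, W4_8708427776_ok, W4_8691912704_ok, W4_8691654656_ok,
    trivial⟩ F4_9799213056_chk

theorem V4_9782439936_ok : Fwd.Has6 Inst.T 4 V4_9782439936 :=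
  fwd_sound' relAll_5_3 ks4_ok F4_9782439936
    ⟨V3_8691646464_ok, trivial⟩ ⟨W4_9782165504_ok, W4_9781907456_ok, W4_9765650432_ok,
    W4_9765392384_ok, W4_9765134336_ok, W4_9748619264_ok, W4_8708427776_ok, W4_8691912704_ok,
    W4_8691654656_ok, W4_7617916928_ok, trivial⟩ F4_9782439936_chk

theorem V4_9765924864_ok : Fwd.Has6 Inst.T 4 V4_9765924864 :=
  fwd_sound' relAll_5_3 ks4_ok F4_9765924864
    ⟨V3_6544687104_ok, trivial⟩ ⟨W4_9765650432_ok, W4_9765392384_ok, W4_9765134336_ok,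
    W4_8692170752_ok, W4_8691912704_ok, W4_8691654656_ok, W4_7617916928_ok, W4_6544695296_ok,
    trivial⟩ F4_9765924864_chk

theorem V4_8726249472_ok : Fwd.Has6 Inst.T 4 V4_8726249472 :=
  fwd_sound' relAll_5_3 ks4_ok F4_8726249472
    ⟨V3_8724676608_ok, trivial⟩ ⟨W4_8725200896_ok, trivial⟩ F4_8726249472_chk

theorem V4_8725733376_ok : Fwd.Has6 Inst.T 4 V4_8725733376 :=
  fwd_sound' relAll_5_3 ks4_ok F4_8725733376
    ⟨V3_8724676608_ok, trivial⟩ ⟨W4_8725200896_ok, W4_8724684800_ok, W4_8708427776_ok,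
    W4_8692170752_ok, W4_8691912704_ok, W4_8691654656_ok, trivial⟩ F4_8725733376_chk

theorem V4_8725217280_ok : Fwd.Has6 Inst.T 4 V4_8725217280 :=
  fwd_sound' relAll_5_3 ks4_ok F4_8725217280
    ⟨V3_8691646464_ok, trivial⟩ ⟨W4_8725200896_ok, W4_8708427776_ok, W4_8691654656_ok,
    W4_8658108416_ok, trivial⟩ F4_8725217280_chk

theorem V4_8692187136_ok : Fwd.Has6 Inst.T 4 V4_8692187136 :=
  fwd_sound' relAll_5_3 ks4_ok F4_8692187136
    ⟨V3_6544687104_ok, trivial⟩ ⟨W4_8692170752_ok, W4_8691912704_ok, W4_8691654656_ok,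
    W4_7617916928_ok, W4_6544695296_ok, trivial⟩ F4_8692187136_chk

theorem V4_6544711680_ok : Fwd.Has6 Inst.T 4 V4_6544711680 :=
  fwd_sound' relAll_5_3 ks4_ok F4_6544711680
    ⟨V3_6544687104_ok, trivial⟩ ⟨W4_6544695296_ok, trivial⟩ F4_6544711680_chk

end Crest.Agent.R187.SN.Top
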