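import Crest.Agent.R187.SN.RelInst
import Crest.Agent.R187.SN.TD.F5_0
import Crest.Agent.R187.SN.TD.F5_1
import Crest.Agent.R187.SN.TD.F5_2
import Crest.Agent.R187.SN.TD.F5_3
import Crest.Agent.R187.SN.TD.F5_4
import Crest.Agent.R187.SN.TD.FO4
import Crest.Agent.R187.SN.TD.WO5

/-!
# Row 187, PLAN S, certificate E3: the tables of level `(6, 5)` consist of elements of `Spec.D 6 b`
-/

set_option autoImplicit false
set_option maxRecDepth 100000
set_option Elab.async false

namespace Crest.Agent.R187.SN.Top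

open Crest.Agent.R187.SN.Inst Crest.Agent.R187.SN.Fwd

theorem V5_32212254720_ok : Fwd.Has6 Inst.T 5 V5_32212254720 :=
  fwd_sound' relAll_5_4 ks5_ok F5_32212254720
    ⟨V4_25769803776_ok, trivial⟩ ⟨W5_26843545600_ok, trivial⟩ F5_32212254720_chk

theorem V5_27951366144_ok : Fwd.Has6 Inst.T 5 V5_27951366144 :=
  fwd_sound' relAll_5_4 ks5_ok F5_27951366144
    ⟨V4_21508915200_ok, trivial⟩ ⟨W5_24729616384_ok, W5_22582657024_ok, trivial⟩
    F5_27951366144_chk

theorem V5_26927431680_ok : Fwd.Has6 Inst.T 5 V5_26927431680 :=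
  fwd_sound' relAll_5_4 ks5_ok F5_26927431680
    ⟨V4_21541945344_ok, trivial⟩ ⟨W5_26843545600_ok, W5_24729616384_ok, W5_23672651776_ok,
    W5_22615687168_ok, W5_21558722560_ok, trivial⟩ F5_26927431680_chk

theorem V5_26910916608_ok : Fwd.Has6 Inst.T 5 V5_26910916608 :=
  fwd_sound' relAll_5_4 ks5_ok F5_26910916608
    ⟨V4_20468465664_ok, trivial⟩ ⟨W5_24729616384_ok, W5_23672651776_ok, W5_22615687168_ok,
    W5_21542207488_ok, trivial⟩ F5_26910916608_chk

theorem V5_25870467072_ok : Fwd.Has6 Inst.T 5 V5_25870467072 :=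
  fwd_sound' relAll_5_4 ks5_ok F5_25870467072
    ⟨V4_19428016128_ok, trivial⟩ ⟨W5_24729616384_ok, W5_23672651776_ok, W5_22615687168_ok,
    W5_21558722560_ok, W5_20501757952_ok, trivial⟩ F5_25870467072_chk

theorem V5_25803890688_ok : Fwd.Has6 Inst.T 5 V5_25803890688 :=
  fwd_sound' relAll_5_4 ks5_ok F5_25803890688
    ⟨V4_19361439744_ok, trivial⟩ ⟨W5_22582657024_ok, W5_20435181568_ok, trivial⟩
    F5_25803890688_chk

theorem V5_24763957248_ok : Fwd.Has6 Inst.T 5 V5_24763957248 :=
  fwd_sound' relAll_5_4 ks5_ok F5_24763957248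
    ⟨V4_18321506304_ok, V4_20468465664_ok, trivial⟩ ⟨W5_23672651776_ok, W5_22615687168_ok,
    W5_21542207488_ok, W5_21525692416_ok, W5_20468727808_ok, W5_19395248128_ok, trivial⟩
    F5_24763957248_chk

theorem V5_24763699200_ok : Fwd.Has6 Inst.T 5 V5_24763699200 :=
  fwd_sound' relAll_5_4 ks5_ok F5_24763699200
    ⟨V4_21508915200_ok, trivial⟩ ⟨W5_22582657024_ok, W5_21542207488_ok, W5_21525692416_ok,
    W5_20468727808_ok, W5_19394990080_ok, trivial⟩ F5_24763699200_chk

theorem V5_23756537856_ok : Fwd.Has6 Inst.T 5 V5_23756537856 :=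
  fwd_sound' relAll_5_4 ks5_ok F5_23756537856
    ⟨V4_17314086912_ok, V4_18371051520_ok, trivial⟩ ⟨W5_23672651776_ok, W5_22615687168_ok,
    W5_21558722560_ok, W5_20501757952_ok, W5_19444793344_ok, W5_18387828736_ok, trivial⟩
    F5_23756537856_chk

theorem V5_23740022784_ok : Fwd.Has6 Inst.T 5 V5_23740022784 :=
  fwd_sound' relAll_5_4 ks5_ok F5_23740022784
    ⟨V4_19428016128_ok, trivial⟩ ⟨W5_23672651776_ok, W5_22615687168_ok, W5_21558722560_ok,
    W5_21542207488_ok, W5_20501757952_ok, W5_20485242880_ok, W5_19444793344_ok, W5_19428278272_ok,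
    W5_18371313664_ok, trivial⟩ F5_23740022784_chk

theorem V5_23723507712_ok : Fwd.Has6 Inst.T 5 V5_23723507712 :=
  fwd_sound' relAll_5_4 ks5_ok F5_23723507712
    ⟨V4_17281056768_ok, V4_19428016128_ok, trivial⟩ ⟨W5_23672651776_ok, W5_22615687168_ok,
    W5_22582657024_ok, W5_21558722560_ok, W5_21542207488_ok, W5_21525692416_ok, W5_20501757952_ok,
    W5_20485242880_ok, W5_20468727808_ok, W5_19428278272_ok, W5_19411763200_ok, W5_18354798592_ok,
    trivial⟩ F5_23723507712_chk

theorem V5_23706734592_ok : Fwd.Has6 Inst.T 5 V5_23706734592 :=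
  fwd_sound' relAll_5_4 ks5_ok F5_23706734592
    ⟨V4_18338021376_ok, trivial⟩ ⟨W5_22582657024_ok, W5_21542207488_ok, W5_21525692416_ok,
    W5_20485242880_ok, W5_20468727808_ok, W5_19411763200_ok, W5_19394990080_ok, W5_18338025472_ok,
    trivial⟩ F5_23706734592_chk

theorem V5_23690477568_ok : Fwd.Has6 Inst.T 5 V5_23690477568 :=
  fwd_sound' relAll_5_4 ks5_ok F5_23690477568
    ⟨V4_17248026624_ok, V4_20468465664_ok, trivial⟩ ⟨W5_22615687168_ok, W5_21542207488_ok,
    W5_20468727808_ok, W5_19395248128_ok, W5_18321768448_ok, trivial⟩ F5_23690477568_chk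

theorem V5_23689961472_ok : Fwd.Has6 Inst.T 5 V5_23689961472 :=
  fwd_sound' relAll_5_4 ks5_ok F5_23689961472
    ⟨V4_19361439744_ok, V4_17247510528_ok, trivial⟩ ⟨W5_22582657024_ok, W5_21525692416_ok,
    W5_20468727808_ok, W5_20435181568_ok, W5_19394990080_ok, W5_19378216960_ok, W5_18321252352_ok,
    trivial⟩ F5_23689961472_chk

theorem V5_23656407168_ok : Fwd.Has6 Inst.T 5 V5_23656407168 :=
  fwd_sound' relAll_5_4 ks5_ok F5_23656407168
    ⟨V4_19361439744_ok, trivial⟩ ⟨W5_20435181568_ok, W5_18287698048_ok, trivial⟩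
    F5_23656407168_chk

theorem V5_22699573248_ok : Fwd.Has6 Inst.T 5 V5_22699573248 :=
  fwd_sound' relAll_5_4 ks5_ok F5_22699573248
    ⟨V4_17314086912_ok, trivial⟩ ⟨W5_22615687168_ok, W5_21558722560_ok, W5_20501757952_ok,
    W5_19444793344_ok, W5_18387828736_ok, W5_17330864128_ok, trivial⟩ F5_22699573248_chk

theorem V5_22666285056_ok : Fwd.Has6 Inst.T 5 V5_22666285056 :=
  fwd_sound' relAll_5_4 ks5_ok F5_22666285056
    ⟨V4_16223834112_ok, trivial⟩ ⟨W5_21542207488_ok, W5_20485242880_ok, W5_19428278272_ok,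
    W5_18371313664_ok, W5_17297575936_ok, trivial⟩ F5_22666285056_chk

theorem V5_22649769984_ok : Fwd.Has6 Inst.T 5 V5_22649769984 :=
  fwd_sound' relAll_5_4 ks5_ok F5_22649769984
    ⟨V4_17281056768_ok, trivial⟩ ⟨W5_22582657024_ok, W5_21542207488_ok, W5_21525692416_ok,
    W5_20485242880_ok, W5_20468727808_ok, W5_19428278272_ok, W5_19411763200_ok, W5_19394990080_ok,
    W5_18354798592_ok, W5_18338025472_ok, W5_17281060864_ok, trivial⟩ F5_22649769984_chk

theorem V5_22632996864_ok : Fwd.Has6 Inst.T 5 V5_22632996864 :=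
  fwd_sound' relAll_5_4 ks5_ok F5_22632996864
    ⟨V4_19361439744_ok, V4_16190545920_ok, V4_17247510528_ok, trivial⟩ ⟨W5_22582657024_ok,
    W5_21525692416_ok, W5_20468727808_ok, W5_20435181568_ok, W5_19411763200_ok, W5_19394990080_ok,
    W5_19378216960_ok, W5_18338025472_ok, W5_18321252352_ok, W5_17264287744_ok, trivial⟩
    F5_22632996864_chk

theorem V5_22616481792_ok : Fwd.Has6 Inst.T 5 V5_22616481792 :=
  fwd_sound' relAll_5_4 ks5_ok F5_22616481792
    ⟨V4_17247510528_ok, trivial⟩ ⟨W5_21525692416_ok, W5_20468727808_ok, W5_19395248128_ok,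
    W5_19394990080_ok, W5_19378216960_ok, W5_18321510400_ok, W5_18321252352_ok, W5_17247772672_ok,
    trivial⟩ F5_22616481792_chk

theorem V5_22616219712_ok : Fwd.Has6 Inst.T 5 V5_22616219712 :=
  fwd_sound' relAll_5_4 ks5_ok F5_22616219712
    ⟨V4_19361439744_ok, trivial⟩ ⟨W5_20435181568_ok, W5_19394990080_ok, W5_19378216960_ok,
    W5_18321252352_ok, W5_17247510592_ok, trivial⟩ F5_22616219712_chk

theorem V5_21642608640_ok : Fwd.Has6 Inst.T 5 V5_21642608640 :=
  fwd_sound' relAll_5_4 ks5_ok F5_21642608640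
    ⟨V4_15200157696_ok, V4_17314086912_ok, trivial⟩ ⟨W5_21558722560_ok, W5_20501757952_ok,
    W5_19444793344_ok, W5_18387828736_ok, W5_17330864128_ok, W5_16273899520_ok, trivial⟩
    F5_21642608640_chk

theorem V5_21609578496_ok : Fwd.Has6 Inst.T 5 V5_21609578496 :=
  fwd_sound' relAll_5_4 ks5_ok F5_21609578496
    ⟨V4_15167127552_ok, V4_17281056768_ok, V4_16240607232_ok, V4_21508915200_ok, trivial⟩ ⟨
    W5_21558722560_ok, W5_21542207488_ok, W5_21525692416_ok, W5_20501757952_ok, W5_20485242880_ok,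
    W5_20468727808_ok, W5_19444793344_ok, W5_19428278272_ok, W5_19411763200_ok, W5_18387828736_ok,
    W5_18371313664_ok, W5_18354798592_ok, W5_17314349056_ok, W5_17297833984_ok, W5_16240869376_ok,
    trivial⟩ F5_21609578496_chk

theorem V5_21609320448_ok : Fwd.Has6 Inst.T 5 V5_21609320448 :=
  fwd_sound' relAll_5_4 ks5_ok F5_21609320448
    ⟨V4_16223834112_ok, trivial⟩ ⟨W5_21542207488_ok, W5_20485242880_ok, W5_19428278272_ok,
    W5_18371313664_ok, W5_17314349056_ok, W5_17297575936_ok, W5_16240611328_ok, trivial⟩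
    F5_21609320448_chk

theorem V5_21592805376_ok : Fwd.Has6 Inst.T 5 V5_21592805376 :=
  fwd_sound' relAll_5_4 ks5_ok F5_21592805376
    ⟨V4_15150354432_ok, V4_16223834112_ok, V4_21508915200_ok, V4_16207319040_ok, trivial⟩ ⟨
    W5_21542207488_ok, W5_21525692416_ok, W5_20485242880_ok, W5_20468727808_ok, W5_19428278272_ok,
    W5_19411763200_ok, W5_19394990080_ok, W5_18371313664_ok, W5_18354798592_ok, W5_18338025472_ok,
    W5_17297833984_ok, W5_17297575936_ok, W5_17281060864_ok, W5_16224096256_ok, trivial⟩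
    F5_21592805376_chk

theorem V5_21576548352_ok : Fwd.Has6 Inst.T 5 V5_21576548352 :=
  fwd_sound' relAll_5_4 ks5_ok F5_21576548352
    ⟨V4_15134097408_ok, V4_17281056768_ok, V4_17248026624_ok, trivial⟩ ⟨W5_21558722560_ok,
    W5_21542207488_ok, W5_20501757952_ok, W5_20485242880_ok, W5_20468727808_ok, W5_19428278272_ok,
    W5_19411763200_ok, W5_19395248128_ok, W5_18354798592_ok, W5_18338283520_ok, W5_18321768448_ok,
    W5_17281318912_ok, W5_17264803840_ok, W5_16207839232_ok, trivial⟩ F5_21576548352_chk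

theorem V5_21576032256_ok : Fwd.Has6 Inst.T 5 V5_21576032256 :=
  fwd_sound' relAll_5_4 ks5_ok F5_21576032256
    ⟨V4_15133581312_ok, V4_19361439744_ok, V4_16190545920_ok, V4_16207319040_ok, trivial⟩ ⟨
    W5_21525692416_ok, W5_20468727808_ok, W5_20435181568_ok, W5_19411763200_ok, W5_19394990080_ok,
    W5_19378216960_ok, W5_18354798592_ok, W5_18338025472_ok, W5_18321252352_ok, W5_17281060864_ok,
    W5_17264287744_ok, W5_16207323136_ok, trivial⟩ F5_21576032256_chk

theorem V5_21559513152_ok : Fwd.Has6 Inst.T 5 V5_21559513152 :=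
  fwd_sound' relAll_5_4 ks5_ok F5_21559513152
    ⟨V4_16190803968_ok, trivial⟩ ⟨W5_19394990080_ok, W5_18338025472_ok, W5_18321510400_ok,
    W5_17264545792_ok, W5_16190804032_ok, trivial⟩ F5_21559513152_chk

theorem V5_21543002112_ok : Fwd.Has6 Inst.T 5 V5_21543002112 :=
  fwd_sound' relAll_5_4 ks5_ok F5_21543002112
    ⟨V4_17248026624_ok, V4_15100551168_ok, trivial⟩ ⟨W5_20468727808_ok, W5_19395248128_ok,
    W5_19394990080_ok, W5_18321768448_ok, W5_18321510400_ok, W5_18321252352_ok, W5_17248030720_ok,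
    W5_17247772672_ok, W5_16174292992_ok, trivial⟩ F5_21543002112_chk

theorem V5_21542477952_ok : Fwd.Has6 Inst.T 5 V5_21542477952 :=
  fwd_sound' relAll_5_4 ks5_ok F5_21542477952
    ⟨V4_17247510528_ok, trivial⟩ ⟨W5_20435181568_ok, W5_19378216960_ok, W5_18321252352_ok,
    W5_18287698048_ok, W5_17247510592_ok, W5_16173768832_ok, trivial⟩ F5_21542477952_chk


theorem V5_20569128960_ok : Fwd.Has6 Inst.T 5 V5_20569128960 :=
  fwd_sound' relAll_5_4 ks5_ok F5_20569128960
    ⟨V4_14126678016_ok, V4_15200157696_ok, V4_15183642624_ok, trivial⟩ ⟨W5_20501757952_ok,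
    W5_20485242880_ok, W5_19444793344_ok, W5_19428278272_ok, W5_18387828736_ok, W5_18371313664_ok,
    W5_17330864128_ok, W5_17314349056_ok, W5_16273899520_ok, W5_16257384448_ok, W5_15200419840_ok,
    trivial⟩ F5_20569128960_chk

theorem V5_20552613888_ok : Fwd.Has6 Inst.T 5 V5_20552613888 :=
  fwd_sound' relAll_5_4 ks5_ok F5_20552613888
    ⟨V4_15167127552_ok, V4_14110162944_ok, V4_15183642624_ok, V4_20451950592_ok, trivial⟩ ⟨
    W5_20501757952_ok, W5_20485242880_ok, W5_20468727808_ok, W5_19444793344_ok, W5_19428278272_ok,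
    W5_19411763200_ok, W5_18387828736_ok, W5_18371313664_ok, W5_18354798592_ok, W5_17330864128_ok,
    W5_17314349056_ok, W5_17297833984_ok, W5_16257384448_ok, W5_16240869376_ok, W5_15183904768_ok,
    trivial⟩ F5_20552613888_chk

theorem V5_20552355840_ok : Fwd.Has6 Inst.T 5 V5_20552355840 :=
  fwd_sound' relAll_5_4 ks5_ok F5_20552355840
    ⟨V4_14109904896_ok, V4_15183642624_ok, trivial⟩ ⟨W5_20485242880_ok, W5_19428278272_ok,
    W5_18371313664_ok, W5_17314349056_ok, W5_17297575936_ok, W5_16257384448_ok, W5_16240611328_ok,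
    W5_15183646720_ok, trivial⟩ F5_20552355840_chk

theorem V5_20519583744_ok : Fwd.Has6 Inst.T 5 V5_20519583744 :=
  fwd_sound' relAll_5_4 ks5_ok F5_20519583744
    ⟨V4_14077132800_ok, V4_15134097408_ok, V4_17248026624_ok, V4_18371051520_ok, trivial⟩ ⟨
    W5_20501757952_ok, W5_20485242880_ok, W5_20468727808_ok, W5_19444793344_ok, W5_19428278272_ok,
    W5_19411763200_ok, W5_19395248128_ok, W5_18371313664_ok, W5_18354798592_ok, W5_18338283520_ok,
    W5_18321768448_ok, W5_17297833984_ok, W5_17281318912_ok, W5_17264803840_ok, W5_16224354304_ok,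
    W5_16207839232_ok, W5_15150874624_ok, trivial⟩ F5_20519583744_chk

theorem V5_20519067648_ok : Fwd.Has6 Inst.T 5 V5_20519067648 :=
  fwd_sound' relAll_5_4 ks5_ok F5_20519067648
    ⟨V4_15133581312_ok, V4_19361439744_ok, V4_15150354432_ok, trivial⟩ ⟨W5_20468727808_ok,
    W5_20435181568_ok, W5_19411763200_ok, W5_19394990080_ok, W5_19378216960_ok, W5_18354798592_ok,
    W5_18338025472_ok, W5_18321252352_ok, W5_17297833984_ok, W5_17281060864_ok, W5_17264287744_ok,
    W5_16224096256_ok, W5_16207323136_ok, W5_15150358528_ok, trivial⟩ F5_20519067648_chk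

theorem V5_20519063616_ok : Fwd.Has6 Inst.T 5 V5_20519063616 :=
  fwd_sound' relAll_5_4 ks5_ok F5_20519063616
    ⟨V4_16223834112_ok, trivial⟩ ⟨W5_19394990080_ok, W5_18338025472_ok, W5_17297575936_ok,
    W5_17281060864_ok, W5_16224096256_ok, W5_15150354496_ok, trivial⟩ F5_20519063616_chk

theorem V5_20486295552_ok : Fwd.Has6 Inst.T 5 V5_20486295552 :=
  fwd_sound' relAll_5_4 ks5_ok F5_20486295552
    ⟨V4_15117324288_ok, trivial⟩ ⟨W5_20485242880_ok, W5_19411763200_ok, W5_18338283520_ok,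
    W5_18338025472_ok, W5_17264803840_ok, W5_17264545792_ok, W5_16191066112_ok, W5_15117586432_ok,
    trivial⟩ F5_20486295552_chk

theorem V5_20486037504_ok : Fwd.Has6 Inst.T 5 V5_20486037504 :=
  fwd_sound' relAll_5_4 ks5_ok F5_20486037504
    ⟨V4_17248026624_ok, V4_14043586560_ok, V4_15100551168_ok, trivial⟩ ⟨W5_20468727808_ok,
    W5_19411763200_ok, W5_19395248128_ok, W5_19394990080_ok, W5_18338283520_ok, W5_18338025472_ok,
    W5_18321768448_ok, W5_18321510400_ok, W5_18321252352_ok, W5_17264803840_ok, W5_17264545792_ok,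
    W5_17264287744_ok, W5_17248030720_ok, W5_17247772672_ok, W5_16191066112_ok, W5_16190808064_ok,
    W5_16174292992_ok, W5_15117328384_ok, trivial⟩ F5_20486037504_chk

theorem V5_20486033472_ok : Fwd.Has6 Inst.T 5 V5_20486033472 :=
  fwd_sound' relAll_5_4 ks5_ok F5_20486033472
    ⟨V4_16174288896_ok, trivial⟩ ⟨W5_19394990080_ok, W5_18338025472_ok, W5_18321510400_ok,
    W5_17264545792_ok, W5_17248030720_ok, W5_16191066112_ok, W5_16190804032_ok, W5_15117324352_ok,
    trivial⟩ F5_20486033472_chk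

theorem V5_20469264384_ok : Fwd.Has6 Inst.T 5 V5_20469264384 :=
  fwd_sound' relAll_5_4 ks5_ok F5_20469264384
    ⟨V4_15100551168_ok, trivial⟩ ⟨W5_19395248128_ok, W5_18321768448_ok, W5_18321510400_ok,
    W5_17248030720_ok, W5_17247772672_ok, W5_16174292992_ok, W5_15100555264_ok, trivial⟩
    F5_20469264384_chk

theorem V5_19528679424_ok : Fwd.Has6 Inst.T 5 V5_19528679424 :=
  fwd_sound' relAll_5_4 ks5_ok F5_19528679424
    ⟨V4_13086228480_ok, V4_15200157696_ok, trivial⟩ ⟨W5_19444793344_ok, W5_18387828736_ok,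
    W5_17330864128_ok, W5_16273899520_ok, W5_15216934912_ok, W5_14159970304_ok, trivial⟩
    F5_19528679424_chk

theorem V5_19512164352_ok : Fwd.Has6 Inst.T 5 V5_19512164352 :=
  fwd_sound' relAll_5_4 ks5_ok F5_19512164352
    ⟨V4_14126678016_ok, V4_15200157696_ok, trivial⟩ ⟨W5_19444793344_ok, W5_19428278272_ok,
    W5_18387828736_ok, W5_18371313664_ok, W5_17330864128_ok, W5_17314349056_ok, W5_16273899520_ok,
    W5_16257384448_ok, W5_15216934912_ok, W5_15200419840_ok, W5_14143455232_ok, trivial⟩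
    F5_19512164352_chk

theorem V5_19495649280_ok : Fwd.Has6 Inst.T 5 V5_19495649280 :=
  fwd_sound' relAll_5_4 ks5_ok F5_19495649280
    ⟨V4_13053198336_ok, V4_15200157696_ok, V4_14126678016_ok, V4_14110162944_ok,
    V4_16257122304_ok, trivial⟩ ⟨W5_19444793344_ok, W5_19428278272_ok, W5_19411763200_ok,
    W5_18387828736_ok, W5_18371313664_ok, W5_18354798592_ok, W5_17330864128_ok, W5_17314349056_ok,
    W5_17297833984_ok, W5_16273899520_ok, W5_16257384448_ok, W5_16240869376_ok, W5_15200419840_ok,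
    W5_15183904768_ok, W5_14126940160_ok, trivial⟩ F5_19495649280_chk

theorem V5_19495391232_ok : Fwd.Has6 Inst.T 5 V5_19495391232 :=
  fwd_sound' relAll_5_4 ks5_ok F5_19495391232
    ⟨V4_14126678016_ok, trivial⟩ ⟨W5_19428278272_ok, W5_18371313664_ok, W5_17314349056_ok,
    W5_17297575936_ok, W5_16257384448_ok, W5_16240611328_ok, W5_15200419840_ok, W5_15183646720_ok,
    W5_14126682112_ok, trivial⟩ F5_19495391232_chk

theorem V5_19479134208_ok : Fwd.Has6 Inst.T 5 V5_19479134208 :=
  fwd_sound' relAll_5_4 ks5_ok F5_19479134208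
    ⟨V4_13036683264_ok, V4_14093647872_ok, V4_14110162944_ok, V4_15183642624_ok,
    V4_18321506304_ok, trivial⟩ ⟨W5_19444793344_ok, W5_19428278272_ok, W5_19411763200_ok,
    W5_19395248128_ok, W5_18387828736_ok, W5_18371313664_ok, W5_18354798592_ok, W5_18338283520_ok,
    W5_17330864128_ok, W5_17314349056_ok, W5_17297833984_ok, W5_17281318912_ok, W5_16257384448_ok,
    W5_16240869376_ok, W5_16224354304_ok, W5_15183904768_ok, W5_15167389696_ok, W5_14110425088_ok,
    trivial⟩ F5_19479134208_chk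

theorem V5_19478876160_ok : Fwd.Has6 Inst.T 5 V5_19478876160 :=
  fwd_sound' relAll_5_4 ks5_ok F5_19478876160
    ⟨V4_14110162944_ok, V4_15167127552_ok, V4_14109904896_ok, trivial⟩ ⟨W5_19428278272_ok,
    W5_19411763200_ok, W5_19394990080_ok, W5_18371313664_ok, W5_18354798592_ok, W5_18338025472_ok,
    W5_17314349056_ok, W5_17297833984_ok, W5_17297575936_ok, W5_17281060864_ok, W5_16257384448_ok,
    W5_16240869376_ok, W5_16240611328_ok, W5_16224096256_ok, W5_15183904768_ok, W5_15183646720_ok,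
    W5_15167131648_ok, W5_14110167040_ok, trivial⟩ F5_19478876160_chk

theorem V5_19462619136_ok : Fwd.Has6 Inst.T 5 V5_19462619136 :=
  fwd_sound' relAll_5_4 ks5_ok F5_19462619136
    ⟨V4_13020168192_ok, V4_14077132800_ok, V4_15167127552_ok, V4_17248026624_ok, trivial⟩ ⟨
    W5_19444793344_ok, W5_19428278272_ok, W5_19411763200_ok, W5_19395248128_ok, W5_18387828736_ok,
    W5_18371313664_ok, W5_18354798592_ok, W5_18338283520_ok, W5_18321768448_ok, W5_17314349056_ok,
    W5_17297833984_ok, W5_17281318912_ok, W5_17264803840_ok, W5_16240869376_ok, W5_16224354304_ok,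
    W5_16207839232_ok, W5_15167389696_ok, W5_15150874624_ok, W5_14093910016_ok, trivial⟩
    F5_19462619136_chk

theorem V5_19462361088_ok : Fwd.Has6 Inst.T 5 V5_19462361088 :=
  fwd_sound' relAll_5_4 ks5_ok F5_19462361088
    ⟨V4_14093647872_ok, V4_15167127552_ok, V4_14093389824_ok, V4_14076874752_ok, trivial⟩ ⟨
    W5_19428278272_ok, W5_19411763200_ok, W5_19395248128_ok, W5_19394990080_ok, W5_18371313664_ok,
    W5_18354798592_ok, W5_18338283520_ok, W5_18338025472_ok, W5_18321510400_ok, W5_17314349056_ok,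
    W5_17297833984_ok, W5_17297575936_ok, W5_17281318912_ok, W5_17281060864_ok, W5_17264545792_ok,
    W5_16240869376_ok, W5_16240611328_ok, W5_16224354304_ok, W5_16224096256_ok, W5_16207581184_ok,
    W5_15167389696_ok, W5_15167131648_ok, W5_15150616576_ok, W5_14093651968_ok, trivial⟩
    F5_19462361088_chk

theorem V5_19462103040_ok : Fwd.Has6 Inst.T 5 V5_19462103040 :=
  fwd_sound' relAll_5_4 ks5_ok F5_19462103040
    ⟨V4_13019652096_ok, V4_15167127552_ok, V4_19361439744_ok, V4_14093389824_ok, trivial⟩ ⟨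
    W5_19411763200_ok, W5_19394990080_ok, W5_19378216960_ok, W5_18354798592_ok, W5_18338025472_ok,
    W5_18321252352_ok, W5_17297833984_ok, W5_17281060864_ok, W5_17264287744_ok, W5_16240869376_ok,
    W5_16224096256_ok, W5_16207323136_ok, W5_15167131648_ok, W5_15150358528_ok, W5_14093393920_ok,
    trivial⟩ F5_19462103040_chk

theorem V5_19462099008_ok : Fwd.Has6 Inst.T 5 V5_19462099008 :=
  fwd_sound' relAll_5_4 ks5_ok F5_19462099008
    ⟨V4_14093389824_ok, trivial⟩ ⟨W5_19394990080_ok, W5_18338025472_ok, W5_17297575936_ok,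
    W5_17281060864_ok, W5_16240611328_ok, W5_16224096256_ok, W5_15167131648_ok, W5_15150354496_ok,
    W5_14093389888_ok, trivial⟩ F5_19462099008_chk

theorem V5_19446104064_ok : Fwd.Has6 Inst.T 5 V5_19446104064 :=
  fwd_sound' relAll_5_4 ks5_ok F5_19446104064
    ⟨V4_14077132800_ok, V4_14060617728_ok, V4_18371051520_ok, trivial⟩ ⟨W5_19444793344_ok,
    W5_19428278272_ok, W5_19411763200_ok, W5_18371313664_ok, W5_18354798592_ok, W5_18338283520_ok,
    W5_17297833984_ok, W5_17281318912_ok, W5_17264803840_ok, W5_16224354304_ok, W5_16207839232_ok,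
    W5_15150874624_ok, W5_15134359552_ok, W5_14077394944_ok, trivial⟩ F5_19446104064_chk

theorem V5_19445583936_ok : Fwd.Has6 Inst.T 5 V5_19445583936 :=
  fwd_sound' relAll_5_4 ks5_ok F5_19445583936
    ⟨V4_14076874752_ok, trivial⟩ ⟨W5_19394990080_ok, W5_18338025472_ok, W5_18321510400_ok,
    W5_17297575936_ok, W5_17281060864_ok, W5_17264545792_ok, W5_16224096256_ok, W5_16207581184_ok,
    W5_16190804032_ok, W5_15150616576_ok, W5_15150354496_ok, W5_14076874816_ok, trivial⟩
    F5_19445583936_chk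

theorem V5_19429588992_ok : Fwd.Has6 Inst.T 5 V5_19429588992 :=
  fwd_sound' relAll_5_4 ks5_ok F5_19429588992
    ⟨V4_12987138048_ok, V4_14060617728_ok, V4_19428016128_ok, trivial⟩ ⟨W5_19428278272_ok,
    W5_18354798592_ok, W5_17281318912_ok, W5_16207839232_ok, W5_15134359552_ok, W5_14060879872_ok,
    trivial⟩ F5_19429588992_chk

theorem V5_19429072896_ok : Fwd.Has6 Inst.T 5 V5_19429072896 :=
  fwd_sound' relAll_5_4 ks5_ok F5_19429072896
    ⟨V4_15134097408_ok, V4_12986621952_ok, V4_15133581312_ok, V4_15100551168_ok, trivial⟩ ⟨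
    W5_19411763200_ok, W5_19395248128_ok, W5_19394990080_ok, W5_18354798592_ok, W5_18338283520_ok,
    W5_18338025472_ok, W5_18321768448_ok, W5_18321510400_ok, W5_18321252352_ok, W5_17281318912_ok,
    W5_17281060864_ok, W5_17264803840_ok, W5_17264545792_ok, W5_17264287744_ok, W5_17248030720_ok,
    W5_17247772672_ok, W5_16207839232_ok, W5_16207581184_ok, W5_16207323136_ok, W5_16191066112_ok,
    W5_16190808064_ok, W5_16174292992_ok, W5_15134101504_ok, W5_15133843456_ok, W5_15117328384_ok,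
    W5_14060363776_ok, trivial⟩ F5_19429072896_chk

theorem V5_19428548736_ok : Fwd.Has6 Inst.T 5 V5_19428548736 :=
  fwd_sound' relAll_5_4 ks5_ok F5_19428548736
    ⟨V4_15133581312_ok, trivial⟩ ⟨W5_19378216960_ok, W5_18321252352_ok, W5_18287698048_ok,
    W5_17264287744_ok, W5_17247510592_ok, W5_16207323136_ok, W5_16190545984_ok, W5_16173768832_ok,
    W5_15133581376_ok, W5_15116804224_ok, W5_14059839616_ok, trivial⟩ F5_19428548736_chk

theorem V5_19412553792_ok : Fwd.Has6 Inst.T 5 V5_19412553792 :=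
  fwd_sound' relAll_5_4 ks5_ok F5_19412553792
    ⟨V4_15117324288_ok, trivial⟩ ⟨W5_18338025472_ok, W5_17264545792_ok, W5_16191066112_ok,
    W5_16190804032_ok, W5_15117586432_ok, W5_15117324352_ok, W5_14043844672_ok, trivial⟩
    F5_19412553792_chk

theorem V5_19412299776_ok : Fwd.Has6 Inst.T 5 V5_19412299776 :=
  fwd_sound' relAll_5_4 ks5_ok F5_19412299776
    ⟨V4_17248026624_ok, trivial⟩ ⟨W5_19395248128_ok, W5_18338283520_ok, W5_18321768448_ok,
    W5_18321510400_ok, W5_17264803840_ok, W5_17264545792_ok, W5_17248030720_ok, W5_17247772672_ok,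
    W5_16191066112_ok, W5_16190808064_ok, W5_16174292992_ok, W5_15117328384_ok, W5_15100555264_ok,
    W5_14043590656_ok, trivial⟩ F5_19412299776_chk

theorem V5_19395526656_ok : Fwd.Has6 Inst.T 5 V5_19395526656 :=
  fwd_sound' relAll_5_4 ks5_ok F5_19395526656
    ⟨V4_12953075712_ok, V4_17248026624_ok, trivial⟩ ⟨W5_18321768448_ok, W5_17248030720_ok,
    W5_16174292992_ok, W5_15100555264_ok, W5_14026817536_ok, trivial⟩ F5_19395526656_chk

theorem V5_19395518592_ok : Fwd.Has6 Inst.T 5 V5_19395518592 :=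
  fwd_sound' relAll_5_4 ks5_ok F5_19395518592
    ⟨V4_15100551168_ok, trivial⟩ ⟨W5_18321252352_ok, W5_17247772672_ok, W5_17247510592_ok,
    W5_16174292992_ok, W5_16173768832_ok, W5_15100551232_ok, W5_14026809472_ok, trivial⟩
    F5_19395518592_chk

theorem V5_18471714816_ok : Fwd.Has6 Inst.T 5 V5_18471714816 :=
  fwd_sound' relAll_5_4 ks5_ok F5_18471714816
    ⟨V4_15200157696_ok, trivial⟩ ⟨W5_18387828736_ok, W5_17330864128_ok, W5_16273899520_ok,
    W5_15216934912_ok, W5_14159970304_ok, trivial⟩ F5_18471714816_chk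

theorem V5_18455199744_ok : Fwd.Has6 Inst.T 5 V5_18455199744 :=
  fwd_sound' relAll_5_4 ks5_ok F5_18455199744
    ⟨V4_13086228480_ok, V4_14126678016_ok, trivial⟩ ⟨W5_18387828736_ok, W5_18371313664_ok,
    W5_17330864128_ok, W5_17314349056_ok, W5_16273899520_ok, W5_16257384448_ok, W5_15216934912_ok,
    W5_15200419840_ok, W5_14159970304_ok, W5_14143455232_ok, W5_13086490624_ok, trivial⟩
    F5_18455199744_chk

theorem V5_18438684672_ok : Fwd.Has6 Inst.T 5 V5_18438684672 :=
  fwd_sound' relAll_5_4 ks5_ok F5_18438684672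
    ⟨V4_13053198336_ok, V4_17281056768_ok, V4_15200157696_ok, trivial⟩ ⟨W5_18387828736_ok,
    W5_18371313664_ok, W5_18354798592_ok, W5_17330864128_ok, W5_17314349056_ok, W5_17297833984_ok,
    W5_16273899520_ok, W5_16257384448_ok, W5_16240869376_ok, W5_15216934912_ok, W5_15200419840_ok,
    W5_15183904768_ok, W5_14143455232_ok, W5_14126940160_ok, W5_13069975552_ok, trivial⟩
    F5_18438684672_chk

theorem V5_18438426624_ok : Fwd.Has6 Inst.T 5 V5_18438426624 :=
  fwd_sound' relAll_5_4 ks5_ok F5_18438426624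
    ⟨V4_11995975680_ok, V4_14109904896_ok, trivial⟩ ⟨W5_18371313664_ok, W5_17314349056_ok,
    W5_17297575936_ok, W5_16257384448_ok, W5_16240611328_ok, W5_15200419840_ok, W5_15183646720_ok,
    W5_14143455232_ok, W5_14126682112_ok, trivial⟩ F5_18438426624_chk

theorem V5_18421911552_ok : Fwd.Has6 Inst.T 5 V5_18421911552 :=
  fwd_sound' relAll_5_4 ks5_ok F5_18421911552
    ⟨V4_13053198336_ok, V4_11979460608_ok, V4_14126678016_ok, V4_14093389824_ok, trivial⟩ ⟨
    W5_18371313664_ok, W5_18354798592_ok, W5_18338025472_ok, W5_17314349056_ok, W5_17297833984_ok,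
    W5_17297575936_ok, W5_17281060864_ok, W5_16257384448_ok, W5_16240869376_ok, W5_16240611328_ok,
    W5_16224096256_ok, W5_15200419840_ok, W5_15183904768_ok, W5_15183646720_ok, W5_15167131648_ok,
    W5_14126940160_ok, W5_14126682112_ok, W5_14110167040_ok, W5_13053202432_ok, trivial⟩
    F5_18421911552_chk

theorem V5_18405654528_ok : Fwd.Has6 Inst.T 5 V5_18405654528 :=
  fwd_sound' relAll_5_4 ks5_ok F5_18405654528
    ⟨V4_13020168192_ok, V4_15134097408_ok, V4_17248026624_ok, V4_13036683264_ok, trivial⟩ ⟨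
    W5_18387828736_ok, W5_18371313664_ok, W5_18354798592_ok, W5_18338283520_ok, W5_18321768448_ok,
    W5_17330864128_ok, W5_17314349056_ok, W5_17297833984_ok, W5_17281318912_ok, W5_17264803840_ok,
    W5_16257384448_ok, W5_16240869376_ok, W5_16224354304_ok, W5_16207839232_ok, W5_15183904768_ok,
    W5_15167389696_ok, W5_15150874624_ok, W5_14110425088_ok, W5_14093910016_ok, W5_13036945408_ok,
    trivial⟩ F5_18405654528_chk

theorem V5_18405396480_ok : Fwd.Has6 Inst.T 5 V5_18405396480 :=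
  fwd_sound' relAll_5_4 ks5_ok F5_18405396480
    ⟨V4_11962945536_ok, V4_13036683264_ok, V4_14109904896_ok, V4_14093647872_ok,
    V4_14110162944_ok, trivial⟩ ⟨W5_18371313664_ok, W5_18354798592_ok, W5_18338283520_ok,
    W5_18338025472_ok, W5_18321510400_ok, W5_17314349056_ok, W5_17297833984_ok, W5_17297575936_ok,
    W5_17281318912_ok, W5_17281060864_ok, W5_17264545792_ok, W5_16257384448_ok, W5_16240869376_ok,
    W5_16240611328_ok, W5_16224354304_ok, W5_16224096256_ok, W5_16207581184_ok, W5_15183904768_ok,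
    W5_15183646720_ok, W5_15167389696_ok, W5_15167131648_ok, W5_15150616576_ok, W5_14110425088_ok,
    W5_14110167040_ok, W5_14093651968_ok, W5_13036687360_ok, trivial⟩ F5_18405396480_chk

theorem V5_18405138432_ok : Fwd.Has6 Inst.T 5 V5_18405138432 :=
  fwd_sound' relAll_5_4 ks5_ok F5_18405138432
    ⟨V4_13019652096_ok, V4_14110162944_ok, V4_15133581312_ok, trivial⟩ ⟨W5_18354798592_ok,
    W5_18338025472_ok, W5_18321252352_ok, W5_17297833984_ok, W5_17281060864_ok, W5_17264287744_ok,
    W5_16240869376_ok, W5_16224096256_ok, W5_16207323136_ok, W5_15183904768_ok, W5_15167131648_ok,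
    W5_15150358528_ok, W5_14110167040_ok, W5_14093393920_ok, W5_13036429312_ok, trivial⟩
    F5_18405138432_chk

theorem V5_18405134400_ok : Fwd.Has6 Inst.T 5 V5_18405134400 :=
  fwd_sound' relAll_5_4 ks5_ok F5_18405134400
    ⟨V4_14109904896_ok, V4_13036425216_ok, trivial⟩ ⟨W5_18338025472_ok, W5_17297575936_ok,
    W5_17281060864_ok, W5_16240611328_ok, W5_16224096256_ok, W5_15183646720_ok, W5_15167131648_ok,
    W5_15150354496_ok, W5_14110167040_ok, W5_14093389888_ok, W5_13036425280_ok, trivial⟩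
    F5_18405134400_chk

theorem V5_18389139456_ok : Fwd.Has6 Inst.T 5 V5_18389139456 :=
  fwd_sound' relAll_5_4 ks5_ok F5_18389139456
    ⟨V4_11946688512_ok, V4_13020168192_ok, V4_17314086912_ok, V4_13003653120_ok, trivial⟩ ⟨
    W5_18387828736_ok, W5_18371313664_ok, W5_18354798592_ok, W5_18338283520_ok, W5_17314349056_ok,
    W5_17297833984_ok, W5_17281318912_ok, W5_17264803840_ok, W5_16240869376_ok, W5_16224354304_ok,
    W5_16207839232_ok, W5_15167389696_ok, W5_15150874624_ok, W5_15134359552_ok, W5_14093910016_ok,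
    W5_14077394944_ok, W5_13020430336_ok, trivial⟩ F5_18389139456_chk

theorem V5_18388623360_ok : Fwd.Has6 Inst.T 5 V5_18388623360 :=
  fwd_sound' relAll_5_4 ks5_ok F5_18388623360
    ⟨V4_13019652096_ok, V4_14093647872_ok, V4_15167127552_ok, V4_13003137024_ok, trivial⟩ ⟨
    W5_18354798592_ok, W5_18338283520_ok, W5_18338025472_ok, W5_18321510400_ok, W5_18321252352_ok,
    W5_17297833984_ok, W5_17281318912_ok, W5_17281060864_ok, W5_17264545792_ok, W5_17264287744_ok,
    W5_17247772672_ok, W5_16240869376_ok, W5_16224354304_ok, W5_16224096256_ok, W5_16207581184_ok,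
    W5_16207323136_ok, W5_16190808064_ok, W5_15167389696_ok, W5_15167131648_ok, W5_15150616576_ok,
    W5_15150358528_ok, W5_15133843456_ok, W5_14093651968_ok, W5_14093393920_ok, W5_14076878848_ok,
    W5_13019914240_ok, trivial⟩ F5_18388623360_chk

theorem V5_18372624384_ok : Fwd.Has6 Inst.T 5 V5_18372624384 :=
  fwd_sound' relAll_5_4 ks5_ok F5_18372624384
    ⟨V4_12987138048_ok, V4_11930173440_ok, V4_14077132800_ok, trivial⟩ ⟨W5_18371313664_ok,
    W5_18354798592_ok, W5_17297833984_ok, W5_17281318912_ok, W5_16224354304_ok, W5_16207839232_ok,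
    W5_15150874624_ok, W5_15134359552_ok, W5_14077394944_ok, W5_14060879872_ok, W5_13003915264_ok,
    trivial⟩ F5_18372624384_chk

theorem V5_18372366336_ok : Fwd.Has6 Inst.T 5 V5_18372366336 :=
  fwd_sound' relAll_5_4 ks5_ok F5_18372366336
    ⟨V4_11929915392_ok, V4_14077132800_ok, V4_13003395072_ok, V4_14060617728_ok, trivial⟩ ⟨
    W5_18371313664_ok, W5_18354798592_ok, W5_18338283520_ok, W5_18338025472_ok, W5_17297833984_ok,
    W5_17297575936_ok, W5_17281318912_ok, W5_17281060864_ok, W5_17264803840_ok, W5_17264545792_ok,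
    W5_16224354304_ok, W5_16224096256_ok, W5_16207839232_ok, W5_16207581184_ok, W5_16191066112_ok,
    W5_15150874624_ok, W5_15150616576_ok, W5_15134359552_ok, W5_15134101504_ok, W5_15117586432_ok,
    W5_14077394944_ok, W5_14077136896_ok, W5_14060621824_ok, W5_13003657216_ok, trivial⟩
    F5_18372366336_chk

theorem V5_18371850240_ok : Fwd.Has6 Inst.T 5 V5_18371850240 :=
  fwd_sound' relAll_5_4 ks5_ok F5_18371850240
    ⟨V4_15150612480_ok, trivial⟩ ⟨W5_18338283520_ok, W5_18321510400_ok, W5_17281318912_ok,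
    W5_17264545792_ok, W5_17247772672_ok, W5_16224354304_ok, W5_16207581184_ok, W5_16190808064_ok,
    W5_15150616576_ok, W5_15133843456_ok, W5_14076878848_ok, W5_14060105728_ok, W5_13003141120_ok,
    trivial⟩ F5_18371850240_chk

theorem V5_18371584128_ok : Fwd.Has6 Inst.T 5 V5_18371584128 :=
  fwd_sound' relAll_5_4 ks5_ok F5_18371584128
    ⟨V4_15133581312_ok, trivial⟩ ⟨W5_18321252352_ok, W5_18287698048_ok, W5_17264287744_ok,
    W5_17247510592_ok, W5_16207323136_ok, W5_16190545984_ok, W5_16173768832_ok, W5_15150358528_ok,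
    W5_15133581376_ok, W5_15116804224_ok, W5_14059839616_ok, W5_13002875008_ok, trivial⟩
    F5_18371584128_chk

theorem V5_18355851264_ok : Fwd.Has6 Inst.T 5 V5_18355851264 :=
  fwd_sound' relAll_5_4 ks5_ok F5_18355851264
    ⟨V4_12987138048_ok, V4_14060617728_ok, trivial⟩ ⟨W5_18354798592_ok, W5_17281318912_ok,
    W5_17281060864_ok, W5_16207839232_ok, W5_16207581184_ok, W5_15134359552_ok, W5_15134101504_ok,
    W5_14060879872_ok, W5_14060621824_ok, W5_12987142144_ok, trivial⟩ F5_18355851264_chk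

theorem V5_18355593216_ok : Fwd.Has6 Inst.T 5 V5_18355593216 :=
  fwd_sound' relAll_5_4 ks5_ok F5_18355593216
    ⟨V4_14060617728_ok, V4_15134097408_ok, V4_11913142272_ok, trivial⟩ ⟨W5_18354798592_ok,
    W5_18338283520_ok, W5_18338025472_ok, W5_17281318912_ok, W5_17281060864_ok, W5_17264803840_ok,
    W5_17264545792_ok, W5_17264287744_ok, W5_16207839232_ok, W5_16207581184_ok, W5_16207323136_ok,
    W5_16191066112_ok, W5_16190808064_ok, W5_15134359552_ok, W5_15134101504_ok, W5_15133843456_ok,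
    W5_15117586432_ok, W5_15117328384_ok, W5_14060621824_ok, W5_14060363776_ok, W5_14043848704_ok,
    W5_12986884096_ok, trivial⟩ F5_18355593216_chk

theorem V5_18355589184_ok : Fwd.Has6 Inst.T 5 V5_18355589184 :=
  fwd_sound' relAll_5_4 ks5_ok F5_18355589184
    ⟨V4_12986880000_ok, trivial⟩ ⟨W5_18338025472_ok, W5_17281060864_ok, W5_17264545792_ok,
    W5_16207581184_ok, W5_16191066112_ok, W5_16190804032_ok, W5_15134101504_ok, W5_15117586432_ok,
    W5_15117324352_ok, W5_14060621824_ok, W5_14060359744_ok, W5_14043844672_ok, W5_12986880064_ok,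
    trivial⟩ F5_18355589184_chk

theorem V5_18355335168_ok : Fwd.Has6 Inst.T 5 V5_18355335168 :=
  fwd_sound' relAll_5_4 ks5_ok F5_18355335168
    ⟨V4_15134097408_ok, V4_11912884224_ok, trivial⟩ ⟨W5_18338283520_ok, W5_18321768448_ok,
    W5_18321510400_ok, W5_17281318912_ok, W5_17264803840_ok, W5_17264545792_ok, W5_17248030720_ok,
    W5_17247772672_ok, W5_16207839232_ok, W5_16207581184_ok, W5_16191066112_ok, W5_16190808064_ok,
    W5_16174292992_ok, W5_15134101504_ok, W5_15133843456_ok, W5_15117328384_ok, W5_15100555264_ok,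
    W5_14060363776_ok, W5_14060105728_ok, W5_14043590656_ok, W5_12986626048_ok, trivial⟩
    F5_18355335168_chk

theorem V5_18338562048_ok : Fwd.Has6 Inst.T 5 V5_18338562048 :=
  fwd_sound' relAll_5_4 ks5_ok F5_18338562048
    ⟨V4_12953075712_ok, V4_14043586560_ok, trivial⟩ ⟨W5_18321768448_ok, W5_17264803840_ok,
    W5_17248030720_ok, W5_16191066112_ok, W5_16174292992_ok, W5_15117328384_ok, W5_15100555264_ok,
    W5_14043590656_ok, W5_14026817536_ok, W5_12969852928_ok, trivial⟩ F5_18338562048_chk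

theorem V5_18321784896_ok : Fwd.Has6 Inst.T 5 V5_18321784896 :=
  fwd_sound' relAll_5_4 ks5_ok F5_18321784896
    ⟨V4_12953075712_ok, trivial⟩ ⟨W5_17248030720_ok, W5_16174292992_ok, W5_15100555264_ok,
    W5_15100551232_ok, W5_14026817536_ok, W5_12953075776_ok, trivial⟩ F5_18321784896_chk

theorem V5_17414750208_ok : Fwd.Has6 Inst.T 5 V5_17414750208 :=
  fwd_sound' relAll_5_4 ks5_ok F5_17414750208
    ⟨V4_15200157696_ok, trivial⟩ ⟨W5_17330864128_ok, W5_16273899520_ok, W5_15216934912_ok,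
    trivial⟩ F5_17414750208_chk

theorem V5_17398235136_ok : Fwd.Has6 Inst.T 5 V5_17398235136 :=
  fwd_sound' relAll_5_4 ks5_ok F5_17398235136
    ⟨V4_14126678016_ok, V4_15200157696_ok, trivial⟩ ⟨W5_17330864128_ok, W5_17314349056_ok,
    W5_16273899520_ok, W5_16257384448_ok, W5_15216934912_ok, W5_15200419840_ok, W5_14159970304_ok,
    W5_14143455232_ok, trivial⟩ F5_17398235136_chk

theorem V5_17381720064_ok : Fwd.Has6 Inst.T 5 V5_17381720064 :=
  fwd_sound' relAll_5_4 ks5_ok F5_17381720064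
    ⟨V4_13086228480_ok, V4_13053198336_ok, V4_15200157696_ok, V4_14110162944_ok, trivial⟩ ⟨
    W5_17330864128_ok, W5_17314349056_ok, W5_17297833984_ok, W5_16273899520_ok, W5_16257384448_ok,
    W5_16240869376_ok, W5_15216934912_ok, W5_15200419840_ok, W5_15183904768_ok, W5_14159970304_ok,
    W5_14143455232_ok, W5_14126940160_ok, W5_13086490624_ok, W5_13069975552_ok, trivial⟩
    F5_17381720064_chk

theorem V5_17381462016_ok : Fwd.Has6 Inst.T 5 V5_17381462016 :=
  fwd_sound' relAll_5_4 ks5_ok F5_17381462016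
    ⟨V4_14109904896_ok, trivial⟩ ⟨W5_17314349056_ok, W5_17297575936_ok, W5_16257384448_ok,
    W5_16240611328_ok, W5_15200419840_ok, W5_15183646720_ok, W5_14143455232_ok, W5_14126682112_ok,
    W5_13086490624_ok, trivial⟩ F5_17381462016_chk

theorem V5_17365204992_ok : Fwd.Has6 Inst.T 5 V5_17365204992 :=
  fwd_sound' relAll_5_4 ks5_ok F5_17365204992
    ⟨V4_13053198336_ok, V4_11979718656_ok, V4_15200157696_ok, V4_13036683264_ok, trivial⟩ ⟨
    W5_17330864128_ok, W5_17314349056_ok, W5_17297833984_ok, W5_17281318912_ok, W5_16273899520_ok,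
    W5_16257384448_ok, W5_16240869376_ok, W5_16224354304_ok, W5_15216934912_ok, W5_15200419840_ok,
    W5_15183904768_ok, W5_15167389696_ok, W5_14143455232_ok, W5_14126940160_ok, W5_14110425088_ok,
    W5_13069975552_ok, W5_13053460480_ok, trivial⟩ F5_17365204992_chk

theorem V5_17364946944_ok : Fwd.Has6 Inst.T 5 V5_17364946944 :=
  fwd_sound' relAll_5_4 ks5_ok F5_17364946944
    ⟨V4_11995975680_ok, V4_13053198336_ok, V4_11979460608_ok, V4_14093389824_ok, trivial⟩ ⟨
    W5_17314349056_ok, W5_17297833984_ok, W5_17297575936_ok, W5_17281060864_ok, W5_16257384448_ok,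
    W5_16240869376_ok, W5_16240611328_ok, W5_16224096256_ok, W5_15200419840_ok, W5_15183904768_ok,
    W5_15183646720_ok, W5_15167131648_ok, W5_14143455232_ok, W5_14126940160_ok, W5_14126682112_ok,
    W5_14110167040_ok, W5_13069975552_ok, W5_13053202432_ok, W5_11996237824_ok, trivial⟩
    F5_17364946944_chk

theorem V5_17364684864_ok : Fwd.Has6 Inst.T 5 V5_17364684864 :=
  fwd_sound' relAll_5_4 ks5_ok F5_17364684864
    ⟨V4_11995975680_ok, trivial⟩ ⟨W5_17297575936_ok, W5_16240611328_ok, W5_15183646720_ok,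
    W5_14126682112_ok, W5_11995975744_ok, trivial⟩ F5_17364684864_chk

theorem V5_17348689920_ok : Fwd.Has6 Inst.T 5 V5_17348689920 :=
  fwd_sound' relAll_5_4 ks5_ok F5_17348689920
    ⟨V4_10906238976_ok, V4_13053198336_ok, V4_15200157696_ok, V4_13020168192_ok,
    V4_17248026624_ok, V4_11979718656_ok, trivial⟩ ⟨W5_17330864128_ok, W5_17314349056_ok,
    W5_17297833984_ok, W5_17281318912_ok, W5_17264803840_ok, W5_16273899520_ok, W5_16257384448_ok,
    W5_16240869376_ok, W5_16224354304_ok, W5_16207839232_ok, W5_15200419840_ok, W5_15183904768_ok,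
    W5_15167389696_ok, W5_15150874624_ok, W5_14126940160_ok, W5_14110425088_ok, W5_14093910016_ok,
    W5_13053460480_ok, W5_13036945408_ok, W5_11979980800_ok, trivial⟩ F5_17348689920_chk

theorem V5_17348431872_ok : Fwd.Has6 Inst.T 5 V5_17348431872 :=
  fwd_sound' relAll_5_4 ks5_ok F5_17348431872
    ⟨V4_13053198336_ok, V4_11962945536_ok, V4_11979718656_ok, V4_11979460608_ok,
    V4_14126678016_ok, V4_16190803968_ok, trivial⟩ ⟨W5_17314349056_ok, W5_17297833984_ok,
    W5_17297575936_ok, W5_17281318912_ok, W5_17281060864_ok, W5_17264545792_ok, W5_16257384448_ok,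
    W5_16240869376_ok, W5_16240611328_ok, W5_16224354304_ok, W5_16224096256_ok, W5_16207581184_ok,
    W5_15200419840_ok, W5_15183904768_ok, W5_15183646720_ok, W5_15167389696_ok, W5_15167131648_ok,
    W5_15150616576_ok, W5_14126940160_ok, W5_14126682112_ok, W5_14110425088_ok, W5_14110167040_ok,
    W5_14093651968_ok, W5_13053460480_ok, W5_13053202432_ok, W5_13036687360_ok, W5_11979722752_ok,
    trivial⟩ F5_17348431872_chk

theorem V5_17348173824_ok : Fwd.Has6 Inst.T 5 V5_17348173824 :=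
  fwd_sound' relAll_5_4 ks5_ok F5_17348173824
    ⟨V4_10905722880_ok, V4_13053198336_ok, V4_13019652096_ok, V4_11979460608_ok,
    V4_17247510528_ok, trivial⟩ ⟨W5_17297833984_ok, W5_17281060864_ok, W5_17264287744_ok,
    W5_16240869376_ok, W5_16224096256_ok, W5_16207323136_ok, W5_15183904768_ok, W5_15167131648_ok,
    W5_15150358528_ok, W5_14126940160_ok, W5_14110167040_ok, W5_14093393920_ok, W5_13053202432_ok,
    W5_13036429312_ok, W5_11979464704_ok, trivial⟩ F5_17348173824_chk


theorem V5_17332174848_ok : Fwd.Has6 Inst.T 5 V5_17332174848 :=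
  fwd_sound' relAll_5_4 ks5_ok F5_17332174848
    ⟨V4_10889723904_ok, V4_11946688512_ok, V4_13020168192_ok, V4_17314086912_ok, trivial⟩ ⟨
    W5_17330864128_ok, W5_17314349056_ok, W5_17297833984_ok, W5_17281318912_ok, W5_17264803840_ok,
    W5_16257384448_ok, W5_16240869376_ok, W5_16224354304_ok, W5_16207839232_ok, W5_15183904768_ok,
    W5_15167389696_ok, W5_15150874624_ok, W5_15134359552_ok, W5_14110425088_ok, W5_14093910016_ok,
    W5_14077394944_ok, W5_13036945408_ok, W5_13020430336_ok, W5_11963465728_ok, trivial⟩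
    F5_17332174848_chk

theorem V5_17331396672_ok : Fwd.Has6 Inst.T 5 V5_17331396672 :=
  fwd_sound' relAll_5_4 ks5_ok F5_17331396672
    ⟨V4_13019652096_ok, V4_13036425216_ok, trivial⟩ ⟨W5_17281060864_ok, W5_17264287744_ok,
    W5_17247510592_ok, W5_16224096256_ok, W5_16207323136_ok, W5_16190545984_ok, W5_15167131648_ok,
    W5_15150358528_ok, W5_15150354496_ok, W5_15133581376_ok, W5_14110167040_ok, W5_14093393920_ok,
    W5_14093389888_ok, W5_13036429312_ok, W5_13036425280_ok, W5_13019652160_ok, W5_11962687552_ok,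
    trivial⟩ F5_17331396672_chk

theorem V5_17315659776_ok : Fwd.Has6 Inst.T 5 V5_17315659776 :=
  fwd_sound' relAll_5_4 ks5_ok F5_17315659776
    ⟨V4_10873208832_ok, V4_12987138048_ok, V4_17314086912_ok, V4_13020168192_ok, trivial⟩ ⟨
    W5_17314349056_ok, W5_17297833984_ok, W5_17281318912_ok, W5_16240869376_ok, W5_16224354304_ok,
    W5_16207839232_ok, W5_15167389696_ok, W5_15150874624_ok, W5_15134359552_ok, W5_14093910016_ok,
    W5_14077394944_ok, W5_14060879872_ok, W5_13020430336_ok, W5_13003915264_ok, W5_11946950656_ok,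
    trivial⟩ F5_17315659776_chk

theorem V5_17315143680_ok : Fwd.Has6 Inst.T 5 V5_17315143680 :=
  fwd_sound' relAll_5_4 ks5_ok F5_17315143680
    ⟨V4_10872692736_ok, V4_13020168192_ok, V4_13019652096_ok, V4_11946430464_ok,
    V4_15167127552_ok, V4_12986621952_ok, trivial⟩ ⟨W5_17297833984_ok, W5_17281318912_ok,
    W5_17281060864_ok, W5_17264803840_ok, W5_17264545792_ok, W5_17264287744_ok, W5_17248030720_ok,
    W5_17247772672_ok, W5_16240869376_ok, W5_16224354304_ok, W5_16224096256_ok, W5_16207839232_ok,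
    W5_16207581184_ok, W5_16207323136_ok, W5_16191066112_ok, W5_16190808064_ok, W5_16174292992_ok,
    W5_15167389696_ok, W5_15167131648_ok, W5_15150874624_ok, W5_15150616576_ok, W5_15150358528_ok,
    W5_15134101504_ok, W5_15133843456_ok, W5_15117328384_ok, W5_14093910016_ok, W5_14093651968_ok,
    W5_14093393920_ok, W5_14077136896_ok, W5_14076878848_ok, W5_14060363776_ok, W5_13020172288_ok,
    W5_13019914240_ok, W5_13003399168_ok, W5_11946434560_ok, trivial⟩ F5_17315143680_chk

theorem V5_17314885632_ok : Fwd.Has6 Inst.T 5 V5_17314885632 :=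
  fwd_sound' relAll_5_4 ks5_ok F5_17314885632
    ⟨V4_14093647872_ok, trivial⟩ ⟨W5_17281318912_ok, W5_17264545792_ok, W5_17247772672_ok,
    W5_16224354304_ok, W5_16207581184_ok, W5_16190808064_ok, W5_15167389696_ok, W5_15150616576_ok,
    W5_15133843456_ok, W5_14093651968_ok, W5_14076878848_ok, W5_14060105728_ok, W5_13019914240_ok,
    W5_13003141120_ok, W5_11946176512_ok, trivial⟩ F5_17314885632_chk

theorem V5_17314619520_ok : Fwd.Has6 Inst.T 5 V5_17314619520 :=
  fwd_sound' relAll_5_4 ks5_ok F5_17314619520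
    ⟨V4_13019652096_ok, trivial⟩ ⟨W5_17264287744_ok, W5_17247510592_ok, W5_16207323136_ok,
    W5_16190545984_ok, W5_16173768832_ok, W5_15150358528_ok, W5_15133581376_ok, W5_15116804224_ok,
    W5_14093393920_ok, W5_14059839616_ok, W5_13019652160_ok, W5_13002875008_ok, W5_11945910400_ok,
    trivial⟩ F5_17314619520_chk

theorem V5_17299144704_ok : Fwd.Has6 Inst.T 5 V5_17299144704 :=
  fwd_sound' relAll_5_4 ks5_ok F5_17299144704
    ⟨V4_11930173440_ok, trivial⟩ ⟨W5_17297833984_ok, W5_16224354304_ok, W5_15150874624_ok,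
    W5_14077394944_ok, W5_13003915264_ok, trivial⟩ F5_17299144704_chk

theorem V5_17298886656_ok : Fwd.Has6 Inst.T 5 V5_17298886656 :=
  fwd_sound' relAll_5_4 ks5_ok F5_17298886656
    ⟨V4_12987138048_ok, V4_10856435712_ok, V4_11929915392_ok, V4_11930173440_ok,
    V4_16223834112_ok, V4_13003653120_ok, trivial⟩ ⟨W5_17297833984_ok, W5_17297575936_ok,
    W5_17281318912_ok, W5_17281060864_ok, W5_16224354304_ok, W5_16224096256_ok, W5_16207839232_ok,
    W5_16207581184_ok, W5_15150874624_ok, W5_15150616576_ok, W5_15134359552_ok, W5_15134101504_ok,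
    W5_14077394944_ok, W5_14077136896_ok, W5_14060879872_ok, W5_14060621824_ok, W5_13003915264_ok,
    W5_13003657216_ok, W5_12987142144_ok, W5_11930177536_ok, trivial⟩ F5_17298886656_chk

theorem V5_17298624576_ok : Fwd.Has6 Inst.T 5 V5_17298624576 :=
  fwd_sound' relAll_5_4 ks5_ok F5_17298624576
    ⟨V4_11929915392_ok, V4_16223834112_ok, V4_12986880000_ok, trivial⟩ ⟨W5_17297575936_ok,
    W5_17281060864_ok, W5_17264545792_ok, W5_16224096256_ok, W5_16207581184_ok, W5_16191066112_ok,
    W5_16190804032_ok, W5_15150616576_ok, W5_15150354496_ok, W5_15134101504_ok, W5_15117586432_ok,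
    W5_15117324352_ok, W5_14077136896_ok, W5_14076874816_ok, W5_14060621824_ok, W5_14060359744_ok,
    W5_14043844672_ok, W5_13003657216_ok, W5_13003395136_ok, W5_12986880064_ok, W5_11929915456_ok,
    trivial⟩ F5_17298624576_chk

theorem V5_17298370560_ok : Fwd.Has6 Inst.T 5 V5_17298370560 :=
  fwd_sound' relAll_5_4 ks5_ok F5_17298370560
    ⟨V4_10855919616_ok, V4_14077132800_ok, V4_11912884224_ok, V4_13003395072_ok, trivial⟩ ⟨
    W5_17281318912_ok, W5_17264803840_ok, W5_17264545792_ok, W5_17248030720_ok, W5_17247772672_ok,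
    W5_16224354304_ok, W5_16207839232_ok, W5_16207581184_ok, W5_16191066112_ok, W5_16190808064_ok,
    W5_16174292992_ok, W5_15150874624_ok, W5_15150616576_ok, W5_15134101504_ok, W5_15133843456_ok,
    W5_15117328384_ok, W5_15100555264_ok, W5_14077136896_ok, W5_14076878848_ok, W5_14060363776_ok,
    W5_14060105728_ok, W5_14043590656_ok, W5_13003399168_ok, W5_13003141120_ok, W5_12986626048_ok,
    W5_11929661440_ok, trivial⟩ F5_17298370560_chk

theorem V5_17298108480_ok : Fwd.Has6 Inst.T 5 V5_17298108480 :=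
  fwd_sound' relAll_5_4 ks5_ok F5_17298108480
    ⟨V4_13003137024_ok, trivial⟩ ⟨W5_17264545792_ok, W5_17247772672_ok, W5_16207581184_ok,
    W5_16190808064_ok, W5_16190804032_ok, W5_15150616576_ok, W5_15133843456_ok, W5_15117066304_ok,
    W5_14076878848_ok, W5_14076874816_ok, W5_14060105728_ok, W5_14060101696_ok, W5_13003141120_ok,
    W5_13003137088_ok, W5_11929399360_ok, trivial⟩ F5_17298108480_chk

theorem V5_17282113536_ok : Fwd.Has6 Inst.T 5 V5_17282113536 :=
  fwd_sound' relAll_5_4 ks5_ok F5_17282113536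
    ⟨V4_10839662592_ok, V4_12987138048_ok, V4_15133581312_ok, V4_11913142272_ok, trivial⟩ ⟨
    W5_17281318912_ok, W5_17281060864_ok, W5_16207839232_ok, W5_16207581184_ok, W5_16207323136_ok,
    W5_15134359552_ok, W5_15134101504_ok, W5_15133843456_ok, W5_14060879872_ok, W5_14060621824_ok,
    W5_14060363776_ok, W5_12987142144_ok, W5_12986884096_ok, W5_11913404416_ok, trivial⟩
    F5_17282113536_chk

theorem V5_17281597440_ok : Fwd.Has6 Inst.T 5 V5_17281597440 :=
  fwd_sound' relAll_5_4 ks5_ok F5_17281597440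
    ⟨V4_10839146496_ok, V4_15134097408_ok, trivial⟩ ⟨W5_17264803840_ok, W5_17248030720_ok,
    W5_16207839232_ok, W5_16191066112_ok, W5_16174292992_ok, W5_15134101504_ok, W5_15117328384_ok,
    W5_15100555264_ok, W5_14060363776_ok, W5_14043590656_ok, W5_14026817536_ok, W5_12986626048_ok,
    W5_12969852928_ok, W5_11912888320_ok, trivial⟩ F5_17281597440_chk

theorem V5_17281589376_ok : Fwd.Has6 Inst.T 5 V5_17281589376 :=
  fwd_sound' relAll_5_4 ks5_ok F5_17281589376
    ⟨V4_12986621952_ok, V4_15100551168_ok, trivial⟩ ⟨W5_17264287744_ok, W5_17247772672_ok,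
    W5_17247510592_ok, W5_16207323136_ok, W5_16190808064_ok, W5_16190545984_ok, W5_16174292992_ok,
    W5_16173768832_ok, W5_15133843456_ok, W5_15133581376_ok, W5_15117328384_ok, W5_15117066304_ok,
    W5_15116804224_ok, W5_15100551232_ok, W5_14060363776_ok, W5_14060101696_ok, W5_14059839616_ok,
    W5_14043586624_ok, W5_14026809472_ok, W5_12986622016_ok, W5_12969844864_ok, W5_11912880256_ok,
    trivial⟩ F5_17281589376_chk

theorem V5_17264820288_ok : Fwd.Has6 Inst.T 5 V5_17264820288 :=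
  fwd_sound' relAll_5_4 ks5_ok F5_17264820288
    ⟨V4_12953075712_ok, trivial⟩ ⟨W5_17248030720_ok, W5_16191066112_ok, W5_16174292992_ok,
    W5_15117328384_ok, W5_15117324352_ok, W5_15100555264_ok, W5_15100551232_ok, W5_14043590656_ok,
    W5_14043586624_ok, W5_14026817536_ok, W5_12969852928_ok, W5_12953075776_ok, trivial⟩
    F5_17264820288_chk

theorem V5_17248043136_ok : Fwd.Has6 Inst.T 5 V5_17248043136 :=
  fwd_sound' relAll_5_4 ks5_ok F5_17248043136
    ⟨V4_12953075712_ok, trivial⟩ ⟨W5_16174292992_ok, W5_15100555264_ok, W5_15100551232_ok,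
    W5_14026817536_ok, W5_14026809472_ok, W5_12953075776_ok, W5_11879334016_ok, trivial⟩
    F5_17248043136_chk

theorem V5_16341270528_ok : Fwd.Has6 Inst.T 5 V5_16341270528 :=
  fwd_sound' relAll_5_4 ks5_ok F5_16341270528
    ⟨V4_15200157696_ok, trivial⟩ ⟨W5_16273899520_ok, W5_16257384448_ok, W5_15216934912_ok,
    W5_15200419840_ok, trivial⟩ F5_16341270528_chk

theorem V5_16324755456_ok : Fwd.Has6 Inst.T 5 V5_16324755456 :=
  fwd_sound' relAll_5_4 ks5_ok F5_16324755456
    ⟨V4_15167127552_ok, trivial⟩ ⟨W5_16273899520_ok, W5_16257384448_ok, W5_16240869376_ok,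
    W5_15216934912_ok, W5_15200419840_ok, W5_15183904768_ok, W5_14159970304_ok, W5_14143455232_ok,
    W5_14126940160_ok, trivial⟩ F5_16324755456_chk

theorem V5_16324497408_ok : Fwd.Has6 Inst.T 5 V5_16324497408 :=
  fwd_sound' relAll_5_4 ks5_ok F5_16324497408
    ⟨V4_14126678016_ok, trivial⟩ ⟨W5_16257384448_ok, W5_16240611328_ok, W5_15200419840_ok,
    W5_15183646720_ok, W5_14143455232_ok, W5_14126682112_ok, trivial⟩ F5_16324497408_chk

theorem V5_16308240384_ok : Fwd.Has6 Inst.T 5 V5_16308240384 :=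
  fwd_sound' relAll_5_4 ks5_ok F5_16308240384
    ⟨V4_13086228480_ok, V4_13053198336_ok, V4_13036683264_ok, V4_15200157696_ok, trivial⟩ ⟨
    W5_16273899520_ok, W5_16257384448_ok, W5_16240869376_ok, W5_16224354304_ok, W5_15216934912_ok,
    W5_15200419840_ok, W5_15183904768_ok, W5_15167389696_ok, W5_14159970304_ok, W5_14143455232_ok,
    W5_14126940160_ok, W5_14110425088_ok, W5_13086490624_ok, W5_13069975552_ok, W5_13053460480_ok,
    trivial⟩ F5_16308240384_chk

theorem V5_16307982336_ok : Fwd.Has6 Inst.T 5 V5_16307982336 :=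
  fwd_sound' relAll_5_4 ks5_ok F5_16307982336
    ⟨V4_13053198336_ok, V4_14093389824_ok, trivial⟩ ⟨W5_16257384448_ok, W5_16240869376_ok,
    W5_16240611328_ok, W5_16224096256_ok, W5_15200419840_ok, W5_15183904768_ok, W5_15183646720_ok,
    W5_15167131648_ok, W5_14143455232_ok, W5_14126940160_ok, W5_14126682112_ok, W5_14110167040_ok,
    W5_13086490624_ok, W5_13069975552_ok, W5_13053202432_ok, trivial⟩ F5_16307982336_chk

theorem V5_16291467264_ok : Fwd.Has6 Inst.T 5 V5_16291467264 :=
  fwd_sound' relAll_5_4 ks5_ok F5_16291467264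
    ⟨V4_11995975680_ok, V4_11962945536_ok, V4_13053198336_ok, V4_11979718656_ok,
    V4_11979460608_ok, V4_16190803968_ok, trivial⟩ ⟨W5_16257384448_ok, W5_16240869376_ok,
    W5_16240611328_ok, W5_16224354304_ok, W5_16224096256_ok, W5_16207581184_ok, W5_15200419840_ok,
    W5_15183904768_ok, W5_15183646720_ok, W5_15167389696_ok, W5_15167131648_ok, W5_15150616576_ok,
    W5_14143455232_ok, W5_14126940160_ok, W5_14126682112_ok, W5_14110425088_ok, W5_14110167040_ok,
    W5_14093651968_ok, W5_13069975552_ok, W5_13053460480_ok, W5_13053202432_ok, W5_13036687360_ok,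
    W5_11996237824_ok, W5_11979722752_ok, trivial⟩ F5_16291467264_chk

theorem V5_16291209216_ok : Fwd.Has6 Inst.T 5 V5_16291209216 :=
  fwd_sound' relAll_5_4 ks5_ok F5_16291209216
    ⟨V4_13053198336_ok, V4_13019652096_ok, trivial⟩ ⟨W5_16240869376_ok, W5_16224096256_ok,
    W5_16207323136_ok, W5_15183904768_ok, W5_15167131648_ok, W5_15150358528_ok, W5_14126940160_ok,
    W5_14110167040_ok, W5_14093393920_ok, W5_13069975552_ok, W5_13053202432_ok, W5_13036429312_ok,
    W5_11996237824_ok, W5_11979464704_ok, trivial⟩ F5_16291209216_chk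

theorem V5_16291205184_ok : Fwd.Has6 Inst.T 5 V5_16291205184 :=
  fwd_sound' relAll_5_4 ks5_ok F5_16291205184
    ⟨V4_11995975680_ok, V4_11979460608_ok, trivial⟩ ⟨W5_16240611328_ok, W5_16224096256_ok,
    W5_15183646720_ok, W5_15167131648_ok, W5_15150354496_ok, W5_14126682112_ok, W5_14110167040_ok,
    W5_14093389888_ok, W5_13053202432_ok, W5_13036425280_ok, W5_11996237824_ok, W5_11995975744_ok,
    trivial⟩ F5_16291205184_chk

theorem V5_16275210240_ok : Fwd.Has6 Inst.T 5 V5_16275210240 :=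
  fwd_sound' relAll_5_4 ks5_ok F5_16275210240
    ⟨V4_10906238976_ok, V4_15200157696_ok, V4_13053198336_ok, V4_10889723904_ok,
    V4_11946688512_ok, V4_11979718656_ok, trivial⟩ ⟨W5_16273899520_ok, W5_16257384448_ok,
    W5_16240869376_ok, W5_16224354304_ok, W5_16207839232_ok, W5_15200419840_ok, W5_15183904768_ok,
    W5_15167389696_ok, W5_15150874624_ok, W5_15134359552_ok, W5_14126940160_ok, W5_14110425088_ok,
    W5_14093910016_ok, W5_14077394944_ok, W5_13053460480_ok, W5_13036945408_ok, W5_13020430336_ok,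
    W5_11979980800_ok, W5_11963465728_ok, W5_10906501120_ok, trivial⟩ F5_16275210240_chk

theorem V5_16274952192_ok : Fwd.Has6 Inst.T 5 V5_16274952192 :=
  fwd_sound' relAll_5_4 ks5_ok F5_16274952192
    ⟨V4_10906238976_ok, V4_13053198336_ok, V4_13020168192_ok, V4_10889465856_ok,
    V4_16174288896_ok, V4_14126678016_ok, V4_11979460608_ok, trivial⟩ ⟨W5_16257384448_ok,
    W5_16240869376_ok, W5_16240611328_ok, W5_16224354304_ok, W5_16224096256_ok, W5_16207839232_ok,
    W5_16207581184_ok, W5_16191066112_ok, W5_15200419840_ok, W5_15183904768_ok, W5_15183646720_ok,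
    W5_15167389696_ok, W5_15167131648_ok, W5_15150874624_ok, W5_15150616576_ok, W5_15134101504_ok,
    W5_14126940160_ok, W5_14126682112_ok, W5_14110425088_ok, W5_14110167040_ok, W5_14093910016_ok,
    W5_14093651968_ok, W5_14077136896_ok, W5_13053460480_ok, W5_13053202432_ok, W5_13036945408_ok,
    W5_13036687360_ok, W5_13020172288_ok, W5_11979980800_ok, W5_11979722752_ok, W5_11963207680_ok,
    W5_10906243072_ok, trivial⟩ F5_16274952192_chk

theorem V5_16274694144_ok : Fwd.Has6 Inst.T 5 V5_16274694144 :=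
  fwd_sound' relAll_5_4 ks5_ok F5_16274694144
    ⟨V4_10905722880_ok, V4_13053198336_ok, V4_11979718656_ok, V4_11962945536_ok,
    V4_13036683264_ok, trivial⟩ ⟨W5_16240869376_ok, W5_16224354304_ok, W5_16224096256_ok,
    W5_16207581184_ok, W5_16207323136_ok, W5_16190808064_ok, W5_15183904768_ok, W5_15167389696_ok,
    W5_15167131648_ok, W5_15150616576_ok, W5_15150358528_ok, W5_15133843456_ok, W5_14126940160_ok,
    W5_14110425088_ok, W5_14110167040_ok, W5_14093651968_ok, W5_14093393920_ok, W5_14076878848_ok,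
    W5_13053460480_ok, W5_13053202432_ok, W5_13036687360_ok, W5_13036429312_ok, W5_13019914240_ok,
    W5_11979722752_ok, W5_11979464704_ok, W5_11962949632_ok, W5_10905985024_ok, trivial⟩
    F5_16274694144_chk

theorem V5_16274690112_ok : Fwd.Has6 Inst.T 5 V5_16274690112 :=
  fwd_sound' relAll_5_4 ks5_ok F5_16274690112
    ⟨V4_11962945536_ok, V4_11979460608_ok, trivial⟩ ⟨W5_16240611328_ok, W5_16224096256_ok,
    W5_16207581184_ok, W5_16190804032_ok, W5_15183646720_ok, W5_15167131648_ok, W5_15150616576_ok,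
    W5_15150354496_ok, W5_14126682112_ok, W5_14110167040_ok, W5_14093651968_ok, W5_14093389888_ok,
    W5_14076874816_ok, W5_13053202432_ok, W5_13036687360_ok, W5_13036425280_ok, W5_13019910208_ok,
    W5_11979722752_ok, W5_11962945600_ok, trivial⟩ F5_16274690112_chk

theorem V5_16274432064_ok : Fwd.Has6 Inst.T 5 V5_16274432064 :=
  fwd_sound' relAll_5_4 ks5_ok F5_16274432064
    ⟨V4_10905722880_ok, V4_11979460608_ok, V4_16190545920_ok, trivial⟩ ⟨W5_16224096256_ok,
    W5_16207323136_ok, W5_16190545984_ok, W5_15167131648_ok, W5_15150358528_ok, W5_15150354496_ok,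
    W5_15133581376_ok, W5_14110167040_ok, W5_14093393920_ok, W5_14093389888_ok, W5_13053202432_ok,
    W5_13036429312_ok, W5_13036425280_ok, W5_13019652160_ok, W5_11979464704_ok, W5_11962687552_ok,
    W5_10905722944_ok, trivial⟩ F5_16274432064_chk

theorem V5_16258695168_ok : Fwd.Has6 Inst.T 5 V5_16258695168 :=
  fwd_sound' relAll_5_4 ks5_ok F5_16258695168
    ⟨V4_12987138048_ok, V4_10873208832_ok, V4_16257122304_ok, V4_10889723904_ok,
    V4_15183642624_ok, V4_11930173440_ok, trivial⟩ ⟨W5_16257384448_ok, W5_16240869376_ok,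
    W5_16224354304_ok, W5_16207839232_ok, W5_15183904768_ok, W5_15167389696_ok, W5_15150874624_ok,
    W5_15134359552_ok, W5_14110425088_ok, W5_14093910016_ok, W5_14077394944_ok, W5_14060879872_ok,
    W5_13036945408_ok, W5_13020430336_ok, W5_13003915264_ok, W5_11963465728_ok, W5_11946950656_ok,
    W5_10889986048_ok, trivial⟩ F5_16258695168_chk

theorem V5_16258437120_ok : Fwd.Has6 Inst.T 5 V5_16258437120 :=
  fwd_sound' relAll_5_4 ks5_ok F5_16258437120
    ⟨V4_10889723904_ok, V4_11962945536_ok, V4_11946688512_ok, V4_11929915392_ok,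
    V4_10889465856_ok, V4_14109904896_ok, V4_13020168192_ok, trivial⟩ ⟨W5_16257384448_ok,
    W5_16240869376_ok, W5_16240611328_ok, W5_16224354304_ok, W5_16224096256_ok, W5_16207839232_ok,
    W5_16207581184_ok, W5_16191066112_ok, W5_15183904768_ok, W5_15183646720_ok, W5_15167389696_ok,
    W5_15167131648_ok, W5_15150874624_ok, W5_15150616576_ok, W5_15134359552_ok, W5_15134101504_ok,
    W5_15117586432_ok, W5_14110425088_ok, W5_14110167040_ok, W5_14093910016_ok, W5_14093651968_ok,
    W5_14077394944_ok, W5_14077136896_ok, W5_14060621824_ok, W5_13036945408_ok, W5_13036687360_ok,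
    W5_13020430336_ok, W5_13020172288_ok, W5_13003657216_ok, W5_11963465728_ok, W5_11963207680_ok,
    W5_11946692608_ok, W5_10889728000_ok, trivial⟩ F5_16258437120_chk

theorem V5_16258179072_ok : Fwd.Has6 Inst.T 5 V5_16258179072 :=
  fwd_sound' relAll_5_4 ks5_ok F5_16258179072
    ⟨V4_10872692736_ok, V4_13020168192_ok, V4_10889465856_ok, V4_11962945536_ok,
    V4_15134097408_ok, V4_15100551168_ok, trivial⟩ ⟨W5_16240869376_ok, W5_16224354304_ok,
    W5_16224096256_ok, W5_16207839232_ok, W5_16207581184_ok, W5_16207323136_ok, W5_16191066112_ok,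
    W5_16190808064_ok, W5_16174292992_ok, W5_15183904768_ok, W5_15167389696_ok, W5_15167131648_ok,
    W5_15150874624_ok, W5_15150616576_ok, W5_15150358528_ok, W5_15134101504_ok, W5_15133843456_ok,
    W5_15117328384_ok, W5_14110425088_ok, W5_14110167040_ok, W5_14093910016_ok, W5_14093651968_ok,
    W5_14093393920_ok, W5_14077136896_ok, W5_14076878848_ok, W5_14060363776_ok, W5_13036945408_ok,
    W5_13036687360_ok, W5_13036429312_ok, W5_13020172288_ok, W5_13019914240_ok, W5_13003399168_ok,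
    W5_11963207680_ok, W5_11962949632_ok, W5_11946434560_ok, W5_10889469952_ok, trivial⟩
    F5_16258179072_chk

theorem V5_16258175040_ok : Fwd.Has6 Inst.T 5 V5_16258175040 :=
  fwd_sound' relAll_5_4 ks5_ok F5_16258175040
    ⟨V4_10889465856_ok, V4_11962945536_ok, V4_14109904896_ok, V4_16174288896_ok, trivial⟩ ⟨
    W5_16240611328_ok, W5_16224096256_ok, W5_16207581184_ok, W5_16191066112_ok, W5_16190804032_ok,
    W5_15183646720_ok, W5_15167131648_ok, W5_15150616576_ok, W5_15150354496_ok, W5_15134101504_ok,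
    W5_15117324352_ok, W5_14110167040_ok, W5_14093651968_ok, W5_14093389888_ok, W5_14077136896_ok,
    W5_14076874816_ok, W5_14060359744_ok, W5_13036687360_ok, W5_13036425280_ok, W5_13020172288_ok,
    W5_13019910208_ok, W5_13003395136_ok, W5_11963207680_ok, W5_11962945600_ok, W5_11946430528_ok,
    W5_10889465920_ok, trivial⟩ F5_16258175040_chk

theorem V5_16257921024_ok : Fwd.Has6 Inst.T 5 V5_16257921024 :=
  fwd_sound' relAll_5_4 ks5_ok F5_16257921024
    ⟨V4_9815470080_ok, V4_13036683264_ok, V4_11962945536_ok, trivial⟩ ⟨W5_16224354304_ok,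
    W5_16207581184_ok, W5_16190808064_ok, W5_15167389696_ok, W5_15150616576_ok, W5_15133843456_ok,
    W5_14110425088_ok, W5_14093651968_ok, W5_14076878848_ok, W5_14060105728_ok, W5_13036687360_ok,
    W5_13019914240_ok, W5_13003141120_ok, W5_11962949632_ok, W5_11946176512_ok, W5_10889211904_ok,
    trivial⟩ F5_16257921024_chk

theorem V5_16257654912_ok : Fwd.Has6 Inst.T 5 V5_16257654912 :=
  fwd_sound' relAll_5_4 ks5_ok F5_16257654912
    ⟨V4_13019652096_ok, trivial⟩ ⟨W5_16207323136_ok, W5_16190545984_ok, W5_16173768832_ok,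
    W5_15150358528_ok, W5_15133581376_ok, W5_15116804224_ok, W5_14093393920_ok, W5_14059839616_ok,
    W5_13036429312_ok, W5_13019652160_ok, W5_13002875008_ok, W5_11962687552_ok, W5_11945910400_ok,
    trivial⟩ F5_16257654912_chk

theorem V5_16242180096_ok : Fwd.Has6 Inst.T 5 V5_16242180096 :=
  fwd_sound' relAll_5_4 ks5_ok F5_16242180096
    ⟨V4_10873208832_ok, V4_13020168192_ok, trivial⟩ ⟨W5_16240869376_ok, W5_16224354304_ok,
    W5_15167389696_ok, W5_15150874624_ok, W5_14093910016_ok, W5_14077394944_ok, W5_13020430336_ok,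
    W5_13003915264_ok, W5_11946950656_ok, W5_10873470976_ok, trivial⟩ F5_16242180096_chk

theorem V5_16241922048_ok : Fwd.Has6 Inst.T 5 V5_16241922048 :=
  fwd_sound' relAll_5_4 ks5_ok F5_16241922048
    ⟨V4_10873208832_ok, V4_9799471104_ok, V4_12987138048_ok, V4_13020168192_ok, V4_11946688512_ok,
    V4_10856435712_ok, trivial⟩ ⟨W5_16240869376_ok, W5_16240611328_ok, W5_16224354304_ok,
    W5_16224096256_ok, W5_16207839232_ok, W5_16207581184_ok, W5_15167389696_ok, W5_15167131648_ok,
    W5_15150874624_ok, W5_15150616576_ok, W5_15134359552_ok, W5_15134101504_ok, W5_14093910016_ok,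
    W5_14093651968_ok, W5_14077394944_ok, W5_14077136896_ok, W5_14060879872_ok, W5_14060621824_ok,
    W5_13020430336_ok, W5_13020172288_ok, W5_13003915264_ok, W5_13003657216_ok, W5_12987142144_ok,
    W5_11946950656_ok, W5_11946692608_ok, W5_11930177536_ok, W5_10873212928_ok, trivial⟩
    F5_16241922048_chk

theorem V5_16241664000_ok : Fwd.Has6 Inst.T 5 V5_16241664000 :=
  fwd_sound' relAll_5_4 ks5_ok F5_16241664000
    ⟨V4_9799213056_ok, V4_10872692736_ok, V4_11946688512_ok, V4_13020168192_ok, V4_13019652096_ok,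
    V4_10872950784_ok, V4_11929915392_ok, trivial⟩ ⟨W5_16240869376_ok, W5_16224354304_ok,
    W5_16224096256_ok, W5_16207839232_ok, W5_16207581184_ok, W5_16207323136_ok, W5_16191066112_ok,
    W5_16190808064_ok, W5_15167389696_ok, W5_15167131648_ok, W5_15150874624_ok, W5_15150616576_ok,
    W5_15150358528_ok, W5_15134359552_ok, W5_15134101504_ok, W5_15133843456_ok, W5_15117586432_ok,
    W5_15117328384_ok, W5_14093910016_ok, W5_14093651968_ok, W5_14093393920_ok, W5_14077394944_ok,
    W5_14077136896_ok, W5_14076878848_ok, W5_14060621824_ok, W5_14060363776_ok, W5_14043848704_ok,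
    W5_13020430336_ok, W5_13020172288_ok, W5_13019914240_ok, W5_13003657216_ok, W5_13003399168_ok,
    W5_12986884096_ok, W5_11946692608_ok, W5_11946434560_ok, W5_11929919488_ok, W5_10872954880_ok,
    trivial⟩ F5_16241664000_chk

theorem V5_16241659968_ok : Fwd.Has6 Inst.T 5 V5_16241659968 :=
  fwd_sound' relAll_5_4 ks5_ok F5_16241659968
    ⟨V4_10872950784_ok, V4_11929915392_ok, V4_16223834112_ok, trivial⟩ ⟨W5_16240611328_ok,
    W5_16224096256_ok, W5_16207581184_ok, W5_16191066112_ok, W5_16190804032_ok, W5_15167131648_ok,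
    W5_15150616576_ok, W5_15150354496_ok, W5_15134101504_ok, W5_15117586432_ok, W5_15117324352_ok,
    W5_14093651968_ok, W5_14093389888_ok, W5_14077136896_ok, W5_14076874816_ok, W5_14060621824_ok,
    W5_14060359744_ok, W5_14043844672_ok, W5_13020172288_ok, W5_13019910208_ok, W5_13003657216_ok,
    W5_13003395136_ok, W5_12986880064_ok, W5_11946692608_ok, W5_11946430528_ok, W5_11929915456_ok,
    W5_10872950848_ok, trivial⟩ F5_16241659968_chk

theorem V5_16241405952_ok : Fwd.Has6 Inst.T 5 V5_16241405952 :=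
  fwd_sound' relAll_5_4 ks5_ok F5_16241405952
    ⟨V4_13020168192_ok, V4_10872692736_ok, V4_10855919616_ok, V4_11946430464_ok,
    V4_11912884224_ok, trivial⟩ ⟨W5_16224354304_ok, W5_16207839232_ok, W5_16207581184_ok,
    W5_16191066112_ok, W5_16190808064_ok, W5_16174292992_ok, W5_15167389696_ok, W5_15150874624_ok,
    W5_15150616576_ok, W5_15134101504_ok, W5_15133843456_ok, W5_15117328384_ok, W5_15100555264_ok,
    W5_14093910016_ok, W5_14093651968_ok, W5_14077136896_ok, W5_14076878848_ok, W5_14060363776_ok,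
    W5_14060105728_ok, W5_14043590656_ok, W5_13020172288_ok, W5_13019914240_ok, W5_13003399168_ok,
    W5_13003141120_ok, W5_12986626048_ok, W5_11946434560_ok, W5_11946176512_ok, W5_11929661440_ok,
    W5_10872696832_ok, trivial⟩ F5_16241405952_chk

theorem V5_16241139840_ok : Fwd.Has6 Inst.T 5 V5_16241139840 :=
  fwd_sound' relAll_5_4 ks5_ok F5_16241139840
    ⟨V4_13019652096_ok, trivial⟩ ⟨W5_16207323136_ok, W5_16190808064_ok, W5_16190545984_ok,
    W5_16173768832_ok, W5_15150358528_ok, W5_15133843456_ok, W5_15133581376_ok, W5_15117066304_ok,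
    W5_15116804224_ok, W5_14093393920_ok, W5_14076878848_ok, W5_14060101696_ok, W5_14059839616_ok,
    W5_13019914240_ok, W5_13019652160_ok, W5_13003137088_ok, W5_13002875008_ok, W5_11946172480_ok,
    W5_11945910400_ok, W5_10872430720_ok, trivial⟩ F5_16241139840_chk

theorem V5_16225406976_ok : Fwd.Has6 Inst.T 5 V5_16225406976 :=
  fwd_sound' relAll_5_4 ks5_ok F5_16225406976
    ⟨V4_10856435712_ok, V4_11929915392_ok, V4_16223834112_ok, trivial⟩ ⟨W5_16224354304_ok,
    W5_16224096256_ok, W5_15150874624_ok, W5_15150616576_ok, W5_14077394944_ok, W5_14077136896_ok,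
    W5_13003915264_ok, W5_13003657216_ok, W5_11930177536_ok, W5_10856697856_ok, trivial⟩
    F5_16225406976_chk

theorem V5_16225148928_ok : Fwd.Has6 Inst.T 5 V5_16225148928 :=
  fwd_sound' relAll_5_4 ks5_ok F5_16225148928
    ⟨V4_10839662592_ok, V4_12987138048_ok, V4_10856435712_ok, V4_11930173440_ok,
    V4_11929915392_ok, V4_11913142272_ok, trivial⟩ ⟨W5_16224354304_ok, W5_16224096256_ok,
    W5_16207839232_ok, W5_16207581184_ok, W5_16207323136_ok, W5_15150874624_ok, W5_15150616576_ok,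
    W5_15150358528_ok, W5_15134359552_ok, W5_15134101504_ok, W5_15133843456_ok, W5_14077394944_ok,
    W5_14077136896_ok, W5_14076878848_ok, W5_14060879872_ok, W5_14060621824_ok, W5_14060363776_ok,
    W5_13003915264_ok, W5_13003657216_ok, W5_13003399168_ok, W5_12987142144_ok, W5_12986884096_ok,
    W5_11930177536_ok, W5_11929919488_ok, W5_11913404416_ok, W5_10856439808_ok, trivial⟩
    F5_16225148928_chk

theorem V5_16225144896_ok : Fwd.Has6 Inst.T 5 V5_16225144896 :=
  fwd_sound' relAll_5_4 ks5_ok F5_16225144896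
    ⟨V4_10856435712_ok, V4_16223834112_ok, V4_11913400320_ok, trivial⟩ ⟨W5_16224096256_ok,
    W5_16207581184_ok, W5_15150616576_ok, W5_15150354496_ok, W5_15134101504_ok, W5_14077136896_ok,
    W5_14076874816_ok, W5_14060621824_ok, W5_14060359744_ok, W5_13003657216_ok, W5_13003395136_ok,
    W5_12987142144_ok, W5_12986880064_ok, W5_11930177536_ok, W5_11929915456_ok, W5_10856435776_ok,
    trivial⟩ F5_16225144896_chk

theorem V5_16224632832_ok : Fwd.Has6 Inst.T 5 V5_16224632832 :=
  fwd_sound' relAll_5_4 ks5_ok F5_16224632832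
    ⟨V4_10839146496_ok, V4_12953075712_ok, V4_14077132800_ok, trivial⟩ ⟨W5_16207839232_ok,
    W5_16191066112_ok, W5_16174292992_ok, W5_15150874624_ok, W5_15134101504_ok, W5_15117328384_ok,
    W5_15100555264_ok, W5_14077136896_ok, W5_14060363776_ok, W5_14043590656_ok, W5_14026817536_ok,
    W5_13003399168_ok, W5_12986626048_ok, W5_12969852928_ok, W5_11929661440_ok, W5_11912888320_ok,
    W5_10855923712_ok, trivial⟩ F5_16224632832_chk

theorem V5_16208375808_ok : Fwd.Has6 Inst.T 5 V5_16208375808 :=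
  fwd_sound' relAll_5_4 ks5_ok F5_16208375808
    ⟨V4_12987138048_ok, V4_9765924864_ok, V4_10839662592_ok, V4_11912884224_ok, trivial⟩ ⟨
    W5_16207839232_ok, W5_16207581184_ok, W5_15134359552_ok, W5_15134101504_ok, W5_15133843456_ok,
    W5_14060879872_ok, W5_14060621824_ok, W5_14060363776_ok, W5_14060105728_ok, W5_12987142144_ok,
    W5_12986884096_ok, W5_12986626048_ok, W5_11913404416_ok, W5_11913146368_ok, W5_10839666688_ok,
    trivial⟩ F5_16208375808_chk

theorem V5_16208371776_ok : Fwd.Has6 Inst.T 5 V5_16208371776 :=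
  fwd_sound' relAll_5_4 ks5_ok F5_16208371776
    ⟨V4_10839662592_ok, V4_11913142272_ok, trivial⟩ ⟨W5_16207581184_ok, W5_16207323136_ok,
    W5_15134101504_ok, W5_15133843456_ok, W5_15133581376_ok, W5_14060621824_ok, W5_14060363776_ok,
    W5_14060359744_ok, W5_14060101696_ok, W5_12987142144_ok, W5_12986884096_ok, W5_12986880064_ok,
    W5_12986622016_ok, W5_11913404416_ok, W5_11913142336_ok, W5_10839662656_ok, trivial⟩
    F5_16208371776_chk

theorem V5_16208117760_ok : Fwd.Has6 Inst.T 5 V5_16208117760 :=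
  fwd_sound' relAll_5_4 ks5_ok F5_16208117760
    ⟨V4_10839146496_ok, V4_14060617728_ok, trivial⟩ ⟨W5_16207839232_ok, W5_16191066112_ok,
    W5_15134359552_ok, W5_15134101504_ok, W5_15117586432_ok, W5_15117328384_ok, W5_14060621824_ok,
    W5_14060363776_ok, W5_14043848704_ok, W5_14043590656_ok, W5_12986884096_ok, W5_12986626048_ok,
    W5_12969852928_ok, W5_11913146368_ok, W5_11912888320_ok, W5_10839408640_ok, trivial⟩
    F5_16208117760_chk

theorem V5_16208109696_ok : Fwd.Has6 Inst.T 5 V5_16208109696 :=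
  fwd_sound' relAll_5_4 ks5_ok F5_16208109696
    ⟨V4_11913142272_ok, V4_12986621952_ok, trivial⟩ ⟨W5_16207323136_ok, W5_16190808064_ok,
    W5_16190545984_ok, W5_15133843456_ok, W5_15133581376_ok, W5_15117328384_ok, W5_15117066304_ok,
    W5_15116804224_ok, W5_14060363776_ok, W5_14060101696_ok, W5_14059839616_ok, W5_14043848704_ok,
    W5_14043586624_ok, W5_12986884096_ok, W5_12986622016_ok, W5_12970106944_ok, W5_12969844864_ok,
    W5_11913142336_ok, W5_11912880256_ok, W5_10839400576_ok, trivial⟩ F5_16208109696_chk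

theorem V5_16207855680_ok : Fwd.Has6 Inst.T 5 V5_16207855680 :=
  fwd_sound' relAll_5_4 ks5_ok F5_16207855680
    ⟨V4_10839146496_ok, V4_12953075712_ok, V4_11912884224_ok, trivial⟩ ⟨W5_16191066112_ok,
    W5_16174292992_ok, W5_15134101504_ok, W5_15117328384_ok, W5_15117324352_ok, W5_15100555264_ok,
    W5_15100551232_ok, W5_14060363776_ok, W5_14060359744_ok, W5_14043590656_ok, W5_14043586624_ok,
    W5_14026817536_ok, W5_12986626048_ok, W5_12986622016_ok, W5_12969852928_ok, W5_12953075776_ok,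
    W5_11912888320_ok, W5_11912884288_ok, W5_10839146560_ok, trivial⟩ F5_16207855680_chk

theorem V5_16207851648_ok : Fwd.Has6 Inst.T 5 V5_16207851648 :=
  fwd_sound' relAll_5_4 ks5_ok F5_16207851648
    ⟨V4_11912884224_ok, trivial⟩ ⟨W5_16190808064_ok, W5_16174292992_ok, W5_15133843456_ok,
    W5_15117328384_ok, W5_15117066304_ok, W5_15100555264_ok, W5_15100551232_ok, W5_14060363776_ok,
    W5_14060105728_ok, W5_14060101696_ok, W5_14043590656_ok, W5_14043586624_ok, W5_14026809472_ok,
    W5_12986626048_ok, W5_12986622016_ok, W5_12969844864_ok, W5_11912884288_ok, W5_11912880256_ok,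
    W5_10839142528_ok, trivial⟩ F5_16207851648_chk

theorem V5_16191078528_ok : Fwd.Has6 Inst.T 5 V5_16191078528 :=
  fwd_sound' relAll_5_4 ks5_ok F5_16191078528
    ⟨V4_12953075712_ok, trivial⟩ ⟨W5_16174292992_ok, W5_15117328384_ok, W5_15100555264_ok,
    W5_15100551232_ok, W5_14043590656_ok, W5_14043586624_ok, W5_14026817536_ok, W5_14026809472_ok,
    W5_12969852928_ok, W5_12969844864_ok, W5_12953075776_ok, W5_11879334016_ok, W5_10822369408_ok,
    trivial⟩ F5_16191078528_chk

theorem V5_15267790848_ok : Fwd.Has6 Inst.T 5 V5_15267790848 :=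
  fwd_sound' relAll_5_4 ks5_ok F5_15267790848
    ⟨V4_15167127552_ok, trivial⟩ ⟨W5_15216934912_ok, W5_15200419840_ok, W5_15183904768_ok,
    trivial⟩ F5_15267790848_chk

theorem V5_15251275776_ok : Fwd.Has6 Inst.T 5 V5_15251275776 :=
  fwd_sound' relAll_5_4 ks5_ok F5_15251275776
    ⟨V4_15200157696_ok, V4_15150612480_ok, trivial⟩ ⟨W5_15216934912_ok, W5_15200419840_ok,
    W5_15183904768_ok, W5_15167389696_ok, W5_14159970304_ok, W5_14143455232_ok, W5_14126940160_ok,
    W5_14110425088_ok, trivial⟩ F5_15251275776_chk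

theorem V5_15251017728_ok : Fwd.Has6 Inst.T 5 V5_15251017728 :=
  fwd_sound' relAll_5_4 ks5_ok F5_15251017728
    ⟨V4_14093389824_ok, V4_15150354432_ok, trivial⟩ ⟨W5_15200419840_ok, W5_15183904768_ok,
    W5_15183646720_ok, W5_15167131648_ok, W5_14143455232_ok, W5_14126940160_ok, W5_14126682112_ok,
    W5_14110167040_ok, trivial⟩ F5_15251017728_chk

theorem V5_15234760704_ok : Fwd.Has6 Inst.T 5 V5_15234760704 :=
  fwd_sound' relAll_5_4 ks5_ok F5_15234760704
    ⟨V4_13086228480_ok, V4_15134097408_ok, V4_13020168192_ok, trivial⟩ ⟨W5_15216934912_ok,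
    W5_15200419840_ok, W5_15183904768_ok, W5_15167389696_ok, W5_15150874624_ok, W5_14159970304_ok,
    W5_14143455232_ok, W5_14126940160_ok, W5_14110425088_ok, W5_14093910016_ok, W5_13086490624_ok,
    W5_13069975552_ok, W5_13053460480_ok, W5_13036945408_ok, trivial⟩ F5_15234760704_chk

theorem V5_15234502656_ok : Fwd.Has6 Inst.T 5 V5_15234502656 :=
  fwd_sound' relAll_5_4 ks5_ok F5_15234502656
    ⟨V4_13053198336_ok, V4_14076874752_ok, trivial⟩ ⟨W5_15200419840_ok, W5_15183904768_ok,
    W5_15183646720_ok, W5_15167389696_ok, W5_15167131648_ok, W5_15150616576_ok, W5_14143455232_ok,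
    W5_14126940160_ok, W5_14126682112_ok, W5_14110425088_ok, W5_14110167040_ok, W5_14093651968_ok,
    W5_13086490624_ok, W5_13069975552_ok, W5_13053460480_ok, W5_13053202432_ok, W5_13036687360_ok,
    trivial⟩ F5_15234502656_chk

theorem V5_15234244608_ok : Fwd.Has6 Inst.T 5 V5_15234244608 :=
  fwd_sound' relAll_5_4 ks5_ok F5_15234244608
    ⟨V4_13053198336_ok, V4_13019652096_ok, trivial⟩ ⟨W5_15183904768_ok, W5_15167131648_ok,
    W5_15150358528_ok, W5_14126940160_ok, W5_14110167040_ok, W5_14093393920_ok, W5_13069975552_ok,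
    W5_13053202432_ok, W5_13036429312_ok, trivial⟩ F5_15234244608_chk

theorem V5_15234240576_ok : Fwd.Has6 Inst.T 5 V5_15234240576 :=
  fwd_sound' relAll_5_4 ks5_ok F5_15234240576
    ⟨V4_14109904896_ok, trivial⟩ ⟨W5_15183646720_ok, W5_15167131648_ok, W5_15150354496_ok,
    W5_14126682112_ok, W5_14110167040_ok, W5_14093389888_ok, W5_13053202432_ok, W5_13036425280_ok,
    trivial⟩ F5_15234240576_chk

theorem V5_15218245632_ok : Fwd.Has6 Inst.T 5 V5_15218245632 :=
  fwd_sound' relAll_5_4 ks5_ok F5_15218245632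
    ⟨V4_15200157696_ok, V4_11946688512_ok, V4_13053198336_ok, trivial⟩ ⟨W5_15216934912_ok,
    W5_15200419840_ok, W5_15183904768_ok, W5_15167389696_ok, W5_15150874624_ok, W5_15134359552_ok,
    W5_14143455232_ok, W5_14126940160_ok, W5_14110425088_ok, W5_14093910016_ok, W5_14077394944_ok,
    W5_13069975552_ok, W5_13053460480_ok, W5_13036945408_ok, W5_13020430336_ok, W5_11979980800_ok,
    W5_11963465728_ok, trivial⟩ F5_15218245632_chk

theorem V5_15217987584_ok : Fwd.Has6 Inst.T 5 V5_15217987584 :=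
  fwd_sound' relAll_5_4 ks5_ok F5_15217987584
    ⟨V4_11995975680_ok, V4_15134097408_ok, V4_13020168192_ok, V4_11946430464_ok, trivial⟩ ⟨
    W5_15200419840_ok, W5_15183904768_ok, W5_15183646720_ok, W5_15167389696_ok, W5_15167131648_ok,
    W5_15150874624_ok, W5_15150616576_ok, W5_15134101504_ok, W5_14143455232_ok, W5_14126940160_ok,
    W5_14126682112_ok, W5_14110425088_ok, W5_14110167040_ok, W5_14093910016_ok, W5_14093651968_ok,
    W5_14077136896_ok, W5_13069975552_ok, W5_13053460480_ok, W5_13053202432_ok, W5_13036945408_ok,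
    W5_13036687360_ok, W5_13020172288_ok, W5_11996237824_ok, W5_11979980800_ok, W5_11979722752_ok,
    W5_11963207680_ok, trivial⟩ F5_15217987584_chk

theorem V5_15217729536_ok : Fwd.Has6 Inst.T 5 V5_15217729536 :=
  fwd_sound' relAll_5_4 ks5_ok F5_15217729536
    ⟨V4_13053198336_ok, V4_11962945536_ok, V4_13019652096_ok, trivial⟩ ⟨W5_15183904768_ok,
    W5_15167389696_ok, W5_15167131648_ok, W5_15150616576_ok, W5_15150358528_ok, W5_15133843456_ok,
    W5_14126940160_ok, W5_14110425088_ok, W5_14110167040_ok, W5_14093651968_ok, W5_14093393920_ok,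
    W5_14076878848_ok, W5_13069975552_ok, W5_13053460480_ok, W5_13053202432_ok, W5_13036687360_ok,
    W5_13036429312_ok, W5_13019914240_ok, W5_11996237824_ok, W5_11979722752_ok, W5_11979464704_ok,
    W5_11962949632_ok, trivial⟩ F5_15217729536_chk

theorem V5_15217725504_ok : Fwd.Has6 Inst.T 5 V5_15217725504 :=
  fwd_sound' relAll_5_4 ks5_ok F5_15217725504
    ⟨V4_11995975680_ok, V4_11962945536_ok, trivial⟩ ⟨W5_15183646720_ok, W5_15167131648_ok,
    W5_15150616576_ok, W5_15150354496_ok, W5_14126682112_ok, W5_14110167040_ok, W5_14093651968_ok,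
    W5_14093389888_ok, W5_14076874816_ok, W5_13053202432_ok, W5_13036687360_ok, W5_13036425280_ok,
    W5_13019910208_ok, W5_11996237824_ok, W5_11995975744_ok, W5_11979722752_ok, W5_11962945600_ok,
    trivial⟩ F5_15217725504_chk

theorem V5_15201730560_ok : Fwd.Has6 Inst.T 5 V5_15201730560 :=
  fwd_sound' relAll_5_4 ks5_ok F5_15201730560
    ⟨V4_12987138048_ok, V4_10906238976_ok, V4_15200157696_ok, V4_10873208832_ok,
    V4_13053198336_ok, trivial⟩ ⟨W5_15200419840_ok, W5_15183904768_ok, W5_15167389696_ok,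
    W5_15150874624_ok, W5_15134359552_ok, W5_14126940160_ok, W5_14110425088_ok, W5_14093910016_ok,
    W5_14077394944_ok, W5_14060879872_ok, W5_13053460480_ok, W5_13036945408_ok, W5_13020430336_ok,
    W5_13003915264_ok, W5_11979980800_ok, W5_11963465728_ok, W5_11946950656_ok, W5_10906501120_ok,
    W5_10889986048_ok, trivial⟩ F5_15201730560_chk

theorem V5_15201472512_ok : Fwd.Has6 Inst.T 5 V5_15201472512 :=
  fwd_sound' relAll_5_4 ks5_ok F5_15201472512
    ⟨V4_10906238976_ok, V4_13053198336_ok, V4_14126678016_ok, V4_11929915392_ok,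
    V4_10889723904_ok, V4_11979460608_ok, V4_11946688512_ok, trivial⟩ ⟨W5_15200419840_ok,
    W5_15183904768_ok, W5_15183646720_ok, W5_15167389696_ok, W5_15167131648_ok, W5_15150874624_ok,
    W5_15150616576_ok, W5_15134359552_ok, W5_15134101504_ok, W5_15117586432_ok, W5_14126940160_ok,
    W5_14126682112_ok, W5_14110425088_ok, W5_14110167040_ok, W5_14093910016_ok, W5_14093651968_ok,
    W5_14077394944_ok, W5_14077136896_ok, W5_14060621824_ok, W5_13053460480_ok, W5_13053202432_ok,
    W5_13036945408_ok, W5_13036687360_ok, W5_13020430336_ok, W5_13020172288_ok, W5_13003657216_ok,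
    W5_11979980800_ok, W5_11979722752_ok, W5_11963465728_ok, W5_11963207680_ok, W5_11946692608_ok,
    W5_10906501120_ok, W5_10906243072_ok, W5_10889728000_ok, trivial⟩ F5_15201472512_chk

theorem V5_15201214464_ok : Fwd.Has6 Inst.T 5 V5_15201214464 :=
  fwd_sound' relAll_5_4 ks5_ok F5_15201214464
    ⟨V4_10906238976_ok, V4_10905722880_ok, V4_13053198336_ok, V4_10872692736_ok,
    V4_15100551168_ok, V4_13020168192_ok, V4_12986621952_ok, trivial⟩ ⟨W5_15183904768_ok,
    W5_15167389696_ok, W5_15167131648_ok, W5_15150874624_ok, W5_15150616576_ok, W5_15150358528_ok,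
    W5_15134101504_ok, W5_15133843456_ok, W5_15117328384_ok, W5_14126940160_ok, W5_14110425088_ok,
    W5_14110167040_ok, W5_14093910016_ok, W5_14093651968_ok, W5_14093393920_ok, W5_14077136896_ok,
    W5_14076878848_ok, W5_14060363776_ok, W5_13053460480_ok, W5_13053202432_ok, W5_13036945408_ok,
    W5_13036687360_ok, W5_13036429312_ok, W5_13020172288_ok, W5_13019914240_ok, W5_13003399168_ok,
    W5_11979980800_ok, W5_11979722752_ok, W5_11979464704_ok, W5_11963207680_ok, W5_11962949632_ok,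
    W5_11946434560_ok, W5_10906243072_ok, W5_10905985024_ok, W5_10889469952_ok, trivial⟩
    F5_15201214464_chk

theorem V5_15201210432_ok : Fwd.Has6 Inst.T 5 V5_15201210432 :=
  fwd_sound' relAll_5_4 ks5_ok F5_15201210432
    ⟨V4_10889465856_ok, V4_11979460608_ok, V4_14109904896_ok, trivial⟩ ⟨W5_15183646720_ok,
    W5_15167131648_ok, W5_15150616576_ok, W5_15150354496_ok, W5_15134101504_ok, W5_15117324352_ok,
    W5_14126682112_ok, W5_14110167040_ok, W5_14093651968_ok, W5_14093389888_ok, W5_14077136896_ok,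
    W5_14076874816_ok, W5_14060359744_ok, W5_13053202432_ok, W5_13036687360_ok, W5_13036425280_ok,
    W5_13020172288_ok, W5_13019910208_ok, W5_13003395136_ok, W5_11979722752_ok, W5_11963207680_ok,
    W5_11962945600_ok, W5_11946430528_ok, W5_10906243072_ok, W5_10889465920_ok, trivial⟩
    F5_15201210432_chk

theorem V5_15200956416_ok : Fwd.Has6 Inst.T 5 V5_15200956416 :=
  fwd_sound' relAll_5_4 ks5_ok F5_15200956416
    ⟨V4_11979718656_ok, V4_13036683264_ok, trivial⟩ ⟨W5_15167389696_ok, W5_15150616576_ok,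
    W5_15133843456_ok, W5_14110425088_ok, W5_14093651968_ok, W5_14076878848_ok, W5_14060105728_ok,
    W5_13053460480_ok, W5_13036687360_ok, W5_13019914240_ok, W5_13003141120_ok, W5_11979722752_ok,
    W5_11962949632_ok, W5_11946176512_ok, W5_10905985024_ok, W5_10889211904_ok, trivial⟩
    F5_15200956416_chk

theorem V5_15200952384_ok : Fwd.Has6 Inst.T 5 V5_15200952384 :=
  fwd_sound' relAll_5_4 ks5_ok F5_15200952384
    ⟨V4_10905722880_ok, V4_11962945536_ok, V4_11979460608_ok, trivial⟩ ⟨W5_15167131648_ok,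
    W5_15150616576_ok, W5_15150358528_ok, W5_15150354496_ok, W5_15133843456_ok, W5_15133581376_ok,
    W5_15117066304_ok, W5_14110167040_ok, W5_14093651968_ok, W5_14093393920_ok, W5_14093389888_ok,
    W5_14076878848_ok, W5_14076874816_ok, W5_14060101696_ok, W5_13053202432_ok, W5_13036687360_ok,
    W5_13036429312_ok, W5_13036425280_ok, W5_13019914240_ok, W5_13019910208_ok, W5_13019652160_ok,
    W5_13003137088_ok, W5_11979722752_ok, W5_11979464704_ok, W5_11962949632_ok, W5_11962945600_ok,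
    W5_11962687552_ok, W5_11946172480_ok, W5_10905985024_ok, W5_10905722944_ok, W5_10889207872_ok,
    trivial⟩ F5_15200952384_chk

theorem V5_15200690304_ok : Fwd.Has6 Inst.T 5 V5_15200690304 :=
  fwd_sound' relAll_5_4 ks5_ok F5_15200690304
    ⟨V4_10905722880_ok, V4_13019652096_ok, trivial⟩ ⟨W5_15150358528_ok, W5_15133581376_ok,
    W5_15116804224_ok, W5_14093393920_ok, W5_14059839616_ok, W5_13036429312_ok, W5_13019652160_ok,
    W5_13002875008_ok, W5_11979464704_ok, W5_11962687552_ok, W5_11945910400_ok, W5_10905722944_ok,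
    trivial⟩ F5_15200690304_chk

theorem V5_15185215488_ok : Fwd.Has6 Inst.T 5 V5_15185215488 :=
  fwd_sound' relAll_5_4 ks5_ok F5_15185215488
    ⟨V4_10873208832_ok, V4_15183642624_ok, V4_10889723904_ok, trivial⟩ ⟨W5_15183904768_ok,
    W5_15167389696_ok, W5_15150874624_ok, W5_14110425088_ok, W5_14093910016_ok, W5_14077394944_ok,
    W5_13036945408_ok, W5_13020430336_ok, W5_13003915264_ok, W5_11963465728_ok, W5_11946950656_ok,
    W5_10889986048_ok, W5_10873470976_ok, trivial⟩ F5_15185215488_chk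

theorem V5_15184957440_ok : Fwd.Has6 Inst.T 5 V5_15184957440 :=
  fwd_sound' relAll_5_4 ks5_ok F5_15184957440
    ⟨V4_12987138048_ok, V4_10873208832_ok, V4_9799471104_ok, V4_14109904896_ok, V4_15183642624_ok,
    V4_11962945536_ok, V4_10856435712_ok, V4_10889723904_ok, trivial⟩ ⟨W5_15183904768_ok,
    W5_15183646720_ok, W5_15167389696_ok, W5_15167131648_ok, W5_15150874624_ok, W5_15150616576_ok,
    W5_15134359552_ok, W5_15134101504_ok, W5_14110425088_ok, W5_14110167040_ok, W5_14093910016_ok,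
    W5_14093651968_ok, W5_14077394944_ok, W5_14077136896_ok, W5_14060879872_ok, W5_14060621824_ok,
    W5_13036945408_ok, W5_13036687360_ok, W5_13020430336_ok, W5_13020172288_ok, W5_13003915264_ok,
    W5_13003657216_ok, W5_12987142144_ok, W5_11963465728_ok, W5_11963207680_ok, W5_11946950656_ok,
    W5_11946692608_ok, W5_11930177536_ok, W5_10889986048_ok, W5_10889728000_ok, W5_10873212928_ok,
    W5_9816248320_ok, trivial⟩ F5_15184957440_chk

theorem V5_15184699392_ok : Fwd.Has6 Inst.T 5 V5_15184699392 :=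
  fwd_sound' relAll_5_4 ks5_ok F5_15184699392
    ⟨V4_9799213056_ok, V4_10889723904_ok, V4_10872692736_ok, V4_11946688512_ok, V4_13020168192_ok,
    V4_13019652096_ok, V4_10889465856_ok, trivial⟩ ⟨W5_15183904768_ok, W5_15167389696_ok,
    W5_15167131648_ok, W5_15150874624_ok, W5_15150616576_ok, W5_15150358528_ok, W5_15134359552_ok,
    W5_15134101504_ok, W5_15133843456_ok, W5_15117586432_ok, W5_15117328384_ok, W5_14110425088_ok,
    W5_14110167040_ok, W5_14093910016_ok, W5_14093651968_ok, W5_14093393920_ok, W5_14077394944_ok,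
    W5_14077136896_ok, W5_14076878848_ok, W5_14060621824_ok, W5_14060363776_ok, W5_14043848704_ok,
    W5_13036945408_ok, W5_13036687360_ok, W5_13036429312_ok, W5_13020430336_ok, W5_13020172288_ok,
    W5_13019914240_ok, W5_13003657216_ok, W5_13003399168_ok, W5_12986884096_ok, W5_11963465728_ok,
    W5_11963207680_ok, W5_11962949632_ok, W5_11946692608_ok, W5_11946434560_ok, W5_11929919488_ok,
    W5_10889728000_ok, W5_10889469952_ok, W5_10872954880_ok, W5_9815990272_ok, trivial⟩
    F5_15184699392_chk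

theorem V5_15184695360_ok : Fwd.Has6 Inst.T 5 V5_15184695360 :=
  fwd_sound' relAll_5_4 ks5_ok F5_15184695360
    ⟨V4_14109904896_ok, V4_11962945536_ok, V4_11929915392_ok, trivial⟩ ⟨W5_15183646720_ok,
    W5_15167131648_ok, W5_15150616576_ok, W5_15150354496_ok, W5_15134101504_ok, W5_15117586432_ok,
    W5_15117324352_ok, W5_14110167040_ok, W5_14093651968_ok, W5_14093389888_ok, W5_14077136896_ok,
    W5_14076874816_ok, W5_14060621824_ok, W5_14060359744_ok, W5_14043844672_ok, W5_13036687360_ok,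
    W5_13036425280_ok, W5_13020172288_ok, W5_13019910208_ok, W5_13003657216_ok, W5_13003395136_ok,
    W5_12986880064_ok, W5_11963207680_ok, W5_11962945600_ok, W5_11946692608_ok, W5_11946430528_ok,
    W5_11929915456_ok, W5_10889728000_ok, W5_10889465920_ok, W5_10872950848_ok, W5_9815986240_ok,
    trivial⟩ F5_15184695360_chk

theorem V5_15184441344_ok : Fwd.Has6 Inst.T 5 V5_15184441344 :=
  fwd_sound' relAll_5_4 ks5_ok F5_15184441344
    ⟨V4_9815470080_ok, V4_13020168192_ok, V4_10872692736_ok, V4_13036683264_ok, trivial⟩ ⟨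
    W5_15167389696_ok, W5_15150874624_ok, W5_15150616576_ok, W5_15134101504_ok, W5_15133843456_ok,
    W5_15117328384_ok, W5_15100555264_ok, W5_14110425088_ok, W5_14093910016_ok, W5_14093651968_ok,
    W5_14077136896_ok, W5_14076878848_ok, W5_14060363776_ok, W5_14060105728_ok, W5_14043590656_ok,
    W5_13036945408_ok, W5_13036687360_ok, W5_13020172288_ok, W5_13019914240_ok, W5_13003399168_ok,
    W5_13003141120_ok, W5_12986626048_ok, W5_11963207680_ok, W5_11962949632_ok, W5_11946434560_ok,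
    W5_11946176512_ok, W5_11929661440_ok, W5_10889469952_ok, W5_10889211904_ok, W5_10872696832_ok,
    W5_9815732224_ok, trivial⟩ F5_15184441344_chk

theorem V5_15184437312_ok : Fwd.Has6 Inst.T 5 V5_15184437312 :=
  fwd_sound' relAll_5_4 ks5_ok F5_15184437312
    ⟨V4_10872692736_ok, V4_10889465856_ok, V4_15100551168_ok, V4_11962945536_ok,
    V4_14043586560_ok, trivial⟩ ⟨W5_15167131648_ok, W5_15150616576_ok, W5_15150358528_ok,
    W5_15150354496_ok, W5_15134101504_ok, W5_15133843456_ok, W5_15133581376_ok, W5_15117328384_ok,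
    W5_15117324352_ok, W5_15117066304_ok, W5_15100551232_ok, W5_14110167040_ok, W5_14093651968_ok,
    W5_14093393920_ok, W5_14093389888_ok, W5_14077136896_ok, W5_14076878848_ok, W5_14076874816_ok,
    W5_14060363776_ok, W5_14060359744_ok, W5_14060101696_ok, W5_14043586624_ok, W5_13036687360_ok,
    W5_13036429312_ok, W5_13036425280_ok, W5_13020172288_ok, W5_13019914240_ok, W5_13019910208_ok,
    W5_13019652160_ok, W5_13003399168_ok, W5_13003395136_ok, W5_13003137088_ok, W5_12986622016_ok,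
    W5_11963207680_ok, W5_11962949632_ok, W5_11962945600_ok, W5_11962687552_ok, W5_11946434560_ok,
    W5_11946430528_ok, W5_11946172480_ok, W5_11929657408_ok, W5_10889469952_ok, W5_10889465920_ok,
    W5_10889207872_ok, W5_10872692800_ok, W5_9815728192_ok, trivial⟩ F5_15184437312_chk

theorem V5_15184179264_ok : Fwd.Has6 Inst.T 5 V5_15184179264 :=
  fwd_sound' relAll_5_4 ks5_ok F5_15184179264
    ⟨V4_9815470080_ok, V4_11962945536_ok, trivial⟩ ⟨W5_15150616576_ok, W5_15133843456_ok,
    W5_15117066304_ok, W5_14093651968_ok, W5_14076878848_ok, W5_14076874816_ok, W5_14060105728_ok,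
    W5_14060101696_ok, W5_13036687360_ok, W5_13019914240_ok, W5_13019910208_ok, W5_13003141120_ok,
    W5_13003137088_ok, W5_11962949632_ok, W5_11962945600_ok, W5_11946176512_ok, W5_11946172480_ok,
    W5_11929399360_ok, W5_10889211904_ok, W5_10889207872_ok, W5_9815470144_ok, trivial⟩
    F5_15184179264_chk

theorem V5_15184175232_ok : Fwd.Has6 Inst.T 5 V5_15184175232 :=
  fwd_sound' relAll_5_4 ks5_ok F5_15184175232
    ⟨V4_11946172416_ok, trivial⟩ ⟨W5_15150358528_ok, W5_15133843456_ok, W5_15133581376_ok,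
    W5_15117066304_ok, W5_15116804224_ok, W5_14093393920_ok, W5_14076878848_ok, W5_14060101696_ok,
    W5_14059839616_ok, W5_13036429312_ok, W5_13019914240_ok, W5_13019652160_ok, W5_13003137088_ok,
    W5_13002875008_ok, W5_11962949632_ok, W5_11962687552_ok, W5_11946172480_ok, W5_11945910400_ok,
    W5_10889207872_ok, W5_10872430720_ok, trivial⟩ F5_15184175232_chk

theorem V5_15168700416_ok : Fwd.Has6 Inst.T 5 V5_15168700416 :=
  fwd_sound' relAll_5_4 ks5_ok F5_15168700416
    ⟨V4_8726249472_ok, V4_15167127552_ok, trivial⟩ ⟨W5_15167389696_ok, W5_14093910016_ok,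
    W5_13020430336_ok, W5_11946950656_ok, W5_10873470976_ok, W5_9799991296_ok, trivial⟩
    F5_15168700416_chk

theorem V5_15168442368_ok : Fwd.Has6 Inst.T 5 V5_15168442368 :=
  fwd_sound' relAll_5_4 ks5_ok F5_15168442368
    ⟨V4_10873208832_ok, V4_9799471104_ok, V4_15167127552_ok, trivial⟩ ⟨W5_15167389696_ok,
    W5_15167131648_ok, W5_15150874624_ok, W5_15150616576_ok, W5_14093910016_ok, W5_14093651968_ok,
    W5_14077394944_ok, W5_14077136896_ok, W5_13020430336_ok, W5_13020172288_ok, W5_13003915264_ok,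
    W5_13003657216_ok, W5_11946950656_ok, W5_11946692608_ok, W5_11930177536_ok, W5_10873470976_ok,
    W5_10873212928_ok, W5_10856697856_ok, W5_9799733248_ok, trivial⟩ F5_15168442368_chk

theorem V5_15168184320_ok : Fwd.Has6 Inst.T 5 V5_15168184320 :=
  fwd_sound' relAll_5_4 ks5_ok F5_15168184320
    ⟨V4_8725733376_ok, V4_10873208832_ok, V4_10839662592_ok, V4_12987138048_ok, V4_9799471104_ok,
    V4_15167127552_ok, V4_13019652096_ok, V4_9799213056_ok, trivial⟩ ⟨W5_15167389696_ok,
    W5_15167131648_ok, W5_15150874624_ok, W5_15150616576_ok, W5_15150358528_ok, W5_15134359552_ok,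
    W5_15134101504_ok, W5_15133843456_ok, W5_14093910016_ok, W5_14093651968_ok, W5_14093393920_ok,
    W5_14077394944_ok, W5_14077136896_ok, W5_14076878848_ok, W5_14060879872_ok, W5_14060621824_ok,
    W5_14060363776_ok, W5_13020430336_ok, W5_13020172288_ok, W5_13019914240_ok, W5_13003915264_ok,
    W5_13003657216_ok, W5_13003399168_ok, W5_12987142144_ok, W5_12986884096_ok, W5_11946950656_ok,
    W5_11946692608_ok, W5_11946434560_ok, W5_11930177536_ok, W5_11929919488_ok, W5_11913404416_ok,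
    W5_10873212928_ok, W5_10872954880_ok, W5_10856439808_ok, W5_9799475200_ok, trivial⟩
    F5_15168184320_chk

theorem V5_15168180288_ok : Fwd.Has6 Inst.T 5 V5_15168180288 :=
  fwd_sound' relAll_5_4 ks5_ok F5_15168180288
    ⟨V4_9799471104_ok, V4_10856435712_ok, V4_10872950784_ok, trivial⟩ ⟨W5_15167131648_ok,
    W5_15150616576_ok, W5_15150354496_ok, W5_15134101504_ok, W5_14093651968_ok, W5_14093389888_ok,
    W5_14077136896_ok, W5_14076874816_ok, W5_14060621824_ok, W5_14060359744_ok, W5_13020172288_ok,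
    W5_13019910208_ok, W5_13003657216_ok, W5_13003395136_ok, W5_12987142144_ok, W5_12986880064_ok,
    W5_11946692608_ok, W5_11946430528_ok, W5_11930177536_ok, W5_11929915456_ok, W5_10873212928_ok,
    W5_10872950848_ok, W5_10856435776_ok, W5_9799471168_ok, trivial⟩ F5_15168180288_chk

theorem V5_15167926272_ok : Fwd.Has6 Inst.T 5 V5_15167926272 :=
  fwd_sound' relAll_5_4 ks5_ok F5_15167926272
    ⟨V4_9782439936_ok, V4_11946688512_ok, V4_13020168192_ok, V4_9799213056_ok, V4_10872692736_ok,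
    trivial⟩ ⟨W5_15167389696_ok, W5_15150874624_ok, W5_15150616576_ok, W5_15134359552_ok,
    W5_15134101504_ok, W5_15133843456_ok, W5_15117586432_ok, W5_15117328384_ok, W5_14093910016_ok,
    W5_14093651968_ok, W5_14077394944_ok, W5_14077136896_ok, W5_14076878848_ok, W5_14060621824_ok,
    W5_14060363776_ok, W5_14060105728_ok, W5_14043848704_ok, W5_14043590656_ok, W5_13020430336_ok,
    W5_13020172288_ok, W5_13019914240_ok, W5_13003657216_ok, W5_13003399168_ok, W5_13003141120_ok,
    W5_12986884096_ok, W5_12986626048_ok, W5_11946692608_ok, W5_11946434560_ok, W5_11946176512_ok,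
    W5_11929919488_ok, W5_11929661440_ok, W5_11913146368_ok, W5_10872954880_ok, W5_10872696832_ok,
    W5_10856181760_ok, W5_9799217152_ok, trivial⟩ F5_15167926272_chk

theorem V5_15167668224_ok : Fwd.Has6 Inst.T 5 V5_15167668224 :=
  fwd_sound' relAll_5_4 ks5_ok F5_15167668224
    ⟨V4_8725217280_ok, V4_13020168192_ok, V4_12953075712_ok, V4_10872692736_ok, trivial⟩ ⟨
    W5_15150874624_ok, W5_15134101504_ok, W5_15117328384_ok, W5_15100555264_ok, W5_14093910016_ok,
    W5_14077136896_ok, W5_14060363776_ok, W5_14043590656_ok, W5_14026817536_ok, W5_13020172288_ok,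
    W5_13003399168_ok, W5_12986626048_ok, W5_12969852928_ok, W5_11946434560_ok, W5_11929661440_ok,
    W5_11912888320_ok, W5_10872696832_ok, W5_10855923712_ok, W5_9798959104_ok, trivial⟩
    F5_15167668224_chk

theorem V5_15151669248_ok : Fwd.Has6 Inst.T 5 V5_15151669248 :=
  fwd_sound' relAll_5_4 ks5_ok F5_15151669248
    ⟨V4_10856435712_ok, V4_11930173440_ok, trivial⟩ ⟨W5_15150874624_ok, W5_15150616576_ok,
    W5_15150358528_ok, W5_14077394944_ok, W5_14077136896_ok, W5_14076878848_ok, W5_13003915264_ok,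
    W5_13003657216_ok, W5_13003399168_ok, W5_11930177536_ok, W5_11929919488_ok, W5_10856697856_ok,
    W5_10856439808_ok, trivial⟩ F5_15151669248_chk

theorem V5_15151665216_ok : Fwd.Has6 Inst.T 5 V5_15151665216 :=
  fwd_sound' relAll_5_4 ks5_ok F5_15151665216
    ⟨V4_10856435712_ok, V4_11929915392_ok, trivial⟩ ⟨W5_15150616576_ok, W5_15150354496_ok,
    W5_14077136896_ok, W5_14076874816_ok, W5_13003657216_ok, W5_13003395136_ok, W5_11930177536_ok,
    W5_11929915456_ok, W5_10856697856_ok, W5_10856435776_ok, W5_9782956096_ok, trivial⟩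
    F5_15151665216_chk

theorem V5_15151411200_ok : Fwd.Has6 Inst.T 5 V5_15151411200 :=
  fwd_sound' relAll_5_4 ks5_ok F5_15151411200
    ⟨V4_12987138048_ok, V4_9765924864_ok, V4_10839662592_ok, V4_9782439936_ok, V4_11930173440_ok,
    V4_10856435712_ok, trivial⟩ ⟨W5_15150874624_ok, W5_15150616576_ok, W5_15134359552_ok,
    W5_15134101504_ok, W5_15133843456_ok, W5_14077394944_ok, W5_14077136896_ok, W5_14076878848_ok,
    W5_14060879872_ok, W5_14060621824_ok, W5_14060363776_ok, W5_14060105728_ok, W5_13003915264_ok,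
    W5_13003657216_ok, W5_13003399168_ok, W5_13003141120_ok, W5_12987142144_ok, W5_12986884096_ok,
    W5_12986626048_ok, W5_11930177536_ok, W5_11929919488_ok, W5_11929661440_ok, W5_11913404416_ok,
    W5_11913146368_ok, W5_10856439808_ok, W5_10856181760_ok, W5_10839666688_ok, W5_9782702080_ok,
    trivial⟩ F5_15151411200_chk

theorem V5_15151407168_ok : Fwd.Has6 Inst.T 5 V5_15151407168 :=
  fwd_sound' relAll_5_4 ks5_ok F5_15151407168
    ⟨V4_10839662592_ok, V4_10856435712_ok, V4_11929915392_ok, trivial⟩ ⟨W5_15150616576_ok,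
    W5_15150358528_ok, W5_15150354496_ok, W5_15134101504_ok, W5_15133843456_ok, W5_15133581376_ok,
    W5_14077136896_ok, W5_14076878848_ok, W5_14076874816_ok, W5_14060621824_ok, W5_14060363776_ok,
    W5_14060359744_ok, W5_14060101696_ok, W5_13003657216_ok, W5_13003399168_ok, W5_13003395136_ok,
    W5_13003137088_ok, W5_12987142144_ok, W5_12986884096_ok, W5_12986880064_ok, W5_12986622016_ok,
    W5_11930177536_ok, W5_11929919488_ok, W5_11929915456_ok, W5_11929657408_ok, W5_11913404416_ok,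
    W5_11913142336_ok, W5_10856439808_ok, W5_10856435776_ok, W5_10856177728_ok, W5_10839662656_ok,
    W5_9782698048_ok, trivial⟩ F5_15151407168_chk

theorem V5_15151153152_ok : Fwd.Has6 Inst.T 5 V5_15151153152 :=
  fwd_sound' relAll_5_4 ks5_ok F5_15151153152
    ⟨V4_9782439936_ok, V4_11929915392_ok, V4_10839146496_ok, V4_13003653120_ok, trivial⟩ ⟨
    W5_15150874624_ok, W5_15134359552_ok, W5_15134101504_ok, W5_15117586432_ok, W5_15117328384_ok,
    W5_14077394944_ok, W5_14077136896_ok, W5_14060621824_ok, W5_14060363776_ok, W5_14043848704_ok,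
    W5_14043590656_ok, W5_13003657216_ok, W5_13003399168_ok, W5_12986884096_ok, W5_12986626048_ok,
    W5_12969852928_ok, W5_11929919488_ok, W5_11929661440_ok, W5_11913146368_ok, W5_11912888320_ok,
    W5_10856181760_ok, W5_10855923712_ok, W5_10839408640_ok, W5_9782444032_ok, trivial⟩
    F5_15151153152_chk

theorem V5_15150891072_ok : Fwd.Has6 Inst.T 5 V5_15150891072 :=
  fwd_sound' relAll_5_4 ks5_ok F5_15150891072
    ⟨V4_12953075712_ok, V4_10839146496_ok, V4_10855919616_ok, trivial⟩ ⟨W5_15134101504_ok,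
    W5_15117328384_ok, W5_15117324352_ok, W5_15100555264_ok, W5_15100551232_ok, W5_14077136896_ok,
    W5_14060363776_ok, W5_14060359744_ok, W5_14043590656_ok, W5_14043586624_ok, W5_14026817536_ok,
    W5_13003399168_ok, W5_13003395136_ok, W5_12986626048_ok, W5_12986622016_ok, W5_12969852928_ok,
    W5_12953075776_ok, W5_11929661440_ok, W5_11929657408_ok, W5_11912888320_ok, W5_11912884288_ok,
    W5_10855923712_ok, W5_10855919680_ok, W5_10839146560_ok, W5_9782181952_ok, trivial⟩
    F5_15150891072_chk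

theorem V5_15134638080_ok : Fwd.Has6 Inst.T 5 V5_15134638080 :=
  fwd_sound' relAll_5_4 ks5_ok F5_15134638080
    ⟨V4_8692187136_ok, V4_12987138048_ok, V4_10839662592_ok, trivial⟩ ⟨W5_15134359552_ok,
    W5_15134101504_ok, W5_14060879872_ok, W5_14060621824_ok, W5_14060363776_ok, W5_12987142144_ok,
    W5_12986884096_ok, W5_12986626048_ok, W5_11913404416_ok, W5_11913146368_ok, W5_11912888320_ok,
    W5_10839666688_ok, W5_10839408640_ok, W5_9765928960_ok, trivial⟩ F5_15134638080_chk

theorem V5_15134634048_ok : Fwd.Has6 Inst.T 5 V5_15134634048 :=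
  fwd_sound' relAll_5_4 ks5_ok F5_15134634048
    ⟨V4_9765924864_ok, V4_10839662592_ok, trivial⟩ ⟨W5_15134101504_ok, W5_15133843456_ok,
    W5_14060621824_ok, W5_14060363776_ok, W5_14060359744_ok, W5_14060105728_ok, W5_14060101696_ok,
    W5_12987142144_ok, W5_12986884096_ok, W5_12986880064_ok, W5_12986626048_ok, W5_12986622016_ok,
    W5_11913404416_ok, W5_11913146368_ok, W5_11913142336_ok, W5_11912884288_ok, W5_10839666688_ok,
    W5_10839662656_ok, W5_10839404608_ok, W5_9765924928_ok, trivial⟩ F5_15134634048_chk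

theorem V5_15134630016_ok : Fwd.Has6 Inst.T 5 V5_15134630016 :=
  fwd_sound' relAll_5_4 ks5_ok F5_15134630016
    ⟨V4_10839662592_ok, V4_11913142272_ok, trivial⟩ ⟨W5_15133843456_ok, W5_15133581376_ok,
    W5_14060363776_ok, W5_14060101696_ok, W5_14059839616_ok, W5_12986884096_ok, W5_12986622016_ok,
    W5_11913404416_ok, W5_11913142336_ok, W5_11912880256_ok, W5_10839662656_ok, W5_10839400576_ok,
    W5_9765920896_ok, trivial⟩ F5_15134630016_chk

theorem V5_15134376000_ok : Fwd.Has6 Inst.T 5 V5_15134376000 :=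
  fwd_sound' relAll_5_4 ks5_ok F5_15134376000
    ⟨V4_10839146496_ok, V4_11913142272_ok, trivial⟩ ⟨W5_15134101504_ok, W5_15117586432_ok,
    W5_15117328384_ok, W5_15117324352_ok, W5_14060621824_ok, W5_14060363776_ok, W5_14060359744_ok,
    W5_14043848704_ok, W5_14043844672_ok, W5_14043590656_ok, W5_14043586624_ok, W5_12986884096_ok,
    W5_12986880064_ok, W5_12986626048_ok, W5_12986622016_ok, W5_12970106944_ok, W5_12969852928_ok,
    W5_11913146368_ok, W5_11913142336_ok, W5_11912888320_ok, W5_11912884288_ok, W5_11896369216_ok,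
    W5_10839408640_ok, W5_10839404608_ok, W5_10839146560_ok, W5_9765666880_ok, trivial⟩
    F5_15134376000_chk

theorem V5_15100559616_ok : Fwd.Has6 Inst.T 5 V5_15100559616 :=
  fwd_sound' relAll_5_4 ks5_ok F5_15100559616
    ⟨V4_12953075712_ok, trivial⟩ ⟨W5_14026817536_ok, W5_12953075776_ok, W5_11879334016_ok,
    W5_9731850496_ok, trivial⟩ F5_15100559616_chk

theorem V5_14177796096_ok : Fwd.Has6 Inst.T 5 V5_14177796096 :=
  fwd_sound' relAll_5_4 ks5_ok F5_14177796096
    ⟨V4_14077132800_ok, trivial⟩ ⟨W5_14159970304_ok, W5_14143455232_ok, W5_14126940160_ok,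
    W5_14110425088_ok, W5_14093910016_ok, trivial⟩ F5_14177796096_chk

theorem V5_14177538048_ok : Fwd.Has6 Inst.T 5 V5_14177538048 :=
  fwd_sound' relAll_5_4 ks5_ok F5_14177538048
    ⟨V4_14076874752_ok, V4_14109904896_ok, trivial⟩ ⟨W5_14143455232_ok, W5_14126940160_ok,
    W5_14126682112_ok, W5_14110425088_ok, W5_14110167040_ok, W5_14093651968_ok, trivial⟩
    F5_14177538048_chk

theorem V5_14177275968_ok : Fwd.Has6 Inst.T 5 V5_14177275968 :=
  fwd_sound' relAll_5_4 ks5_ok F5_14177275968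
    ⟨V4_14109904896_ok, trivial⟩ ⟨W5_14126682112_ok, W5_14110167040_ok, W5_14093389888_ok,
    trivial⟩ F5_14177275968_chk

theorem V5_14161281024_ok : Fwd.Has6 Inst.T 5 V5_14161281024 :=
  fwd_sound' relAll_5_4 ks5_ok F5_14161281024
    ⟨V4_13086228480_ok, V4_14060617728_ok, V4_13003653120_ok, trivial⟩ ⟨W5_14159970304_ok,
    W5_14143455232_ok, W5_14126940160_ok, W5_14110425088_ok, W5_14093910016_ok, W5_14077394944_ok,
    W5_13086490624_ok, W5_13069975552_ok, W5_13053460480_ok, W5_13036945408_ok, W5_13020430336_ok,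
    trivial⟩ F5_14161281024_chk

theorem V5_14161022976_ok : Fwd.Has6 Inst.T 5 V5_14161022976 :=
  fwd_sound' relAll_5_4 ks5_ok F5_14161022976
    ⟨V4_13020168192_ok, V4_14060359680_ok, trivial⟩ ⟨W5_14143455232_ok, W5_14126940160_ok,
    W5_14126682112_ok, W5_14110425088_ok, W5_14110167040_ok, W5_14093910016_ok, W5_14093651968_ok,
    W5_14077136896_ok, W5_13086490624_ok, W5_13069975552_ok, W5_13053460480_ok, W5_13053202432_ok,
    W5_13036945408_ok, W5_13036687360_ok, W5_13020172288_ok, trivial⟩ F5_14161022976_chk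

theorem V5_14160764928_ok : Fwd.Has6 Inst.T 5 V5_14160764928 :=
  fwd_sound' relAll_5_4 ks5_ok F5_14160764928
    ⟨V4_13053198336_ok, V4_14060101632_ok, trivial⟩ ⟨W5_14126940160_ok, W5_14110425088_ok,
    W5_14110167040_ok, W5_14093651968_ok, W5_14093393920_ok, W5_14076878848_ok, W5_13069975552_ok,
    W5_13053460480_ok, W5_13053202432_ok, W5_13036687360_ok, W5_13036429312_ok, W5_13019914240_ok,
    trivial⟩ F5_14160764928_chk

theorem V5_14160760896_ok : Fwd.Has6 Inst.T 5 V5_14160760896 :=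
  fwd_sound' relAll_5_4 ks5_ok F5_14160760896
    ⟨V4_14109904896_ok, trivial⟩ ⟨W5_14126682112_ok, W5_14110167040_ok, W5_14093651968_ok,
    W5_14093389888_ok, W5_14076874816_ok, W5_13053202432_ok, W5_13036687360_ok, W5_13036425280_ok,
    W5_13019910208_ok, trivial⟩ F5_14160760896_chk

theorem V5_14160502848_ok : Fwd.Has6 Inst.T 5 V5_14160502848 :=
  fwd_sound' relAll_5_4 ks5_ok F5_14160502848
    ⟨V4_13019652096_ok, trivial⟩ ⟨W5_14110167040_ok, W5_14093393920_ok, W5_14093389888_ok,
    W5_13053202432_ok, W5_13036429312_ok, W5_13036425280_ok, W5_13019652160_ok, trivial⟩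
    F5_14160502848_chk

theorem V5_14144765952_ok : Fwd.Has6 Inst.T 5 V5_14144765952 :=
  fwd_sound' relAll_5_4 ks5_ok F5_14144765952
    ⟨V4_12987138048_ok, V4_13053198336_ok, trivial⟩ ⟨W5_14143455232_ok, W5_14126940160_ok,
    W5_14110425088_ok, W5_14093910016_ok, W5_14077394944_ok, W5_14060879872_ok, W5_13069975552_ok,
    W5_13053460480_ok, W5_13036945408_ok, W5_13020430336_ok, W5_13003915264_ok, W5_11979980800_ok,
    W5_11963465728_ok, W5_11946950656_ok, trivial⟩ F5_14144765952_chk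

theorem V5_14144507904_ok : Fwd.Has6 Inst.T 5 V5_14144507904 :=
  fwd_sound' relAll_5_4 ks5_ok F5_14144507904
    ⟨V4_11995975680_ok, V4_11929915392_ok, V4_13053198336_ok, V4_14060617728_ok,
    V4_11979460608_ok, trivial⟩ ⟨W5_14143455232_ok, W5_14126940160_ok, W5_14126682112_ok,
    W5_14110425088_ok, W5_14110167040_ok, W5_14093910016_ok, W5_14093651968_ok, W5_14077394944_ok,
    W5_14077136896_ok, W5_14060621824_ok, W5_13069975552_ok, W5_13053460480_ok, W5_13053202432_ok,
    W5_13036945408_ok, W5_13036687360_ok, W5_13020430336_ok, W5_13020172288_ok, W5_13003657216_ok,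
    W5_11996237824_ok, W5_11979980800_ok, W5_11979722752_ok, W5_11963465728_ok, W5_11963207680_ok,
    W5_11946692608_ok, trivial⟩ F5_14144507904_chk

theorem V5_14144249856_ok : Fwd.Has6 Inst.T 5 V5_14144249856 :=
  fwd_sound' relAll_5_4 ks5_ok F5_14144249856
    ⟨V4_13020168192_ok, V4_13053198336_ok, V4_14043586560_ok, trivial⟩ ⟨W5_14126940160_ok,
    W5_14110425088_ok, W5_14110167040_ok, W5_14093910016_ok, W5_14093651968_ok, W5_14093393920_ok,
    W5_14077136896_ok, W5_14076878848_ok, W5_14060363776_ok, W5_13069975552_ok, W5_13053460480_ok,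
    W5_13053202432_ok, W5_13036945408_ok, W5_13036687360_ok, W5_13036429312_ok, W5_13020172288_ok,
    W5_13019914240_ok, W5_13003399168_ok, W5_11996237824_ok, W5_11979980800_ok, W5_11979722752_ok,
    W5_11979464704_ok, W5_11963207680_ok, W5_11962949632_ok, W5_11946434560_ok, trivial⟩
    F5_14144249856_chk

theorem V5_14144245824_ok : Fwd.Has6 Inst.T 5 V5_14144245824 :=
  fwd_sound' relAll_5_4 ks5_ok F5_14144245824
    ⟨V4_11995975680_ok, V4_14060359680_ok, V4_11979460608_ok, trivial⟩ ⟨W5_14126682112_ok,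
    W5_14110167040_ok, W5_14093651968_ok, W5_14093389888_ok, W5_14077136896_ok, W5_14076874816_ok,
    W5_14060359744_ok, W5_13053202432_ok, W5_13036687360_ok, W5_13036425280_ok, W5_13020172288_ok,
    W5_13019910208_ok, W5_13003395136_ok, W5_11996237824_ok, W5_11995975744_ok, W5_11979722752_ok,
    W5_11963207680_ok, W5_11962945600_ok, W5_11946430528_ok, trivial⟩ F5_14144245824_chk

theorem V5_14143991808_ok : Fwd.Has6 Inst.T 5 V5_14143991808 :=
  fwd_sound' relAll_5_4 ks5_ok F5_14143991808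
    ⟨V4_11979718656_ok, V4_13036683264_ok, trivial⟩ ⟨W5_14110425088_ok, W5_14093651968_ok,
    W5_14076878848_ok, W5_14060105728_ok, W5_13053460480_ok, W5_13036687360_ok, W5_13019914240_ok,
    W5_13003141120_ok, W5_11979722752_ok, W5_11962949632_ok, W5_11946176512_ok, trivial⟩
    F5_14143991808_chk

theorem V5_14143987776_ok : Fwd.Has6 Inst.T 5 V5_14143987776 :=
  fwd_sound' relAll_5_4 ks5_ok F5_14143987776
    ⟨V4_11962945536_ok, V4_11979460608_ok, trivial⟩ ⟨W5_14110167040_ok, W5_14093651968_ok,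
    W5_14093393920_ok, W5_14093389888_ok, W5_14076878848_ok, W5_14076874816_ok, W5_14060101696_ok,
    W5_13053202432_ok, W5_13036687360_ok, W5_13036429312_ok, W5_13036425280_ok, W5_13019914240_ok,
    W5_13019910208_ok, W5_13019652160_ok, W5_13003137088_ok, W5_11996237824_ok, W5_11979722752_ok,
    W5_11979464704_ok, W5_11962949632_ok, W5_11962945600_ok, W5_11962687552_ok, W5_11946172480_ok,
    trivial⟩ F5_14143987776_chk

theorem V5_14128250880_ok : Fwd.Has6 Inst.T 5 V5_14128250880 :=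
  fwd_sound' relAll_5_4 ks5_ok F5_14128250880
    ⟨V4_10906238976_ok, V4_13053198336_ok, V4_14126678016_ok, trivial⟩ ⟨W5_14126940160_ok,
    W5_14110425088_ok, W5_14093910016_ok, W5_14077394944_ok, W5_13053460480_ok, W5_13036945408_ok,
    W5_13020430336_ok, W5_13003915264_ok, W5_11979980800_ok, W5_11963465728_ok, W5_11946950656_ok,
    W5_10906501120_ok, W5_10889986048_ok, W5_10873470976_ok, trivial⟩ F5_14128250880_chk

theorem V5_14127992832_ok : Fwd.Has6 Inst.T 5 V5_14127992832 :=
  fwd_sound' relAll_5_4 ks5_ok F5_14127992832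
    ⟨V4_12987138048_ok, V4_10906238976_ok, V4_13053198336_ok, V4_10873208832_ok,
    V4_14126678016_ok, trivial⟩ ⟨W5_14126940160_ok, W5_14126682112_ok, W5_14110425088_ok,
    W5_14110167040_ok, W5_14093910016_ok, W5_14093651968_ok, W5_14077394944_ok, W5_14077136896_ok,
    W5_14060879872_ok, W5_14060621824_ok, W5_13053460480_ok, W5_13053202432_ok, W5_13036945408_ok,
    W5_13036687360_ok, W5_13020430336_ok, W5_13020172288_ok, W5_13003915264_ok, W5_13003657216_ok,
    W5_12987142144_ok, W5_11979980800_ok, W5_11979722752_ok, W5_11963465728_ok, W5_11963207680_ok,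
    W5_11946950656_ok, W5_11946692608_ok, W5_11930177536_ok, W5_10906501120_ok, W5_10906243072_ok,
    W5_10889986048_ok, W5_10889728000_ok, W5_10873212928_ok, trivial⟩ F5_14127992832_chk

theorem V5_14127734784_ok : Fwd.Has6 Inst.T 5 V5_14127734784 :=
  fwd_sound' relAll_5_4 ks5_ok F5_14127734784
    ⟨V4_10906238976_ok, V4_10905722880_ok, V4_13053198336_ok, V4_10889723904_ok,
    V4_10872692736_ok, V4_14060617728_ok, V4_11979460608_ok, trivial⟩ ⟨W5_14126940160_ok,
    W5_14110425088_ok, W5_14110167040_ok, W5_14093910016_ok, W5_14093651968_ok, W5_14093393920_ok,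
    W5_14077394944_ok, W5_14077136896_ok, W5_14076878848_ok, W5_14060621824_ok, W5_14060363776_ok,
    W5_14043848704_ok, W5_13053460480_ok, W5_13053202432_ok, W5_13036945408_ok, W5_13036687360_ok,
    W5_13036429312_ok, W5_13020430336_ok, W5_13020172288_ok, W5_13019914240_ok, W5_13003657216_ok,
    W5_13003399168_ok, W5_12986884096_ok, W5_11979980800_ok, W5_11979722752_ok, W5_11979464704_ok,
    W5_11963465728_ok, W5_11963207680_ok, W5_11962949632_ok, W5_11946692608_ok, W5_11946434560_ok,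
    W5_11929919488_ok, W5_10906501120_ok, W5_10906243072_ok, W5_10905985024_ok, W5_10889728000_ok,
    W5_10889469952_ok, W5_10872954880_ok, trivial⟩ F5_14127734784_chk

theorem V5_14127730752_ok : Fwd.Has6 Inst.T 5 V5_14127730752 :=
  fwd_sound' relAll_5_4 ks5_ok F5_14127730752
    ⟨V4_11979460608_ok, V4_11929915392_ok, V4_14109904896_ok, trivial⟩ ⟨W5_14126682112_ok,
    W5_14110167040_ok, W5_14093651968_ok, W5_14093389888_ok, W5_14077136896_ok, W5_14076874816_ok,
    W5_14060621824_ok, W5_14060359744_ok, W5_14043844672_ok, W5_13053202432_ok, W5_13036687360_ok,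
    W5_13036425280_ok, W5_13020172288_ok, W5_13019910208_ok, W5_13003657216_ok, W5_13003395136_ok,
    W5_12986880064_ok, W5_11979722752_ok, W5_11963207680_ok, W5_11962945600_ok, W5_11946692608_ok,
    W5_11946430528_ok, W5_11929915456_ok, W5_10906243072_ok, W5_10889728000_ok, W5_10889465920_ok,
    W5_10872950848_ok, trivial⟩ F5_14127730752_chk

theorem V5_14127476736_ok : Fwd.Has6 Inst.T 5 V5_14127476736 :=
  fwd_sound' relAll_5_4 ks5_ok F5_14127476736
    ⟨V4_10906238976_ok, V4_13020168192_ok, V4_10872692736_ok, V4_10855919616_ok, trivial⟩ ⟨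
    W5_14110425088_ok, W5_14093910016_ok, W5_14093651968_ok, W5_14077136896_ok, W5_14076878848_ok,
    W5_14060363776_ok, W5_14060105728_ok, W5_14043590656_ok, W5_13053460480_ok, W5_13036945408_ok,
    W5_13036687360_ok, W5_13020172288_ok, W5_13019914240_ok, W5_13003399168_ok, W5_13003141120_ok,
    W5_12986626048_ok, W5_11979980800_ok, W5_11979722752_ok, W5_11963207680_ok, W5_11962949632_ok,
    W5_11946434560_ok, W5_11946176512_ok, W5_11929661440_ok, W5_10906243072_ok, W5_10905985024_ok,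
    W5_10889469952_ok, W5_10889211904_ok, W5_10872696832_ok, trivial⟩ F5_14127476736_chk

theorem V5_14127472704_ok : Fwd.Has6 Inst.T 5 V5_14127472704 :=
  fwd_sound' relAll_5_4 ks5_ok F5_14127472704
    ⟨V4_10905722880_ok, V4_10872692736_ok, V4_12986621952_ok, V4_11979460608_ok, trivial⟩ ⟨
    W5_14110167040_ok, W5_14093651968_ok, W5_14093393920_ok, W5_14093389888_ok, W5_14077136896_ok,
    W5_14076878848_ok, W5_14076874816_ok, W5_14060363776_ok, W5_14060359744_ok, W5_14060101696_ok,
    W5_14043586624_ok, W5_13053202432_ok, W5_13036687360_ok, W5_13036429312_ok, W5_13036425280_ok,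
    W5_13020172288_ok, W5_13019914240_ok, W5_13019910208_ok, W5_13019652160_ok, W5_13003399168_ok,
    W5_13003395136_ok, W5_13003137088_ok, W5_12986622016_ok, W5_11979722752_ok, W5_11979464704_ok,
    W5_11963207680_ok, W5_11962949632_ok, W5_11962945600_ok, W5_11962687552_ok, W5_11946434560_ok,
    W5_11946430528_ok, W5_11946172480_ok, W5_11929657408_ok, W5_10906243072_ok, W5_10905985024_ok,
    W5_10905722944_ok, W5_10889469952_ok, W5_10889465920_ok, W5_10889207872_ok, W5_10872692800_ok,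
    trivial⟩ F5_14127472704_chk

theorem V5_14127210624_ok : Fwd.Has6 Inst.T 5 V5_14127210624 :=
  fwd_sound' relAll_5_4 ks5_ok F5_14127210624
    ⟨V4_10905722880_ok, trivial⟩ ⟨W5_14093393920_ok, W5_14076878848_ok, W5_14060101696_ok,
    W5_14059839616_ok, W5_13036429312_ok, W5_13019914240_ok, W5_13019652160_ok, W5_13003137088_ok,
    W5_13002875008_ok, W5_11979464704_ok, W5_11962949632_ok, W5_11962687552_ok, W5_11946172480_ok,
    W5_11945910400_ok, W5_10905985024_ok, W5_10905722944_ok, W5_10889207872_ok, W5_10872430720_ok,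
    trivial⟩ F5_14127210624_chk

theorem V5_14111735808_ok : Fwd.Has6 Inst.T 5 V5_14111735808 :=
  fwd_sound' relAll_5_4 ks5_ok F5_14111735808
    ⟨V4_10873208832_ok, V4_10889723904_ok, trivial⟩ ⟨W5_14110425088_ok, W5_14093910016_ok,
    W5_13036945408_ok, W5_13020430336_ok, W5_11963465728_ok, W5_11946950656_ok, W5_10889986048_ok,
    W5_10873470976_ok, W5_9799991296_ok, trivial⟩ F5_14111735808_chk

theorem V5_14111477760_ok : Fwd.Has6 Inst.T 5 V5_14111477760 :=
  fwd_sound' relAll_5_4 ks5_ok F5_14111477760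
    ⟨V4_14109904896_ok, V4_10873208832_ok, V4_9799471104_ok, V4_11962945536_ok, V4_14110162944_ok,
    trivial⟩ ⟨W5_14110425088_ok, W5_14110167040_ok, W5_14093910016_ok, W5_14093651968_ok,
    W5_14077394944_ok, W5_14077136896_ok, W5_13036945408_ok, W5_13036687360_ok, W5_13020430336_ok,
    W5_13020172288_ok, W5_13003915264_ok, W5_13003657216_ok, W5_11963465728_ok, W5_11963207680_ok,
    W5_11946950656_ok, W5_11946692608_ok, W5_11930177536_ok, W5_10889986048_ok, W5_10889728000_ok,
    W5_10873470976_ok, W5_10873212928_ok, W5_10856697856_ok, W5_9816248320_ok, W5_9799733248_ok,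
    trivial⟩ F5_14111477760_chk

theorem V5_14111219712_ok : Fwd.Has6 Inst.T 5 V5_14111219712 :=
  fwd_sound' relAll_5_4 ks5_ok F5_14111219712
    ⟨V4_10839662592_ok, V4_12987138048_ok, V4_10873208832_ok, V4_9799471104_ok, V4_13019652096_ok,
    V4_14110162944_ok, V4_9799213056_ok, trivial⟩ ⟨W5_14110425088_ok, W5_14110167040_ok,
    W5_14093910016_ok, W5_14093651968_ok, W5_14093393920_ok, W5_14077394944_ok, W5_14077136896_ok,
    W5_14076878848_ok, W5_14060879872_ok, W5_14060621824_ok, W5_14060363776_ok, W5_13036945408_ok,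
    W5_13036687360_ok, W5_13036429312_ok, W5_13020430336_ok, W5_13020172288_ok, W5_13019914240_ok,
    W5_13003915264_ok, W5_13003657216_ok, W5_13003399168_ok, W5_12987142144_ok, W5_12986884096_ok,
    W5_11963465728_ok, W5_11963207680_ok, W5_11962949632_ok, W5_11946950656_ok, W5_11946692608_ok,
    W5_11946434560_ok, W5_11930177536_ok, W5_11929919488_ok, W5_11913404416_ok, W5_10889986048_ok,
    W5_10889728000_ok, W5_10889469952_ok, W5_10873212928_ok, W5_10872954880_ok, W5_10856439808_ok,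
    W5_9816248320_ok, W5_9815990272_ok, W5_9799475200_ok, trivial⟩ F5_14111219712_chk

theorem V5_14111215680_ok : Fwd.Has6 Inst.T 5 V5_14111215680 :=
  fwd_sound' relAll_5_4 ks5_ok F5_14111215680
    ⟨V4_14109904896_ok, V4_9799471104_ok, V4_11962945536_ok, V4_10856435712_ok, trivial⟩ ⟨
    W5_14110167040_ok, W5_14093651968_ok, W5_14093389888_ok, W5_14077136896_ok, W5_14076874816_ok,
    W5_14060621824_ok, W5_14060359744_ok, W5_13036687360_ok, W5_13036425280_ok, W5_13020172288_ok,
    W5_13019910208_ok, W5_13003657216_ok, W5_13003395136_ok, W5_12987142144_ok, W5_12986880064_ok,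
    W5_11963207680_ok, W5_11962945600_ok, W5_11946692608_ok, W5_11946430528_ok, W5_11930177536_ok,
    W5_11929915456_ok, W5_10889728000_ok, W5_10889465920_ok, W5_10873212928_ok, W5_10872950848_ok,
    W5_10856435776_ok, W5_9816248320_ok, W5_9815986240_ok, W5_9799471168_ok, trivial⟩
    F5_14111215680_chk

theorem V5_14110961664_ok : Fwd.Has6 Inst.T 5 V5_14110961664 :=
  fwd_sound' relAll_5_4 ks5_ok F5_14110961664
    ⟨V4_9815470080_ok, V4_9782439936_ok, V4_10889723904_ok, V4_11946688512_ok, V4_13020168192_ok,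
    V4_9799213056_ok, trivial⟩ ⟨W5_14110425088_ok, W5_14093910016_ok, W5_14093651968_ok,
    W5_14077394944_ok, W5_14077136896_ok, W5_14076878848_ok, W5_14060621824_ok, W5_14060363776_ok,
    W5_14060105728_ok, W5_14043848704_ok, W5_14043590656_ok, W5_13036945408_ok, W5_13036687360_ok,
    W5_13020430336_ok, W5_13020172288_ok, W5_13019914240_ok, W5_13003657216_ok, W5_13003399168_ok,
    W5_13003141120_ok, W5_12986884096_ok, W5_12986626048_ok, W5_11963465728_ok, W5_11963207680_ok,
    W5_11962949632_ok, W5_11946692608_ok, W5_11946434560_ok, W5_11946176512_ok, W5_11929919488_ok,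
    W5_11929661440_ok, W5_11913146368_ok, W5_10889728000_ok, W5_10889469952_ok, W5_10889211904_ok,
    W5_10872954880_ok, W5_10872696832_ok, W5_10856181760_ok, W5_9815990272_ok, W5_9815732224_ok,
    W5_9799217152_ok, trivial⟩ F5_14110961664_chk

theorem V5_14110703616_ok : Fwd.Has6 Inst.T 5 V5_14110703616 :=
  fwd_sound' relAll_5_4 ks5_ok F5_14110703616
    ⟨V4_12953075712_ok, V4_13020168192_ok, trivial⟩ ⟨W5_14093910016_ok, W5_14077136896_ok,
    W5_14060363776_ok, W5_14043590656_ok, W5_14026817536_ok, W5_13036945408_ok, W5_13020172288_ok,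
    W5_13003399168_ok, W5_12986626048_ok, W5_12969852928_ok, W5_11963207680_ok, W5_11946434560_ok,
    W5_11929661440_ok, W5_11912888320_ok, W5_10889469952_ok, W5_10872696832_ok, W5_10855923712_ok,
    W5_9815732224_ok, W5_9798959104_ok, trivial⟩ F5_14110703616_chk

theorem V5_14110699584_ok : Fwd.Has6 Inst.T 5 V5_14110699584 :=
  fwd_sound' relAll_5_4 ks5_ok F5_14110699584
    ⟨V4_9815470080_ok, V4_10872692736_ok, V4_10889465856_ok, V4_11962945536_ok, trivial⟩ ⟨
    W5_14093651968_ok, W5_14077136896_ok, W5_14076878848_ok, W5_14076874816_ok, W5_14060363776_ok,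
    W5_14060359744_ok, W5_14060105728_ok, W5_14060101696_ok, W5_14043590656_ok, W5_14043586624_ok,
    W5_13036687360_ok, W5_13020172288_ok, W5_13019914240_ok, W5_13019910208_ok, W5_13003399168_ok,
    W5_13003395136_ok, W5_13003141120_ok, W5_13003137088_ok, W5_12986626048_ok, W5_12986622016_ok,
    W5_11963207680_ok, W5_11962949632_ok, W5_11962945600_ok, W5_11946434560_ok, W5_11946430528_ok,
    W5_11946176512_ok, W5_11946172480_ok, W5_11929661440_ok, W5_11929657408_ok, W5_11929399360_ok,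
    W5_11912884288_ok, W5_10889469952_ok, W5_10889465920_ok, W5_10889211904_ok, W5_10889207872_ok,
    W5_10872696832_ok, W5_10872692800_ok, W5_10855919680_ok, W5_9815732224_ok, W5_9815728192_ok,
    W5_9815470144_ok, W5_9798955072_ok, trivial⟩ F5_14110699584_chk

theorem V5_14110437504_ok : Fwd.Has6 Inst.T 5 V5_14110437504 :=
  fwd_sound' relAll_5_4 ks5_ok F5_14110437504
    ⟨V4_9815470080_ok, trivial⟩ ⟨W5_14076878848_ok, W5_14060105728_ok, W5_14060101696_ok,
    W5_13019914240_ok, W5_13003141120_ok, W5_13003137088_ok, W5_11962949632_ok, W5_11946176512_ok,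
    W5_11946172480_ok, W5_11929399360_ok, W5_10889211904_ok, W5_10889207872_ok, W5_10872430720_ok,
    W5_9815470144_ok, trivial⟩ F5_14110437504_chk

theorem V5_14094962688_ok : Fwd.Has6 Inst.T 5 V5_14094962688 :=
  fwd_sound' relAll_5_4 ks5_ok F5_14094962688
    ⟨V4_8726249472_ok, V4_10873208832_ok, V4_9799471104_ok, trivial⟩ ⟨W5_14093910016_ok,
    W5_14093651968_ok, W5_13020430336_ok, W5_13020172288_ok, W5_11946950656_ok, W5_11946692608_ok,
    W5_10873470976_ok, W5_10873212928_ok, W5_9799991296_ok, W5_9799733248_ok, trivial⟩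
    F5_14094962688_chk

theorem V5_14094704640_ok : Fwd.Has6 Inst.T 5 V5_14094704640 :=
  fwd_sound' relAll_5_4 ks5_ok F5_14094704640
    ⟨V4_8725733376_ok, V4_13019652096_ok, V4_10873208832_ok, V4_10872692736_ok, V4_9799213056_ok,
    trivial⟩ ⟨W5_14093910016_ok, W5_14093651968_ok, W5_14093393920_ok, W5_14077394944_ok,
    W5_14077136896_ok, W5_14076878848_ok, W5_13020430336_ok, W5_13020172288_ok, W5_13019914240_ok,
    W5_13003915264_ok, W5_13003657216_ok, W5_13003399168_ok, W5_11946950656_ok, W5_11946692608_ok,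
    W5_11946434560_ok, W5_11930177536_ok, W5_11929919488_ok, W5_10873470976_ok, W5_10873212928_ok,
    W5_10872954880_ok, W5_10856697856_ok, W5_10856439808_ok, W5_9799733248_ok, W5_9799475200_ok,
    W5_8725995520_ok, trivial⟩ F5_14094704640_chk

theorem V5_14094700608_ok : Fwd.Has6 Inst.T 5 V5_14094700608 :=
  fwd_sound' relAll_5_4 ks5_ok F5_14094700608
    ⟨V4_9799471104_ok, V4_14093389824_ok, trivial⟩ ⟨W5_14093651968_ok, W5_14093389888_ok,
    W5_14077136896_ok, W5_14076874816_ok, W5_13020172288_ok, W5_13019910208_ok, W5_13003657216_ok,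
    W5_13003395136_ok, W5_11946692608_ok, W5_11946430528_ok, W5_11930177536_ok, W5_11929915456_ok,
    W5_10873212928_ok, W5_10872950848_ok, W5_10856697856_ok, W5_10856435776_ok, W5_9799733248_ok,
    W5_9799471168_ok, W5_9782956096_ok, trivial⟩ F5_14094700608_chk

theorem V5_14094446592_ok : Fwd.Has6 Inst.T 5 V5_14094446592 :=
  fwd_sound' relAll_5_4 ks5_ok F5_14094446592
    ⟨V4_8725733376_ok, V4_10873208832_ok, V4_12987138048_ok, V4_9765924864_ok, V4_10839662592_ok,
    V4_9799471104_ok, V4_11946688512_ok, trivial⟩ ⟨W5_14093910016_ok, W5_14093651968_ok,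
    W5_14077394944_ok, W5_14077136896_ok, W5_14076878848_ok, W5_14060879872_ok, W5_14060621824_ok,
    W5_14060363776_ok, W5_14060105728_ok, W5_13020430336_ok, W5_13020172288_ok, W5_13019914240_ok,
    W5_13003915264_ok, W5_13003657216_ok, W5_13003399168_ok, W5_13003141120_ok, W5_12987142144_ok,
    W5_12986884096_ok, W5_12986626048_ok, W5_11946950656_ok, W5_11946692608_ok, W5_11946434560_ok,
    W5_11946176512_ok, W5_11930177536_ok, W5_11929919488_ok, W5_11929661440_ok, W5_11913404416_ok,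
    W5_11913146368_ok, W5_10873212928_ok, W5_10872954880_ok, W5_10872696832_ok, W5_10856439808_ok,
    W5_10856181760_ok, W5_10839666688_ok, W5_9799475200_ok, W5_9799217152_ok, W5_9782702080_ok,
    W5_8725737472_ok, trivial⟩ F5_14094446592_chk

theorem V5_14094442560_ok : Fwd.Has6 Inst.T 5 V5_14094442560 :=
  fwd_sound' relAll_5_4 ks5_ok F5_14094442560
    ⟨V4_8725733376_ok, V4_10839662592_ok, V4_9799471104_ok, V4_13019652096_ok, V4_9799213056_ok,
    trivial⟩ ⟨W5_14093651968_ok, W5_14093393920_ok, W5_14093389888_ok, W5_14077136896_ok,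
    W5_14076878848_ok, W5_14076874816_ok, W5_14060621824_ok, W5_14060363776_ok, W5_14060359744_ok,
    W5_14060101696_ok, W5_13020172288_ok, W5_13019914240_ok, W5_13019910208_ok, W5_13019652160_ok,
    W5_13003657216_ok, W5_13003399168_ok, W5_13003395136_ok, W5_13003137088_ok, W5_12987142144_ok,
    W5_12986884096_ok, W5_12986880064_ok, W5_12986622016_ok, W5_11946692608_ok, W5_11946434560_ok,
    W5_11946430528_ok, W5_11946172480_ok, W5_11930177536_ok, W5_11929919488_ok, W5_11929915456_ok,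
    W5_11929657408_ok, W5_11913404416_ok, W5_11913142336_ok, W5_10873212928_ok, W5_10872954880_ok,
    W5_10872950848_ok, W5_10872692800_ok, W5_10856439808_ok, W5_10856435776_ok, W5_10856177728_ok,
    W5_10839662656_ok, W5_9799475200_ok, W5_9799471168_ok, W5_9799213120_ok, W5_9782698048_ok,
    W5_8725733440_ok, trivial⟩ F5_14094442560_chk

theorem V5_14094188544_ok : Fwd.Has6 Inst.T 5 V5_14094188544 :=
  fwd_sound' relAll_5_4 ks5_ok F5_14094188544
    ⟨V4_8725217280_ok, V4_11946688512_ok, V4_13020168192_ok, V4_9799213056_ok, trivial⟩ ⟨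
    W5_14093910016_ok, W5_14077394944_ok, W5_14077136896_ok, W5_14060621824_ok, W5_14060363776_ok,
    W5_14043848704_ok, W5_14043590656_ok, W5_13020430336_ok, W5_13020172288_ok, W5_13003657216_ok,
    W5_13003399168_ok, W5_12986884096_ok, W5_12986626048_ok, W5_12969852928_ok, W5_11946692608_ok,
    W5_11946434560_ok, W5_11929919488_ok, W5_11929661440_ok, W5_11913146368_ok, W5_11912888320_ok,
    W5_10872954880_ok, W5_10872696832_ok, W5_10856181760_ok, W5_10855923712_ok, W5_10839408640_ok,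
    W5_9799217152_ok, W5_9798959104_ok, W5_9782444032_ok, W5_8725479424_ok, trivial⟩
    F5_14094188544_chk

theorem V5_14094180480_ok : Fwd.Has6 Inst.T 5 V5_14094180480 :=
  fwd_sound' relAll_5_4 ks5_ok F5_14094180480
    ⟨V4_9799213056_ok, V4_10872692736_ok, trivial⟩ ⟨W5_14093393920_ok, W5_14076878848_ok,
    W5_14060363776_ok, W5_14060101696_ok, W5_14059839616_ok, W5_14043848704_ok, W5_14043586624_ok,
    W5_13019914240_ok, W5_13019652160_ok, W5_13003399168_ok, W5_13003137088_ok, W5_13002875008_ok,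
    W5_12986884096_ok, W5_12986622016_ok, W5_12970106944_ok, W5_12969844864_ok, W5_11946434560_ok,
    W5_11946172480_ok, W5_11945910400_ok, W5_11929919488_ok, W5_11929657408_ok, W5_11913142336_ok,
    W5_11912880256_ok, W5_10872954880_ok, W5_10872692800_ok, W5_10872430720_ok, W5_10856177728_ok,
    W5_10855915648_ok, W5_10839400576_ok, W5_9799213120_ok, W5_9798951040_ok, W5_8725471360_ok,
    trivial⟩ F5_14094180480_chk

theorem V5_14093926464_ok : Fwd.Has6 Inst.T 5 V5_14093926464 :=
  fwd_sound' relAll_5_4 ks5_ok F5_14093926464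
    ⟨V4_8725217280_ok, V4_12953075712_ok, V4_10872692736_ok, trivial⟩ ⟨W5_14077136896_ok,
    W5_14060363776_ok, W5_14060359744_ok, W5_14043590656_ok, W5_14043586624_ok, W5_14026817536_ok,
    W5_13020172288_ok, W5_13003399168_ok, W5_13003395136_ok, W5_12986626048_ok, W5_12986622016_ok,
    W5_12969852928_ok, W5_12953075776_ok, W5_11946434560_ok, W5_11946430528_ok, W5_11929661440_ok,
    W5_11929657408_ok, W5_11912888320_ok, W5_11912884288_ok, W5_10872696832_ok, W5_10872692800_ok,
    W5_10855923712_ok, W5_10855919680_ok, W5_10839146560_ok, W5_9798959104_ok, W5_9798955072_ok,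
    W5_9782181952_ok, W5_8725217344_ok, trivial⟩ F5_14093926464_chk

theorem V5_14093922432_ok : Fwd.Has6 Inst.T 5 V5_14093922432 :=
  fwd_sound' relAll_5_4 ks5_ok F5_14093922432
    ⟨V4_10872692736_ok, trivial⟩ ⟨W5_14076878848_ok, W5_14060363776_ok, W5_14060105728_ok,
    W5_14060101696_ok, W5_14043590656_ok, W5_14043586624_ok, W5_14026809472_ok, W5_13019914240_ok,
    W5_13003399168_ok, W5_13003141120_ok, W5_13003137088_ok, W5_12986626048_ok, W5_12986622016_ok,
    W5_12969844864_ok, W5_11946434560_ok, W5_11946176512_ok, W5_11946172480_ok, W5_11929661440_ok,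
    W5_11929657408_ok, W5_11929399360_ok, W5_11912884288_ok, W5_11912880256_ok, W5_10872696832_ok,
    W5_10872692800_ok, W5_10872430720_ok, W5_10855919680_ok, W5_10855915648_ok, W5_10839142528_ok,
    W5_9798955072_ok, W5_9798951040_ok, W5_9782177920_ok, trivial⟩ F5_14093922432_chk

theorem V5_14077931520_ok : Fwd.Has6 Inst.T 5 V5_14077931520 :=
  fwd_sound' relAll_5_4 ks5_ok F5_14077931520
    ⟨V4_9782439936_ok, V4_10855919616_ok, V4_11930173440_ok, trivial⟩ ⟨W5_14077394944_ok,
    W5_14077136896_ok, W5_14076878848_ok, W5_13003915264_ok, W5_13003657216_ok, W5_13003399168_ok,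
    W5_13003141120_ok, W5_11930177536_ok, W5_11929919488_ok, W5_11929661440_ok, W5_10856697856_ok,
    W5_10856439808_ok, W5_10856181760_ok, W5_9782702080_ok, trivial⟩ F5_14077931520_chk

theorem V5_14077927488_ok : Fwd.Has6 Inst.T 5 V5_14077927488 :=
  fwd_sound' relAll_5_4 ks5_ok F5_14077927488
    ⟨V4_10856435712_ok, trivial⟩ ⟨W5_14077136896_ok, W5_14076878848_ok, W5_14076874816_ok,
    W5_13003657216_ok, W5_13003399168_ok, W5_13003395136_ok, W5_13003137088_ok, W5_11930177536_ok,
    W5_11929919488_ok, W5_11929915456_ok, W5_11929657408_ok, W5_10856697856_ok, W5_10856439808_ok,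
    W5_10856435776_ok, W5_10856177728_ok, W5_9782956096_ok, W5_9782698048_ok, trivial⟩
    F5_14077927488_chk

theorem V5_14077673472_ok : Fwd.Has6 Inst.T 5 V5_14077673472 :=
  fwd_sound' relAll_5_4 ks5_ok F5_14077673472
    ⟨V4_8692187136_ok, V4_12987138048_ok, V4_10839662592_ok, V4_11930173440_ok, trivial⟩ ⟨
    W5_14077394944_ok, W5_14077136896_ok, W5_14060879872_ok, W5_14060621824_ok, W5_14060363776_ok,
    W5_13003915264_ok, W5_13003657216_ok, W5_13003399168_ok, W5_12987142144_ok, W5_12986884096_ok,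
    W5_12986626048_ok, W5_11930177536_ok, W5_11929919488_ok, W5_11929661440_ok, W5_11913404416_ok,
    W5_11913146368_ok, W5_11912888320_ok, W5_10856439808_ok, W5_10856181760_ok, W5_10855923712_ok,
    W5_10839666688_ok, W5_10839408640_ok, W5_9782702080_ok, W5_9782444032_ok, W5_9765928960_ok,
    W5_8708964352_ok, trivial⟩ F5_14077673472_chk

theorem V5_14077669440_ok : Fwd.Has6 Inst.T 5 V5_14077669440 :=
  fwd_sound' relAll_5_4 ks5_ok F5_14077669440
    ⟨V4_9765924864_ok, V4_10839662592_ok, V4_9782439936_ok, V4_10856435712_ok, trivial⟩ ⟨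
    W5_14077136896_ok, W5_14076878848_ok, W5_14076874816_ok, W5_14060621824_ok, W5_14060363776_ok,
    W5_14060359744_ok, W5_14060105728_ok, W5_14060101696_ok, W5_13003657216_ok, W5_13003399168_ok,
    W5_13003395136_ok, W5_13003141120_ok, W5_13003137088_ok, W5_12987142144_ok, W5_12986884096_ok,
    W5_12986880064_ok, W5_12986626048_ok, W5_12986622016_ok, W5_11930177536_ok, W5_11929919488_ok,
    W5_11929915456_ok, W5_11929661440_ok, W5_11929657408_ok, W5_11929399360_ok, W5_11913404416_ok,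
    W5_11913146368_ok, W5_11913142336_ok, W5_11912884288_ok, W5_10856439808_ok, W5_10856435776_ok,
    W5_10856181760_ok, W5_10856177728_ok, W5_10855919680_ok, W5_10839666688_ok, W5_10839662656_ok,
    W5_10839404608_ok, W5_9782702080_ok, W5_9782698048_ok, W5_9782440000_ok, W5_9765924928_ok,
    W5_8708960320_ok, trivial⟩ F5_14077669440_chk


theorem V5_14077415424_ok : Fwd.Has6 Inst.T 5 V5_14077415424 :=
  fwd_sound' relAll_5_4 ks5_ok F5_14077415424
    ⟨V4_9782439936_ok, trivial⟩ ⟨W5_14077394944_ok, W5_14060621824_ok, W5_14043848704_ok,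
    W5_13003657216_ok, W5_12986884096_ok, W5_11929919488_ok, W5_11913146368_ok, W5_10856181760_ok,
    W5_10839408640_ok, W5_9782444032_ok, trivial⟩ F5_14077415424_chk

theorem V5_14077411392_ok : Fwd.Has6 Inst.T 5 V5_14077411392 :=
  fwd_sound' relAll_5_4 ks5_ok F5_14077411392
    ⟨V4_9782439936_ok, V4_11929915392_ok, trivial⟩ ⟨W5_14077136896_ok, W5_14060621824_ok,
    W5_14060363776_ok, W5_14060359744_ok, W5_14043848704_ok, W5_14043844672_ok, W5_14043590656_ok,
    W5_14043586624_ok, W5_13003657216_ok, W5_13003399168_ok, W5_13003395136_ok, W5_12986884096_ok,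
    W5_12986880064_ok, W5_12986626048_ok, W5_12986622016_ok, W5_12970106944_ok, W5_12969852928_ok,
    W5_11929919488_ok, W5_11929915456_ok, W5_11929661440_ok, W5_11929657408_ok, W5_11913146368_ok,
    W5_11913142336_ok, W5_11912888320_ok, W5_11912884288_ok, W5_11896369216_ok, W5_10856181760_ok,
    W5_10856177728_ok, W5_10855923712_ok, W5_10855919680_ok, W5_10839408640_ok, W5_10839404608_ok,
    W5_10839146560_ok, W5_9782444032_ok, W5_9782440000_ok, W5_9782181952_ok, W5_9765666880_ok,
    W5_8708702272_ok, trivial⟩ F5_14077411392_chk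

theorem V5_14077407360_ok : Fwd.Has6 Inst.T 5 V5_14077407360 :=
  fwd_sound' relAll_5_4 ks5_ok F5_14077407360
    ⟨V4_9782439936_ok, V4_10855919616_ok, trivial⟩ ⟨W5_14076878848_ok, W5_14060363776_ok,
    W5_14060105728_ok, W5_14060101696_ok, W5_14043848704_ok, W5_14043590656_ok, W5_14043586624_ok,
    W5_13003399168_ok, W5_13003141120_ok, W5_13003137088_ok, W5_12986884096_ok, W5_12986626048_ok,
    W5_12986622016_ok, W5_12970106944_ok, W5_12969844864_ok, W5_11929919488_ok, W5_11929661440_ok,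
    W5_11929657408_ok, W5_11929399360_ok, W5_11913146368_ok, W5_11913142336_ok, W5_11912884288_ok,
    W5_11912880256_ok, W5_11896369216_ok, W5_10856181760_ok, W5_10856177728_ok, W5_10855919680_ok,
    W5_10855915648_ok, W5_10839404608_ok, W5_10839400576_ok, W5_10839142528_ok, W5_9782440000_ok,
    W5_9782177920_ok, W5_9765662848_ok, trivial⟩ F5_14077407360_chk

theorem V5_14060900352_ok : Fwd.Has6 Inst.T 5 V5_14060900352 :=
  fwd_sound' relAll_5_4 ks5_ok F5_14060900352
    ⟨V4_12987138048_ok, trivial⟩ ⟨W5_14060879872_ok, W5_14060621824_ok, W5_12987142144_ok,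
    W5_12986884096_ok, W5_11913404416_ok, W5_11913146368_ok, W5_10839666688_ok, W5_10839408640_ok,
    W5_9765928960_ok, W5_8692191232_ok, trivial⟩ F5_14060900352_chk

theorem V5_14060892288_ok : Fwd.Has6 Inst.T 5 V5_14060892288 :=
  fwd_sound' relAll_5_4 ks5_ok F5_14060892288
    ⟨V4_9765924864_ok, V4_10839662592_ok, trivial⟩ ⟨W5_14060363776_ok, W5_14060105728_ok,
    W5_14060101696_ok, W5_12986884096_ok, W5_12986626048_ok, W5_12986622016_ok, W5_11913404416_ok,
    W5_11913146368_ok, W5_11913142336_ok, W5_11912884288_ok, W5_11912880256_ok, W5_10839666688_ok,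
    W5_10839662656_ok, W5_10839404608_ok, W5_10839400576_ok, W5_10839142528_ok, W5_9765924928_ok,
    W5_9765920896_ok, W5_9765662848_ok, W5_8692183168_ok, trivial⟩ F5_14060892288_chk

theorem V5_14060634240_ok : Fwd.Has6 Inst.T 5 V5_14060634240 :=
  fwd_sound' relAll_5_4 ks5_ok F5_14060634240
    ⟨V4_10839146496_ok, trivial⟩ ⟨W5_14060363776_ok, W5_14043848704_ok, W5_14043590656_ok,
    W5_14043586624_ok, W5_12986884096_ok, W5_12986626048_ok, W5_12986622016_ok, W5_12970106944_ok,
    W5_12969852928_ok, W5_12969844864_ok, W5_11913146368_ok, W5_11913142336_ok, W5_11912888320_ok,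
    W5_11912884288_ok, W5_11912880256_ok, W5_11896369216_ok, W5_10839408640_ok, W5_10839404608_ok,
    W5_10839400576_ok, W5_10839146560_ok, W5_10839142528_ok, W5_10822369408_ok, W5_9765666880_ok,
    W5_9765662848_ok, W5_9765404800_ok, trivial⟩ F5_14060634240_chk

theorem V5_14060372160_ok : Fwd.Has6 Inst.T 5 V5_14060372160 :=
  fwd_sound' relAll_5_4 ks5_ok F5_14060372160
    ⟨V4_10839146496_ok, trivial⟩ ⟨W5_14043590656_ok, W5_14026817536_ok, W5_12986626048_ok,
    W5_12969852928_ok, W5_12953075776_ok, W5_11912888320_ok, W5_11912884288_ok, W5_11879334016_ok,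
    W5_10839146560_ok, W5_10839142528_ok, W5_10822369408_ok, W5_9765404800_ok, W5_8691663040_ok,
    trivial⟩ F5_14060372160_chk

theorem V5_13087801344_ok : Fwd.Has6 Inst.T 5 V5_13087801344 :=
  fwd_sound' relAll_5_4 ks5_ok F5_13087801344
    ⟨V4_12987138048_ok, V4_13086228480_ok, trivial⟩ ⟨W5_13086490624_ok, W5_13069975552_ok,
    W5_13053460480_ok, W5_13036945408_ok, W5_13020430336_ok, W5_13003915264_ok, trivial⟩
    F5_13087801344_chk

theorem V5_13087543296_ok : Fwd.Has6 Inst.T 5 V5_13087543296 :=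
  fwd_sound' relAll_5_4 ks5_ok F5_13087543296
    ⟨V4_12986880000_ok, V4_13003653120_ok, trivial⟩ ⟨W5_13086490624_ok, W5_13069975552_ok,
    W5_13053460480_ok, W5_13053202432_ok, W5_13036945408_ok, W5_13036687360_ok, W5_13020430336_ok,
    W5_13020172288_ok, W5_13003657216_ok, trivial⟩ F5_13087543296_chk

theorem V5_13087285248_ok : Fwd.Has6 Inst.T 5 V5_13087285248 :=
  fwd_sound' relAll_5_4 ks5_ok F5_13087285248
    ⟨V4_12986621952_ok, V4_13020168192_ok, trivial⟩ ⟨W5_13069975552_ok, W5_13053460480_ok,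
    W5_13053202432_ok, W5_13036945408_ok, W5_13036687360_ok, W5_13036429312_ok, W5_13020172288_ok,
    W5_13019914240_ok, W5_13003399168_ok, trivial⟩ F5_13087285248_chk

theorem V5_13087023168_ok : Fwd.Has6 Inst.T 5 V5_13087023168 :=
  fwd_sound' relAll_5_4 ks5_ok F5_13087023168
    ⟨V4_13003137024_ok, trivial⟩ ⟨W5_13053202432_ok, W5_13036687360_ok, W5_13036429312_ok,
    W5_13036425280_ok, W5_13019914240_ok, W5_13019910208_ok, W5_13019652160_ok, W5_13003137088_ok,
    trivial⟩ F5_13087023168_chk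

theorem V5_13086761088_ok : Fwd.Has6 Inst.T 5 V5_13086761088 :=
  fwd_sound' relAll_5_4 ks5_ok F5_13086761088
    ⟨V4_13019652096_ok, trivial⟩ ⟨W5_13036429312_ok, W5_13019652160_ok, W5_13002875008_ok,
    trivial⟩ F5_13086761088_chk

theorem V5_13071286272_ok : Fwd.Has6 Inst.T 5 V5_13071286272 :=
  fwd_sound' relAll_5_4 ks5_ok F5_13071286272
    ⟨V4_13053198336_ok, trivial⟩ ⟨W5_13069975552_ok, W5_13053460480_ok, W5_13036945408_ok,
    W5_13020430336_ok, W5_13003915264_ok, W5_11979980800_ok, W5_11963465728_ok, W5_11946950656_ok,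
    trivial⟩ F5_13071286272_chk

theorem V5_13071028224_ok : Fwd.Has6 Inst.T 5 V5_13071028224 :=
  fwd_sound' relAll_5_4 ks5_ok F5_13071028224
    ⟨V4_11995975680_ok, V4_12987138048_ok, V4_13053198336_ok, V4_11979460608_ok, trivial⟩ ⟨
    W5_13069975552_ok, W5_13053460480_ok, W5_13053202432_ok, W5_13036945408_ok, W5_13036687360_ok,
    W5_13020430336_ok, W5_13020172288_ok, W5_13003915264_ok, W5_13003657216_ok, W5_12987142144_ok,
    W5_11996237824_ok, W5_11979980800_ok, W5_11979722752_ok, W5_11963465728_ok, W5_11963207680_ok,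
    W5_11946950656_ok, W5_11946692608_ok, W5_11930177536_ok, trivial⟩ F5_13071028224_chk

theorem V5_13070770176_ok : Fwd.Has6 Inst.T 5 V5_13070770176 :=
  fwd_sound' relAll_5_4 ks5_ok F5_13070770176
    ⟨V4_13053198336_ok, V4_11946688512_ok, V4_13019652096_ok, trivial⟩ ⟨W5_13069975552_ok,
    W5_13053460480_ok, W5_13053202432_ok, W5_13036945408_ok, W5_13036687360_ok, W5_13036429312_ok,
    W5_13020430336_ok, W5_13020172288_ok, W5_13019914240_ok, W5_13003657216_ok, W5_13003399168_ok,
    W5_12986884096_ok, W5_11996237824_ok, W5_11979980800_ok, W5_11979722752_ok, W5_11979464704_ok,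
    W5_11963465728_ok, W5_11963207680_ok, W5_11962949632_ok, W5_11946692608_ok, W5_11946434560_ok,
    W5_11929919488_ok, trivial⟩ F5_13070770176_chk

theorem V5_13070766144_ok : Fwd.Has6 Inst.T 5 V5_13070766144 :=
  fwd_sound' relAll_5_4 ks5_ok F5_13070766144
    ⟨V4_11995975680_ok, V4_11929915392_ok, trivial⟩ ⟨W5_13053202432_ok, W5_13036687360_ok,
    W5_13036425280_ok, W5_13020172288_ok, W5_13019910208_ok, W5_13003657216_ok, W5_13003395136_ok,
    W5_12986880064_ok, W5_11996237824_ok, W5_11995975744_ok, W5_11979722752_ok, W5_11963207680_ok,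
    W5_11962945600_ok, W5_11946692608_ok, W5_11946430528_ok, W5_11929915456_ok, trivial⟩
    F5_13070766144_chk

theorem V5_13070512128_ok : Fwd.Has6 Inst.T 5 V5_13070512128 :=
  fwd_sound' relAll_5_4 ks5_ok F5_13070512128
    ⟨V4_13020168192_ok, V4_11979718656_ok, trivial⟩ ⟨W5_13053460480_ok, W5_13036945408_ok,
    W5_13036687360_ok, W5_13020172288_ok, W5_13019914240_ok, W5_13003399168_ok, W5_13003141120_ok,
    W5_12986626048_ok, W5_11979980800_ok, W5_11979722752_ok, W5_11963207680_ok, W5_11962949632_ok,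
    W5_11946434560_ok, W5_11946176512_ok, W5_11929661440_ok, trivial⟩ F5_13070512128_chk

theorem V5_13070508096_ok : Fwd.Has6 Inst.T 5 V5_13070508096 :=
  fwd_sound' relAll_5_4 ks5_ok F5_13070508096
    ⟨V4_12986621952_ok, V4_11979460608_ok, trivial⟩ ⟨W5_13053202432_ok, W5_13036687360_ok,
    W5_13036429312_ok, W5_13036425280_ok, W5_13020172288_ok, W5_13019914240_ok, W5_13019910208_ok,
    W5_13019652160_ok, W5_13003399168_ok, W5_13003395136_ok, W5_13003137088_ok, W5_12986622016_ok,
    W5_11996237824_ok, W5_11979722752_ok, W5_11979464704_ok, W5_11963207680_ok, W5_11962949632_ok,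
    W5_11962945600_ok, W5_11962687552_ok, W5_11946434560_ok, W5_11946430528_ok, W5_11946172480_ok,
    W5_11929657408_ok, trivial⟩ F5_13070508096_chk

theorem V5_13070250048_ok : Fwd.Has6 Inst.T 5 V5_13070250048 :=
  fwd_sound' relAll_5_4 ks5_ok F5_13070250048
    ⟨V4_11946172416_ok, trivial⟩ ⟨W5_13036687360_ok, W5_13019914240_ok, W5_13019910208_ok,
    W5_13003141120_ok, W5_13003137088_ok, W5_11979722752_ok, W5_11962949632_ok, W5_11962945600_ok,
    W5_11946176512_ok, W5_11946172480_ok, W5_11929399360_ok, trivial⟩ F5_13070250048_chk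

theorem V5_13070246016_ok : Fwd.Has6 Inst.T 5 V5_13070246016 :=
  fwd_sound' relAll_5_4 ks5_ok F5_13070246016
    ⟨V4_11946172416_ok, trivial⟩ ⟨W5_13036429312_ok, W5_13019914240_ok, W5_13019652160_ok,
    W5_13003137088_ok, W5_13002875008_ok, W5_11979464704_ok, W5_11962949632_ok, W5_11962687552_ok,
    W5_11946172480_ok, W5_11945910400_ok, trivial⟩ F5_13070246016_chk

theorem V5_13054771200_ok : Fwd.Has6 Inst.T 5 V5_13054771200 :=
  fwd_sound' relAll_5_4 ks5_ok F5_13054771200
    ⟨V4_13053198336_ok, V4_10906238976_ok, trivial⟩ ⟨W5_13053460480_ok, W5_13036945408_ok,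
    W5_13020430336_ok, W5_11979980800_ok, W5_11963465728_ok, W5_11946950656_ok, W5_10906501120_ok,
    W5_10889986048_ok, W5_10873470976_ok, trivial⟩ F5_13054771200_chk

theorem V5_13054513152_ok : Fwd.Has6 Inst.T 5 V5_13054513152 :=
  fwd_sound' relAll_5_4 ks5_ok F5_13054513152
    ⟨V4_10906238976_ok, V4_13053198336_ok, V4_11979460608_ok, V4_10856435712_ok, trivial⟩ ⟨
    W5_13053460480_ok, W5_13053202432_ok, W5_13036945408_ok, W5_13036687360_ok, W5_13020430336_ok,
    W5_13020172288_ok, W5_13003915264_ok, W5_13003657216_ok, W5_11979980800_ok, W5_11979722752_ok,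
    W5_11963465728_ok, W5_11963207680_ok, W5_11946950656_ok, W5_11946692608_ok, W5_11930177536_ok,
    W5_10906501120_ok, W5_10906243072_ok, W5_10889986048_ok, W5_10889728000_ok, W5_10873470976_ok,
    W5_10873212928_ok, W5_10856697856_ok, trivial⟩ F5_13054513152_chk

theorem V5_13054255104_ok : Fwd.Has6 Inst.T 5 V5_13054255104 :=
  fwd_sound' relAll_5_4 ks5_ok F5_13054255104
    ⟨V4_10905722880_ok, V4_10839662592_ok, V4_12987138048_ok, V4_10906238976_ok,
    V4_13053198336_ok, V4_10873208832_ok, V4_11979460608_ok, trivial⟩ ⟨W5_13053460480_ok,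
    W5_13053202432_ok, W5_13036945408_ok, W5_13036687360_ok, W5_13036429312_ok, W5_13020430336_ok,
    W5_13020172288_ok, W5_13019914240_ok, W5_13003915264_ok, W5_13003657216_ok, W5_13003399168_ok,
    W5_12987142144_ok, W5_12986884096_ok, W5_11979980800_ok, W5_11979722752_ok, W5_11979464704_ok,
    W5_11963465728_ok, W5_11963207680_ok, W5_11962949632_ok, W5_11946950656_ok, W5_11946692608_ok,
    W5_11946434560_ok, W5_11930177536_ok, W5_11929919488_ok, W5_11913404416_ok, W5_10906501120_ok,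
    W5_10906243072_ok, W5_10905985024_ok, W5_10889986048_ok, W5_10889728000_ok, W5_10889469952_ok,
    W5_10873212928_ok, W5_10872954880_ok, W5_10856439808_ok, trivial⟩ F5_13054255104_chk


theorem V5_13053993024_ok : Fwd.Has6 Inst.T 5 V5_13053993024 :=
  fwd_sound' relAll_5_4 ks5_ok F5_13053993024
    ⟨V4_10905722880_ok, V4_11979460608_ok, V4_10872692736_ok, V4_11913142272_ok, trivial⟩ ⟨
    W5_13053202432_ok, W5_13036687360_ok, W5_13036429312_ok, W5_13036425280_ok, W5_13020172288_ok,
    W5_13019914240_ok, W5_13019910208_ok, W5_13019652160_ok, W5_13003657216_ok, W5_13003399168_ok,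
    W5_13003395136_ok, W5_13003137088_ok, W5_12986884096_ok, W5_12986880064_ok, W5_12986622016_ok,
    W5_12970106944_ok, W5_11979722752_ok, W5_11979464704_ok, W5_11963207680_ok, W5_11962949632_ok,
    W5_11962945600_ok, W5_11962687552_ok, W5_11946692608_ok, W5_11946434560_ok, W5_11946430528_ok,
    W5_11946172480_ok, W5_11929919488_ok, W5_11929915456_ok, W5_11929657408_ok, W5_11913142336_ok,
    W5_10906243072_ok, W5_10905985024_ok, W5_10905722944_ok, W5_10889728000_ok, W5_10889469952_ok,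
    W5_10889465920_ok, W5_10889207872_ok, W5_10872954880_ok, W5_10872950848_ok, W5_10872692800_ok,
    W5_10856177728_ok, trivial⟩ F5_13053993024_chk

theorem V5_13053739008_ok : Fwd.Has6 Inst.T 5 V5_13053739008 :=
  fwd_sound' relAll_5_4 ks5_ok F5_13053739008
    ⟨V4_10906238976_ok, V4_12953075712_ok, V4_10839146496_ok, V4_13020168192_ok, trivial⟩ ⟨
    W5_13036945408_ok, W5_13020172288_ok, W5_13003399168_ok, W5_12986626048_ok, W5_12969852928_ok,
    W5_11979980800_ok, W5_11963207680_ok, W5_11946434560_ok, W5_11929661440_ok, W5_11912888320_ok,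
    W5_10906243072_ok, W5_10889469952_ok, W5_10872696832_ok, W5_10855923712_ok, trivial⟩
    F5_13053739008_chk

theorem V5_13053734976_ok : Fwd.Has6 Inst.T 5 V5_13053734976 :=
  fwd_sound' relAll_5_4 ks5_ok F5_13053734976
    ⟨V4_10872692736_ok, V4_10855919616_ok, trivial⟩ ⟨W5_13036687360_ok, W5_13020172288_ok,
    W5_13019914240_ok, W5_13019910208_ok, W5_13003399168_ok, W5_13003395136_ok, W5_13003141120_ok,
    W5_13003137088_ok, W5_12986626048_ok, W5_12986622016_ok, W5_11979722752_ok, W5_11963207680_ok,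
    W5_11962949632_ok, W5_11962945600_ok, W5_11946434560_ok, W5_11946430528_ok, W5_11946176512_ok,
    W5_11946172480_ok, W5_11929661440_ok, W5_11929657408_ok, W5_11929399360_ok, W5_11912884288_ok,
    W5_10906243072_ok, W5_10905985024_ok, W5_10889469952_ok, W5_10889465920_ok, W5_10889211904_ok,
    W5_10889207872_ok, W5_10872696832_ok, W5_10872692800_ok, W5_10855919680_ok, trivial⟩
    F5_13053734976_chk

theorem V5_13053730944_ok : Fwd.Has6 Inst.T 5 V5_13053730944 :=
  fwd_sound' relAll_5_4 ks5_ok F5_13053730944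
    ⟨V4_10905722880_ok, V4_10872692736_ok, trivial⟩ ⟨W5_13036429312_ok, W5_13019914240_ok,
    W5_13019652160_ok, W5_13003399168_ok, W5_13003137088_ok, W5_13002875008_ok, W5_12986622016_ok,
    W5_12969844864_ok, W5_11979464704_ok, W5_11962949632_ok, W5_11962687552_ok, W5_11946434560_ok,
    W5_11946172480_ok, W5_11945910400_ok, W5_11929657408_ok, W5_11912880256_ok, W5_10905985024_ok,
    W5_10905722944_ok, W5_10889469952_ok, W5_10889207872_ok, W5_10872692800_ok, W5_10872430720_ok,
    W5_10855915648_ok, trivial⟩ F5_13053730944_chk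

theorem V5_13037998080_ok : Fwd.Has6 Inst.T 5 V5_13037998080 :=
  fwd_sound' relAll_5_4 ks5_ok F5_13037998080
    ⟨V4_11962945536_ok, V4_10873208832_ok, trivial⟩ ⟨W5_13036945408_ok, W5_13036687360_ok,
    W5_13020430336_ok, W5_13020172288_ok, W5_11963465728_ok, W5_11963207680_ok, W5_11946950656_ok,
    W5_11946692608_ok, W5_10889986048_ok, W5_10889728000_ok, W5_10873470976_ok, W5_10873212928_ok,
    W5_9816248320_ok, W5_9799991296_ok, W5_9799733248_ok, trivial⟩ F5_13037998080_chk

theorem V5_13037740032_ok : Fwd.Has6 Inst.T 5 V5_13037740032 :=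
  fwd_sound' relAll_5_4 ks5_ok F5_13037740032
    ⟨V4_13019652096_ok, V4_10873208832_ok, V4_13036683264_ok, trivial⟩ ⟨W5_13036945408_ok,
    W5_13036687360_ok, W5_13036429312_ok, W5_13020430336_ok, W5_13020172288_ok, W5_13019914240_ok,
    W5_13003915264_ok, W5_13003657216_ok, W5_13003399168_ok, W5_11963465728_ok, W5_11963207680_ok,
    W5_11962949632_ok, W5_11946950656_ok, W5_11946692608_ok, W5_11946434560_ok, W5_11930177536_ok,
    W5_11929919488_ok, W5_10889986048_ok, W5_10889728000_ok, W5_10889469952_ok, W5_10873470976_ok,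
    W5_10873212928_ok, W5_10872954880_ok, W5_10856697856_ok, W5_10856439808_ok, W5_9816248320_ok,
    W5_9815990272_ok, W5_9799733248_ok, W5_9799475200_ok, trivial⟩ F5_13037740032_chk

theorem V5_13037736000_ok : Fwd.Has6 Inst.T 5 V5_13037736000 :=
  fwd_sound' relAll_5_4 ks5_ok F5_13037736000
    ⟨V4_11962945536_ok, V4_9799471104_ok, trivial⟩ ⟨W5_13036687360_ok, W5_13036425280_ok,
    W5_13020172288_ok, W5_13019910208_ok, W5_13003657216_ok, W5_13003395136_ok, W5_11963207680_ok,
    W5_11962945600_ok, W5_11946692608_ok, W5_11946430528_ok, W5_11930177536_ok, W5_11929915456_ok,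
    W5_10889728000_ok, W5_10889465920_ok, W5_10873212928_ok, W5_10872950848_ok, W5_10856697856_ok,
    W5_10856435776_ok, W5_9816248320_ok, W5_9815986240_ok, W5_9799733248_ok, W5_9799471168_ok,
    W5_9782956096_ok, trivial⟩ F5_13037736000_chk

theorem V5_13037481984_ok : Fwd.Has6 Inst.T 5 V5_13037481984 :=
  fwd_sound' relAll_5_4 ks5_ok F5_13037481984
    ⟨V4_9815470080_ok, V4_12987138048_ok, V4_9765924864_ok, V4_10873208832_ok, V4_10839662592_ok,
    V4_13036683264_ok, trivial⟩ ⟨W5_13036945408_ok, W5_13036687360_ok, W5_13020430336_ok,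
    W5_13020172288_ok, W5_13019914240_ok, W5_13003915264_ok, W5_13003657216_ok, W5_13003399168_ok,
    W5_13003141120_ok, W5_12987142144_ok, W5_12986884096_ok, W5_12986626048_ok, W5_11963465728_ok,
    W5_11963207680_ok, W5_11962949632_ok, W5_11946950656_ok, W5_11946692608_ok, W5_11946434560_ok,
    W5_11946176512_ok, W5_11930177536_ok, W5_11929919488_ok, W5_11929661440_ok, W5_11913404416_ok,
    W5_11913146368_ok, W5_10889986048_ok, W5_10889728000_ok, W5_10889469952_ok, W5_10889211904_ok,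
    W5_10873212928_ok, W5_10872954880_ok, W5_10872696832_ok, W5_10856439808_ok, W5_10856181760_ok,
    W5_10839666688_ok, W5_9816248320_ok, W5_9815990272_ok, W5_9815732224_ok, W5_9799475200_ok,
    W5_9799217152_ok, W5_9782702080_ok, trivial⟩ F5_13037481984_chk

theorem V5_13037477952_ok : Fwd.Has6 Inst.T 5 V5_13037477952 :=
  fwd_sound' relAll_5_4 ks5_ok F5_13037477952
    ⟨V4_10839662592_ok, V4_9799471104_ok, V4_13019652096_ok, V4_9799213056_ok, trivial⟩ ⟨
    W5_13036687360_ok, W5_13036429312_ok, W5_13036425280_ok, W5_13020172288_ok, W5_13019914240_ok,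
    W5_13019910208_ok, W5_13019652160_ok, W5_13003657216_ok, W5_13003399168_ok, W5_13003395136_ok,
    W5_13003137088_ok, W5_12987142144_ok, W5_12986884096_ok, W5_12986880064_ok, W5_12986622016_ok,
    W5_11963207680_ok, W5_11962949632_ok, W5_11962945600_ok, W5_11962687552_ok, W5_11946692608_ok,
    W5_11946434560_ok, W5_11946430528_ok, W5_11946172480_ok, W5_11930177536_ok, W5_11929919488_ok,
    W5_11929915456_ok, W5_11929657408_ok, W5_11913404416_ok, W5_11913142336_ok, W5_10889728000_ok,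
    W5_10889469952_ok, W5_10889465920_ok, W5_10889207872_ok, W5_10873212928_ok, W5_10872954880_ok,
    W5_10872950848_ok, W5_10872692800_ok, W5_10856439808_ok, W5_10856435776_ok, W5_10856177728_ok,
    W5_10839662656_ok, W5_9816248320_ok, W5_9815990272_ok, W5_9815986240_ok, W5_9815728192_ok,
    W5_9799475200_ok, W5_9799471168_ok, W5_9799213120_ok, W5_9782698048_ok, trivial⟩
    F5_13037477952_chk

theorem V5_13037223936_ok : Fwd.Has6 Inst.T 5 V5_13037223936 :=
  fwd_sound' relAll_5_4 ks5_ok F5_13037223936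
    ⟨V4_10889723904_ok, V4_13020168192_ok, V4_9782439936_ok, trivial⟩ ⟨W5_13036945408_ok,
    W5_13020430336_ok, W5_13020172288_ok, W5_13003657216_ok, W5_13003399168_ok, W5_12986884096_ok,
    W5_12986626048_ok, W5_12969852928_ok, W5_11963465728_ok, W5_11963207680_ok, W5_11946692608_ok,
    W5_11946434560_ok, W5_11929919488_ok, W5_11929661440_ok, W5_11913146368_ok, W5_11912888320_ok,
    W5_10889728000_ok, W5_10889469952_ok, W5_10872954880_ok, W5_10872696832_ok, W5_10856181760_ok,
    W5_10855923712_ok, W5_10839408640_ok, W5_9815990272_ok, W5_9815732224_ok, W5_9799217152_ok,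
    W5_9798959104_ok, W5_9782444032_ok, trivial⟩ F5_13037223936_chk

theorem V5_13036961856_ok : Fwd.Has6 Inst.T 5 V5_13036961856 :=
  fwd_sound' relAll_5_4 ks5_ok F5_13036961856
    ⟨V4_12953075712_ok, V4_10839146496_ok, V4_10889465856_ok, trivial⟩ ⟨W5_13020172288_ok,
    W5_13003399168_ok, W5_13003395136_ok, W5_12986626048_ok, W5_12986622016_ok, W5_12969852928_ok,
    W5_12953075776_ok, W5_11963207680_ok, W5_11946434560_ok, W5_11946430528_ok, W5_11929661440_ok,
    W5_11929657408_ok, W5_11912888320_ok, W5_11912884288_ok, W5_10889469952_ok, W5_10889465920_ok,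
    W5_10872696832_ok, W5_10872692800_ok, W5_10855923712_ok, W5_10855919680_ok, W5_10839146560_ok,
    W5_9815732224_ok, W5_9815728192_ok, W5_9798959104_ok, W5_9798955072_ok, W5_9782181952_ok,
    trivial⟩ F5_13036961856_chk

theorem V5_13021224960_ok : Fwd.Has6 Inst.T 5 V5_13021224960 :=
  fwd_sound' relAll_5_4 ks5_ok F5_13021224960
    ⟨V4_8726249472_ok, V4_8725733376_ok, V4_13019652096_ok, V4_10873208832_ok, trivial⟩ ⟨
    W5_13020430336_ok, W5_13020172288_ok, W5_13019914240_ok, W5_11946950656_ok, W5_11946692608_ok,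
    W5_11946434560_ok, W5_10873470976_ok, W5_10873212928_ok, W5_10872954880_ok, W5_9799991296_ok,
    W5_9799733248_ok, W5_9799475200_ok, W5_8725995520_ok, trivial⟩ F5_13021224960_chk

theorem V5_13020966912_ok : Fwd.Has6 Inst.T 5 V5_13020966912 :=
  fwd_sound' relAll_5_4 ks5_ok F5_13020966912
    ⟨V4_8725733376_ok, V4_10873208832_ok, V4_11946688512_ok, V4_9782439936_ok, trivial⟩ ⟨
    W5_13020430336_ok, W5_13020172288_ok, W5_13019914240_ok, W5_13003915264_ok, W5_13003657216_ok,
    W5_13003399168_ok, W5_13003141120_ok, W5_11946950656_ok, W5_11946692608_ok, W5_11946434560_ok,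
    W5_11946176512_ok, W5_11930177536_ok, W5_11929919488_ok, W5_11929661440_ok, W5_10873470976_ok,
    W5_10873212928_ok, W5_10872954880_ok, W5_10872696832_ok, W5_10856697856_ok, W5_10856439808_ok,
    W5_10856181760_ok, W5_9799733248_ok, W5_9799475200_ok, W5_9799217152_ok, W5_9782702080_ok,
    W5_8725995520_ok, W5_8725737472_ok, trivial⟩ F5_13020966912_chk

theorem V5_13020962880_ok : Fwd.Has6 Inst.T 5 V5_13020962880 :=
  fwd_sound' relAll_5_4 ks5_ok F5_13020962880
    ⟨V4_8725733376_ok, V4_13019652096_ok, V4_9799471104_ok, trivial⟩ ⟨W5_13020172288_ok,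
    W5_13019914240_ok, W5_13019910208_ok, W5_13019652160_ok, W5_13003657216_ok, W5_13003399168_ok,
    W5_13003395136_ok, W5_13003137088_ok, W5_11946692608_ok, W5_11946434560_ok, W5_11946430528_ok,
    W5_11946172480_ok, W5_11930177536_ok, W5_11929919488_ok, W5_11929915456_ok, W5_11929657408_ok,
    W5_10873212928_ok, W5_10872954880_ok, W5_10872950848_ok, W5_10872692800_ok, W5_10856697856_ok,
    W5_10856439808_ok, W5_10856435776_ok, W5_10856177728_ok, W5_9799733248_ok, W5_9799475200_ok,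
    W5_9799471168_ok, W5_9799213120_ok, W5_9782956096_ok, W5_9782698048_ok, W5_8725995520_ok,
    W5_8725733440_ok, trivial⟩ F5_13020962880_chk

theorem V5_13020708864_ok : Fwd.Has6 Inst.T 5 V5_13020708864 :=
  fwd_sound' relAll_5_4 ks5_ok F5_13020708864
    ⟨V4_8725217280_ok, V4_8692187136_ok, V4_10873208832_ok, V4_8725733376_ok, V4_12987138048_ok,
    V4_11946688512_ok, trivial⟩ ⟨W5_13020430336_ok, W5_13020172288_ok, W5_13003915264_ok,
    W5_13003657216_ok, W5_13003399168_ok, W5_12987142144_ok, W5_12986884096_ok, W5_12986626048_ok,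
    W5_11946950656_ok, W5_11946692608_ok, W5_11946434560_ok, W5_11930177536_ok, W5_11929919488_ok,
    W5_11929661440_ok, W5_11913404416_ok, W5_11913146368_ok, W5_11912888320_ok, W5_10873212928_ok,
    W5_10872954880_ok, W5_10872696832_ok, W5_10856439808_ok, W5_10856181760_ok, W5_10855923712_ok,
    W5_10839666688_ok, W5_10839408640_ok, W5_9799475200_ok, W5_9799217152_ok, W5_9798959104_ok,
    W5_9782702080_ok, W5_9782444032_ok, W5_9765928960_ok, W5_8725737472_ok, W5_8725479424_ok,
    W5_8708964352_ok, trivial⟩ F5_13020708864_chk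

theorem V5_13020700800_ok : Fwd.Has6 Inst.T 5 V5_13020700800 :=
  fwd_sound' relAll_5_4 ks5_ok F5_13020700800
    ⟨V4_8725733376_ok, V4_10839662592_ok, V4_9799213056_ok, trivial⟩ ⟨W5_13019914240_ok,
    W5_13019652160_ok, W5_13003399168_ok, W5_13003137088_ok, W5_13002875008_ok, W5_12986884096_ok,
    W5_12986622016_ok, W5_11946434560_ok, W5_11946172480_ok, W5_11945910400_ok, W5_11929919488_ok,
    W5_11929657408_ok, W5_11913404416_ok, W5_11913142336_ok, W5_11912880256_ok, W5_10872954880_ok,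
    W5_10872692800_ok, W5_10872430720_ok, W5_10856439808_ok, W5_10856177728_ok, W5_10855915648_ok,
    W5_10839662656_ok, W5_10839400576_ok, W5_9799475200_ok, W5_9799213120_ok, W5_9798951040_ok,
    W5_9782698048_ok, W5_9765920896_ok, W5_8725733440_ok, W5_8725471360_ok, trivial⟩
    F5_13020700800_chk

theorem V5_13020450816_ok : Fwd.Has6 Inst.T 5 V5_13020450816 :=
  fwd_sound' relAll_5_4 ks5_ok F5_13020450816
    ⟨V4_9799213056_ok, trivial⟩ ⟨W5_13020430336_ok, W5_13003657216_ok, W5_12986884096_ok,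
    W5_11946692608_ok, W5_11929919488_ok, W5_11913146368_ok, W5_10872954880_ok, W5_10856181760_ok,
    W5_10839408640_ok, W5_9799217152_ok, W5_9782444032_ok, W5_8725479424_ok, trivial⟩
    F5_13020450816_chk

theorem V5_13020184704_ok : Fwd.Has6 Inst.T 5 V5_13020184704 :=
  fwd_sound' relAll_5_4 ks5_ok F5_13020184704
    ⟨V4_8725217280_ok, V4_12953075712_ok, V4_10839146496_ok, trivial⟩ ⟨W5_13003399168_ok,
    W5_12986626048_ok, W5_12986622016_ok, W5_12969852928_ok, W5_12969844864_ok, W5_12953075776_ok,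
    W5_11946434560_ok, W5_11929661440_ok, W5_11929657408_ok, W5_11912888320_ok, W5_11912884288_ok,
    W5_11912880256_ok, W5_11879334016_ok, W5_10872696832_ok, W5_10872692800_ok, W5_10855923712_ok,
    W5_10855919680_ok, W5_10855915648_ok, W5_10839146560_ok, W5_10839142528_ok, W5_10822369408_ok,
    W5_9798959104_ok, W5_9798955072_ok, W5_9798951040_ok, W5_9782181952_ok, W5_9782177920_ok,
    W5_9765404800_ok, W5_8725217344_ok, W5_8708440192_ok, trivial⟩ F5_13020184704_chk

theorem V5_13004193792_ok : Fwd.Has6 Inst.T 5 V5_13004193792 :=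
  fwd_sound' relAll_5_4 ks5_ok F5_13004193792
    ⟨V4_11930173440_ok, trivial⟩ ⟨W5_13003915264_ok, W5_13003657216_ok, W5_13003399168_ok,
    W5_11930177536_ok, W5_11929919488_ok, W5_11929661440_ok, W5_10856697856_ok, W5_10856439808_ok,
    W5_10856181760_ok, W5_10855923712_ok, W5_9782702080_ok, W5_9782444032_ok, W5_8708964352_ok,
    trivial⟩ F5_13004193792_chk

theorem V5_13004189760_ok : Fwd.Has6 Inst.T 5 V5_13004189760 :=
  fwd_sound' relAll_5_4 ks5_ok F5_13004189760
    ⟨V4_9782439936_ok, V4_10855919616_ok, trivial⟩ ⟨W5_13003657216_ok, W5_13003399168_ok,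
    W5_13003395136_ok, W5_13003141120_ok, W5_13003137088_ok, W5_11930177536_ok, W5_11929919488_ok,
    W5_11929915456_ok, W5_11929661440_ok, W5_11929657408_ok, W5_11929399360_ok, W5_10856697856_ok,
    W5_10856439808_ok, W5_10856435776_ok, W5_10856181760_ok, W5_10856177728_ok, W5_10855919680_ok,
    W5_9782956096_ok, W5_9782702080_ok, W5_9782698048_ok, W5_9782440000_ok, W5_8708960320_ok,
    trivial⟩ F5_13004189760_chk

theorem V5_13003935744_ok : Fwd.Has6 Inst.T 5 V5_13003935744 :=
  fwd_sound' relAll_5_4 ks5_ok F5_13003935744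
    ⟨V4_12987138048_ok, V4_8692187136_ok, trivial⟩ ⟨W5_13003915264_ok, W5_13003657216_ok,
    W5_12987142144_ok, W5_12986884096_ok, W5_11930177536_ok, W5_11929919488_ok, W5_11913404416_ok,
    W5_11913146368_ok, W5_10856439808_ok, W5_10856181760_ok, W5_10839666688_ok, W5_10839408640_ok,
    W5_9782702080_ok, W5_9782444032_ok, W5_9765928960_ok, W5_8708964352_ok, W5_8692191232_ok,
    trivial⟩ F5_13003935744_chk

theorem V5_13003931712_ok : Fwd.Has6 Inst.T 5 V5_13003931712 :=
  fwd_sound' relAll_5_4 ks5_ok F5_13003931712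
    ⟨V4_8692187136_ok, V4_10839662592_ok, V4_10856435712_ok, trivial⟩ ⟨W5_13003657216_ok,
    W5_13003399168_ok, W5_13003395136_ok, W5_12987142144_ok, W5_12986884096_ok, W5_12986880064_ok,
    W5_12986626048_ok, W5_12986622016_ok, W5_11930177536_ok, W5_11929919488_ok, W5_11929915456_ok,
    W5_11929661440_ok, W5_11929657408_ok, W5_11913404416_ok, W5_11913146368_ok, W5_11913142336_ok,
    W5_11912888320_ok, W5_11912884288_ok, W5_10856439808_ok, W5_10856435776_ok, W5_10856181760_ok,
    W5_10856177728_ok, W5_10855923712_ok, W5_10855919680_ok, W5_10839666688_ok, W5_10839662656_ok,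
    W5_10839408640_ok, W5_10839404608_ok, W5_10839146560_ok, W5_9782702080_ok, W5_9782698048_ok,
    W5_9782444032_ok, W5_9782440000_ok, W5_9782181952_ok, W5_9765928960_ok, W5_9765924928_ok,
    W5_9765666880_ok, W5_8708964352_ok, W5_8708960320_ok, W5_8708702272_ok, W5_8692187200_ok,
    trivial⟩ F5_13003931712_chk

theorem V5_13003673664_ok : Fwd.Has6 Inst.T 5 V5_13003673664 :=
  fwd_sound' relAll_5_4 ks5_ok F5_13003673664
    ⟨V4_9782439936_ok, trivial⟩ ⟨W5_13003657216_ok, W5_12986884096_ok, W5_12986880064_ok,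
    W5_12970106944_ok, W5_11929919488_ok, W5_11929915456_ok, W5_11913146368_ok, W5_11913142336_ok,
    W5_11896369216_ok, W5_10856181760_ok, W5_10856177728_ok, W5_10839408640_ok, W5_10839404608_ok,
    W5_9782444032_ok, W5_9782440000_ok, W5_9765666880_ok, W5_8708702272_ok, trivial⟩
    F5_13003673664_chk


theorem V5_13003665600_ok : Fwd.Has6 Inst.T 5 V5_13003665600 :=
  fwd_sound' relAll_5_4 ks5_ok F5_13003665600
    ⟨V4_9782439936_ok, trivial⟩ ⟨W5_13003141120_ok, W5_12986626048_ok, W5_11929661440_ok,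
    W5_11929399360_ok, W5_11913146368_ok, W5_11912884288_ok, W5_11896369216_ok, W5_10856181760_ok,
    W5_10855919680_ok, W5_10839404608_ok, W5_10839142528_ok, W5_9782440000_ok, W5_9782177920_ok,
    W5_9765662848_ok, W5_7634956480_ok, trivial⟩ F5_13003665600_chk

theorem V5_13003407552_ok : Fwd.Has6 Inst.T 5 V5_13003407552 :=
  fwd_sound' relAll_5_4 ks5_ok F5_13003407552
    ⟨V4_12953075712_ok, trivial⟩ ⟨W5_12986626048_ok, W5_12969852928_ok, W5_12953075776_ok,
    W5_11929661440_ok, W5_11912888320_ok, W5_11912884288_ok, W5_11879334016_ok, W5_10855923712_ok,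
    W5_10855919680_ok, W5_10839146560_ok, W5_10839142528_ok, W5_10822369408_ok, W5_9782181952_ok,
    W5_9782177920_ok, W5_9765404800_ok, W5_8708440192_ok, W5_8691663040_ok, trivial⟩
    F5_13003407552_chk

theorem V5_12987162624_ok : Fwd.Has6 Inst.T 5 V5_12987162624 :=
  fwd_sound' relAll_5_4 ks5_ok F5_12987162624
    ⟨V4_12987138048_ok, trivial⟩ ⟨W5_12987142144_ok, W5_11913404416_ok, W5_10839666688_ok,
    W5_9765928960_ok, W5_8692191232_ok, trivial⟩ F5_12987162624_chk


theorem V5_12987154560_ok : Fwd.Has6 Inst.T 5 V5_12987154560 :=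
  fwd_sound' relAll_5_4 ks5_ok F5_12987154560
    ⟨V4_8692187136_ok, V4_10839662592_ok, trivial⟩ ⟨W5_12986884096_ok, W5_12986626048_ok,
    W5_12986622016_ok, W5_11913404416_ok, W5_11913146368_ok, W5_11913142336_ok, W5_11912888320_ok,
    W5_11912884288_ok, W5_11912880256_ok, W5_10839666688_ok, W5_10839662656_ok, W5_10839408640_ok,
    W5_10839404608_ok, W5_10839400576_ok, W5_10839146560_ok, W5_10839142528_ok, W5_9765928960_ok,
    W5_9765924928_ok, W5_9765920896_ok, W5_9765666880_ok, W5_9765662848_ok, W5_9765404800_ok,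
    W5_8692187200_ok, W5_8692183168_ok, W5_7618445440_ok, trivial⟩ F5_12987154560_chk

theorem V5_12986630400_ok : Fwd.Has6 Inst.T 5 V5_12986630400 :=
  fwd_sound' relAll_5_4 ks5_ok F5_12986630400
    ⟨V4_10839146496_ok, trivial⟩ ⟨W5_12969852928_ok, W5_12953075776_ok, W5_11912888320_ok,
    W5_11879334016_ok, W5_10839146560_ok, W5_10822369408_ok, W5_9765404800_ok, W5_9731850496_ok,
    W5_8691663040_ok, trivial⟩ F5_12986630400_chk

theorem V5_11997548544_ok : Fwd.Has6 Inst.T 5 V5_11997548544 :=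
  fwd_sound' relAll_5_4 ks5_ok F5_11997548544
    ⟨V4_11995975680_ok, V4_11979460608_ok, V4_11930173440_ok, trivial⟩ ⟨W5_11996237824_ok,
    W5_11979980800_ok, W5_11979722752_ok, W5_11963465728_ok, W5_11963207680_ok, W5_11946950656_ok,
    W5_11946692608_ok, W5_11930177536_ok, trivial⟩ F5_11997548544_chk

theorem V5_11997290496_ok : Fwd.Has6 Inst.T 5 V5_11997290496 :=
  fwd_sound' relAll_5_4 ks5_ok F5_11997290496
    ⟨V4_11930173440_ok, V4_11979460608_ok, trivial⟩ ⟨W5_11996237824_ok, W5_11979980800_ok,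
    W5_11979722752_ok, W5_11979464704_ok, W5_11963465728_ok, W5_11963207680_ok, W5_11962949632_ok,
    W5_11946950656_ok, W5_11946692608_ok, W5_11946434560_ok, W5_11930177536_ok, W5_11929919488_ok,
    W5_11913404416_ok, trivial⟩ F5_11997290496_chk

theorem V5_11997286464_ok : Fwd.Has6 Inst.T 5 V5_11997286464 :=
  fwd_sound' relAll_5_4 ks5_ok F5_11997286464
    ⟨V4_11995975680_ok, V4_11913400320_ok, V4_11979460608_ok, trivial⟩ ⟨W5_11996237824_ok,
    W5_11995975744_ok, W5_11979722752_ok, W5_11963207680_ok, W5_11962945600_ok, W5_11946692608_ok,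
    W5_11946430528_ok, W5_11930177536_ok, W5_11929915456_ok, trivial⟩ F5_11997286464_chk

theorem V5_11997032448_ok : Fwd.Has6 Inst.T 5 V5_11997032448 :=
  fwd_sound' relAll_5_4 ks5_ok F5_11997032448
    ⟨V4_11946688512_ok, V4_11912884224_ok, trivial⟩ ⟨W5_11979980800_ok, W5_11979722752_ok,
    W5_11963465728_ok, W5_11963207680_ok, W5_11962949632_ok, W5_11946692608_ok, W5_11946434560_ok,
    W5_11946176512_ok, W5_11929919488_ok, W5_11929661440_ok, W5_11913146368_ok, trivial⟩
    F5_11997032448_chk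

theorem V5_11997028416_ok : Fwd.Has6 Inst.T 5 V5_11997028416 :=
  fwd_sound' relAll_5_4 ks5_ok F5_11997028416
    ⟨V4_11929915392_ok, trivial⟩ ⟨W5_11996237824_ok, W5_11979722752_ok, W5_11979464704_ok,
    W5_11963207680_ok, W5_11962949632_ok, W5_11962945600_ok, W5_11962687552_ok, W5_11946692608_ok,
    W5_11946434560_ok, W5_11946430528_ok, W5_11946172480_ok, W5_11929919488_ok, W5_11929915456_ok,
    W5_11929657408_ok, W5_11913142336_ok, trivial⟩ F5_11997028416_chk

theorem V5_11996770368_ok : Fwd.Has6 Inst.T 5 V5_11996770368 :=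
  fwd_sound' relAll_5_4 ks5_ok F5_11996770368
    ⟨V4_11912884224_ok, V4_11929657344_ok, trivial⟩ ⟨W5_11979722752_ok, W5_11963207680_ok,
    W5_11962949632_ok, W5_11962945600_ok, W5_11946434560_ok, W5_11946430528_ok, W5_11946176512_ok,
    W5_11946172480_ok, W5_11929661440_ok, W5_11929657408_ok, W5_11929399360_ok, W5_11912884288_ok,
    trivial⟩ F5_11996770368_chk

theorem V5_11981291520_ok : Fwd.Has6 Inst.T 5 V5_11981291520 :=
  fwd_sound' relAll_5_4 ks5_ok F5_11981291520
    ⟨V4_10906238976_ok, trivial⟩ ⟨W5_11979980800_ok, W5_11963465728_ok, W5_10906501120_ok,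
    W5_10889986048_ok, trivial⟩ F5_11981291520_chk

theorem V5_11981033472_ok : Fwd.Has6 Inst.T 5 V5_11981033472 :=
  fwd_sound' relAll_5_4 ks5_ok F5_11981033472
    ⟨V4_10906238976_ok, V4_11979460608_ok, trivial⟩ ⟨W5_11979980800_ok, W5_11979722752_ok,
    W5_11963465728_ok, W5_11963207680_ok, W5_11946950656_ok, W5_11946692608_ok, W5_10906501120_ok,
    W5_10906243072_ok, W5_10889986048_ok, W5_10889728000_ok, W5_10873470976_ok, W5_10873212928_ok,
    trivial⟩ F5_11981033472_chk

theorem V5_11980775424_ok : Fwd.Has6 Inst.T 5 V5_11980775424 :=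
  fwd_sound' relAll_5_4 ks5_ok F5_11980775424
    ⟨V4_10905722880_ok, V4_10906238976_ok, V4_11979460608_ok, V4_11979718656_ok, trivial⟩ ⟨
    W5_11979980800_ok, W5_11979722752_ok, W5_11979464704_ok, W5_11963465728_ok, W5_11963207680_ok,
    W5_11962949632_ok, W5_11946950656_ok, W5_11946692608_ok, W5_11946434560_ok, W5_11930177536_ok,
    W5_11929919488_ok, W5_10906501120_ok, W5_10906243072_ok, W5_10905985024_ok, W5_10889986048_ok,
    W5_10889728000_ok, W5_10889469952_ok, W5_10873470976_ok, W5_10873212928_ok, W5_10872954880_ok,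
    W5_10856697856_ok, W5_10856439808_ok, trivial⟩ F5_11980775424_chk

theorem V5_11980771392_ok : Fwd.Has6 Inst.T 5 V5_11980771392 :=
  fwd_sound' relAll_5_4 ks5_ok F5_11980771392
    ⟨V4_11979460608_ok, V4_10856435712_ok, trivial⟩ ⟨W5_11979722752_ok, W5_11963207680_ok,
    W5_11962945600_ok, W5_11946692608_ok, W5_11946430528_ok, W5_11930177536_ok, W5_11929915456_ok,
    W5_10906243072_ok, W5_10889728000_ok, W5_10889465920_ok, W5_10873212928_ok, W5_10872950848_ok,
    W5_10856697856_ok, W5_10856435776_ok, trivial⟩ F5_11980771392_chk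

theorem V5_11980517376_ok : Fwd.Has6 Inst.T 5 V5_11980517376 :=
  fwd_sound' relAll_5_4 ks5_ok F5_11980517376
    ⟨V4_10906238976_ok, V4_10839662592_ok, V4_10873208832_ok, trivial⟩ ⟨W5_11979980800_ok,
    W5_11979722752_ok, W5_11963465728_ok, W5_11963207680_ok, W5_11962949632_ok, W5_11946950656_ok,
    W5_11946692608_ok, W5_11946434560_ok, W5_11946176512_ok, W5_11930177536_ok, W5_11929919488_ok,
    W5_11929661440_ok, W5_11913404416_ok, W5_11913146368_ok, W5_10906501120_ok, W5_10906243072_ok,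
    W5_10905985024_ok, W5_10889986048_ok, W5_10889728000_ok, W5_10889469952_ok, W5_10889211904_ok,
    W5_10873212928_ok, W5_10872954880_ok, W5_10872696832_ok, W5_10856439808_ok, W5_10856181760_ok,
    W5_10839666688_ok, trivial⟩ F5_11980517376_chk

theorem V5_11980259328_ok : Fwd.Has6 Inst.T 5 V5_11980259328 :=
  fwd_sound' relAll_5_4 ks5_ok F5_11980259328
    ⟨V4_10906238976_ok, V4_11946688512_ok, trivial⟩ ⟨W5_11979980800_ok, W5_11963465728_ok,
    W5_11963207680_ok, W5_11946692608_ok, W5_11946434560_ok, W5_11929919488_ok, W5_11929661440_ok,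
    W5_11913146368_ok, W5_11912888320_ok, W5_10906501120_ok, W5_10906243072_ok, W5_10889728000_ok,
    W5_10889469952_ok, W5_10872954880_ok, W5_10872696832_ok, W5_10856181760_ok, W5_10855923712_ok,
    W5_10839408640_ok, trivial⟩ F5_11980259328_chk

theorem V5_11980251264_ok : Fwd.Has6 Inst.T 5 V5_11980251264 :=
  fwd_sound' relAll_5_4 ks5_ok F5_11980251264
    ⟨V4_10905722880_ok, trivial⟩ ⟨W5_11979464704_ok, W5_11962949632_ok, W5_11962687552_ok,
    W5_11946434560_ok, W5_11946172480_ok, W5_11945910400_ok, W5_11929919488_ok, W5_11929657408_ok,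
    W5_11913142336_ok, W5_11912880256_ok, W5_10905985024_ok, W5_10905722944_ok, W5_10889469952_ok,
    W5_10889207872_ok, W5_10872954880_ok, W5_10872692800_ok, W5_10872430720_ok, W5_10856177728_ok,
    W5_10855915648_ok, W5_10839400576_ok, trivial⟩ F5_11980251264_chk

theorem V5_11979997248_ok : Fwd.Has6 Inst.T 5 V5_11979997248 :=
  fwd_sound' relAll_5_4 ks5_ok F5_11979997248
    ⟨V4_10839146496_ok, V4_10889465856_ok, trivial⟩ ⟨W5_11963207680_ok, W5_11946434560_ok,
    W5_11946430528_ok, W5_11929661440_ok, W5_11929657408_ok, W5_11912888320_ok, W5_11912884288_ok,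
    W5_10906243072_ok, W5_10889469952_ok, W5_10889465920_ok, W5_10872696832_ok, W5_10872692800_ok,
    W5_10855923712_ok, W5_10855919680_ok, W5_10839146560_ok, trivial⟩ F5_11979997248_chk


theorem V5_11964518400_ok : Fwd.Has6 Inst.T 5 V5_11964518400 :=
  fwd_sound' relAll_5_4 ks5_ok F5_11964518400
    ⟨V4_11962945536_ok, trivial⟩ ⟨W5_11963465728_ok, W5_11963207680_ok, W5_10889986048_ok,
    W5_10889728000_ok, W5_9816248320_ok, trivial⟩ F5_11964518400_chk

theorem V5_11964260352_ok : Fwd.Has6 Inst.T 5 V5_11964260352 :=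
  fwd_sound' relAll_5_4 ks5_ok F5_11964260352
    ⟨V4_11962945536_ok, V4_9799213056_ok, trivial⟩ ⟨W5_11963465728_ok, W5_11963207680_ok,
    W5_11962949632_ok, W5_11946950656_ok, W5_11946692608_ok, W5_11946434560_ok, W5_10889986048_ok,
    W5_10889728000_ok, W5_10889469952_ok, W5_10873470976_ok, W5_10873212928_ok, W5_10872954880_ok,
    W5_9816248320_ok, W5_9815990272_ok, W5_9799991296_ok, W5_9799733248_ok, W5_9799475200_ok,
    trivial⟩ F5_11964260352_chk

theorem V5_11964256320_ok : Fwd.Has6 Inst.T 5 V5_11964256320 :=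
  fwd_sound' relAll_5_4 ks5_ok F5_11964256320
    ⟨V4_11962945536_ok, trivial⟩ ⟨W5_11963207680_ok, W5_11962945600_ok, W5_11946692608_ok,
    W5_11946430528_ok, W5_10889728000_ok, W5_10889465920_ok, W5_10873212928_ok, W5_10872950848_ok,
    W5_9816248320_ok, W5_9815986240_ok, W5_9799733248_ok, W5_9799471168_ok, trivial⟩
    F5_11964256320_chk

theorem V5_11964002304_ok : Fwd.Has6 Inst.T 5 V5_11964002304 :=
  fwd_sound' relAll_5_4 ks5_ok F5_11964002304
    ⟨V4_9815470080_ok, V4_10873208832_ok, V4_11962945536_ok, trivial⟩ ⟨W5_11963465728_ok,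
    W5_11963207680_ok, W5_11962949632_ok, W5_11946950656_ok, W5_11946692608_ok, W5_11946434560_ok,
    W5_11946176512_ok, W5_11930177536_ok, W5_11929919488_ok, W5_11929661440_ok, W5_10889986048_ok,
    W5_10889728000_ok, W5_10889469952_ok, W5_10889211904_ok, W5_10873470976_ok, W5_10873212928_ok,
    W5_10872954880_ok, W5_10872696832_ok, W5_10856697856_ok, W5_10856439808_ok, W5_10856181760_ok,
    W5_9816248320_ok, W5_9815990272_ok, W5_9815732224_ok, W5_9799733248_ok, W5_9799475200_ok,
    W5_9799217152_ok, W5_9782702080_ok, trivial⟩ F5_11964002304_chk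

theorem V5_11963998272_ok : Fwd.Has6 Inst.T 5 V5_11963998272 :=
  fwd_sound' relAll_5_4 ks5_ok F5_11963998272
    ⟨V4_11962945536_ok, V4_9799213056_ok, trivial⟩ ⟨W5_11963207680_ok, W5_11962949632_ok,
    W5_11962945600_ok, W5_11962687552_ok, W5_11946692608_ok, W5_11946434560_ok, W5_11946430528_ok,
    W5_11946172480_ok, W5_11930177536_ok, W5_11929919488_ok, W5_11929915456_ok, W5_11929657408_ok,
    W5_10889728000_ok, W5_10889469952_ok, W5_10889465920_ok, W5_10889207872_ok, W5_10873212928_ok,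
    W5_10872954880_ok, W5_10872950848_ok, W5_10872692800_ok, W5_10856697856_ok, W5_10856439808_ok,
    W5_10856435776_ok, W5_10856177728_ok, W5_9816248320_ok, W5_9815990272_ok, W5_9815986240_ok,
    W5_9815728192_ok, W5_9799733248_ok, W5_9799475200_ok, W5_9799471168_ok, W5_9799213120_ok,
    W5_9782956096_ok, W5_9782698048_ok, trivial⟩ F5_11963998272_chk

theorem V5_11963744256_ok : Fwd.Has6 Inst.T 5 V5_11963744256 :=
  fwd_sound' relAll_5_4 ks5_ok F5_11963744256
    ⟨V4_10873208832_ok, V4_10839662592_ok, V4_10889723904_ok, trivial⟩ ⟨W5_11963465728_ok,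
    W5_11963207680_ok, W5_11946950656_ok, W5_11946692608_ok, W5_11946434560_ok, W5_11930177536_ok,
    W5_11929919488_ok, W5_11929661440_ok, W5_11913404416_ok, W5_11913146368_ok, W5_11912888320_ok,
    W5_10889986048_ok, W5_10889728000_ok, W5_10889469952_ok, W5_10873212928_ok, W5_10872954880_ok,
    W5_10872696832_ok, W5_10856439808_ok, W5_10856181760_ok, W5_10855923712_ok, W5_10839666688_ok,
    W5_10839408640_ok, W5_9816248320_ok, W5_9815990272_ok, W5_9815732224_ok, W5_9799475200_ok,
    W5_9799217152_ok, W5_9798959104_ok, W5_9782702080_ok, W5_9782444032_ok, W5_9765928960_ok,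
    trivial⟩ F5_11963744256_chk

theorem V5_11963736192_ok : Fwd.Has6 Inst.T 5 V5_11963736192 :=
  fwd_sound' relAll_5_4 ks5_ok F5_11963736192
    ⟨V4_10839662592_ok, trivial⟩ ⟨W5_11962949632_ok, W5_11962687552_ok, W5_11946434560_ok,
    W5_11946172480_ok, W5_11945910400_ok, W5_11929919488_ok, W5_11929657408_ok, W5_11913404416_ok,
    W5_11913142336_ok, W5_11912880256_ok, W5_10889469952_ok, W5_10889207872_ok, W5_10872954880_ok,
    W5_10872692800_ok, W5_10872430720_ok, W5_10856439808_ok, W5_10856177728_ok, W5_10855915648_ok,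
    W5_10839662656_ok, W5_10839400576_ok, W5_9815990272_ok, W5_9815728192_ok, W5_9799475200_ok,
    W5_9799213120_ok, W5_9798951040_ok, W5_9782698048_ok, W5_9765920896_ok, trivial⟩
    F5_11963736192_chk

theorem V5_11963486208_ok : Fwd.Has6 Inst.T 5 V5_11963486208 :=
  fwd_sound' relAll_5_4 ks5_ok F5_11963486208
    ⟨V4_10889723904_ok, V4_9782439936_ok, trivial⟩ ⟨W5_11963465728_ok, W5_11946692608_ok,
    W5_11929919488_ok, W5_11913146368_ok, W5_10889728000_ok, W5_10872954880_ok, W5_10856181760_ok,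
    W5_10839408640_ok, W5_9815990272_ok, W5_9799217152_ok, W5_9782444032_ok, trivial⟩
    F5_11963486208_chk


theorem V5_11963216064_ok : Fwd.Has6 Inst.T 5 V5_11963216064 :=
  fwd_sound' relAll_5_4 ks5_ok F5_11963216064
    ⟨V4_9815470080_ok, trivial⟩ ⟨W5_11946176512_ok, W5_11929661440_ok, W5_11929399360_ok,
    W5_11912884288_ok, W5_10889211904_ok, W5_10872696832_ok, W5_10855919680_ok, W5_10839142528_ok,
    W5_9815732224_ok, W5_9815470144_ok, W5_9798955072_ok, W5_9782177920_ok, trivial⟩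
    F5_11963216064_chk

theorem V5_11947487232_ok : Fwd.Has6 Inst.T 5 V5_11947487232 :=
  fwd_sound' relAll_5_4 ks5_ok F5_11947487232
    ⟨V4_8726249472_ok, V4_8725733376_ok, V4_9799471104_ok, trivial⟩ ⟨W5_11946950656_ok,
    W5_11946692608_ok, W5_11946434560_ok, W5_11946176512_ok, W5_10873470976_ok, W5_10873212928_ok,
    W5_10872954880_ok, W5_10872696832_ok, W5_9799991296_ok, W5_9799733248_ok, W5_9799475200_ok,
    W5_9799217152_ok, W5_8725995520_ok, W5_8725737472_ok, trivial⟩ F5_11947487232_chk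

theorem V5_11947483200_ok : Fwd.Has6 Inst.T 5 V5_11947483200 :=
  fwd_sound' relAll_5_4 ks5_ok F5_11947483200
    ⟨V4_8725733376_ok, V4_9799213056_ok, trivial⟩ ⟨W5_11946692608_ok, W5_11946434560_ok,
    W5_11946430528_ok, W5_11946172480_ok, W5_10873212928_ok, W5_10872954880_ok, W5_10872950848_ok,
    W5_10872692800_ok, W5_9799733248_ok, W5_9799475200_ok, W5_9799471168_ok, W5_9799213120_ok,
    W5_8725995520_ok, W5_8725733440_ok, trivial⟩ F5_11947483200_chk

theorem V5_11947229184_ok : Fwd.Has6 Inst.T 5 V5_11947229184 :=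
  fwd_sound' relAll_5_4 ks5_ok F5_11947229184
    ⟨V4_8725217280_ok, V4_10873208832_ok, V4_8725733376_ok, trivial⟩ ⟨W5_11946950656_ok,
    W5_11946692608_ok, W5_11946434560_ok, W5_11930177536_ok, W5_11929919488_ok, W5_11929661440_ok,
    W5_10873470976_ok, W5_10873212928_ok, W5_10872954880_ok, W5_10872696832_ok, W5_10856697856_ok,
    W5_10856439808_ok, W5_10856181760_ok, W5_10855923712_ok, W5_9799733248_ok, W5_9799475200_ok,
    W5_9799217152_ok, W5_9798959104_ok, W5_9782702080_ok, W5_9782444032_ok, W5_8725995520_ok,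
    W5_8725737472_ok, W5_8725479424_ok, W5_8708964352_ok, trivial⟩ F5_11947229184_chk

theorem V5_11947221120_ok : Fwd.Has6 Inst.T 5 V5_11947221120 :=
  fwd_sound' relAll_5_4 ks5_ok F5_11947221120
    ⟨V4_8725733376_ok, trivial⟩ ⟨W5_11946434560_ok, W5_11946172480_ok, W5_11945910400_ok,
    W5_11929919488_ok, W5_11929657408_ok, W5_10872954880_ok, W5_10872692800_ok, W5_10872430720_ok,
    W5_10856439808_ok, W5_10856177728_ok, W5_10855915648_ok, W5_9799475200_ok, W5_9799213120_ok,
    W5_9798951040_ok, W5_9782698048_ok, W5_8725995520_ok, W5_8725733440_ok, W5_8725471360_ok,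
    trivial⟩ F5_11947221120_chk

theorem V5_11946971136_ok : Fwd.Has6 Inst.T 5 V5_11946971136 :=
  fwd_sound' relAll_5_4 ks5_ok F5_11946971136
    ⟨V4_10873208832_ok, V4_8725733376_ok, V4_8692187136_ok, trivial⟩ ⟨W5_11946950656_ok,
    W5_11946692608_ok, W5_11930177536_ok, W5_11929919488_ok, W5_11913404416_ok, W5_11913146368_ok,
    W5_10873212928_ok, W5_10872954880_ok, W5_10856439808_ok, W5_10856181760_ok, W5_10839666688_ok,
    W5_10839408640_ok, W5_9799475200_ok, W5_9799217152_ok, W5_9782702080_ok, W5_9782444032_ok,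
    W5_9765928960_ok, W5_8725737472_ok, W5_8725479424_ok, W5_8708964352_ok, W5_8692191232_ok,
    trivial⟩ F5_11946971136_chk

theorem V5_11946709056_ok : Fwd.Has6 Inst.T 5 V5_11946709056 :=
  fwd_sound' relAll_5_4 ks5_ok F5_11946709056
    ⟨V4_9799213056_ok, trivial⟩ ⟨W5_11946692608_ok, W5_11929919488_ok, W5_11929915456_ok,
    W5_11913146368_ok, W5_11913142336_ok, W5_11896369216_ok, W5_10872954880_ok, W5_10872950848_ok,
    W5_10856181760_ok, W5_10856177728_ok, W5_10839408640_ok, W5_10839404608_ok, W5_9799217152_ok,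
    W5_9799213120_ok, W5_9782444032_ok, W5_9782440000_ok, W5_9765666880_ok, W5_8725479424_ok,
    W5_8708702272_ok, trivial⟩ F5_11946709056_chk

theorem V5_11946442944_ok : Fwd.Has6 Inst.T 5 V5_11946442944 :=
  fwd_sound' relAll_5_4 ks5_ok F5_11946442944
    ⟨V4_8725217280_ok, trivial⟩ ⟨W5_11929661440_ok, W5_11912888320_ok, W5_11912884288_ok,
    W5_11879334016_ok, W5_10872696832_ok, W5_10855923712_ok, W5_10855919680_ok, W5_10839146560_ok,
    W5_10839142528_ok, W5_10822369408_ok, W5_9798959104_ok, W5_9798955072_ok, W5_9782181952_ok,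
    W5_9782177920_ok, W5_9765404800_ok, W5_8725217344_ok, W5_8708440192_ok, W5_8691663040_ok,
    trivial⟩ F5_11946442944_chk

theorem V5_11930456064_ok : Fwd.Has6 Inst.T 5 V5_11930456064 :=
  fwd_sound' relAll_5_4 ks5_ok F5_11930456064
    ⟨V4_11930173440_ok, trivial⟩ ⟨W5_11930177536_ok, W5_11929919488_ok, W5_10856697856_ok,
    W5_10856439808_ok, W5_10856181760_ok, W5_9782702080_ok, W5_9782444032_ok, W5_8708964352_ok,
    trivial⟩ F5_11930456064_chk

theorem V5_11930452032_ok : Fwd.Has6 Inst.T 5 V5_11930452032 :=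
  fwd_sound' relAll_5_4 ks5_ok F5_11930452032
    ⟨V4_9782439936_ok, trivial⟩ ⟨W5_11930177536_ok, W5_11929919488_ok, W5_11929915456_ok,
    W5_11929661440_ok, W5_11929657408_ok, W5_10856697856_ok, W5_10856439808_ok, W5_10856435776_ok,
    W5_10856181760_ok, W5_10856177728_ok, W5_10855923712_ok, W5_10855919680_ok, W5_9782956096_ok,
    W5_9782702080_ok, W5_9782698048_ok, W5_9782444032_ok, W5_9782440000_ok, W5_9782181952_ok,
    W5_8708964352_ok, W5_8708960320_ok, W5_8708702272_ok, trivial⟩ F5_11930452032_chk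

theorem V5_11930198016_ok : Fwd.Has6 Inst.T 5 V5_11930198016 :=
  fwd_sound' relAll_5_4 ks5_ok F5_11930198016
    ⟨V4_8692187136_ok, trivial⟩ ⟨W5_11930177536_ok, W5_11913404416_ok, W5_10856439808_ok,
    W5_10839666688_ok, W5_9782702080_ok, W5_9765928960_ok, W5_8708964352_ok, W5_8692191232_ok,
    trivial⟩ F5_11930198016_chk

theorem V5_11930193984_ok : Fwd.Has6 Inst.T 5 V5_11930193984 :=
  fwd_sound' relAll_5_4 ks5_ok F5_11930193984
    ⟨V4_8692187136_ok, V4_10856435712_ok, trivial⟩ ⟨W5_11930177536_ok, W5_11929919488_ok,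
    W5_11929915456_ok, W5_11913404416_ok, W5_11913146368_ok, W5_11913142336_ok, W5_10856439808_ok,
    W5_10856435776_ok, W5_10856181760_ok, W5_10856177728_ok, W5_10839666688_ok, W5_10839662656_ok,
    W5_10839408640_ok, W5_10839404608_ok, W5_9782702080_ok, W5_9782698048_ok, W5_9782444032_ok,
    W5_9782440000_ok, W5_9765928960_ok, W5_9765924928_ok, W5_9765666880_ok, W5_8708964352_ok,
    W5_8708960320_ok, W5_8708702272_ok, W5_8692191232_ok, W5_8692187200_ok, trivial⟩
    F5_11930193984_chk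

theorem V5_11930189952_ok : Fwd.Has6 Inst.T 5 V5_11930189952 :=
  fwd_sound' relAll_5_4 ks5_ok F5_11930189952
    ⟨V4_8692187136_ok, V4_9782439936_ok, trivial⟩ ⟨W5_11929919488_ok, W5_11929661440_ok,
    W5_11929657408_ok, W5_11913404416_ok, W5_11913146368_ok, W5_11913142336_ok, W5_11912888320_ok,
    W5_11912884288_ok, W5_11912880256_ok, W5_10856439808_ok, W5_10856181760_ok, W5_10856177728_ok,
    W5_10855923712_ok, W5_10855919680_ok, W5_10855915648_ok, W5_10839666688_ok, W5_10839662656_ok,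
    W5_10839408640_ok, W5_10839404608_ok, W5_10839400576_ok, W5_10839146560_ok, W5_10839142528_ok,
    W5_9782702080_ok, W5_9782698048_ok, W5_9782444032_ok, W5_9782440000_ok, W5_9782181952_ok,
    W5_9782177920_ok, W5_9765928960_ok, W5_9765924928_ok, W5_9765920896_ok, W5_9765666880_ok,
    W5_9765662848_ok, W5_9765404800_ok, W5_8708964352_ok, W5_8708960320_ok, W5_8708702272_ok,
    W5_8708440192_ok, W5_8692187200_ok, W5_8692183168_ok, W5_7618445440_ok, trivial⟩
    F5_11930189952_chk

theorem V5_11930185920_ok : Fwd.Has6 Inst.T 5 V5_11930185920 :=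
  fwd_sound' relAll_5_4 ks5_ok F5_11930185920
    ⟨V4_9765924864_ok, trivial⟩ ⟨W5_11929661440_ok, W5_11929399360_ok, W5_11913146368_ok,
    W5_11912884288_ok, W5_10856181760_ok, W5_10855919680_ok, W5_10839666688_ok, W5_10839404608_ok,
    W5_10839142528_ok, W5_9782702080_ok, W5_9782440000_ok, W5_9782177920_ok, W5_9765924928_ok,
    W5_9765662848_ok, W5_8708960320_ok, W5_8692183168_ok, W5_7634956480_ok, trivial⟩
    F5_11930185920_chk

theorem V5_11929927872_ok : Fwd.Has6 Inst.T 5 V5_11929927872 :=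
  fwd_sound' relAll_5_4 ks5_ok F5_11929927872
    ⟨V4_9782439936_ok, trivial⟩ ⟨W5_11929661440_ok, W5_11913146368_ok, W5_11912888320_ok,
    W5_11912884288_ok, W5_11896369216_ok, W5_10856181760_ok, W5_10855923712_ok, W5_10855919680_ok,
    W5_10839408640_ok, W5_10839404608_ok, W5_10839146560_ok, W5_10839142528_ok, W5_10822369408_ok,
    W5_9782444032_ok, W5_9782440000_ok, W5_9782181952_ok, W5_9782177920_ok, W5_9765666880_ok,
    W5_9765662848_ok, W5_9765404800_ok, W5_8708702272_ok, W5_8708440192_ok, W5_8691663040_ok,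
    W5_7634956480_ok, trivial⟩ F5_11929927872_chk

theorem V5_11913420864_ok : Fwd.Has6 Inst.T 5 V5_11913420864 :=
  fwd_sound' relAll_5_4 ks5_ok F5_11913420864
    ⟨V4_6544711680_ok, V4_8692187136_ok, trivial⟩ ⟨W5_11913404416_ok, W5_10839666688_ok,
    W5_10839662656_ok, W5_9765928960_ok, W5_9765924928_ok, W5_8692191232_ok, W5_8692187200_ok,
    W5_6544711744_ok, trivial⟩ F5_11913420864_chk

theorem V5_11913416832_ok : Fwd.Has6 Inst.T 5 V5_11913416832 :=
  fwd_sound' relAll_5_4 ks5_ok F5_11913416832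
    ⟨V4_8692187136_ok, trivial⟩ ⟨W5_11913404416_ok, W5_11913146368_ok, W5_11913142336_ok,
    W5_10839666688_ok, W5_10839662656_ok, W5_10839408640_ok, W5_10839404608_ok, W5_10839400576_ok,
    W5_9765928960_ok, W5_9765924928_ok, W5_9765920896_ok, W5_9765666880_ok, W5_9765662848_ok,
    W5_8692191232_ok, W5_8692187200_ok, W5_8692183168_ok, W5_7618445440_ok, trivial⟩
    F5_11913416832_chk

theorem V5_11913412800_ok : Fwd.Has6 Inst.T 5 V5_11913412800 :=
  fwd_sound' relAll_5_4 ks5_ok F5_11913412800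
    ⟨V4_8692187136_ok, trivial⟩ ⟨W5_11913146368_ok, W5_11912888320_ok, W5_11912884288_ok,
    W5_10839666688_ok, W5_10839408640_ok, W5_10839404608_ok, W5_10839146560_ok, W5_10839142528_ok,
    W5_9765928960_ok, W5_9765924928_ok, W5_9765666880_ok, W5_9765662848_ok, W5_9765404800_ok,
    W5_8692187200_ok, W5_8692183168_ok, W5_8691663040_ok, W5_7618445440_ok, trivial⟩
    F5_11913412800_chk

theorem V5_10907811840_ok : Fwd.Has6 Inst.T 5 V5_10907811840 :=
  fwd_sound' relAll_5_4 ks5_ok F5_10907811840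
    ⟨V4_10906238976_ok, trivial⟩ ⟨W5_10906501120_ok, trivial⟩ F5_10907811840_chk

theorem V5_10907553792_ok : Fwd.Has6 Inst.T 5 V5_10907553792 :=
  fwd_sound' relAll_5_4 ks5_ok F5_10907553792
    ⟨V4_10906238976_ok, trivial⟩ ⟨W5_10906501120_ok, W5_10906243072_ok, W5_10889986048_ok,
    W5_10889728000_ok, trivial⟩ F5_10907553792_chk

theorem V5_10907295744_ok : Fwd.Has6 Inst.T 5 V5_10907295744 :=
  fwd_sound' relAll_5_4 ks5_ok F5_10907295744
    ⟨V4_10905722880_ok, V4_10906238976_ok, trivial⟩ ⟨W5_10906501120_ok, W5_10906243072_ok,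
    W5_10905985024_ok, W5_10889986048_ok, W5_10889728000_ok, W5_10889469952_ok, W5_10873470976_ok,
    W5_10873212928_ok, W5_10872954880_ok, trivial⟩ F5_10907295744_chk

theorem V5_10907037696_ok : Fwd.Has6 Inst.T 5 V5_10907037696 :=
  fwd_sound' relAll_5_4 ks5_ok F5_10907037696
    ⟨V4_10906238976_ok, trivial⟩ ⟨W5_10906501120_ok, W5_10906243072_ok, W5_10905985024_ok,
    W5_10889986048_ok, W5_10889728000_ok, W5_10889469952_ok, W5_10889211904_ok, W5_10873470976_ok,
    W5_10873212928_ok, W5_10872954880_ok, W5_10872696832_ok, W5_10856697856_ok, W5_10856439808_ok,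
    W5_10856181760_ok, trivial⟩ F5_10907037696_chk

theorem V5_10906779648_ok : Fwd.Has6 Inst.T 5 V5_10906779648 :=
  fwd_sound' relAll_5_4 ks5_ok F5_10906779648
    ⟨V4_10906238976_ok, V4_10873208832_ok, trivial⟩ ⟨W5_10906501120_ok, W5_10906243072_ok,
    W5_10889986048_ok, W5_10889728000_ok, W5_10889469952_ok, W5_10873212928_ok, W5_10872954880_ok,
    W5_10872696832_ok, W5_10856439808_ok, W5_10856181760_ok, W5_10855923712_ok, W5_10839666688_ok,
    W5_10839408640_ok, trivial⟩ F5_10906779648_chk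

theorem V5_10906771584_ok : Fwd.Has6 Inst.T 5 V5_10906771584 :=
  fwd_sound' relAll_5_4 ks5_ok F5_10906771584
    ⟨V4_10905722880_ok, V4_10839662592_ok, trivial⟩ ⟨W5_10905985024_ok, W5_10905722944_ok,
    W5_10889469952_ok, W5_10889207872_ok, W5_10872954880_ok, W5_10872692800_ok, W5_10872430720_ok,
    W5_10856439808_ok, W5_10856177728_ok, W5_10855915648_ok, W5_10839662656_ok, W5_10839400576_ok,
    trivial⟩ F5_10906771584_chk

theorem V5_10906517568_ok : Fwd.Has6 Inst.T 5 V5_10906517568 :=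
  fwd_sound' relAll_5_4 ks5_ok F5_10906517568
    ⟨V4_10839146496_ok, trivial⟩ ⟨W5_10906243072_ok, W5_10889728000_ok, W5_10889469952_ok,
    W5_10889465920_ok, W5_10872954880_ok, W5_10872950848_ok, W5_10872696832_ok, W5_10872692800_ok,
    W5_10856181760_ok, W5_10856177728_ok, W5_10855923712_ok, W5_10855919680_ok, W5_10839408640_ok,
    W5_10839404608_ok, W5_10839146560_ok, trivial⟩ F5_10906517568_chk

theorem V5_10906255488_ok : Fwd.Has6 Inst.T 5 V5_10906255488 :=
  fwd_sound' relAll_5_4 ks5_ok F5_10906255488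
    ⟨V4_10839146496_ok, V4_10855919616_ok, trivial⟩ ⟨W5_10889469952_ok, W5_10872696832_ok,
    W5_10872692800_ok, W5_10855923712_ok, W5_10855919680_ok, W5_10855915648_ok, W5_10839146560_ok,
    W5_10839142528_ok, W5_10822369408_ok, trivial⟩ F5_10906255488_chk

theorem V5_10890522624_ok : Fwd.Has6 Inst.T 5 V5_10890522624 :=
  fwd_sound' relAll_5_4 ks5_ok F5_10890522624
    ⟨V4_9815470080_ok, V4_10889723904_ok, trivial⟩ ⟨W5_10889986048_ok, W5_10889728000_ok,
    W5_10889469952_ok, W5_10889211904_ok, W5_10873470976_ok, W5_10873212928_ok, W5_10872954880_ok,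
    W5_10872696832_ok, W5_9816248320_ok, W5_9815990272_ok, W5_9815732224_ok, W5_9799991296_ok,
    W5_9799733248_ok, W5_9799475200_ok, W5_9799217152_ok, trivial⟩ F5_10890522624_chk

theorem V5_10890518592_ok : Fwd.Has6 Inst.T 5 V5_10890518592 :=
  fwd_sound' relAll_5_4 ks5_ok F5_10890518592
    ⟨V4_9799213056_ok, trivial⟩ ⟨W5_10889728000_ok, W5_10889469952_ok, W5_10889465920_ok,
    W5_10889207872_ok, W5_10873212928_ok, W5_10872954880_ok, W5_10872950848_ok, W5_10872692800_ok,
    W5_9816248320_ok, W5_9815990272_ok, W5_9815986240_ok, W5_9815728192_ok, W5_9799733248_ok,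
    W5_9799475200_ok, W5_9799471168_ok, W5_9799213120_ok, trivial⟩ F5_10890518592_chk

theorem V5_10890006528_ok : Fwd.Has6 Inst.T 5 V5_10890006528 :=
  fwd_sound' relAll_5_4 ks5_ok F5_10890006528
    ⟨V4_10873208832_ok, trivial⟩ ⟨W5_10889986048_ok, W5_10889728000_ok, W5_10873212928_ok,
    W5_10872954880_ok, W5_10856439808_ok, W5_10856181760_ok, W5_10839666688_ok, W5_10839408640_ok,
    W5_9816248320_ok, W5_9815990272_ok, W5_9799475200_ok, W5_9799217152_ok, W5_9782702080_ok,
    W5_9782444032_ok, W5_9765928960_ok, trivial⟩ F5_10890006528_chk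

theorem V5_10889736384_ok : Fwd.Has6 Inst.T 5 V5_10889736384 :=
  fwd_sound' relAll_5_4 ks5_ok F5_10889736384
    ⟨V4_9815470080_ok, trivial⟩ ⟨W5_10889211904_ok, W5_10872696832_ok, W5_10856181760_ok,
    W5_10855919680_ok, W5_10839404608_ok, W5_10839142528_ok, W5_9815732224_ok, W5_9815470144_ok,
    W5_9799217152_ok, W5_9798955072_ok, W5_9782440000_ok, W5_9782177920_ok, W5_9765662848_ok,
    trivial⟩ F5_10889736384_chk

theorem V5_10873749504_ok : Fwd.Has6 Inst.T 5 V5_10873749504 :=
  fwd_sound' relAll_5_4 ks5_ok F5_10873749504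
    ⟨V4_8726249472_ok, V4_8725217280_ok, V4_8725733376_ok, trivial⟩ ⟨W5_10873470976_ok,
    W5_10873212928_ok, W5_10872954880_ok, W5_10872696832_ok, W5_9799991296_ok, W5_9799733248_ok,
    W5_9799475200_ok, W5_9799217152_ok, W5_9798959104_ok, W5_8725995520_ok, W5_8725737472_ok,
    W5_8725479424_ok, trivial⟩ F5_10873749504_chk

theorem V5_10873745472_ok : Fwd.Has6 Inst.T 5 V5_10873745472 :=
  fwd_sound' relAll_5_4 ks5_ok F5_10873745472
    ⟨V4_8725733376_ok, trivial⟩ ⟨W5_10873212928_ok, W5_10872954880_ok, W5_10872950848_ok,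
    W5_10872696832_ok, W5_10872692800_ok, W5_9799733248_ok, W5_9799475200_ok, W5_9799471168_ok,
    W5_9799217152_ok, W5_9799213120_ok, W5_9798955072_ok, W5_8725995520_ok, W5_8725737472_ok,
    W5_8725733440_ok, trivial⟩ F5_10873745472_chk

theorem V5_10873741440_ok : Fwd.Has6 Inst.T 5 V5_10873741440 :=
  fwd_sound' relAll_5_4 ks5_ok F5_10873741440
    ⟨V4_8725733376_ok, V4_9799213056_ok, trivial⟩ ⟨W5_10872954880_ok, W5_10872692800_ok,
    W5_10872430720_ok, W5_9799475200_ok, W5_9799213120_ok, W5_9798951040_ok, W5_8725995520_ok,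
    W5_8725733440_ok, W5_8725471360_ok, trivial⟩ F5_10873741440_chk

theorem V5_10873487424_ok : Fwd.Has6 Inst.T 5 V5_10873487424 :=
  fwd_sound' relAll_5_4 ks5_ok F5_10873487424
    ⟨V4_8725217280_ok, V4_8725733376_ok, trivial⟩ ⟨W5_10873212928_ok, W5_10872954880_ok,
    W5_10872950848_ok, W5_10872696832_ok, W5_10872692800_ok, W5_10856697856_ok, W5_10856439808_ok,
    W5_10856435776_ok, W5_10856181760_ok, W5_10856177728_ok, W5_10855923712_ok, W5_10855919680_ok,
    W5_9799733248_ok, W5_9799475200_ok, W5_9799471168_ok, W5_9799217152_ok, W5_9799213120_ok,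
    W5_9798959104_ok, W5_9798955072_ok, W5_9782956096_ok, W5_9782702080_ok, W5_9782698048_ok,
    W5_9782444032_ok, W5_9782440000_ok, W5_9782181952_ok, W5_8725995520_ok, W5_8725737472_ok,
    W5_8725733440_ok, W5_8725479424_ok, W5_8725217344_ok, W5_8708964352_ok, W5_8708960320_ok,
    W5_8708702272_ok, trivial⟩ F5_10873487424_chk

theorem V5_10873233408_ok : Fwd.Has6 Inst.T 5 V5_10873233408 :=
  fwd_sound' relAll_5_4 ks5_ok F5_10873233408
    ⟨V4_10873208832_ok, V4_8725733376_ok, trivial⟩ ⟨W5_10873212928_ok, W5_10856439808_ok,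
    W5_10839666688_ok, W5_9799475200_ok, W5_9782702080_ok, W5_9765928960_ok, W5_8725737472_ok,
    W5_8708964352_ok, W5_8692191232_ok, trivial⟩ F5_10873233408_chk

theorem V5_10873229376_ok : Fwd.Has6 Inst.T 5 V5_10873229376 :=
  fwd_sound' relAll_5_4 ks5_ok F5_10873229376
    ⟨V4_8725733376_ok, V4_8692187136_ok, trivial⟩ ⟨W5_10873212928_ok, W5_10872954880_ok,
    W5_10872950848_ok, W5_10856439808_ok, W5_10856435776_ok, W5_10856181760_ok, W5_10856177728_ok,
    W5_10839666688_ok, W5_10839662656_ok, W5_10839408640_ok, W5_10839404608_ok, W5_9799475200_ok,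
    W5_9799471168_ok, W5_9799217152_ok, W5_9799213120_ok, W5_9782702080_ok, W5_9782698048_ok,
    W5_9782444032_ok, W5_9782440000_ok, W5_9765928960_ok, W5_9765924928_ok, W5_9765666880_ok,
    W5_8725737472_ok, W5_8725733440_ok, W5_8725479424_ok, W5_8708964352_ok, W5_8708960320_ok,
    W5_8708702272_ok, W5_8692191232_ok, W5_8692187200_ok, trivial⟩ F5_10873229376_chk

theorem V5_10872963264_ok : Fwd.Has6 Inst.T 5 V5_10872963264 :=
  fwd_sound' relAll_5_4 ks5_ok F5_10872963264
    ⟨V4_8725217280_ok, trivial⟩ ⟨W5_10872696832_ok, W5_10856181760_ok, W5_10855923712_ok,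
    W5_10855919680_ok, W5_10839408640_ok, W5_10839404608_ok, W5_10839146560_ok, W5_10839142528_ok,
    W5_10822369408_ok, W5_9799217152_ok, W5_9798959104_ok, W5_9798955072_ok, W5_9782444032_ok,
    W5_9782440000_ok, W5_9782181952_ok, W5_9782177920_ok, W5_9765666880_ok, W5_9765662848_ok,
    W5_9765404800_ok, W5_8725479424_ok, W5_8725217344_ok, W5_8708702272_ok, W5_8708440192_ok,
    W5_8691663040_ok, trivial⟩ F5_10872963264_chk

theorem V5_10872701184_ok : Fwd.Has6 Inst.T 5 V5_10872701184 :=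
  fwd_sound' relAll_5_4 ks5_ok F5_10872701184
    ⟨V4_8725217280_ok, trivial⟩ ⟨W5_10855923712_ok, W5_10839146560_ok, W5_10822369408_ok,
    W5_9798959104_ok, W5_9782181952_ok, W5_9765404800_ok, W5_9731850496_ok, W5_8725217344_ok,
    W5_8708440192_ok, W5_8691663040_ok, trivial⟩ F5_10872701184_chk

theorem V5_10856706240_ok : Fwd.Has6 Inst.T 5 V5_10856706240 :=
  fwd_sound' relAll_5_4 ks5_ok F5_10856706240
    ⟨V4_9782439936_ok, trivial⟩ ⟨W5_10856181760_ok, W5_10855919680_ok, W5_9782702080_ok,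
    W5_9782440000_ok, W5_9782177920_ok, W5_8708960320_ok, W5_7634956480_ok, trivial⟩
    F5_10856706240_chk

theorem V5_10856456256_ok : Fwd.Has6 Inst.T 5 V5_10856456256 :=
  fwd_sound' relAll_5_4 ks5_ok F5_10856456256
    ⟨V4_8692187136_ok, trivial⟩ ⟨W5_10856439808_ok, W5_10856435776_ok, W5_10839666688_ok,
    W5_10839662656_ok, W5_9782702080_ok, W5_9782698048_ok, W5_9765928960_ok, W5_9765924928_ok,
    W5_8708964352_ok, W5_8708960320_ok, W5_8692191232_ok, W5_8692187200_ok, trivial⟩
    F5_10856456256_chk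

theorem V5_10856452224_ok : Fwd.Has6 Inst.T 5 V5_10856452224 :=
  fwd_sound' relAll_5_4 ks5_ok F5_10856452224
    ⟨V4_8692187136_ok, trivial⟩ ⟨W5_10856439808_ok, W5_10856181760_ok, W5_10856177728_ok,
    W5_10839666688_ok, W5_10839662656_ok, W5_10839408640_ok, W5_10839404608_ok, W5_10839400576_ok,
    W5_9782702080_ok, W5_9782698048_ok, W5_9782444032_ok, W5_9782440000_ok, W5_9765928960_ok,
    W5_9765924928_ok, W5_9765920896_ok, W5_9765666880_ok, W5_9765662848_ok, W5_8708964352_ok,
    W5_8708960320_ok, W5_8708702272_ok, W5_8692191232_ok, W5_8692187200_ok, W5_8692183168_ok,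
    W5_7618445440_ok, trivial⟩ F5_10856452224_chk

theorem V5_10856448192_ok : Fwd.Has6 Inst.T 5 V5_10856448192 :=
  fwd_sound' relAll_5_4 ks5_ok F5_10856448192
    ⟨V4_8692187136_ok, trivial⟩ ⟨W5_10856181760_ok, W5_10855923712_ok, W5_10855919680_ok,
    W5_10839666688_ok, W5_10839408640_ok, W5_10839404608_ok, W5_10839146560_ok, W5_10839142528_ok,
    W5_9782702080_ok, W5_9782444032_ok, W5_9782440000_ok, W5_9782181952_ok, W5_9782177920_ok,
    W5_9765928960_ok, W5_9765924928_ok, W5_9765666880_ok, W5_9765662848_ok, W5_9765404800_ok,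
    W5_8708964352_ok, W5_8708960320_ok, W5_8708702272_ok, W5_8708440192_ok, W5_8692187200_ok,
    W5_8692183168_ok, W5_8691663040_ok, W5_7634956480_ok, W5_7618445440_ok, trivial⟩
    F5_10856448192_chk

theorem V5_10839679104_ok : Fwd.Has6 Inst.T 5 V5_10839679104 :=
  fwd_sound' relAll_5_4 ks5_ok F5_10839679104
    ⟨V4_6544711680_ok, V4_8692187136_ok, trivial⟩ ⟨W5_10839666688_ok, W5_10839662656_ok,
    W5_9765928960_ok, W5_9765924928_ok, W5_9765920896_ok, W5_8692191232_ok, W5_8692187200_ok,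
    W5_8692183168_ok, W5_7618445440_ok, W5_6544711744_ok, trivial⟩ F5_10839679104_chk

theorem V5_10839671040_ok : Fwd.Has6 Inst.T 5 V5_10839671040 :=
  fwd_sound' relAll_5_4 ks5_ok F5_10839671040
    ⟨V4_8692187136_ok, trivial⟩ ⟨W5_10839408640_ok, W5_10839146560_ok, W5_9765928960_ok,
    W5_9765666880_ok, W5_9765404800_ok, W5_8692187200_ok, W5_8691663040_ok, W5_7618445440_ok,
    trivial⟩ F5_10839671040_chk

theorem V5_9816780864_ok : Fwd.Has6 Inst.T 5 V5_9816780864 :=
  fwd_sound' relAll_5_4 ks5_ok F5_9816780864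
    ⟨V4_9815470080_ok, trivial⟩ ⟨W5_9816248320_ok, W5_9815990272_ok, W5_9815986240_ok,
    W5_9815732224_ok, W5_9815728192_ok, W5_9815470144_ok, W5_9799733248_ok, W5_9799475200_ok,
    W5_9799471168_ok, W5_9799217152_ok, W5_9799213120_ok, W5_9798955072_ok, trivial⟩
    F5_9816780864_chk

theorem V5_9816526848_ok : Fwd.Has6 Inst.T 5 V5_9816526848 :=
  fwd_sound' relAll_5_4 ks5_ok F5_9816526848
    ⟨V4_9799471104_ok, trivial⟩ ⟨W5_9816248320_ok, W5_9815990272_ok, W5_9799733248_ok,
    W5_9799475200_ok, W5_9799217152_ok, W5_9782702080_ok, W5_9782444032_ok, trivial⟩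
    F5_9816526848_chk

theorem V5_9816256704_ok : Fwd.Has6 Inst.T 5 V5_9816256704 :=
  fwd_sound' relAll_5_4 ks5_ok F5_9816256704
    ⟨V4_9815470080_ok, trivial⟩ ⟨W5_9815732224_ok, W5_9815470144_ok, W5_9799217152_ok,
    W5_9798955072_ok, W5_9782702080_ok, W5_9782440000_ok, W5_9782177920_ok, W5_9765924928_ok,
    W5_9765662848_ok, trivial⟩ F5_9816256704_chk

theorem V5_9816002688_ok : Fwd.Has6 Inst.T 5 V5_9816002688 :=
  fwd_sound' relAll_5_4 ks5_ok F5_9816002688
    ⟨V4_9799213056_ok, trivial⟩ ⟨W5_9815990272_ok, W5_9799217152_ok, W5_9799213120_ok,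
    W5_9782444032_ok, W5_9782440000_ok, W5_9765666880_ok, W5_9765662848_ok, trivial⟩
    F5_9816002688_chk

theorem V5_9800011776_ok : Fwd.Has6 Inst.T 5 V5_9800011776 :=
  fwd_sound' relAll_5_4 ks5_ok F5_9800011776
    ⟨V4_8726249472_ok, trivial⟩ ⟨W5_9799991296_ok, W5_9799733248_ok, W5_9799475200_ok,
    W5_9799217152_ok, W5_8725995520_ok, W5_8725737472_ok, W5_8725479424_ok, trivial⟩
    F5_9800011776_chk

theorem V5_9800007744_ok : Fwd.Has6 Inst.T 5 V5_9800007744 :=
  fwd_sound' relAll_5_4 ks5_ok F5_9800007744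
    ⟨V4_8725217280_ok, trivial⟩ ⟨W5_9799733248_ok, W5_9799475200_ok, W5_9799471168_ok,
    W5_9799217152_ok, W5_9799213120_ok, W5_9798959104_ok, W5_9798955072_ok, W5_8725995520_ok,
    W5_8725737472_ok, W5_8725733440_ok, W5_8725479424_ok, W5_8725217344_ok, trivial⟩
    F5_9800007744_chk

theorem V5_9799749696_ok : Fwd.Has6 Inst.T 5 V5_9799749696 :=
  fwd_sound' relAll_5_4 ks5_ok F5_9799749696
    ⟨V4_8725733376_ok, trivial⟩ ⟨W5_9799733248_ok, W5_9799475200_ok, W5_9799471168_ok,
    W5_9799217152_ok, W5_9799213120_ok, W5_9782956096_ok, W5_9782702080_ok, W5_9782698048_ok,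
    W5_9782444032_ok, W5_9782440000_ok, W5_8725995520_ok, W5_8725737472_ok, W5_8725733440_ok,
    W5_8725479424_ok, W5_8708964352_ok, W5_8708960320_ok, W5_8708702272_ok, trivial⟩
    F5_9799749696_chk

theorem V5_9799745664_ok : Fwd.Has6 Inst.T 5 V5_9799745664 :=
  fwd_sound' relAll_5_4 ks5_ok F5_9799745664
    ⟨V4_8725217280_ok, trivial⟩ ⟨W5_9799475200_ok, W5_9799217152_ok, W5_9799213120_ok,
    W5_9798959104_ok, W5_9798955072_ok, W5_9798951040_ok, W5_9782702080_ok, W5_9782698048_ok,
    W5_9782444032_ok, W5_9782440000_ok, W5_9782181952_ok, W5_9782177920_ok, W5_8725995520_ok,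
    W5_8725737472_ok, W5_8725733440_ok, W5_8725479424_ok, W5_8725471360_ok, W5_8725217344_ok,
    W5_8708964352_ok, W5_8708960320_ok, W5_8708702272_ok, W5_8708440192_ok, trivial⟩
    F5_9799745664_chk

theorem V5_9799491648_ok : Fwd.Has6 Inst.T 5 V5_9799491648 :=
  fwd_sound' relAll_5_4 ks5_ok F5_9799491648
    ⟨V4_8725733376_ok, trivial⟩ ⟨W5_9799475200_ok, W5_9799471168_ok, W5_9782702080_ok,
    W5_9782698048_ok, W5_9765928960_ok, W5_9765924928_ok, W5_8725737472_ok, W5_8725733440_ok,
    W5_8708964352_ok, W5_8708960320_ok, W5_8692191232_ok, W5_8692187200_ok, trivial⟩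
    F5_9799491648_chk

theorem V5_9799483584_ok : Fwd.Has6 Inst.T 5 V5_9799483584 :=
  fwd_sound' relAll_5_4 ks5_ok F5_9799483584
    ⟨V4_8725217280_ok, trivial⟩ ⟨W5_9799217152_ok, W5_9798959104_ok, W5_9798955072_ok,
    W5_9782702080_ok, W5_9782444032_ok, W5_9782440000_ok, W5_9782181952_ok, W5_9782177920_ok,
    W5_9765928960_ok, W5_9765924928_ok, W5_9765666880_ok, W5_9765662848_ok, W5_9765404800_ok,
    W5_8725737472_ok, W5_8725479424_ok, W5_8725217344_ok, W5_8708964352_ok, W5_8708960320_ok,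
    W5_8708702272_ok, W5_8708440192_ok, W5_8692187200_ok, W5_8692183168_ok, W5_8691663040_ok,
    trivial⟩ F5_9799483584_chk

theorem V5_9782710464_ok : Fwd.Has6 Inst.T 5 V5_9782710464 :=
  fwd_sound' relAll_5_4 ks5_ok F5_9782710464
    ⟨V4_8692187136_ok, trivial⟩ ⟨W5_9782702080_ok, W5_9782444032_ok, W5_9782440000_ok,
    W5_9765928960_ok, W5_9765924928_ok, W5_9765666880_ok, W5_9765662848_ok, W5_8708964352_ok,
    W5_8708960320_ok, W5_8708702272_ok, W5_8692191232_ok, W5_8692187200_ok, W5_8692183168_ok,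
    W5_7634956480_ok, W5_7618445440_ok, trivial⟩ F5_9782710464_chk

theorem V5_9765937344_ok : Fwd.Has6 Inst.T 5 V5_9765937344 :=
  fwd_sound' relAll_5_4 ks5_ok F5_9765937344
    ⟨V4_6544711680_ok, trivial⟩ ⟨W5_9765928960_ok, W5_9765924928_ok, W5_8692191232_ok,
    W5_8692187200_ok, W5_8692183168_ok, W5_7618445440_ok, W5_6544711744_ok, trivial⟩
    F5_9765937344_chk

theorem V5_8726274048_ok : Fwd.Has6 Inst.T 5 V5_8726274048 :=
  fwd_sound' relAll_5_4 ks5_ok F5_8726274048
    ⟨V4_8726249472_ok, trivial⟩ ⟨W5_8725995520_ok, W5_8725737472_ok, trivial⟩ F5_8726274048_chk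

theorem V5_8726265984_ok : Fwd.Has6 Inst.T 5 V5_8726265984 :=
  fwd_sound' relAll_5_4 ks5_ok F5_8726265984
    ⟨V4_8725217280_ok, trivial⟩ ⟨W5_8725995520_ok, W5_8725737472_ok, W5_8725733440_ok,
    W5_8725479424_ok, W5_8725471360_ok, W5_8725217344_ok, trivial⟩ F5_8726265984_chk

theorem V5_8725749888_ok : Fwd.Has6 Inst.T 5 V5_8725749888 :=
  fwd_sound' relAll_5_4 ks5_ok F5_8725749888
    ⟨V4_8725733376_ok, trivial⟩ ⟨W5_8725737472_ok, W5_8725733440_ok, W5_8708964352_ok,
    W5_8708960320_ok, W5_8692191232_ok, W5_8692187200_ok, W5_8692183168_ok, trivial⟩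
    F5_8725749888_chk

theorem V5_8725741824_ok : Fwd.Has6 Inst.T 5 V5_8725741824 :=
  fwd_sound' relAll_5_4 ks5_ok F5_8725741824
    ⟨V4_8725217280_ok, trivial⟩ ⟨W5_8725479424_ok, W5_8725217344_ok, W5_8708964352_ok,
    W5_8708702272_ok, W5_8708440192_ok, W5_8692187200_ok, W5_8691663040_ok, trivial⟩
    F5_8725741824_chk

theorem V5_8692195584_ok : Fwd.Has6 Inst.T 5 V5_8692195584 :=
  fwd_sound' relAll_5_4 ks5_ok F5_8692195584
    ⟨V4_6544711680_ok, trivial⟩ ⟨W5_8692191232_ok, W5_8692187200_ok, W5_7618445440_ok,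
    W5_6544711744_ok, trivial⟩ F5_8692195584_chk

theorem V5_6544712064_ok : Fwd.Has6 Inst.T 5 V5_6544712064 :=
  fwd_sound' relAll_5_4 ks5_ok F5_6544712064
    ⟨V4_6544711680_ok, trivial⟩ ⟨W5_6544711744_ok, trivial⟩ F5_6544712064_chk

end Crest.Agent.R187.SN.Top
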